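import Mathlib

/-!
# Row 236, `Reg` plumbing (owner helper180)

Zariski density of `R`-points, in a form without schemes, ideals or base change.

* a "space" is a type `P` of complex points with a family of coordinate functions `c : κ → P → ℂ`;
* `rg_IsReg R c F` : `F : P → ℂ` is a polynomial with coefficients in the subring `R ⊆ ℂ` in the
  coordinates (`R = ⊤` : complex coefficients);
* `rg_RegOn R c S f` : `f` agrees on `S` with such a function;
* `rg_Dense R c S` : every regular function (complex coefficients) vanishing at the points of `S`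
  all of whose coordinates lie in `R` vanishes on `S`;
* `rg_Dense.transfer` : density transfers along a jointly surjective family of maps whose
  coordinates are regular over `R`;
* `rg_Dense.prod`, `rg_Dense.pi` : products;
* matrix valued regular maps `rg_MatOn` and their closure properties;
* `rg_matCoord` : the coordinates "entries of `x i` and of `(x i)⁻¹`" on families of matrices.
-/

namespace Claimed.Agent.R236

universe u v w

/-! ## A. regular functions -/

/-- Polynomial functions in the coordinates `c` with coefficients in `R`. -/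
inductive rg_IsReg {P : Type u} {κ : Type v} (R : Subring ℂ) (c : κ → P → ℂ) : (P → ℂ) → Prop
  | coord (k : κ) : rg_IsReg R c (c k)
  | const (z : ℂ) (hz : z ∈ R) : rg_IsReg R c (fun _ => z)
  | add {f g : P → ℂ} : rg_IsReg R c f → rg_IsReg R c g → rg_IsReg R c (fun x => f x + g x)
  | mul {f g : P → ℂ} : rg_IsReg R c f → rg_IsReg R c g → rg_IsReg R c (fun x => f x * g x)

section basic

variable {P : Type u} {κ : Type v} {R : Subring ℂ} {c : κ → P → ℂ}

theorem rg_IsReg.mono {R' : Subring ℂ} (h : R ≤ R') {F : P → ℂ} (hF : rg_IsReg R c F) :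
    rg_IsReg R' c F := by
  induction hF with
  | coord k => exact .coord k
  | const z hz => exact .const z (h hz)
  | add _ _ h1 h2 => exact .add h1 h2
  | mul _ _ h1 h2 => exact .mul h1 h2

/-- A regular function over `R` takes values in `R` at points with coordinates in `R`. -/
theorem rg_IsReg.mem {F : P → ℂ} (hF : rg_IsReg R c F) {x : P} (hx : ∀ k, c k x ∈ R) :
    F x ∈ R := by
  induction hF with
  | coord k => exact hx k
  | const z hz => exact hz
  | add _ _ h1 h2 => exact R.add_mem h1 h2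
  | mul _ _ h1 h2 => exact R.mul_mem h1 h2

/-- `f` agrees on `S` with a regular function over `R`. -/
def rg_RegOn (R : Subring ℂ) (c : κ → P → ℂ) (S : Set P) (f : P → ℂ) : Prop :=
  ∃ G, rg_IsReg R c G ∧ ∀ x ∈ S, f x = G x

variable {S : Set P}

theorem rg_IsReg.regOn {F : P → ℂ} (hF : rg_IsReg R c F) : rg_RegOn R c S F :=
  ⟨F, hF, fun _ _ => rfl⟩

theorem rg_RegOn.mono {R' : Subring ℂ} (h : R ≤ R') {f : P → ℂ} (hf : rg_RegOn R c S f) :
    rg_RegOn R' c S f := by
  obtain ⟨G, hG, he⟩ := hf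
  exact ⟨G, hG.mono h, he⟩

theorem rg_RegOn.subset {S' : Set P} (h : S' ⊆ S) {f : P → ℂ} (hf : rg_RegOn R c S f) :
    rg_RegOn R c S' f := by
  obtain ⟨G, hG, he⟩ := hf
  exact ⟨G, hG, fun x hx => he x (h hx)⟩

theorem rg_RegOn.congr {f g : P → ℂ} (hf : rg_RegOn R c S f) (h : ∀ x ∈ S, g x = f x) :
    rg_RegOn R c S g := by
  obtain ⟨G, hG, he⟩ := hf
  exact ⟨G, hG, fun x hx => (h x hx).trans (he x hx)⟩

theorem rg_RegOn.mem {f : P → ℂ} (hf : rg_RegOn R c S f) {x : P} (hxS : x ∈ S)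
    (hx : ∀ k, c k x ∈ R) : f x ∈ R := by
  obtain ⟨G, hG, he⟩ := hf
  rw [he x hxS]; exact hG.mem hx

theorem rg_RegOn.coord (k : κ) : rg_RegOn R c S (c k) := (rg_IsReg.coord k).regOn

theorem rg_RegOn.const {z : ℂ} (hz : z ∈ R) : rg_RegOn R c S (fun _ => z) :=
  (rg_IsReg.const z hz).regOn

theorem rg_RegOn.zero : rg_RegOn R c S (fun _ => 0) := .const R.zero_mem

theorem rg_RegOn.one : rg_RegOn R c S (fun _ => 1) := .const R.one_mem

theorem rg_RegOn.add {f g : P → ℂ} (hf : rg_RegOn R c S f) (hg : rg_RegOn R c S g) :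
    rg_RegOn R c S (fun x => f x + g x) := by
  obtain ⟨F, hF, h1⟩ := hf
  obtain ⟨G, hG, h2⟩ := hg
  exact ⟨_, hF.add hG, fun x hx => by simp only [h1 x hx, h2 x hx]⟩

theorem rg_RegOn.mul {f g : P → ℂ} (hf : rg_RegOn R c S f) (hg : rg_RegOn R c S g) :
    rg_RegOn R c S (fun x => f x * g x) := by
  obtain ⟨F, hF, h1⟩ := hf
  obtain ⟨G, hG, h2⟩ := hg
  exact ⟨_, hF.mul hG, fun x hx => by simp only [h1 x hx, h2 x hx]⟩

theorem rg_RegOn.neg {f : P → ℂ} (hf : rg_RegOn R c S f) : rg_RegOn R c S (fun x => -f x) :=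
  ((rg_RegOn.const (R.neg_mem R.one_mem)).mul hf).congr fun x _ => by ring

theorem rg_RegOn.sub {f g : P → ℂ} (hf : rg_RegOn R c S f) (hg : rg_RegOn R c S g) :
    rg_RegOn R c S (fun x => f x - g x) :=
  (hf.add hg.neg).congr fun x _ => by ring

theorem rg_RegOn.pow {f : P → ℂ} (hf : rg_RegOn R c S f) (n : ℕ) :
    rg_RegOn R c S (fun x => f x ^ n) := by
  induction n with
  | zero => exact rg_RegOn.one.congr fun x _ => by simp
  | succ n ih => exact (ih.mul hf).congr fun x _ => by rw [pow_succ]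

theorem rg_RegOn.sum {α : Type*} (s : Finset α) {f : α → P → ℂ}
    (hf : ∀ a ∈ s, rg_RegOn R c S (f a)) : rg_RegOn R c S (fun x => ∑ a ∈ s, f a x) := by
  classical
  induction s using Finset.induction_on with
  | empty => exact rg_RegOn.zero.congr fun x _ => by simp
  | insert a s ha ih =>
    refine ((hf a (Finset.mem_insert_self a s)).add
      (ih fun b hb => hf b (Finset.mem_insert_of_mem hb))).congr fun x _ => ?_
    rw [Finset.sum_insert ha]

theorem rg_RegOn.prod {α : Type*} (s : Finset α) {f : α → P → ℂ}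
    (hf : ∀ a ∈ s, rg_RegOn R c S (f a)) : rg_RegOn R c S (fun x => ∏ a ∈ s, f a x) := by
  classical
  induction s using Finset.induction_on with
  | empty => exact rg_RegOn.one.congr fun x _ => by simp
  | insert a s ha ih =>
    refine ((hf a (Finset.mem_insert_self a s)).mul
      (ih fun b hb => hf b (Finset.mem_insert_of_mem hb))).congr fun x _ => ?_
    rw [Finset.prod_insert ha]

theorem rg_RegOn.ite {p : Prop} [Decidable p] {f g : P → ℂ} (hf : rg_RegOn R c S f)
    (hg : rg_RegOn R c S g) : rg_RegOn R c S (fun x => if p then f x else g x) := by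
  by_cases h : p <;> simpa [h]

/-- Composition: a regular function of regular coordinates is regular. -/
theorem rg_IsReg.comp {P' : Type w} {κ' : Type*} {c' : κ' → P' → ℂ} {S' : Set P'} {Φ : P' → P}
    (hΦ : ∀ k, rg_RegOn R c' S' (fun x => c k (Φ x))) {F : P → ℂ} (hF : rg_IsReg R c F) :
    rg_RegOn R c' S' (fun x => F (Φ x)) := by
  induction hF with
  | coord k => exact hΦ k
  | const z hz => exact .const hz
  | add _ _ h1 h2 => exact h1.add h2
  | mul _ _ h1 h2 => exact h1.mul h2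

theorem rg_RegOn.comp {P' : Type w} {κ' : Type*} {c' : κ' → P' → ℂ} {S' : Set P'} {Φ : P' → P}
    (hΦ : ∀ k, rg_RegOn R c' S' (fun x => c k (Φ x))) (hmaps : ∀ x ∈ S', Φ x ∈ S) {f : P → ℂ}
    (hf : rg_RegOn R c S f) : rg_RegOn R c' S' (fun x => f (Φ x)) := by
  obtain ⟨G, hG, he⟩ := hf
  exact (hG.comp hΦ).congr fun x hx => he _ (hmaps x hx)

end basic

/-! ## B. density -/

/-- The `R`-points of `S` are Zariski dense in `S`. -/
def rg_Dense {P : Type u} {κ : Type v} (R : Subring ℂ) (c : κ → P → ℂ) (S : Set P) : Prop :=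
  ∀ F, rg_IsReg ⊤ c F → (∀ x ∈ S, (∀ k, c k x ∈ R) → F x = 0) → ∀ x ∈ S, F x = 0

section density

variable {P : Type u} {κ : Type v} {R : Subring ℂ} {c : κ → P → ℂ} {S : Set P}

/-- The same with functions that are only regular on `S`. -/
theorem rg_Dense.regOn (h : rg_Dense R c S) {f : P → ℂ} (hf : rg_RegOn ⊤ c S f)
    (h0 : ∀ x ∈ S, (∀ k, c k x ∈ R) → f x = 0) : ∀ x ∈ S, f x = 0 := by
  obtain ⟨G, hG, he⟩ := hf
  intro x hx
  rw [he x hx]
  exact h G hG (fun y hy hyR => by rw [← he y hy]; exact h0 y hy hyR) x hx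

theorem rg_Dense.empty : rg_Dense R c (∅ : Set P) := fun _ _ _ x hx => absurd hx (by simp)

/-- **Transfer.**  `Φ τ : P' τ → P` a family of maps, regular over `R` on `S' τ`, mapping `S' τ` into
`S`, jointly onto `S`. -/
theorem rg_Dense.transfer {T : Type*} {P' : T → Type w} {κ' : T → Type*}
    (c' : ∀ τ, κ' τ → P' τ → ℂ) (S' : ∀ τ, Set (P' τ)) (Φ : ∀ τ, P' τ → P)
    (hreg : ∀ τ k, rg_RegOn R (c' τ) (S' τ) (fun x => c k (Φ τ x)))
    (hmaps : ∀ τ, ∀ x ∈ S' τ, Φ τ x ∈ S)
    (honto : ∀ x ∈ S, ∃ τ, ∃ x' ∈ S' τ, Φ τ x' = x)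
    (hD : ∀ τ, rg_Dense R (c' τ) (S' τ)) : rg_Dense R c S := by
  intro F hF h0 x hx
  obtain ⟨τ, x', hx', rfl⟩ := honto x hx
  have h1 : rg_RegOn ⊤ (c' τ) (S' τ) (fun y => F (Φ τ y)) :=
    hF.comp fun k => (hreg τ k).mono le_top
  exact (hD τ).regOn h1 (fun y hy hyR =>
    h0 _ (hmaps τ y hy) fun k => (hreg τ k).mem hy hyR) x' hx'

/-- Transfer along a single surjective map. -/
theorem rg_Dense.transfer₁ {P' : Type w} {κ' : Type*} {c' : κ' → P' → ℂ} {S' : Set P'}
    (Φ : P' → P) (hreg : ∀ k, rg_RegOn R c' S' (fun x => c k (Φ x)))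
    (hmaps : ∀ x ∈ S', Φ x ∈ S) (honto : ∀ x ∈ S, ∃ x' ∈ S', Φ x' = x)
    (hD : rg_Dense R c' S') : rg_Dense R c S :=
  rg_Dense.transfer (T := Unit) (fun _ => c') (fun _ => S') (fun _ => Φ) (fun _ => hreg)
    (fun _ => hmaps) (fun x hx => ⟨(), honto x hx⟩) (fun _ => hD)

/-- A union of dense sets is dense. -/
theorem rg_Dense.iUnion {T : Type*} {S : T → Set P} (h : ∀ τ, rg_Dense R c (S τ)) :
    rg_Dense R c (⋃ τ, S τ) := by
  intro F hF h0 x hx
  obtain ⟨τ, hτ⟩ := Set.mem_iUnion.1 hx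
  exact h τ F hF (fun y hy => h0 y (Set.mem_iUnion.2 ⟨τ, hy⟩)) x hτ

end density

/-! ## C. products -/

/-- Coordinates on a product. -/
def rg_prodCoord {P₁ : Type u} {P₂ : Type v} {κ₁ κ₂ : Type*} (c₁ : κ₁ → P₁ → ℂ) (c₂ : κ₂ → P₂ → ℂ) :
    κ₁ ⊕ κ₂ → P₁ × P₂ → ℂ
  | Sum.inl k, x => c₁ k x.1
  | Sum.inr k, x => c₂ k x.2

theorem rg_IsReg.slice_left {P₁ : Type u} {P₂ : Type v} {κ₁ κ₂ : Type*}
    {c₁ : κ₁ → P₁ → ℂ} {c₂ : κ₂ → P₂ → ℂ} {F : P₁ × P₂ → ℂ}
    (hF : rg_IsReg ⊤ (rg_prodCoord c₁ c₂) F) (x₂ : P₂) : rg_IsReg ⊤ c₁ (fun x₁ => F (x₁, x₂)) := by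
  induction hF with
  | coord k =>
    rcases k with k | k
    · exact .coord k
    · exact .const (c₂ k x₂) (Subring.mem_top _)
  | const z hz => exact .const z hz
  | add _ _ h1 h2 => exact .add h1 h2
  | mul _ _ h1 h2 => exact .mul h1 h2

theorem rg_IsReg.slice_right {P₁ : Type u} {P₂ : Type v} {κ₁ κ₂ : Type*}
    {c₁ : κ₁ → P₁ → ℂ} {c₂ : κ₂ → P₂ → ℂ} {F : P₁ × P₂ → ℂ}
    (hF : rg_IsReg ⊤ (rg_prodCoord c₁ c₂) F) (x₁ : P₁) : rg_IsReg ⊤ c₂ (fun x₂ => F (x₁, x₂)) := by
  induction hF with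
  | coord k =>
    rcases k with k | k
    · exact .const (c₁ k x₁) (Subring.mem_top _)
    · exact .coord k
  | const z hz => exact .const z hz
  | add _ _ h1 h2 => exact .add h1 h2
  | mul _ _ h1 h2 => exact .mul h1 h2

theorem rg_Dense.prod {P₁ : Type u} {P₂ : Type v} {κ₁ κ₂ : Type*} {R : Subring ℂ}
    {c₁ : κ₁ → P₁ → ℂ} {c₂ : κ₂ → P₂ → ℂ} {S₁ : Set P₁} {S₂ : Set P₂}
    (h₁ : rg_Dense R c₁ S₁) (h₂ : rg_Dense R c₂ S₂) :
    rg_Dense R (rg_prodCoord c₁ c₂) (S₁ ×ˢ S₂) := by
  intro F hF h0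
  have hs₁ := hF.slice_left
  have hs₂ := hF.slice_right
  have step : ∀ x₂ ∈ S₂, (∀ k, c₂ k x₂ ∈ R) → ∀ x₁ ∈ S₁, F (x₁, x₂) = 0 := by
    intro x₂ hx₂ hR₂
    refine h₁ _ (hs₁ x₂) fun x₁ hx₁ hR₁ => h0 (x₁, x₂) ⟨hx₁, hx₂⟩ ?_
    rintro (k | k)
    · exact hR₁ k
    · exact hR₂ k
  rintro ⟨x₁, x₂⟩ ⟨hx₁, hx₂⟩
  exact h₂ _ (hs₂ x₁) (fun y hy hyR => step y hy hyR x₁ hx₁) x₂ hx₂

/-- Coordinates on a product of a family. -/
def rg_piCoord {ι : Type u} {P : ι → Type v} {κ : ι → Type w} (c : ∀ i, κ i → P i → ℂ) :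
    (Σ i, κ i) → (∀ i, P i) → ℂ := fun k x => c k.1 k.2 (x k.1)

theorem rg_IsReg.slice_pi {ι : Type u} [DecidableEq ι] {P : ι → Type v} {κ : ι → Type w}
    {c : ∀ i, κ i → P i → ℂ} {F : (∀ i, P i) → ℂ} (hF : rg_IsReg ⊤ (rg_piCoord c) F)
    (j : ι) (x : ∀ i, P i) : rg_IsReg ⊤ (c j) (fun z => F (Function.update x j z)) := by
  induction hF with
  | coord k =>
    obtain ⟨i, k⟩ := k
    by_cases hij : i = j
    · subst hij
      have : (fun z => rg_piCoord c ⟨i, k⟩ (Function.update x i z)) = c i k := by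
        funext z; simp [rg_piCoord]
      rw [this]; exact .coord k
    · have : (fun z => rg_piCoord c ⟨i, k⟩ (Function.update x j z)) = fun _ => c i k (x i) := by
        funext z; simp [rg_piCoord, Function.update_of_ne hij]
      rw [this]; exact .const _ (Subring.mem_top _)
  | const z hz => exact .const z hz
  | add _ _ h1 h2 => exact .add h1 h2
  | mul _ _ h1 h2 => exact .mul h1 h2

theorem rg_Dense.pi {ι : Type u} [Finite ι] {P : ι → Type v} {κ : ι → Type w} {R : Subring ℂ}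
    {c : ∀ i, κ i → P i → ℂ} {S : ∀ i, Set (P i)} (h : ∀ i, rg_Dense R (c i) (S i)) :
    rg_Dense R (rg_piCoord c) (Set.pi Set.univ S) := by
  classical
  cases nonempty_fintype ι
  intro F hF h0
  have hs := hF.slice_pi
  have key : ∀ T : Finset ι, ∀ x ∈ Set.pi Set.univ S,
      (∀ i, i ∉ T → ∀ k, c i k (x i) ∈ R) → F x = 0 := by
    intro T
    induction T using Finset.induction_on with
    | empty =>
      intro x hx hR
      exact h0 x hx fun k => hR k.1 (by simp) k.2
    | insert j T hj ih =>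
      intro x hx hR
      have := h j _ (hs j x) (fun z hz hzR => ih _ (fun i _ => by
          by_cases hij : i = j
          · subst hij; simpa using hz
          · simpa [Function.update_of_ne hij] using hx i trivial) (fun i hi k => by
          by_cases hij : i = j
          · subst hij; simpa using hzR k
          · simpa [Function.update_of_ne hij] using
              hR i (by simp [hij, hi]) k)) (x j) (hx j trivial)
      simpa using this
  intro x hx
  exact key Finset.univ x hx fun i hi => absurd (Finset.mem_univ i) hi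

/-! ## D. matrix valued regular maps -/

/-- All entries of the matrix valued map `f` are regular over `R` on `S`. -/
def rg_MatOn {P : Type u} {κ : Type v} {m n : Type*} (R : Subring ℂ) (c : κ → P → ℂ) (S : Set P)
    (f : P → Matrix m n ℂ) : Prop :=
  ∀ a b, rg_RegOn R c S (fun x => f x a b)

section matrix

variable {P : Type u} {κ : Type v} {R : Subring ℂ} {c : κ → P → ℂ} {S : Set P}
variable {l m n o : Type*}

theorem rg_MatOn.congr {f g : P → Matrix m n ℂ} (hf : rg_MatOn R c S f)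
    (h : ∀ x ∈ S, g x = f x) : rg_MatOn R c S g :=
  fun a b => (hf a b).congr fun x hx => by rw [h x hx]

theorem rg_MatOn.mono {R' : Subring ℂ} (h : R ≤ R') {f : P → Matrix m n ℂ}
    (hf : rg_MatOn R c S f) : rg_MatOn R' c S f := fun a b => (hf a b).mono h

theorem rg_MatOn.subset {S' : Set P} (h : S' ⊆ S) {f : P → Matrix m n ℂ}
    (hf : rg_MatOn R c S f) : rg_MatOn R c S' f := fun a b => (hf a b).subset h

theorem rg_MatOn.mem {f : P → Matrix m n ℂ} (hf : rg_MatOn R c S f) {x : P} (hxS : x ∈ S)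
    (hx : ∀ k, c k x ∈ R) (a : m) (b : n) : f x a b ∈ R := (hf a b).mem hxS hx

theorem rg_MatOn.const {M : Matrix m n ℂ} (hM : ∀ a b, M a b ∈ R) :
    rg_MatOn R c S (fun _ => M) := fun a b => .const (hM a b)

theorem rg_MatOn.zero : rg_MatOn R c S (fun _ => (0 : Matrix m n ℂ)) :=
  .const fun _ _ => R.zero_mem

theorem rg_MatOn.one [DecidableEq n] : rg_MatOn R c S (fun _ => (1 : Matrix n n ℂ)) :=
  .const fun a b => by
    by_cases h : a = b
    · subst h; simp
    · simp [Matrix.one_apply_ne h]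

theorem rg_MatOn.add {f g : P → Matrix m n ℂ} (hf : rg_MatOn R c S f) (hg : rg_MatOn R c S g) :
    rg_MatOn R c S (fun x => f x + g x) := fun a b => (hf a b).add (hg a b)

theorem rg_MatOn.sub {f g : P → Matrix m n ℂ} (hf : rg_MatOn R c S f) (hg : rg_MatOn R c S g) :
    rg_MatOn R c S (fun x => f x - g x) := fun a b => (hf a b).sub (hg a b)

theorem rg_MatOn.neg {f : P → Matrix m n ℂ} (hf : rg_MatOn R c S f) :
    rg_MatOn R c S (fun x => -f x) := fun a b => (hf a b).neg

theorem rg_MatOn.smul {s : P → ℂ} {f : P → Matrix m n ℂ} (hs : rg_RegOn R c S s)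
    (hf : rg_MatOn R c S f) : rg_MatOn R c S (fun x => s x • f x) :=
  fun a b => hs.mul (hf a b)

theorem rg_MatOn.mul [Fintype m] {f : P → Matrix l m ℂ} {g : P → Matrix m n ℂ}
    (hf : rg_MatOn R c S f) (hg : rg_MatOn R c S g) : rg_MatOn R c S (fun x => f x * g x) :=
  fun a b => (rg_RegOn.sum Finset.univ fun j _ => (hf a j).mul (hg j b)).congr fun _ _ =>
    Matrix.mul_apply

theorem rg_MatOn.transpose {f : P → Matrix m n ℂ} (hf : rg_MatOn R c S f) :
    rg_MatOn R c S (fun x => (f x).transpose) := fun a b => hf b a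

theorem rg_MatOn.submatrix {f : P → Matrix m n ℂ} (hf : rg_MatOn R c S f) (r : l → m)
    (s : o → n) : rg_MatOn R c S (fun x => (f x).submatrix r s) := fun a b => hf (r a) (s b)

theorem rg_MatOn.of {f : P → m → n → ℂ} (hf : ∀ a b, rg_RegOn R c S (fun x => f x a b)) :
    rg_MatOn R c S (fun x => Matrix.of (f x)) := hf

theorem rg_MatOn.diagonal [DecidableEq n] {d : P → n → ℂ}
    (hd : ∀ a, rg_RegOn R c S (fun x => d x a)) :
    rg_MatOn R c S (fun x => Matrix.diagonal (d x)) := fun a b => by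
  by_cases h : a = b
  · subst h; simpa using hd a
  · simpa [Matrix.diagonal_apply_ne _ h] using (rg_RegOn.zero : rg_RegOn R c S _)

theorem rg_MatOn.fromBlocks {A : P → Matrix l m ℂ} {B : P → Matrix l n ℂ} {C : P → Matrix o m ℂ}
    {D : P → Matrix o n ℂ} (hA : rg_MatOn R c S A) (hB : rg_MatOn R c S B)
    (hC : rg_MatOn R c S C) (hD : rg_MatOn R c S D) :
    rg_MatOn R c S (fun x => Matrix.fromBlocks (A x) (B x) (C x) (D x)) := by
  rintro (a | a) (b | b)
  · exact hA a b
  · exact hB a b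
  · exact hC a b
  · exact hD a b

theorem rg_MatOn.listProd [Fintype n] [DecidableEq n] {L : List (P → Matrix n n ℂ)}
    (hL : ∀ f ∈ L, rg_MatOn R c S f) : rg_MatOn R c S (fun x => (L.map fun f => f x).prod) := by
  induction L with
  | nil => simpa using (rg_MatOn.one : rg_MatOn R c S _)
  | cons f L ih =>
    simpa using (hL f (List.mem_cons_self ..)).mul (ih fun g hg => hL g (List.mem_cons_of_mem _ hg))

theorem rg_MatOn.pow [Fintype n] [DecidableEq n] {f : P → Matrix n n ℂ} (hf : rg_MatOn R c S f)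
    (k : ℕ) : rg_MatOn R c S (fun x => f x ^ k) := by
  induction k with
  | zero => simpa using (rg_MatOn.one : rg_MatOn R c S _)
  | succ k ih => simpa [pow_succ] using ih.mul hf

theorem rg_MatOn.det [Fintype n] [DecidableEq n] {f : P → Matrix n n ℂ} (hf : rg_MatOn R c S f) :
    rg_RegOn R c S (fun x => (f x).det) := by
  refine (rg_RegOn.sum Finset.univ (f := fun (σ : Equiv.Perm n) x =>
    ((Equiv.Perm.sign σ : ℤ) : ℂ) * ∏ i, f x (σ i) i) fun σ _ => ?_).congr fun x _ => ?_
  · exact (rg_RegOn.const (intCast_mem R _)).mul (rg_RegOn.prod _ fun i _ => hf _ _)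
  · rw [Matrix.det_apply]
    refine Finset.sum_congr rfl fun σ _ => ?_
    rw [Units.smul_def, zsmul_eq_mul]

theorem rg_MatOn.adjugate [Fintype n] [DecidableEq n] {f : P → Matrix n n ℂ}
    (hf : rg_MatOn R c S f) : rg_MatOn R c S (fun x => (f x).adjugate) := by
  intro a b
  have h : rg_MatOn R c S (fun x => (f x).updateRow b (Pi.single a 1)) := by
    intro a' b'
    by_cases hb : a' = b
    · subst hb
      by_cases ha : b' = a
      · subst ha; simpa using (rg_RegOn.one : rg_RegOn R c S _)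
      · simpa [Pi.single_eq_of_ne ha] using (rg_RegOn.zero : rg_RegOn R c S _)
    · simpa [Matrix.updateRow_ne hb] using hf a' b'
  exact h.det.congr fun x _ => Matrix.adjugate_apply (f x) a b

/-- The inverse of a regular matrix of determinant one is regular. -/
theorem rg_MatOn.inv_of_det_eq_one [Fintype n] [DecidableEq n] {f : P → Matrix n n ℂ}
    (hf : rg_MatOn R c S f) (hdet : ∀ x ∈ S, (f x).det = 1) :
    rg_MatOn R c S (fun x => (f x)⁻¹) :=
  hf.adjugate.congr fun x hx => by rw [Matrix.inv_def, hdet x hx]; simp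

theorem rg_MatOn.comp {P' : Type w} {κ' : Type*} {c' : κ' → P' → ℂ} {S' : Set P'} {Φ : P' → P}
    (hΦ : ∀ k, rg_RegOn R c' S' (fun x => c k (Φ x))) (hmaps : ∀ x ∈ S', Φ x ∈ S)
    {f : P → Matrix m n ℂ} (hf : rg_MatOn R c S f) : rg_MatOn R c' S' (fun x => f (Φ x)) :=
  fun a b => (hf a b).comp hΦ hmaps

end matrix

/-! ## E. families of invertible matrices -/

/-- The coordinates on families of square matrices: entries of `x i` (`false`) and of `(x i)⁻¹`
(`true`). -/
noncomputable def rg_matCoord (ι : Type u) (n : Type v) [Fintype n] [DecidableEq n] :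
    ι × Bool × n × n → (ι → Matrix n n ℂ) → ℂ
  | (i, false, a, b), x => x i a b
  | (i, true, a, b), x => (x i)⁻¹ a b

section family

variable {ι : Type u} {n : Type v} [Fintype n] [DecidableEq n] {R : Subring ℂ}
  {S : Set (ι → Matrix n n ℂ)}

theorem rg_matCoord_mat (i : ι) : rg_MatOn R (rg_matCoord ι n) S (fun x => x i) :=
  fun a b => rg_RegOn.coord (c := rg_matCoord ι n) (i, false, a, b)

theorem rg_matCoord_inv (i : ι) : rg_MatOn R (rg_matCoord ι n) S (fun x => (x i)⁻¹) :=
  fun a b => rg_RegOn.coord (c := rg_matCoord ι n) (i, true, a, b)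

/-- A point has coordinates in `R` iff all the matrices and their inverses have entries in `R`. -/
theorem rg_matCoord_mem_iff (x : ι → Matrix n n ℂ) :
    (∀ k, rg_matCoord ι n k x ∈ R) ↔ ∀ i a b, x i a b ∈ R ∧ (x i)⁻¹ a b ∈ R := by
  constructor
  · intro h i a b
    exact ⟨h (i, false, a, b), h (i, true, a, b)⟩
  · rintro h ⟨i, _ | _, a, b⟩
    · exact (h i a b).1
    · exact (h i a b).2

/-- To check that a map into a space of families of matrices is regular, check the matrices and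
their inverses. -/
theorem rg_matCoord_regOn {P' : Type w} {κ' : Type*} {c' : κ' → P' → ℂ} {S' : Set P'}
    {Φ : P' → ι → Matrix n n ℂ} (h₁ : ∀ i, rg_MatOn R c' S' (fun x => Φ x i))
    (h₂ : ∀ i, rg_MatOn R c' S' (fun x => (Φ x i)⁻¹)) (k : ι × Bool × n × n) :
    rg_RegOn R c' S' (fun x => rg_matCoord ι n k (Φ x)) := by
  obtain ⟨i, _ | _, a, b⟩ := k
  · exact h₁ i a b
  · exact h₂ i a b

end family

end Claimed.Agent.R236
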