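/-
Row 236, package CLOSED FACETS (sub-captain helper215).  THE CURVE LEMMA.

A regular function which vanishes at infinitely many points of a rational curve vanishes at every
point of the curve where the denominators do not vanish.  This replaces all the "limit" /
"perturbation" arguments of Lemma commuting-density.
-/
import Claimed.Agent.R236.Reg

set_option autoImplicit false

namespace Claimed.Agent.R236

open Polynomial

/-- `f : ℂ → ℂ` is a rational function whose denominator does not vanish at `s₀`. -/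
def clRat (s₀ : ℂ) (f : ℂ → ℂ) : Prop :=
  ∃ p q : ℂ[X], q.eval s₀ ≠ 0 ∧ ∀ s, q.eval s ≠ 0 → f s = p.eval s / q.eval s

theorem clRat.const (s₀ z : ℂ) : clRat s₀ (fun _ => z) :=
  ⟨C z, 1, by simp, fun s _ => by simp⟩

theorem clRat.poly (s₀ : ℂ) (p : ℂ[X]) : clRat s₀ (fun s => p.eval s) :=
  ⟨p, 1, by simp, fun s _ => by simp⟩

theorem clRat.add {s₀ : ℂ} {f g : ℂ → ℂ} (hf : clRat s₀ f) (hg : clRat s₀ g) :
    clRat s₀ (fun s => f s + g s) := by
  obtain ⟨p₁, q₁, h₁, e₁⟩ := hf
  obtain ⟨p₂, q₂, h₂, e₂⟩ := hg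
  refine ⟨p₁ * q₂ + p₂ * q₁, q₁ * q₂, by simp [h₁, h₂], fun s hs => ?_⟩
  rw [eval_mul] at hs
  have a₁ : q₁.eval s ≠ 0 := left_ne_zero_of_mul hs
  have a₂ : q₂.eval s ≠ 0 := right_ne_zero_of_mul hs
  simp only [e₁ s a₁, e₂ s a₂, eval_add, eval_mul]
  field_simp

theorem clRat.mul {s₀ : ℂ} {f g : ℂ → ℂ} (hf : clRat s₀ f) (hg : clRat s₀ g) :
    clRat s₀ (fun s => f s * g s) := by
  obtain ⟨p₁, q₁, h₁, e₁⟩ := hf
  obtain ⟨p₂, q₂, h₂, e₂⟩ := hg
  refine ⟨p₁ * p₂, q₁ * q₂, by simp [h₁, h₂], fun s hs => ?_⟩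
  rw [eval_mul] at hs
  have a₁ : q₁.eval s ≠ 0 := left_ne_zero_of_mul hs
  have a₂ : q₂.eval s ≠ 0 := right_ne_zero_of_mul hs
  simp only [e₁ s a₁, e₂ s a₂, eval_mul]
  field_simp

/-- the inverse of a polynomial which does not vanish at `s₀`. -/
theorem clRat.inv_poly (s₀ : ℂ) (q : ℂ[X]) (hq : q.eval s₀ ≠ 0) :
    clRat s₀ (fun s => (q.eval s)⁻¹) :=
  ⟨1, q, hq, fun s _ => by simp⟩

/-- A rational function vanishing on an infinite set vanishes at `s₀`. -/
theorem clRat.eq_zero {s₀ : ℂ} {f : ℂ → ℂ} (hf : clRat s₀ f) {T : Set ℂ} (hT : T.Infinite)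
    (hz : ∀ s ∈ T, f s = 0) : f s₀ = 0 := by
  obtain ⟨p, q, h₀, e⟩ := hf
  have hq : q ≠ 0 := by rintro rfl; simp at h₀
  have hfin : {s | q.eval s = 0}.Finite := by
    refine (q.roots.toFinset.finite_toSet).subset fun s hs => ?_
    simp only [Finset.mem_coe, Multiset.mem_toFinset]
    exact (mem_roots hq).2 hs
  have hT' : (T \ {s | q.eval s = 0}).Infinite := hT.sdiff hfin
  have hp : p = 0 := by
    refine eq_zero_of_infinite_isRoot p (hT'.mono fun s hs => ?_)
    have h1 : q.eval s ≠ 0 := hs.2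
    have h2 := e s h1
    rw [hz s hs.1] at h2
    have h3 : p.eval s = 0 := by
      rcases div_eq_zero_iff.1 h2.symm with h | h
      · exact h
      · exact absurd h h1
    exact h3
  rw [e s₀ h₀, hp]; simp

/-- **Curve lemma, general form.** -/
theorem cl_curve_gen {P : Type*} {κ : Type*} {c : κ → P → ℂ} {F : P → ℂ} (hF : rg_IsReg ⊤ c F)
    (γ : ℂ → P) (s₀ : ℂ) (hγ : ∀ k, clRat s₀ (fun s => c k (γ s))) {T : Set ℂ} (hT : T.Infinite)
    (hz : ∀ s ∈ T, F (γ s) = 0) : F (γ s₀) = 0 := by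
  have hrat : clRat s₀ (fun s => F (γ s)) := by
    clear hz
    induction hF with
    | coord k => exact hγ k
    | const z _ => exact clRat.const s₀ z
    | add _ _ h1 h2 => exact h1.add h2
    | mul _ _ h1 h2 => exact h1.mul h2
  exact hrat.eq_zero hT hz

/-- **Curve lemma for families of invertible matrices**: the curve is given by matrices with
polynomial entries. -/
theorem cl_curve {ι : Type*} {n : Type*} [Fintype n] [DecidableEq n]
    {F : (ι → Matrix n n ℂ) → ℂ} (hF : rg_IsReg ⊤ (rg_matCoord ι n) F)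
    (Y : ι → Matrix n n ℂ[X]) (s₀ : ℂ) (h0 : ∀ i, IsUnit ((Y i).map (eval s₀)).det)
    {T : Set ℂ} (hT : T.Infinite) (hz : ∀ s ∈ T, F (fun i => (Y i).map (eval s)) = 0) :
    F (fun i => (Y i).map (eval s₀)) = 0 := by
  refine cl_curve_gen hF (fun s i => (Y i).map (eval s)) s₀ ?_ hT hz
  rintro ⟨i, _ | _, a, b⟩
  · exact clRat.poly s₀ (Y i a b)
  · have hdet : ∀ s, ((Y i).map (eval s)).det = (Y i).det.eval s := by
      intro s
      have := (RingHom.map_det (evalRingHom s) (Y i)).symm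
      simpa using this
    have hadj : ∀ s, ((Y i).map (eval s)).adjugate a b = ((Y i).adjugate a b).eval s := by
      intro s
      have := congrFun (congrFun (RingHom.map_adjugate (evalRingHom s) (Y i)) a) b
      simpa using this.symm
    have h1 : clRat s₀ (fun s => ((Y i).det.eval s)⁻¹ * ((Y i).adjugate a b).eval s) :=
      (clRat.inv_poly s₀ _ (by rw [← hdet]; exact (h0 i).ne_zero)).mul (clRat.poly s₀ _)
    have h2 : (fun s => rg_matCoord ι n (i, true, a, b) (fun i => (Y i).map (eval s))) =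
        (fun s => ((Y i).det.eval s)⁻¹ * ((Y i).adjugate a b).eval s) := by
      funext s
      show (((Y i).map (eval s))⁻¹) a b = _
      rw [Matrix.inv_def, Matrix.smul_apply, hdet, hadj, Ring.inverse_eq_inv', smul_eq_mul]
    rw [h2]; exact h1

end Claimed.Agent.R236
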