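import Claimed.Agent.R236.Reg

/-!
# Row 236, `RegBasic` (owner helper180): the basic dense parameter spaces (Lemma 3.1 of the paper)

`R` is a subring of `ℂ`; `hU` says that `R` has infinitely many units.

* `rg_dense_line`, `rg_dense_affine` : `R^ι` is dense in `ℂ^ι`;
* `rg_dense_units`, `rg_dense_torus` : `(R^×)^ι` is dense in `(ℂ^×)^ι` (coordinates `z`, `z⁻¹`);
* `rg_dense_GL1`, `rg_dense_GL` : `GL_n(R)^ι` is dense in `GL_n(ℂ)^ι` (coordinates `rg_matCoord`);
* `rg_Dense.coords` : change of coordinate system.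
-/

namespace Claimed.Agent.R236

universe u v w

/-- Change of the coordinate system on the same space. -/
theorem rg_Dense.coords {P : Type u} {κ κ' : Type*} {R : Subring ℂ} {c : κ → P → ℂ}
    {c' : κ' → P → ℂ} {S : Set P} (h : rg_Dense R c' S) (hc : ∀ k, rg_RegOn R c' S (c k)) :
    rg_Dense R c S :=
  rg_Dense.transfer₁ (fun x => x) hc (fun _ hx => hx) (fun x hx => ⟨x, hx, rfl⟩) h

/-! ## the line and the punctured line -/

/-- The coordinate of the affine line. -/
def rg_lineCoord : Unit → ℂ → ℂ := fun _ z => z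

theorem rg_isReg_line_poly {F : ℂ → ℂ} (hF : rg_IsReg ⊤ rg_lineCoord F) :
    ∃ p : Polynomial ℂ, ∀ z, F z = p.eval z := by
  induction hF with
  | coord k => exact ⟨Polynomial.X, fun z => by simp [rg_lineCoord]⟩
  | const z _ => exact ⟨Polynomial.C z, fun _ => by simp⟩
  | add _ _ h1 h2 =>
    obtain ⟨p, hp⟩ := h1
    obtain ⟨q, hq⟩ := h2
    exact ⟨p + q, fun z => by simp [hp, hq]⟩
  | mul _ _ h1 h2 =>
    obtain ⟨p, hp⟩ := h1
    obtain ⟨q, hq⟩ := h2
    exact ⟨p * q, fun z => by simp [hp, hq]⟩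

theorem rg_subring_infinite (R : Subring ℂ) : {z : ℂ | z ∈ R}.Infinite := by
  have h : Set.InjOn (fun n : ℕ => (n : ℂ)) Set.univ := fun a _ b _ hab => Nat.cast_injective hab
  refine (Set.infinite_univ.image h).mono ?_
  rintro _ ⟨n, _, rfl⟩
  exact natCast_mem R n

theorem rg_dense_line (R : Subring ℂ) : rg_Dense R rg_lineCoord Set.univ := by
  intro F hF h0 x _
  obtain ⟨p, hp⟩ := rg_isReg_line_poly hF
  have : p = 0 := Polynomial.eq_zero_of_infinite_isRoot p
    ((rg_subring_infinite R).mono fun z hz => by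
      change p.eval z = 0
      rw [← hp]; exact h0 z trivial fun _ => hz)
  rw [hp, this]; simp

/-- The coordinates `z` (`false`) and `z⁻¹` (`true`) of the punctured line. -/
noncomputable def rg_unitCoord : Bool → ℂ → ℂ
  | false, z => z
  | true, z => z⁻¹

theorem rg_isReg_unit_poly {F : ℂ → ℂ} (hF : rg_IsReg ⊤ rg_unitCoord F) :
    ∃ (m : ℕ) (p : Polynomial ℂ), ∀ z, z ≠ 0 → z ^ m * F z = p.eval z := by
  induction hF with
  | coord k =>
    cases k
    · exact ⟨0, Polynomial.X, fun z _ => by simp [rg_unitCoord]⟩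
    · exact ⟨1, 1, fun z hz => by simp [rg_unitCoord, hz]⟩
  | const z _ => exact ⟨0, Polynomial.C z, fun _ _ => by simp⟩
  | add _ _ h1 h2 =>
    obtain ⟨m, p, hp⟩ := h1
    obtain ⟨k, q, hq⟩ := h2
    refine ⟨m + k, Polynomial.X ^ k * p + Polynomial.X ^ m * q, fun z hz => ?_⟩
    simp only [Polynomial.eval_add, Polynomial.eval_mul, Polynomial.eval_pow, Polynomial.eval_X,
      ← hp z hz, ← hq z hz]
    ring
  | mul _ _ h1 h2 =>
    obtain ⟨m, p, hp⟩ := h1
    obtain ⟨k, q, hq⟩ := h2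
    refine ⟨m + k, p * q, fun z hz => ?_⟩
    simp only [Polynomial.eval_mul, ← hp z hz, ← hq z hz]
    ring

theorem rg_dense_units {R : Subring ℂ} (hU : {z : ℂ | z ∈ R ∧ z⁻¹ ∈ R}.Infinite) :
    rg_Dense R rg_unitCoord {z | z ≠ 0} := by
  intro F hF h0 x hx
  obtain ⟨m, p, hp⟩ := rg_isReg_unit_poly hF
  have hinf : ({z : ℂ | z ∈ R ∧ z⁻¹ ∈ R} \ {0}).Infinite := hU.sdiff (Set.finite_singleton 0)
  have : p = 0 := Polynomial.eq_zero_of_infinite_isRoot p
    (hinf.mono fun z hz => by
      have hz0 : z ≠ 0 := fun h => hz.2 (by simp [h])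
      change p.eval z = 0
      rw [← hp z hz0, h0 z hz0 (fun k => by cases k; exacts [hz.1.1, hz.1.2]), mul_zero])
  have h1 := hp x hx
  rw [this, Polynomial.eval_zero] at h1
  exact (mul_eq_zero.1 h1).resolve_left (pow_ne_zero _ hx)

/-! ## affine spaces and tori -/

/-- The coordinates of the affine space `ℂ^ι`. -/
def rg_affCoord (ι : Type u) : ι → (ι → ℂ) → ℂ := fun i x => x i

theorem rg_dense_affine (R : Subring ℂ) (ι : Type u) [Finite ι] :
    rg_Dense R (rg_affCoord ι) Set.univ := by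
  have h := rg_Dense.pi (ι := ι) (P := fun _ => ℂ) (κ := fun _ => Unit) (R := R)
    (c := fun _ => rg_lineCoord) (S := fun _ => Set.univ) fun _ => rg_dense_line R
  rw [Set.pi_univ] at h
  exact h.coords fun i => rg_RegOn.coord (c := rg_piCoord fun _ : ι => rg_lineCoord) ⟨i, ()⟩

/-- The coordinates `x i`, `(x i)⁻¹` of the torus. -/
noncomputable def rg_torusCoord (ι : Type u) : ι × Bool → (ι → ℂ) → ℂ :=
  fun k x => rg_unitCoord k.2 (x k.1)

theorem rg_dense_torus {R : Subring ℂ} (hU : {z : ℂ | z ∈ R ∧ z⁻¹ ∈ R}.Infinite) (ι : Type u)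
    [Finite ι] : rg_Dense R (rg_torusCoord ι) {x | ∀ i, x i ≠ 0} := by
  have h := rg_Dense.pi (ι := ι) (P := fun _ => ℂ) (κ := fun _ => Bool) (R := R)
    (c := fun _ => rg_unitCoord) (S := fun _ => {z | z ≠ 0}) fun _ => rg_dense_units hU
  have hS : Set.pi Set.univ (fun _ : ι => {z : ℂ | z ≠ 0}) = {x | ∀ i, x i ≠ 0} := by
    ext x; simp [Set.mem_pi]
  rw [hS] at h
  exact h.coords fun k => rg_RegOn.coord (c := rg_piCoord fun _ : ι => rg_unitCoord) ⟨k.1, k.2⟩

/-! ## the general linear group -/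

/-- The coordinates on one square matrix: entries of `x` (`false`) and of `x⁻¹` (`true`). -/
noncomputable def rg_glCoord (n : Type v) [Fintype n] [DecidableEq n] :
    Bool × n × n → Matrix n n ℂ → ℂ
  | (false, a, b), x => x a b
  | (true, a, b), x => x⁻¹ a b

section glsec

variable {n : Type v} [Fintype n] [DecidableEq n] {R : Subring ℂ}

theorem rg_glCoord_mat {S : Set (Matrix n n ℂ)} : rg_MatOn R (rg_glCoord n) S (fun x => x) :=
  fun a b => rg_RegOn.coord (c := rg_glCoord n) (false, a, b)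

theorem rg_glCoord_inv {S : Set (Matrix n n ℂ)} : rg_MatOn R (rg_glCoord n) S (fun x => x⁻¹) :=
  fun a b => rg_RegOn.coord (c := rg_glCoord n) (true, a, b)

theorem rg_glCoord_regOn {P' : Type w} {κ' : Type*} {c' : κ' → P' → ℂ} {S' : Set P'}
    {Φ : P' → Matrix n n ℂ} (h₁ : rg_MatOn R c' S' Φ) (h₂ : rg_MatOn R c' S' (fun x => (Φ x)⁻¹))
    (k : Bool × n × n) : rg_RegOn R c' S' (fun x => rg_glCoord n k (Φ x)) := by
  obtain ⟨_ | _, a, b⟩ := k
  · exact h₁ a b
  · exact h₂ a b

/-- The Zariski closure of `GL_n(R)` in `GL_n(ℂ)`. -/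
def rg_glClosure (R : Subring ℂ) (n : Type v) [Fintype n] [DecidableEq n] : Set (Matrix n n ℂ) :=
  {x | ∀ F, rg_IsReg ⊤ (rg_glCoord n) F →
    (∀ y : Matrix n n ℂ, IsUnit y.det → (∀ k, rg_glCoord n k y ∈ R) → F y = 0) → F x = 0}

theorem rg_isReg_mul_right {F : Matrix n n ℂ → ℂ} (hF : rg_IsReg ⊤ (rg_glCoord n) F)
    (g : Matrix n n ℂ) : ∃ G, rg_IsReg ⊤ (rg_glCoord n) G ∧ ∀ x, G x = F (x * g) := by
  have h := hF.comp (c' := rg_glCoord n) (S' := Set.univ) (Φ := fun x => x * g)
    (rg_glCoord_regOn (rg_glCoord_mat.mul (.const fun _ _ => Subring.mem_top _))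
      (((rg_MatOn.const fun _ _ => Subring.mem_top _).mul rg_glCoord_inv).congr
        fun x _ => Matrix.mul_inv_rev x g))
  obtain ⟨G, hG, he⟩ := h
  exact ⟨G, hG, fun x => (he x trivial).symm⟩

theorem rg_isReg_mul_left {F : Matrix n n ℂ → ℂ} (hF : rg_IsReg ⊤ (rg_glCoord n) F)
    (g : Matrix n n ℂ) : ∃ G, rg_IsReg ⊤ (rg_glCoord n) G ∧ ∀ x, G x = F (g * x) := by
  have h := hF.comp (c' := rg_glCoord n) (S' := Set.univ) (Φ := fun x => g * x)
    (rg_glCoord_regOn ((rg_MatOn.const fun _ _ => Subring.mem_top _).mul rg_glCoord_mat)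
      ((rg_glCoord_inv.mul (.const fun _ _ => Subring.mem_top _)).congr
        fun x _ => Matrix.mul_inv_rev g x))
  obtain ⟨G, hG, he⟩ := h
  exact ⟨G, hG, fun x => (he x trivial).symm⟩

/-- `R`-points of `GL_n` are closed under multiplication. -/
theorem rg_glPoint_mul {x y : Matrix n n ℂ} (hx : ∀ k, rg_glCoord n k x ∈ R)
    (hy : ∀ k, rg_glCoord n k y ∈ R) : ∀ k, rg_glCoord n k (x * y) ∈ R := by
  rintro ⟨_ | _, a, b⟩
  · change (x * y) a b ∈ R
    rw [Matrix.mul_apply]
    exact sum_mem fun j _ => R.mul_mem (hx (false, a, j)) (hy (false, j, b))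
  · change (x * y)⁻¹ a b ∈ R
    rw [Matrix.mul_inv_rev, Matrix.mul_apply]
    exact sum_mem fun j _ => R.mul_mem (hy (true, a, j)) (hx (true, j, b))

/-- The closure of `GL_n(R)` is closed under multiplication. -/
theorem rg_glClosure_mul {x y : Matrix n n ℂ} (hx : x ∈ rg_glClosure R n)
    (hy : y ∈ rg_glClosure R n) : x * y ∈ rg_glClosure R n := by
  intro F hF h0
  -- first: `F (x * g) = 0` for every `R`-point `g`
  have h1 : ∀ g : Matrix n n ℂ, IsUnit g.det → (∀ k, rg_glCoord n k g ∈ R) → F (x * g) = 0 := by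
    intro g hg hgR
    obtain ⟨G, hG, he⟩ := rg_isReg_mul_right hF g
    rw [← he]
    refine hx G hG fun z hz hzR => ?_
    rw [he]
    exact h0 _ (by rw [Matrix.det_mul]; exact hz.mul hg) (rg_glPoint_mul hzR hgR)
  obtain ⟨G, hG, he⟩ := rg_isReg_mul_left hF x
  rw [← he]
  exact hy G hG fun z hz hzR => by rw [he]; exact h1 z hz hzR

theorem rg_one_mem_glClosure : (1 : Matrix n n ℂ) ∈ rg_glClosure R n := by
  intro F _ h0
  refine h0 1 (by simp) ?_
  rintro ⟨_ | _, a, b⟩
  · change (1 : Matrix n n ℂ) a b ∈ R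
    by_cases h : a = b
    · subst h; simp
    · simp [Matrix.one_apply_ne h]
  · change (1 : Matrix n n ℂ)⁻¹ a b ∈ R
    rw [inv_one]
    by_cases h : a = b
    · subst h; simp
    · simp [Matrix.one_apply_ne h]

theorem rg_transvection_mem_glClosure {i j : n} (hij : i ≠ j) (z : ℂ) :
    Matrix.transvection i j z ∈ rg_glClosure R n := by
  intro F hF h0
  have hmat : rg_MatOn R rg_lineCoord Set.univ (fun z : ℂ => Matrix.transvection i j z) := by
    intro a b
    by_cases h : i = a ∧ j = b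
    · obtain ⟨rfl, rfl⟩ := h
      refine (rg_RegOn.coord (c := rg_lineCoord) ()).congr fun z _ => ?_
      simp [Matrix.transvection, rg_lineCoord, Matrix.one_apply_ne hij]
    · refine (rg_MatOn.one (n := n) a b).congr fun z _ => ?_
      have : Matrix.single i j z a b = 0 := by
        rw [Matrix.single_apply]; simp [h]
      simp [Matrix.transvection, this]
  have hinv : rg_MatOn R rg_lineCoord Set.univ (fun z : ℂ => (Matrix.transvection i j z)⁻¹) :=
    hmat.inv_of_det_eq_one fun z _ => Matrix.det_transvection_of_ne i j hij z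
  have hreg := rg_glCoord_regOn hmat hinv
  have h1 : rg_RegOn ⊤ rg_lineCoord Set.univ (fun z => F (Matrix.transvection i j z)) :=
    hF.comp fun k => (hreg k).mono le_top
  refine (rg_dense_line R).regOn h1 (fun w _ hw => h0 _ ?_ fun k => (hreg k).mem trivial hw) z
    trivial
  rw [Matrix.det_transvection_of_ne i j hij]; exact isUnit_one

theorem rg_diagonal_mem_glClosure (hU : {z : ℂ | z ∈ R ∧ z⁻¹ ∈ R}.Infinite) {d : n → ℂ}
    (hd : ∀ i, d i ≠ 0) : Matrix.diagonal d ∈ rg_glClosure R n := by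
  intro F hF h0
  have hmat : rg_MatOn R (rg_torusCoord n) {x | ∀ i, x i ≠ 0}
      (fun d : n → ℂ => Matrix.diagonal d) :=
    rg_MatOn.diagonal fun a => rg_RegOn.coord (c := rg_torusCoord n) (a, false)
  have hinv : rg_MatOn R (rg_torusCoord n) {x | ∀ i, x i ≠ 0}
      (fun d : n → ℂ => (Matrix.diagonal d)⁻¹) := by
    refine (rg_MatOn.diagonal (d := fun (d : n → ℂ) a => (d a)⁻¹) fun a =>
      rg_RegOn.coord (c := rg_torusCoord n) (a, true)).congr fun d hd => ?_
    apply Matrix.inv_eq_right_inv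
    rw [Matrix.diagonal_mul_diagonal]
    have : (fun i => d i * (d i)⁻¹) = fun _ => (1 : ℂ) := by
      funext i; exact mul_inv_cancel₀ (hd i)
    rw [this, Matrix.diagonal_one]
  have hreg := rg_glCoord_regOn hmat hinv
  have h1 : rg_RegOn ⊤ (rg_torusCoord n) {x | ∀ i, x i ≠ 0} (fun d => F (Matrix.diagonal d)) :=
    hF.comp fun k => (hreg k).mono le_top
  refine (rg_dense_torus hU n).regOn h1 (fun w hw hwR => h0 _ ?_ fun k => (hreg k).mem hw hwR) d hd
  rw [Matrix.det_diagonal]
  exact isUnit_iff_ne_zero.2 (Finset.prod_ne_zero_iff.2 fun i _ => hw i)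

theorem rg_transvecList_mem_glClosure (L : List (Matrix.TransvectionStruct n ℂ)) :
    (L.map Matrix.TransvectionStruct.toMatrix).prod ∈ rg_glClosure R n := by
  induction L with
  | nil => simpa using rg_one_mem_glClosure
  | cons t L ih =>
    rw [List.map_cons, List.prod_cons]
    exact rg_glClosure_mul (rg_transvection_mem_glClosure t.hij t.c) ih

/-- **`GL_n(R)` is Zariski dense in `GL_n(ℂ)`.** -/
theorem rg_dense_GL1 (hU : {z : ℂ | z ∈ R ∧ z⁻¹ ∈ R}.Infinite) :
    rg_Dense R (rg_glCoord n) {x | IsUnit x.det} := by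
  intro F hF h0 x hx
  obtain ⟨L, L', D, hD⟩ := Matrix.Pivot.exists_list_transvec_mul_diagonal_mul_list_transvec x
  have hd : ∀ i, D i ≠ 0 := by
    have h1 : x.det = ∏ i, D i := by
      rw [hD, Matrix.det_mul, Matrix.det_mul, Matrix.TransvectionStruct.det_toMatrix_prod,
        Matrix.TransvectionStruct.det_toMatrix_prod, Matrix.det_diagonal]
      ring
    have h2 : ∏ i, D i ≠ 0 := by rw [← h1]; exact hx.ne_zero
    exact fun i => (Finset.prod_ne_zero_iff.1 h2) i (Finset.mem_univ i)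
  have hmem : x ∈ rg_glClosure R n := by
    rw [hD]
    exact rg_glClosure_mul (rg_glClosure_mul (rg_transvecList_mem_glClosure L)
      (rg_diagonal_mem_glClosure hU hd)) (rg_transvecList_mem_glClosure L')
  exact hmem F hF fun y hy hyR => h0 y hy hyR

/-- Families of invertible matrices. -/
theorem rg_dense_GL (hU : {z : ℂ | z ∈ R ∧ z⁻¹ ∈ R}.Infinite) (ι : Type u) [Finite ι] :
    rg_Dense R (rg_matCoord ι n) {x | ∀ i, IsUnit (x i).det} := by
  have h := rg_Dense.pi (ι := ι) (P := fun _ => Matrix n n ℂ) (κ := fun _ => Bool × n × n)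
    (R := R) (c := fun _ => rg_glCoord n) (S := fun _ => {x | IsUnit x.det})
    fun _ => rg_dense_GL1 hU
  have hS : Set.pi Set.univ (fun _ : ι => {x : Matrix n n ℂ | IsUnit x.det}) =
      {x | ∀ i, IsUnit (x i).det} := by
    ext x; simp [Set.mem_pi]
  rw [hS] at h
  refine h.coords ?_
  rintro ⟨i, _ | _, a, b⟩
  · exact rg_RegOn.coord (c := rg_piCoord fun _ : ι => rg_glCoord n) ⟨i, (false, a, b)⟩
  · exact rg_RegOn.coord (c := rg_piCoord fun _ : ι => rg_glCoord n) ⟨i, (true, a, b)⟩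

/-- A finite family of matrices, the `i`-th one ranging over a dense set `S i`. -/
theorem rg_dense_family {ι : Type u} [Finite ι] {S : ι → Set (Matrix n n ℂ)}
    (hS : ∀ i, rg_Dense R (rg_glCoord n) (S i)) :
    rg_Dense R (rg_matCoord ι n) {x | ∀ i, x i ∈ S i} := by
  have h := rg_Dense.pi (ι := ι) (P := fun _ => Matrix n n ℂ) (κ := fun _ => Bool × n × n)
    (R := R) (c := fun _ => rg_glCoord n) (S := S) hS
  have hS' : Set.pi Set.univ S = {x | ∀ i, x i ∈ S i} := by
    ext x; simp [Set.mem_pi]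
  rw [hS'] at h
  refine h.coords ?_
  rintro ⟨i, _ | _, a, b⟩
  · exact rg_RegOn.coord (c := rg_piCoord fun _ : ι => rg_glCoord n) ⟨i, (false, a, b)⟩
  · exact rg_RegOn.coord (c := rg_piCoord fun _ : ι => rg_glCoord n) ⟨i, (true, a, b)⟩

/-- A set all of whose points are `R`-points is dense in itself. -/
theorem rg_dense_of_forall_mem {P : Type u} {κ : Type*} {c : κ → P → ℂ} {S : Set P}
    (h : ∀ x ∈ S, ∀ k, c k x ∈ R) : rg_Dense R c S :=
  fun _ _ h0 x hx => h0 x hx (h x hx)

theorem rg_dense_one : rg_Dense R (rg_glCoord n) {(1 : Matrix n n ℂ)} := by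
  refine rg_dense_of_forall_mem ?_
  rintro x rfl ⟨_ | _, a, b⟩
  · change (1 : Matrix n n ℂ) a b ∈ R
    by_cases h : a = b
    · subst h; simp
    · simp [Matrix.one_apply_ne h]
  · change (1 : Matrix n n ℂ)⁻¹ a b ∈ R
    rw [inv_one]
    by_cases h : a = b
    · subst h; simp
    · simp [Matrix.one_apply_ne h]

/-- A matrix which is the identity except at positions `(a, b)` with `r a < r b` has
determinant one. -/
theorem rg_det_eq_one_of_pinned (r : n → ℕ) {x : Matrix n n ℂ}
    (hx : ∀ a b, ¬ r a < r b → x a b = (1 : Matrix n n ℂ) a b) : x.det = 1 := by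
  have hbt : x.BlockTriangular r := by
    intro a b hab
    rw [hx a b (by omega), Matrix.one_apply_ne]
    rintro rfl; omega
  rw [hbt.det]
  refine Finset.prod_eq_one fun k _ => ?_
  have : x.toSquareBlock r k = 1 := by
    ext ⟨a, ha⟩ ⟨b, hb⟩
    rw [Matrix.toSquareBlock_def, Matrix.of_apply, hx a b (by omega)]
    by_cases h : a = b
    · subst h; simp
    · rw [Matrix.one_apply_ne h, Matrix.one_apply_ne (by simpa [Subtype.ext_iff] using h)]
  rw [this, Matrix.det_one]

/-- **Unipotent parameter spaces**: the entries at the `free` positions are arbitrary, the others are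
those of the identity; `free a b → r a < r b` for some height function `r`. -/
theorem rg_dense_pinned (r : n → ℕ) (free : n → n → Prop) (hfree : ∀ a b, free a b → r a < r b) :
    rg_Dense R (rg_glCoord n) {x | ∀ a b, ¬ free a b → x a b = (1 : Matrix n n ℂ) a b} := by
  classical
  let Φ : (n × n → ℂ) → Matrix n n ℂ := fun z =>
    Matrix.of fun a b => if free a b then z (a, b) else (1 : Matrix n n ℂ) a b
  have hΦ : ∀ z a b, ¬ free a b → Φ z a b = (1 : Matrix n n ℂ) a b := fun z a b h => by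
    simp [Φ, h]
  have hmat : rg_MatOn R (rg_affCoord (n × n)) Set.univ Φ := fun a b =>
    rg_RegOn.ite (rg_RegOn.coord (c := rg_affCoord (n × n)) (a, b)) (rg_MatOn.one (n := n) a b)
  have hinv : rg_MatOn R (rg_affCoord (n × n)) Set.univ (fun z => (Φ z)⁻¹) :=
    hmat.inv_of_det_eq_one fun z _ =>
      rg_det_eq_one_of_pinned r fun a b h => hΦ z a b fun hf => h (hfree a b hf)
  refine rg_Dense.transfer₁ Φ (rg_glCoord_regOn hmat hinv) (fun z _ => hΦ z) (fun x hx => ?_)
    (rg_dense_affine R (n × n))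
  refine ⟨fun k => x k.1 k.2, trivial, ?_⟩
  ext a b
  by_cases h : free a b
  · simp [Φ, h]
  · simp [Φ, h, hx a b h]

/-- **Corner `GL`**: invertible matrices which are the identity outside the rows and columns
satisfying `p`. -/
theorem rg_dense_corner (hU : {z : ℂ | z ∈ R ∧ z⁻¹ ∈ R}.Infinite) (p : n → Prop) :
    rg_Dense R (rg_glCoord n)
      {x | IsUnit x.det ∧ ∀ a b, ¬ (p a ∧ p b) → x a b = (1 : Matrix n n ℂ) a b} := by
  classical
  let e : {a // p a} ⊕ {a // ¬ p a} ≃ n := Equiv.sumCompl p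
  let Φ : Matrix {a // p a} {a // p a} ℂ → Matrix n n ℂ := fun g =>
    (Matrix.fromBlocks g 0 0 1).submatrix e.symm e.symm
  have hmul : ∀ g g', Φ g * Φ g' = Φ (g * g') := fun g g' => by
    simp only [Φ]
    rw [Matrix.submatrix_mul_equiv, Matrix.fromBlocks_multiply]
    simp
  have hone : Φ 1 = 1 := by
    simp only [Φ]
    rw [Matrix.fromBlocks_one, Matrix.submatrix_one_equiv]
  have hΦinv : ∀ g : Matrix {a // p a} {a // p a} ℂ, IsUnit g.det → (Φ g)⁻¹ = Φ g⁻¹ := by
    intro g hg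
    apply Matrix.inv_eq_right_inv
    rw [hmul, Matrix.mul_nonsing_inv g hg, hone]
  have hdet : ∀ g, (Φ g).det = g.det := fun g => by
    simp only [Φ]
    rw [Matrix.det_submatrix_equiv_self, Matrix.det_fromBlocks_zero₂₁]
    simp
  have hmat : rg_MatOn R (rg_glCoord {a // p a}) {x | IsUnit x.det} Φ :=
    (rg_MatOn.fromBlocks rg_glCoord_mat rg_MatOn.zero rg_MatOn.zero rg_MatOn.one).submatrix _ _
  have hinv : rg_MatOn R (rg_glCoord {a // p a}) {x | IsUnit x.det} (fun g => (Φ g)⁻¹) :=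
    ((rg_MatOn.fromBlocks rg_glCoord_inv rg_MatOn.zero rg_MatOn.zero rg_MatOn.one).submatrix
      e.symm e.symm).congr fun g hg => hΦinv g hg
  refine rg_Dense.transfer₁ Φ (rg_glCoord_regOn hmat hinv) (fun g hg => ⟨?_, ?_⟩) (fun x hx => ?_)
    (rg_dense_GL1 hU)
  · rw [hdet]; exact hg
  · intro a b hab
    by_cases ha : p a
    · have hb : ¬ p b := fun hb => hab ⟨ha, hb⟩
      have hne : a ≠ b := fun h => hb (h ▸ ha)
      simp [Φ, e, Equiv.sumCompl_symm_apply_of_pos ha, Equiv.sumCompl_symm_apply_of_neg hb,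
        Matrix.one_apply_ne hne]
    · by_cases hb : p b
      · have hne : a ≠ b := fun h => ha (h ▸ hb)
        simp [Φ, e, Equiv.sumCompl_symm_apply_of_neg ha, Equiv.sumCompl_symm_apply_of_pos hb,
          Matrix.one_apply_ne hne]
      · simp [Φ, e, Equiv.sumCompl_symm_apply_of_neg ha, Equiv.sumCompl_symm_apply_of_neg hb,
          Matrix.one_apply, Subtype.ext_iff]
  · have hx' : Φ (x.submatrix Subtype.val Subtype.val) = x := by
      ext a b
      by_cases ha : p a
      · by_cases hb : p b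
        · simp [Φ, e, Equiv.sumCompl_symm_apply_of_pos ha, Equiv.sumCompl_symm_apply_of_pos hb]
        · have hne : a ≠ b := fun h => hb (h ▸ ha)
          simp [Φ, e, Equiv.sumCompl_symm_apply_of_pos ha, Equiv.sumCompl_symm_apply_of_neg hb,
            hx.2 a b (fun h => hb h.2), Matrix.one_apply_ne hne]
      · by_cases hb : p b
        · have hne : a ≠ b := fun h => ha (h ▸ hb)
          simp [Φ, e, Equiv.sumCompl_symm_apply_of_neg ha, Equiv.sumCompl_symm_apply_of_pos hb,
            hx.2 a b (fun h => ha h.1), Matrix.one_apply_ne hne]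
        · simp [Φ, e, Equiv.sumCompl_symm_apply_of_neg ha, Equiv.sumCompl_symm_apply_of_neg hb,
            hx.2 a b (fun h => ha h.1), Matrix.one_apply, Subtype.ext_iff]
    refine ⟨x.submatrix Subtype.val Subtype.val, ?_, hx'⟩
    change IsUnit (x.submatrix Subtype.val Subtype.val).det
    rw [← hdet, hx']; exact hx.1

end glsec

end Claimed.Agent.R236
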