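/-
Row 236, package CLOSED FACETS (sub-captain helper215).  BASIC DENSITY (Lemma integral-parameters):
affine spaces, tori and `GL_d` over a subring `R ⊆ ℂ` with infinitely many units.
Wrappers around helper180's `RegBasic.lean`.
-/
import Claimed.Agent.R236.ClCurve
import Claimed.Agent.R236.RegBasic

set_option autoImplicit false

namespace Claimed.Agent.R236

open Polynomial Matrix

/-- coordinates on a torus: `u i` (`false`) and `(u i)⁻¹` (`true`) -/
noncomputable def clTorCoord (ι : Type*) : ι × Bool → (ι → ℂ) → ℂ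
  | (i, false), u => u i
  | (i, true), u => (u i)⁻¹

theorem cl_tor_dense (R : Subring ℂ) (hU : {z : ℂ | z ∈ R ∧ z⁻¹ ∈ R}.Infinite) (ι : Type*)
    [Finite ι] : rg_Dense R (clTorCoord ι) {u | ∀ i, u i ≠ 0} := by
  refine (rg_dense_torus hU ι).coords ?_
  rintro ⟨i, _ | _⟩
  · exact rg_RegOn.coord (c := rg_torusCoord ι) (i, false)
  · exact rg_RegOn.coord (c := rg_torusCoord ι) (i, true)

/-- `GL_d(R)` is dense in `GL_d(ℂ)`. -/
theorem cl_gl_dense (R : Subring ℂ) (hU : {z : ℂ | z ∈ R ∧ z⁻¹ ∈ R}.Infinite) (d : ℕ) :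
    rg_Dense R (rg_matCoord Unit (Fin d)) {x | IsUnit (x ()).det} := by
  have h := rg_dense_GL (n := Fin d) hU Unit
  have hS : {x : Unit → Matrix (Fin d) (Fin d) ℂ | ∀ i, IsUnit (x i).det} =
      {x | IsUnit (x ()).det} := by
    ext x
    exact ⟨fun h => h (), fun h _ => h⟩
  rwa [hS] at h

end Claimed.Agent.R236
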