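/-
Row 236 (S0471/S0472), package CLOSED FACETS (owner helper215).  File 1: the DERIVATION FRAMEWORK.

Instead of transcendence degrees of points `p ∈ ℂ^M` over a countable field `ℚ(S)` we use the
`ℂ`-vector space `{ (D p_i)_i : D ∈ Der(ℂ), D = 0 on S }` = `(clDer S).map (clEv p)`; its dimension
is the transcendence degree, but additivity in towers (`cl_finrank_map_prod`), the bound for points
of linear spaces and the Jacobian bound become one-line linear algebra.
The only non-formal inputs:
* `cl_der_exists`  : derivations with prescribed values on algebraically independent elements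
* `cl_exists_indep`: algebraically independent families over a countable field.
-/
import Mathlib

set_option autoImplicit false

namespace Claimed.Agent.R236

open Matrix Module
open scoped IntermediateField.algebraAdjoinAdjoin

/-! ### existence of derivations -/

/-- a derivation of a polynomial subalgebra extends along a formally etale extension -/
theorem cl_der_extend_etale {k P E : Type*} [CommRing k] [CommRing P] [CommRing E] [Algebra k P]
    [Algebra k E] [Algebra P E] [IsScalarTower k P E] [Algebra.FormallyEtale P E]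
    (D0 : Derivation k P E) : ∃ D : Derivation k E E, ∀ p : P, D (algebraMap P E p) = D0 p := by
  have hb := KaehlerDifferential.isBaseChange_of_formallyEtale k P E
  let l : Ω[E⁄k] →ₗ[E] E := hb.lift D0.liftKaehlerDifferential
  refine ⟨l.compDer (KaehlerDifferential.D k E), fun p => ?_⟩
  have h1 : KaehlerDifferential.D k E (algebraMap P E p)
      = KaehlerDifferential.map k k P E (KaehlerDifferential.D k P p) := by
    rw [KaehlerDifferential.map_D]
  show l (KaehlerDifferential.D k E (algebraMap P E p)) = D0 p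
  rw [h1, hb.lift_eq, Derivation.liftKaehlerDifferential_comp_D]

theorem cl_der_of_basis {k E : Type*} [Field k] [CharZero k] [Field E] [Algebra k E] {ι : Type*}
    (x : ι → E) (hx : IsTranscendenceBasis k x) (v : ι → E) :
    ∃ D : Derivation k E E, ∀ i, D (x i) = v i := by
  classical
  set P := Algebra.adjoin k (Set.range x) with hP
  set K := IntermediateField.adjoin k (Set.range x) with hK
  have : Algebra.IsAlgebraic K E := hx.isAlgebraic_field
  have : CharZero K := charZero_of_injective_algebraMap (algebraMap k K).injective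
  have : Algebra.IsSeparable K E := inferInstance
  have : Algebra.FormallyEtale K E := Algebra.FormallyEtale.of_isSeparable K E
  have : Algebra.FormallyEtale P K := Algebra.FormallyEtale.of_isLocalization (nonZeroDivisors P)
  have : Algebra.FormallyEtale P E := Algebra.FormallyEtale.comp P K E
  -- the derivation on the polynomial ring
  let e : MvPolynomial ι k ≃ₐ[k] P := hx.1.aevalEquiv
  have he : ∀ f : MvPolynomial ι k, ((e f : P) : E) = MvPolynomial.aeval x f := fun f =>
    hx.1.algebraMap_aevalEquiv f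
  let _ : Module (MvPolynomial ι k) E :=
    Module.compHom E (MvPolynomial.aeval (R := k) x).toRingHom
  have hsm : ∀ (f : MvPolynomial ι k) (z : E), f • z = MvPolynomial.aeval x f * z := fun _ _ => rfl
  have : IsScalarTower k (MvPolynomial ι k) E := ⟨fun a f z => by
    rw [hsm, hsm, map_smul, smul_mul_assoc]⟩
  let Dm : Derivation k (MvPolynomial ι k) E := MvPolynomial.mkDerivation k v
  let D0 : Derivation k P E := Derivation.mk' (Dm.toLinearMap ∘ₗ e.symm.toLinearMap) (by
    intro a b
    obtain ⟨f, rfl⟩ := e.surjective a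
    obtain ⟨g, rfl⟩ := e.surjective b
    show Dm (e.symm (e f * e g)) = e f • Dm (e.symm (e g)) + e g • Dm (e.symm (e f))
    rw [← map_mul, e.symm_apply_apply, e.symm_apply_apply, e.symm_apply_apply, Dm.leibniz, hsm, hsm]
    rw [Subalgebra.smul_def, Subalgebra.smul_def, he, he, smul_eq_mul, smul_eq_mul])
  obtain ⟨D, hD⟩ := cl_der_extend_etale D0
  refine ⟨D, fun i => ?_⟩
  have h1 : x i = algebraMap P E (e (MvPolynomial.X i)) := by
    show x i = ((e (MvPolynomial.X i) : P) : E)
    rw [he, MvPolynomial.aeval_X]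
  rw [h1, hD]
  show Dm (e.symm (e (MvPolynomial.X i))) = v i
  rw [e.symm_apply_apply, MvPolynomial.mkDerivation_X]

/-- derivations of `ℂ` -/
abbrev ClD := Derivation ℚ ℂ ℂ

/-- the field generated by a set of complex numbers -/
noncomputable abbrev clFld (S : Set ℂ) : IntermediateField ℚ ℂ := IntermediateField.adjoin ℚ S

/-- derivations of `ℂ` vanishing on `S` -/
noncomputable def clDer (S : Set ℂ) : Submodule ℂ ClD where
  carrier := {D | ∀ s ∈ S, D s = 0}
  add_mem' := fun {a b} ha hb s hs => by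
    rw [Derivation.add_apply, ha s hs, hb s hs, add_zero]
  zero_mem' := fun s _ => rfl
  smul_mem' := fun c D hD s hs => by
    rw [Derivation.smul_apply, hD s hs, smul_zero]

theorem cl_mem_clDer {S : Set ℂ} {D : ClD} : D ∈ clDer S ↔ ∀ s ∈ S, D s = 0 := Iff.rfl

theorem clDer_anti {S T : Set ℂ} (h : S ⊆ T) : clDer T ≤ clDer S := fun _ hD s hs => hD s (h hs)

/-- **DER**: derivations with prescribed values on algebraically independent elements. -/
theorem cl_der_exists (S : Set ℂ) {ι : Type*} (c : ι → ℂ)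
    (hc : AlgebraicIndependent (clFld S) c) (v : ι → ℂ) :
    ∃ D ∈ clDer S, ∀ i, D (c i) = v i := by
  classical
  obtain ⟨t, ht, hb⟩ := exists_isTranscendenceBasis_superset (R := clFld S) hc.coe_range
  let v' : t → ℂ := fun z => if h : ∃ i, c i = (z : ℂ) then v h.choose else 0
  obtain ⟨D, hD⟩ := cl_der_of_basis _ hb v'
  refine ⟨D.restrictScalars ℚ, fun s hs => ?_, fun i => ?_⟩
  · have : s = algebraMap (clFld S) ℂ ⟨s, IntermediateField.subset_adjoin ℚ S hs⟩ := rfl
    show D s = 0
    rw [this, D.map_algebraMap]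
  · show D (c i) = v i
    have h1 := hD ⟨c i, ht ⟨i, rfl⟩⟩
    have h2 : ∃ j, c j = c i := ⟨i, rfl⟩
    have h3 : v' ⟨c i, ht ⟨i, rfl⟩⟩ = v i := by
      show (if h : ∃ j, c j = c i then v h.choose else 0) = v i
      rw [dif_pos h2]
      exact congrArg v (hc.injective h2.choose_spec)
    rw [← h3, ← h1]

/-! ### algebraically independent elements -/

open Cardinal in
theorem clFld_countable {S : Set ℂ} (hS : S.Countable) : #(clFld S) ≤ ℵ₀ := by
  refine (IntermediateField.cardinalMk_adjoin_le ℚ S).trans ?_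
  have h1 : #ℚ ≤ ℵ₀ := Cardinal.mk_le_aleph0
  have h2 : #S ≤ ℵ₀ := by
    have := hS.to_subtype
    exact Cardinal.mk_le_aleph0
  exact sup_le (sup_le h1 h2) le_rfl

open Cardinal in
/-- **T5**: algebraically independent families over a countable field. -/
theorem cl_exists_indep {S : Set ℂ} (hS : S.Countable) (ι : Type) [Countable ι] :
    ∃ c : ι → ℂ, AlgebraicIndependent (clFld S) c := by
  obtain ⟨t, ht⟩ := exists_isTranscendenceBasis (clFld S) ℂ
  have h1 := IsAlgClosed.cardinal_le_max_transcendence_basis' _ ht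
  have h2 : ℵ₀ < #t := by
    by_contra h
    rw [not_lt] at h
    have h3 : #ℂ ≤ ℵ₀ := h1.trans (max_le (max_le (clFld_countable hS) h) le_rfl)
    rw [Cardinal.mk_complex] at h3
    exact absurd h3 (not_le.mpr Cardinal.aleph0_lt_continuum)
  have h3 : #ι ≤ #t := (Cardinal.mk_le_aleph0).trans h2.le
  obtain ⟨e⟩ := Cardinal.le_def _ _ |>.mp h3
  exact ⟨fun i => (e i : ℂ), ht.1.comp e e.injective⟩

/-! ### evaluation maps -/

/-- `D ↦ (D (p i))_i` -/
noncomputable def clEv {ι : Type*} (p : ι → ℂ) : ClD →ₗ[ℂ] (ι → ℂ) where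
  toFun D := fun i => D (p i)
  map_add' _ _ := rfl
  map_smul' _ _ := rfl

/-- `D ↦ D(A)` entrywise -/
noncomputable def clEvM {m n : Type*} (A : Matrix m n ℂ) : ClD →ₗ[ℂ] Matrix m n ℂ where
  toFun D := A.map D
  map_add' _ _ := rfl
  map_smul' _ _ := rfl

@[simp] theorem clEv_apply {ι : Type*} (p : ι → ℂ) (D : ClD) (i : ι) : clEv p D i = D (p i) := rfl

@[simp] theorem clEvM_apply {m n : Type*} (A : Matrix m n ℂ) (D : ClD) : clEvM A D = A.map D := rfl

/-- the set of entries of a matrix -/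
def clEnt {m n : Type*} (A : Matrix m n ℂ) : Set ℂ := Set.range fun ij : m × n => A ij.1 ij.2

theorem clEnt_countable {m n : Type*} [Countable m] [Countable n] (A : Matrix m n ℂ) :
    (clEnt A).Countable := Set.countable_range _

theorem clDer_inf_ker_ev (S : Set ℂ) {ι : Type*} (p : ι → ℂ) :
    clDer S ⊓ LinearMap.ker (clEv p) = clDer (S ∪ Set.range p) := by
  ext D
  constructor
  · rintro ⟨h1, h2⟩ s (hs | ⟨i, rfl⟩)
    · exact h1 s hs
    · exact congrFun (LinearMap.mem_ker.mp h2) i
  · intro h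
    refine ⟨fun s hs => h s (Or.inl hs), ?_⟩
    show D ∈ LinearMap.ker (clEv p)
    rw [LinearMap.mem_ker]
    funext i
    exact h _ (Or.inr ⟨i, rfl⟩)

theorem clDer_inf_ker_evM (S : Set ℂ) {m n : Type*} (A : Matrix m n ℂ) :
    clDer S ⊓ LinearMap.ker (clEvM A) = clDer (S ∪ clEnt A) := by
  ext D
  constructor
  · rintro ⟨h1, h2⟩ s (hs | ⟨ij, rfl⟩)
    · exact h1 s hs
    · have h3 : A.map D = 0 := LinearMap.mem_ker.mp h2
      exact congrFun (congrFun h3 ij.1) ij.2
  · intro h
    refine ⟨fun s hs => h s (Or.inl hs), ?_⟩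
    show D ∈ LinearMap.ker (clEvM A)
    rw [LinearMap.mem_ker]
    ext i j
    exact h _ (Or.inr ⟨(i, j), rfl⟩)

theorem cl_map_eq_zero_iff {m n : Type*} (A : Matrix m n ℂ) (D : ClD) :
    A.map D = 0 ↔ ∀ s ∈ clEnt A, D s = 0 := by
  constructor
  · rintro h s ⟨ij, rfl⟩
    exact congrFun (congrFun h ij.1) ij.2
  · intro h
    ext i j
    exact h _ ⟨(i, j), rfl⟩

/-! ### calculus -/

theorem cl_map_mul {l m n : Type*} [Fintype m] (D : ClD) (A : Matrix l m ℂ) (B : Matrix m n ℂ) :
    (A * B).map D = A.map D * B + A * B.map D := by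
  ext i j
  simp only [Matrix.map_apply, Matrix.mul_apply, Matrix.add_apply, map_sum, Derivation.leibniz,
    smul_eq_mul, Finset.sum_add_distrib]
  rw [add_comm]
  congr 1
  exact Finset.sum_congr rfl fun k _ => mul_comm _ _

theorem cl_map_add {m n : Type*} (D : ClD) (A B : Matrix m n ℂ) :
    (A + B).map D = A.map D + B.map D := by
  ext i j; simp

theorem cl_map_sub {m n : Type*} (D : ClD) (A B : Matrix m n ℂ) :
    (A - B).map D = A.map D - B.map D := by
  ext i j; simp

theorem cl_map_one {n : Type*} [DecidableEq n] (D : ClD) : (1 : Matrix n n ℂ).map D = 0 := by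
  ext i j
  by_cases h : i = j
  · subst h; simp
  · simp [h]

theorem cl_map_diagonal {n : Type*} [DecidableEq n] (D : ClD) (d : n → ℂ) :
    (Matrix.diagonal d).map D = Matrix.diagonal fun i => D (d i) := by
  ext i j
  by_cases h : i = j
  · subst h; simp
  · simp [h]

theorem cl_map_smul {m n : Type*} (D : ClD) (c : ℂ) (A : Matrix m n ℂ) :
    (c • A).map D = D c • A + c • A.map D := by
  ext i j
  simp only [Matrix.map_apply, Matrix.smul_apply, Matrix.add_apply, smul_eq_mul, Derivation.leibniz]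
  ring

/-- derivative of the inverse -/
theorem cl_map_inv {n : Type*} [Fintype n] [DecidableEq n] (D : ClD) {A A' : Matrix n n ℂ}
    (h : A * A' = 1) : A'.map D = -(A' * A.map D * A') := by
  have h' : A' * A = 1 := mul_eq_one_comm.mp h
  have h1 : A.map D * A' + A * A'.map D = 0 := by rw [← cl_map_mul, h, cl_map_one]
  have h2 : A' * (A.map D * A' + A * A'.map D) = 0 := by rw [h1, Matrix.mul_zero]
  rw [Matrix.mul_add, ← Matrix.mul_assoc, ← Matrix.mul_assoc A' A, h', Matrix.one_mul] at h2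
  exact eq_neg_of_add_eq_zero_right h2

/-- constants form a field -/
theorem cl_der_fld {S : Set ℂ} {D : ClD} (hD : D ∈ clDer S) {z : ℂ} (hz : z ∈ clFld S) :
    D z = 0 := by
  induction hz using IntermediateField.adjoin_induction with
  | mem x hx => exact hD x hx
  | algebraMap x => exact D.map_algebraMap x
  | add x y _ _ hx hy => rw [map_add, hx, hy, add_zero]
  | inv x _ hx => 
    by_cases h0 : x = 0
    · subst h0; simp
    · have h1 : D (x * x⁻¹) = 0 := by rw [mul_inv_cancel₀ h0]; exact D.map_one_eq_zero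
      rw [D.leibniz, hx, smul_zero, add_zero, smul_eq_mul] at h1
      exact (mul_eq_zero.mp h1).resolve_left h0
  | mul x y _ _ hx hy => rw [D.leibniz, hx, hy, smul_zero, smul_zero, add_zero]

/-! ### linear algebra of images -/

section LA

variable {X W₁ W₂ : Type*} [AddCommGroup X] [Module ℂ X] [AddCommGroup W₁] [Module ℂ W₁]
  [AddCommGroup W₂] [Module ℂ W₂] [FiniteDimensional ℂ W₁] [FiniteDimensional ℂ W₂]

/-- additivity of the dimension of images -/
theorem cl_finrank_map_prod (𝒟 : Submodule ℂ X) (f : X →ₗ[ℂ] W₁) (g : X →ₗ[ℂ] W₂) :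
    finrank ℂ (𝒟.map (f.prod g))
      = finrank ℂ (𝒟.map f) + finrank ℂ ((𝒟 ⊓ LinearMap.ker f).map g) := by
  set U := 𝒟.map (f.prod g) with hU
  let π : U →ₗ[ℂ] W₁ := (LinearMap.fst ℂ W₁ W₂).domRestrict U
  have h1 := LinearMap.finrank_range_add_finrank_ker π
  have h2 : LinearMap.range π = 𝒟.map f := by
    rw [LinearMap.range_domRestrict, hU, ← Submodule.map_comp, LinearMap.fst_prod]
  have h3 : finrank ℂ (LinearMap.ker π) = finrank ℂ ((𝒟 ⊓ LinearMap.ker f).map g) := by
    have e1 : finrank ℂ (LinearMap.ker π) = finrank ℂ ((LinearMap.ker π).map U.subtype) :=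
      (LinearEquiv.finrank_eq (Submodule.equivMapOfInjective _ U.injective_subtype _))
    have e2 : finrank ℂ ((𝒟 ⊓ LinearMap.ker f).map g)
        = finrank ℂ (((𝒟 ⊓ LinearMap.ker f).map g).map (LinearMap.inr ℂ W₁ W₂)) :=
      (LinearEquiv.finrank_eq (Submodule.equivMapOfInjective _ LinearMap.inr_injective _))
    rw [e1, e2]
    have e3 : (LinearMap.ker π).map U.subtype
        = ((𝒟 ⊓ LinearMap.ker f).map g).map (LinearMap.inr ℂ W₁ W₂) := ?_
    · rw [e3]
    ext ⟨a, b⟩
    simp only [Submodule.mem_map, LinearMap.mem_ker, Submodule.mem_inf]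
    constructor
    · rintro ⟨⟨⟨a', b'⟩, hu⟩, hk, he⟩
      obtain ⟨D, hD, hDe⟩ := hu
      have ha' : a' = 0 := hk
      have he' : (a', b') = (a, b) := he
      have h4 : f D = a' := congrArg Prod.fst hDe
      have h5 : g D = b' := congrArg Prod.snd hDe
      refine ⟨b', ⟨D, ⟨hD, by rw [h4, ha']⟩, h5⟩, ?_⟩
      rw [← he', ha']; rfl
    · rintro ⟨b', ⟨D, ⟨hD, hf⟩, hg⟩, he⟩
      have he' : ((0 : W₁), b') = (a, b) := he
      refine ⟨⟨(0, b'), ⟨D, hD, ?_⟩⟩, rfl, he'⟩
      show (f D, g D) = (0, b')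
      rw [hf, hg]
  rw [← h1, h2, h3]

/-- monotonicity under inclusion of kernels -/
theorem cl_finrank_map_le_of_ker (𝒟 : Submodule ℂ X) (f : X →ₗ[ℂ] W₁) (g : X →ₗ[ℂ] W₂)
    (h : ∀ D ∈ 𝒟, g D = 0 → f D = 0) : finrank ℂ (𝒟.map f) ≤ finrank ℂ (𝒟.map g) := by
  have h1 := cl_finrank_map_prod 𝒟 g f
  have h2 : (𝒟 ⊓ LinearMap.ker g).map f = ⊥ := by
    rw [eq_bot_iff]
    rintro _ ⟨D, ⟨hD, hg⟩, rfl⟩
    exact h D hD hg
  rw [h2, finrank_bot, add_zero] at h1
  rw [← h1]
  have h3 : 𝒟.map f = (𝒟.map (g.prod f)).map (LinearMap.snd ℂ W₂ W₁) := by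
    rw [← Submodule.map_comp, LinearMap.snd_prod]
  rw [h3]
  exact Submodule.finrank_map_le _ _

theorem cl_finrank_map_pi_le {ι : Type*} [Fintype ι] (𝒟 : Submodule ℂ X) (E : ι → X →ₗ[ℂ] W₁) :
    finrank ℂ (𝒟.map (LinearMap.pi E)) ≤ ∑ j, finrank ℂ (𝒟.map (E j)) := by
  let Φ : (∀ j, 𝒟.map (E j)) →ₗ[ℂ] (ι → W₁) :=
    LinearMap.pi fun j => (𝒟.map (E j)).subtype ∘ₗ LinearMap.proj j
  have h1 : 𝒟.map (LinearMap.pi E) ≤ LinearMap.range Φ := by
    rintro _ ⟨D, hD, rfl⟩
    exact ⟨fun j => ⟨E j D, ⟨D, hD, rfl⟩⟩, rfl⟩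
  calc finrank ℂ (𝒟.map (LinearMap.pi E)) ≤ finrank ℂ (LinearMap.range Φ) :=
        Submodule.finrank_mono h1
    _ ≤ finrank ℂ (∀ j, 𝒟.map (E j)) := LinearMap.finrank_range_le Φ
    _ = ∑ j, finrank ℂ (𝒟.map (E j)) := Module.finrank_pi_fintype ℂ

/-- project away one factor -/
theorem cl_finrank_map_pi_le_erase {ι : Type*} [Fintype ι] [DecidableEq ι] (𝒟 : Submodule ℂ X)
    (E : ι → X →ₗ[ℂ] W₁) (i : ι) :
    finrank ℂ (𝒟.map (LinearMap.pi E)) ≤ ∑ j ∈ Finset.univ.erase i, finrank ℂ (𝒟.map (E j))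
      + finrank ℂ ((𝒟 ⊓ ⨅ j ∈ Finset.univ.erase i, LinearMap.ker (E j)).map (E i)) := by
  let f : X →ₗ[ℂ] ({j // j ≠ i} → W₁) := LinearMap.pi fun j => E j
  have h1 : finrank ℂ (𝒟.map (LinearMap.pi E)) ≤ finrank ℂ (𝒟.map (f.prod (E i))) := by
    refine cl_finrank_map_le_of_ker 𝒟 _ _ fun D _ h => ?_
    have hf : f D = 0 := congrArg Prod.fst h
    have hg : E i D = 0 := congrArg Prod.snd h
    funext j
    by_cases hj : j = i
    · subst hj; exact hg
    · exact congrFun hf ⟨j, hj⟩
  have h2 := cl_finrank_map_prod 𝒟 f (E i)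
  have h3 : finrank ℂ (𝒟.map f) ≤ ∑ j ∈ Finset.univ.erase i, finrank ℂ (𝒟.map (E j)) := by
    refine (cl_finrank_map_pi_le 𝒟 fun j : {j // j ≠ i} => E j).trans (le_of_eq ?_)
    rw [← Finset.sum_subtype (p := fun j => j ≠ i) (f := fun j => finrank ℂ (𝒟.map (E j)))]
    intro x; simp
  have h4 : LinearMap.ker f = ⨅ j ∈ Finset.univ.erase i, LinearMap.ker (E j) := by
    ext D
    simp only [Submodule.mem_iInf, LinearMap.mem_ker, Finset.mem_erase, Finset.mem_univ, and_true]
    constructor
    · intro h j hj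
      exact congrFun h ⟨j, hj⟩
    · intro h
      funext j
      exact h j j.2
  rw [h4] at h2
  omega

end LA

end Claimed.Agent.R236
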