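/-
Row 236, package CLOSED FACETS (sub-captain helper215).  File ClCntDefs: definitions for COUNTING (step (4) of the plan) in the
derivation language of `ClDer.lean`.  STATEMENT CHAIN; every `sorry` is a leaf (table subtask).

Notation: `𝒟 = clDer S`, `td(p) = finrank (𝒟.map (ev p))`, `z(Z)` centraliser, `k = dim z(A,B)`.
 (a3) dim ker dΦ ≤ n² + k,  Φ(A,B) = AB - K BA            [trace duality: W ⊥ image ⇔ W·AB ∈ z(A,B)]
 (a)  derivations killing K = ABA⁻¹B⁻¹ move (A,B) inside ker dΦ
 (b1) generic element of a linear space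
 (J)  td(Z) + 2 dim z(Z) ≤ 2n² for Z non scalar             [Jordan form]
 (b)  k ≥ 2 ⇒ td(A,B) + k ≤ 2n²
 count: td(y) ≥ (2g-1)n²+1 ⇒ the first handle is generic.
-/
import Claimed.Agent.R236.ClDer

set_option autoImplicit false

namespace Claimed.Agent.R236

open Matrix Module

/-- complex square matrices -/
abbrev ClMat (n : ℕ) := Matrix (Fin n) (Fin n) ℂ

variable {n : ℕ}

/-- `ad Z : C ↦ Z C - C Z` -/
noncomputable def clAd (Z : ClMat n) : ClMat n →ₗ[ℂ] ClMat n :=
  LinearMap.mulLeft ℂ Z - LinearMap.mulRight ℂ Z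

@[simp] theorem clAd_apply (Z C : ClMat n) : clAd Z C = Z * C - C * Z := rfl

/-- the centraliser of a matrix -/
noncomputable def clCent (Z : ClMat n) : Submodule ℂ (ClMat n) := LinearMap.ker (clAd Z)

theorem mem_clCent {Z C : ClMat n} : C ∈ clCent Z ↔ Z * C = C * Z := by
  rw [clCent, LinearMap.mem_ker, clAd_apply, sub_eq_zero]

/-- the common centraliser of a pair -/
noncomputable def clCent2 (A B : ClMat n) : Submodule ℂ (ClMat n) := clCent A ⊓ clCent B

/-- evaluation of derivations on a pair of matrices -/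
noncomputable def clEv2 (A B : ClMat n) : ClD →ₗ[ℂ] ClMat n × ClMat n :=
  (clEvM A).prod (clEvM B)

/-- the differential of `(A,B) ↦ A B - K B A` (`K` constant) -/
noncomputable def clDPhi (A B K : ClMat n) : ClMat n × ClMat n →ₗ[ℂ] ClMat n :=
  (LinearMap.mulRight ℂ B - LinearMap.mulLeft ℂ (K * B)) ∘ₗ LinearMap.fst ℂ _ _
    + (LinearMap.mulLeft ℂ A - LinearMap.mulLeft ℂ K ∘ₗ LinearMap.mulRight ℂ A) ∘ₗ
      LinearMap.snd ℂ _ _

theorem clDPhi_apply (A B K : ClMat n) (α β : ClMat n) :
    clDPhi A B K (α, β) = (α * B - K * B * α) + (A * β - K * (β * A)) := rfl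

end Claimed.Agent.R236
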