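/-
Row 236 CLOSED, COUNTING leaf (a): the Jacobian bound.  The owner of the leaf owns this file.
-/
import Claimed.Agent.R236.ClCntDefs

set_option autoImplicit false

namespace Claimed.Agent.R236

open Matrix Module

variable {n : ℕ}

/-! ### (a) the Jacobian bound -/

/-- the trace pairing `W ↦ (M ↦ tr (W M))` -/
noncomputable def clTr (n : ℕ) : ClMat n →ₗ[ℂ] Module.Dual ℂ (ClMat n) :=
  (LinearMap.mul ℂ (ClMat n)).compr₂ (Matrix.traceLinearMap (Fin n) ℂ ℂ)

theorem clTr_apply (W M : ClMat n) : clTr n W M = (W * M).trace := rfl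

theorem clTr_injective : Function.Injective (clTr n) := by
  intro W W' h
  rw [Matrix.ext_iff_trace_mul_right]
  intro x
  exact congrArg (fun φ : Module.Dual ℂ (ClMat n) => φ x) h

theorem clTr_surjective : Function.Surjective (clTr n) :=
  (LinearMap.injective_iff_surjective_of_finrank_eq_finrank
    (Subspace.dual_finrank_eq (K := ℂ) (V := ClMat n)).symm).mp clTr_injective

/-- the trace-orthogonal complement of the image of `dΦ` embeds into `z(A,B)` by `W ↦ W A B` -/
theorem cl_orth_mem_cent2 {A B A' B' W : ClMat n} (hA : A * A' = 1) (hB : B * B' = 1)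
    (hW : ∀ x ∈ LinearMap.range (clDPhi A B (A * B * A' * B')), (W * x).trace = 0) :
    W * (A * B) ∈ clCent2 A B := by
  have hA' : A' * A = 1 := mul_eq_one_comm.mp hA
  have hB' : B' * B = 1 := mul_eq_one_comm.mp hB
  set K := A * B * A' * B' with hK
  have hrel : K * (B * A) = A * B := by
    rw [hK]
    simp only [Matrix.mul_assoc]
    rw [← Matrix.mul_assoc B' B, hB', Matrix.one_mul, hA', Matrix.mul_one]
  have e1 : B * W = W * (K * B) := by
    rw [Matrix.ext_iff_trace_mul_right]
    intro x
    have h := hW _ ⟨(x, 0), rfl⟩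
    rw [clDPhi_apply] at h
    simp only [Matrix.mul_zero, Matrix.zero_mul, sub_zero, add_zero, Matrix.mul_sub,
      Matrix.trace_sub] at h
    rw [sub_eq_zero] at h
    calc (B * W * x).trace = (W * (x * B)).trace := by
          rw [Matrix.mul_assoc, Matrix.trace_mul_comm, Matrix.mul_assoc]
      _ = (W * (K * B * x)).trace := h
      _ = (W * (K * B) * x).trace := by simp only [Matrix.mul_assoc]
  have e2 : W * A = A * (W * K) := by
    rw [Matrix.ext_iff_trace_mul_right]
    intro x
    have h := hW _ ⟨(0, x), rfl⟩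
    rw [clDPhi_apply] at h
    simp only [Matrix.mul_zero, Matrix.zero_mul, sub_zero, zero_add, Matrix.mul_sub,
      Matrix.trace_sub] at h
    rw [sub_eq_zero] at h
    calc (W * A * x).trace = (W * (A * x)).trace := by rw [Matrix.mul_assoc]
      _ = (W * (K * (x * A))).trace := h
      _ = (A * (W * K) * x).trace := by
          rw [Matrix.mul_assoc A, Matrix.trace_mul_comm A]
          simp only [Matrix.mul_assoc]
  refine ⟨mem_clCent.mpr ?_, mem_clCent.mpr ?_⟩
  · calc A * (W * (A * B)) = A * (W * (K * (B * A))) := by rw [hrel]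
      _ = A * (W * K) * (B * A) := by simp only [Matrix.mul_assoc]
      _ = W * A * (B * A) := by rw [e2]
      _ = W * (A * B) * A := by simp only [Matrix.mul_assoc]
  · calc B * (W * (A * B)) = B * W * (A * B) := by rw [Matrix.mul_assoc]
      _ = W * (K * B) * (A * B) := by rw [e1]
      _ = W * (K * (B * A)) * B := by simp only [Matrix.mul_assoc]
      _ = W * (A * B) * B := by rw [hrel]

/-- **(a3)** `dim ker dΦ ≤ n² + dim z(A,B)` at a solution of `A B = K B A`.
Proof: rank-nullity; `W` is trace-orthogonal to the image iff `B W = W K B` and `W A = A W K`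
iff `W * (A * B)` commutes with `A` and `B`. -/
theorem cl_ker_bound {A B A' B' : ClMat n} (hA : A * A' = 1) (hB : B * B' = 1) :
    finrank ℂ (LinearMap.ker (clDPhi A B (A * B * A' * B'))) ≤ n ^ 2 + finrank ℂ (clCent2 A B) := by
  set f := clDPhi A B (A * B * A' * B') with hf
  have h1 := LinearMap.finrank_range_add_finrank_ker f
  have h2 := Subspace.finrank_add_finrank_dualAnnihilator_eq (LinearMap.range f)
  have h3 : finrank ℂ (ClMat n × ClMat n) = n ^ 2 + n ^ 2 := by
    rw [Module.finrank_prod, Module.finrank_matrix]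
    simp [sq]
  have h4 : finrank ℂ (ClMat n) = n ^ 2 := by
    rw [Module.finrank_matrix]
    simp [sq]
  have h5 : finrank ℂ (LinearMap.range f).dualAnnihilator ≤ finrank ℂ (clCent2 A B) := by
    set 𝒜 := (LinearMap.range f).dualAnnihilator.comap (clTr n) with h𝒜
    have e1 : (LinearMap.range f).dualAnnihilator = 𝒜.map (clTr n) :=
      (Submodule.map_comap_eq_of_surjective clTr_surjective _).symm
    have hinj : Function.Injective (LinearMap.mulRight ℂ (A * B)) := by
      intro W W' h
      have h' : W * (A * B) = W' * (A * B) := h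
      have hAB : A * B * (B' * A') = 1 := by
        rw [Matrix.mul_assoc, ← Matrix.mul_assoc B, hB, Matrix.one_mul, hA]
      calc W = W * (A * B) * (B' * A') := by rw [Matrix.mul_assoc, hAB, Matrix.mul_one]
        _ = W' * (A * B) * (B' * A') := by rw [h']
        _ = W' := by rw [Matrix.mul_assoc, hAB, Matrix.mul_one]
    have e2 : 𝒜.map (LinearMap.mulRight ℂ (A * B)) ≤ clCent2 A B := by
      rintro _ ⟨W, hW, rfl⟩
      refine cl_orth_mem_cent2 hA hB fun x hx => ?_
      exact (Submodule.mem_dualAnnihilator _).mp hW x hx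
    calc finrank ℂ (LinearMap.range f).dualAnnihilator = finrank ℂ (𝒜.map (clTr n)) := by rw [e1]
      _ ≤ finrank ℂ 𝒜 := Submodule.finrank_map_le _ _
      _ = finrank ℂ (𝒜.map (LinearMap.mulRight ℂ (A * B))) :=
          (LinearEquiv.finrank_eq (Submodule.equivMapOfInjective _ hinj _))
      _ ≤ finrank ℂ (clCent2 A B) := Submodule.finrank_mono e2
  omega

/-- **(a)** derivations killing the commutator move `(A,B)` inside `ker dΦ`. -/
theorem cl_fiber_bound {A B A' B' : ClMat n} (hA : A * A' = 1) (hB : B * B' = 1)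
    (𝒟 : Submodule ℂ ClD) (h𝒟 : ∀ D ∈ 𝒟, (A * B * A' * B').map D = 0) :
    finrank ℂ (𝒟.map (clEv2 A B)) ≤ n ^ 2 + finrank ℂ (clCent2 A B) := by
  refine le_trans (Submodule.finrank_mono ?_) (cl_ker_bound hA hB)
  rintro _ ⟨D, hD, rfl⟩
  have hA' : A' * A = 1 := mul_eq_one_comm.mp hA
  have hB' : B' * B = 1 := mul_eq_one_comm.mp hB
  set K := A * B * A' * B' with hK
  have hrel : A * B = K * (B * A) := by
    rw [hK]
    simp only [Matrix.mul_assoc]
    rw [← Matrix.mul_assoc B' B, hB', Matrix.one_mul, hA', Matrix.mul_one]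
  have h1 := congrArg (fun M : ClMat n => M.map D) hrel
  simp only [cl_map_mul, h𝒟 D hD, Matrix.zero_mul, zero_add] at h1
  rw [LinearMap.mem_ker]
  show clDPhi A B K (A.map D, B.map D) = 0
  rw [clDPhi_apply]
  have h2 : A.map D * B + A * B.map D - K * (B.map D * A + B * A.map D) = 0 := sub_eq_zero.mpr h1
  rw [← h2]
  simp only [Matrix.mul_add, Matrix.mul_assoc]
  abel

end Claimed.Agent.R236
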