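/-
Row 236 CLOSED, COUNTING leaves (b1) generic element + bridges.  The owner of the leaf owns this file.
-/
import Claimed.Agent.R236.ClCntDefs

set_option autoImplicit false

namespace Claimed.Agent.R236

open Matrix Module

variable {n : ℕ}

theorem cl_map_sum {m k ι : Type*} (D : ClD) (s : Finset ι) (M : ι → Matrix m k ℂ) :
    (∑ l ∈ s, M l).map D = ∑ l ∈ s, (M l).map D := by
  ext i j
  simp only [Matrix.map_apply, Matrix.sum_apply, map_sum]

/-- **(b1)** a generic element of a linear space of matrices. -/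
theorem cl_generic_in_subspace {S : Set ℂ} (hS : S.Countable) (𝒲 : Submodule ℂ (ClMat n)) :
    ∃ Z ∈ 𝒲, 𝒲 ≤ (clDer S).map (clEvM Z) := by
  classical
  let b := Module.finBasis ℂ 𝒲
  set d := finrank ℂ 𝒲 with hd
  let S2 : Set ℂ := S ∪ ⋃ l : Fin d, clEnt ((b l : 𝒲) : ClMat n)
  have hS2 : S2.Countable := hS.union (Set.countable_iUnion fun l => clEnt_countable _)
  obtain ⟨c, hc⟩ := cl_exists_indep hS2 (Fin d)
  refine ⟨∑ l, c l • ((b l : 𝒲) : ClMat n), ?_, ?_⟩
  · exact Submodule.sum_mem _ fun l _ => Submodule.smul_mem _ _ (b l).2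
  · intro W0 hW0
    obtain ⟨D, hD, hDc⟩ := cl_der_exists S2 c hc (fun l => b.repr ⟨W0, hW0⟩ l)
    refine ⟨D, clDer_anti Set.subset_union_left hD, ?_⟩
    rw [clEvM_apply, cl_map_sum]
    have h1 : ∀ l, ((b l : 𝒲) : ClMat n).map D = 0 := by
      intro l
      rw [cl_map_eq_zero_iff]
      intro s hs
      exact hD s (Or.inr (Set.mem_iUnion.mpr ⟨l, hs⟩))
    have h2 : (⟨W0, hW0⟩ : 𝒲) = ∑ l, b.repr ⟨W0, hW0⟩ l • b l := (b.sum_repr _).symm
    have h3 : W0 = ∑ l, b.repr ⟨W0, hW0⟩ l • ((b l : 𝒲) : ClMat n) := by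
      have h4 := congrArg 𝒲.subtype h2
      rw [map_sum] at h4
      exact h4
    rw [h3]
    refine Finset.sum_congr rfl fun l _ => ?_
    rw [cl_map_smul, h1, smul_zero, add_zero, hDc]

/-! ### bridges -/

/-- a derivation killing `S` and `T` kills the field generated by `T` over `ℚ(S)` -/
theorem cl_der_adjoin {S T : Set ℂ} {D : ClD} (hD : D ∈ clDer S) (hT : ∀ z ∈ T, D z = 0) {z : ℂ}
    (hz : z ∈ IntermediateField.adjoin (clFld S) T) : D z = 0 := by
  induction hz using IntermediateField.adjoin_induction with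
  | mem x hx => exact hT x hx
  | algebraMap x => exact cl_der_fld hD x.2
  | add x y _ _ hx hy => rw [map_add, hx, hy, add_zero]
  | inv x _ hx =>
    by_cases h0 : x = 0
    · subst h0; simp
    · have h1 : D (x * x⁻¹) = 0 := by rw [mul_inv_cancel₀ h0]; exact D.map_one_eq_zero
      rw [D.leibniz, hx, smul_zero, add_zero, smul_eq_mul] at h1
      exact (mul_eq_zero.mp h1).resolve_left h0
  | mul x y _ _ hx hy => rw [D.leibniz, hx, hy, smul_zero, smul_zero, add_zero]

/-- from the output of `gp_generic_point` to the derivation language -/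
theorem cl_dd_ge_of_indep {S : Set ℂ} {σ : Type*} [Finite σ] (y : σ → ℂ) {s : ℕ} (t : Fin s → ℂ)
    (ht : AlgebraicIndependent (clFld S) t)
    (hty : ∀ i, t i ∈ IntermediateField.adjoin (clFld S) (Set.range y)) :
    s ≤ finrank ℂ ((clDer S).map (clEv y)) := by
  have h1 : (clDer S).map (clEv t) = ⊤ := by
    rw [eq_top_iff]
    intro v _
    obtain ⟨D, hD, hDv⟩ := cl_der_exists S t ht v
    exact ⟨D, hD, funext hDv⟩
  have h2 : finrank ℂ ((clDer S).map (clEv t)) = s := by
    rw [h1, finrank_top, Module.finrank_fintype_fun_eq_card, Fintype.card_fin]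
  rw [← h2]
  refine cl_finrank_map_le_of_ker _ _ _ fun D hD hy => ?_
  funext i
  exact cl_der_adjoin hD (by rintro _ ⟨j, rfl⟩; exact congrFun hy j) (hty i)

/-- a derivation of `ℂ` which kills a subalgebra, as a derivation over the subalgebra -/
noncomputable def clDerSub (D : ClD) {k : Type*} [CommRing k] [Algebra k ℂ] (R' : Subalgebra k ℂ)
    (h : ∀ z ∈ R', D z = 0) : Derivation R' ℂ ℂ :=
  Derivation.mk'
    { toFun := D
      map_add' := map_add D
      map_smul' := fun a z => by
        show D (a • z) = a • D z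
        rw [Subalgebra.smul_def, smul_eq_mul, D.leibniz, h a a.2, smul_zero, add_zero,
          Subalgebra.smul_def] }
    (fun a b => D.leibniz a b)

theorem clDerSub_apply (D : ClD) {k : Type*} [CommRing k] [Algebra k ℂ] (R' : Subalgebra k ℂ)
    (h : ∀ z ∈ R', D z = 0) (z : ℂ) : clDerSub D R' h z = D z := rfl

/-- a derivation which kills a subalgebra kills the elements which are algebraic over it -/
theorem cl_der_eq_zero_of_isAlgebraic (D : ClD) {k : Type*} [CommRing k] [Algebra k ℂ]
    (R' : Subalgebra k ℂ) (h : ∀ z ∈ R', D z = 0) {x : ℂ} (hx : IsAlgebraic R' x) : D x = 0 := by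
  classical
  by_contra hDx
  have hex : ∃ m, ∃ P : Polynomial R', P ≠ 0 ∧ Polynomial.aeval x P = 0 ∧ P.natDegree = m := by
    obtain ⟨P, h0, h1⟩ := hx
    exact ⟨_, P, h0, h1, rfl⟩
  obtain ⟨P, hP0, hPx, hPm⟩ := Nat.find_spec hex
  have hmin : ∀ m, m < Nat.find hex → ¬ ∃ P : Polynomial R', P ≠ 0 ∧ Polynomial.aeval x P = 0 ∧
      P.natDegree = m := fun m hm => Nat.find_min hex hm
  have h1 := (clDerSub D R' h).map_aeval P x
  rw [hPx, map_zero, clDerSub_apply, smul_eq_mul] at h1
  have h2 : Polynomial.aeval x P.derivative = 0 := (mul_eq_zero.mp h1.symm).resolve_right hDx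
  by_cases hd : P.derivative = 0
  · have h3 := Polynomial.derivative_eq_zero.mp hd
    have h4 := Polynomial.eq_C_of_natDegree_eq_zero h3
    rw [h4, Polynomial.aeval_C] at hPx
    have h5 : P.coeff 0 = 0 := Subtype.ext hPx
    rw [h5, Polynomial.C_0] at h4
    exact hP0 h4
  · have h3 : P.natDegree ≠ 0 := by
      intro h3
      rw [Polynomial.eq_C_of_natDegree_eq_zero h3, Polynomial.derivative_C] at hd
      exact hd rfl
    exact hmin _ (hPm ▸ Polynomial.natDegree_derivative_lt h3) ⟨_, hd, h2, rfl⟩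

/-- a point with full derivation space has algebraically independent coordinates -/
theorem cl_indep_of_full {S : Set ℂ} {σ : Type*} [Finite σ] (p : σ → ℂ)
    (h : (clDer S).map (clEv p) = ⊤) : AlgebraicIndependent (clFld S) p := by
  classical
  refine algebraicIndependent_of_finite_type' (algebraMap (clFld S) ℂ).injective
    fun t _ _ i hi halg => ?_
  obtain ⟨D, hD, hDp⟩ : (Pi.single i 1 : σ → ℂ) ∈ (clDer S).map (clEv p) := by
    rw [h]
    trivial
  have hkill : ∀ z ∈ Algebra.adjoin (clFld S) (p '' t), D z = 0 := by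
    intro z hz
    induction hz using Algebra.adjoin_induction with
    | mem x hx =>
      obtain ⟨j, hj, rfl⟩ := hx
      have h1 : D (p j) = (Pi.single i 1 : σ → ℂ) j := congrFun hDp j
      rw [h1, Pi.single_eq_of_ne]
      rintro rfl
      exact hi hj
    | algebraMap r => exact cl_der_fld hD r.2
    | add x y _ _ hx hy => rw [map_add, hx, hy, add_zero]
    | mul x y _ _ hx hy => rw [D.leibniz, hx, hy, smul_zero, smul_zero, add_zero]
  have h1 : D (p i) = (Pi.single i 1 : σ → ℂ) i := congrFun hDp i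
  rw [cl_der_eq_zero_of_isAlgebraic D _ hkill halg, Pi.single_eq_same] at h1
  exact zero_ne_one h1

end Claimed.Agent.R236
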