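/-
Row 236, package CLOSED FACETS (sub-captain helper215).  JORDAN NORMAL FORM over `ℂ`.
(proofs: helper162; PID structure theorem on `Module.AEval'`, basis `(X - λ)^j`)

* `cljn_chains_end`  : Jordan chains for an endomorphism over an algebraically closed field;
* `cl_jordan_chains` : chain form (a basis made of Jordan chains);
* `cl_jordan_sub`    : classical subdiagonal matrix form;
* `cl_jordan_mat`    : matrix form `Z = P (Δ + N₀) P'` used by the counting step.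
-/
import Claimed.Agent.R236.ClCntDefs

set_option autoImplicit false

namespace Claimed.Agent.R236

open Matrix Module

section general

open Polynomial


theorem cljn_basis_apply {ι R : Type*} {M : ι → Type*} [DecidableEq ι] [Semiring R]
    [∀ i, AddCommMonoid (M i)] [∀ i, Module R (M i)] {η : ι → Type*}
    (b : ∀ i, Basis (η i) R (M i)) (i : ι) (j : η i) :
    DFinsupp.basis b ⟨i, j⟩ = DFinsupp.single i (b i j) := by
  classical
  rw [← Basis.repr_symm_single_one]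
  simp [DFinsupp.basis]

/-- the basis `(X - λ)^j` of `K[X]/((X-λ)^e)` -/
theorem cljn_quot_basis {K : Type*} [Field K] (lam : K) (e : ℕ) (I : Submodule K[X] K[X])
    (hI : I = Submodule.span K[X] {(X - C lam) ^ e}) :
    ∃ b : Basis (Fin e) K (K[X] ⧸ I), ∀ j, b j = Submodule.Quotient.mk ((X - C lam) ^ (j : ℕ)) := by
  subst hI
  set I : Submodule K[X] K[X] := Submodule.span K[X] {(X - C lam) ^ e} with hI
  let v : Fin e → K[X] ⧸ I := fun j => Submodule.Quotient.mk ((X - C lam) ^ (j : ℕ))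
  have hfin : finrank K (K[X] ⧸ I) = e := by
    have := finrank_quotient_span_eq_natDegree (f := (X - C lam) ^ e)
    rw [natDegree_pow, natDegree_X_sub_C, mul_one] at this
    exact this
  have hspan : ⊤ ≤ Submodule.span K (Set.range v) := by
    rintro q -
    obtain ⟨f, rfl⟩ := Submodule.Quotient.mk_surjective _ q
    rw [← sum_taylor_eq f lam, Polynomial.sum_def, ← Submodule.mkQ_apply, map_sum]
    refine Submodule.sum_mem _ fun i _ => ?_
    rw [← smul_eq_C_mul, Submodule.mkQ_apply, Submodule.Quotient.mk_smul]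
    refine Submodule.smul_mem _ _ ?_
    by_cases hi : i < e
    · exact Submodule.subset_span ⟨⟨i, hi⟩, rfl⟩
    · have : (Submodule.Quotient.mk ((X - C lam) ^ i) : K[X] ⧸ I) = 0 := by
        rw [Submodule.Quotient.mk_eq_zero, hI, Submodule.mem_span_singleton]
        refine ⟨(X - C lam) ^ (i - e), ?_⟩
        rw [smul_eq_mul, ← pow_add, Nat.sub_add_cancel (not_lt.mp hi)]
      rw [this]
      exact Submodule.zero_mem _
  refine ⟨basisOfTopLeSpanOfCardEqFinrank v hspan (by simp [hfin]), fun j => ?_⟩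
  rw [coe_basisOfTopLeSpanOfCardEqFinrank]

universe u v

open DirectSum in
theorem cljn_chains_end {K : Type u} {V : Type v} [Field K] [IsAlgClosed K] [AddCommGroup V]
    [Module K V] [FiniteDimensional K V] (f : V →ₗ[K] V) :
    ∃ (κ : Type u) (_ : Fintype κ) (ℓ : κ → ℕ) (lam : κ → K)
      (b : Basis (Σ c, Fin (ℓ c)) K V),
      ∀ (c : κ) (j : Fin (ℓ c)), f (b ⟨c, j⟩) = lam c • b ⟨c, j⟩ +
        (if h : (j : ℕ) + 1 < ℓ c then b ⟨c, ⟨j + 1, h⟩⟩ else 0) := by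
  classical
  have htors : Module.IsTorsion K[X] (Module.AEval' f) :=
    Module.AEval.isTorsion_of_finiteDimensional K V f
  obtain ⟨κ, hκ, p, hp, e, ⟨φ⟩⟩ := Module.equiv_directSum_of_isTorsion htors
  have hroot : ∀ c, ∃ l : K,
      Submodule.span K[X] {p c ^ e c} = Submodule.span K[X] {(X - C l) ^ e c} := by
    intro c
    obtain ⟨l, hl⟩ := IsAlgClosed.exists_root (p c)
      (by rw [IsAlgClosed.degree_eq_one_of_irreducible K (hp c)]; exact one_ne_zero)
    refine ⟨l, ?_⟩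
    have h1 : Associated (X - C l) (p c) :=
      (irreducible_X_sub_C l).associated_of_dvd (hp c) (dvd_iff_isRoot.mpr hl)
    exact (Ideal.span_singleton_eq_span_singleton.mpr (h1.pow_pow (n := e c))).symm
  choose lam hlam using hroot
  choose bq hbq using fun c => cljn_quot_basis (lam c) (e c) _ (hlam c)
  let B : Basis (Σ c, Fin (e c)) K (Π₀ c, K[X] ⧸ Submodule.span K[X] {p c ^ e c}) :=
    DFinsupp.basis bq
  let ψ : V ≃ₗ[K] (Π₀ c, K[X] ⧸ Submodule.span K[X] {p c ^ e c}) :=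
    (Module.AEval'.of f).trans (φ.restrictScalars K)
  have hψ : ∀ w, f (ψ.symm w) = ψ.symm ((X : K[X]) • w) := by
    intro w
    apply ψ.injective
    rw [LinearEquiv.apply_symm_apply]
    obtain ⟨v, rfl⟩ := ψ.surjective w
    rw [LinearEquiv.symm_apply_apply]
    show φ (Module.AEval'.of f (f v)) = (X : K[X]) • φ (Module.AEval'.of f v)
    rw [← Module.AEval'.X_smul_of, map_smul]
  refine ⟨κ, hκ, e, lam, B.map ψ.symm, fun c j => ?_⟩
  have hB : ∀ j : Fin (e c), B ⟨c, j⟩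
      = DFinsupp.single c (Submodule.Quotient.mk ((X - C (lam c)) ^ (j : ℕ))) := by
    intro j
    rw [← hbq c j]
    exact cljn_basis_apply bq c j
  have hpoly : (X : K[X]) * (X - C (lam c)) ^ (j : ℕ)
      = lam c • (X - C (lam c)) ^ (j : ℕ) + (X - C (lam c)) ^ ((j : ℕ) + 1) := by
    rw [smul_eq_C_mul]; ring
  simp only [Basis.map_apply]
  rw [hψ, hB j, ← DFinsupp.single_smul, ← Submodule.Quotient.mk_smul, smul_eq_mul, hpoly,
    Submodule.Quotient.mk_add, DFinsupp.single_add, map_add, Submodule.Quotient.mk_smul,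
    DFinsupp.single_smul, map_smul]
  congr 1
  split_ifs with h
  · rw [hB ⟨j + 1, h⟩]
  · have hj : (j : ℕ) + 1 = e c := by have := j.2; omega
    have : (Submodule.Quotient.mk ((X - C (lam c)) ^ ((j : ℕ) + 1)) :
        K[X] ⧸ Submodule.span K[X] {p c ^ e c}) = 0 := by
      rw [Submodule.Quotient.mk_eq_zero, hlam c, hj]
      exact Submodule.mem_span_singleton_self _
    rw [this, DFinsupp.single_zero, map_zero]

end general

variable {n : ℕ}

/-- **Jordan normal form, chain form.**  `b ⟨c,j⟩`, `j < ℓ c`, is the `c`-th chain: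
`Z b_{c,j} = lam_c b_{c,j} + b_{c,j+1}` (`b_{c,ℓ c} = 0`). -/
theorem cl_jordan_chains (Z : ClMat n) :
    ∃ (κ : Type) (_ : Fintype κ) (ℓ : κ → ℕ) (lam : κ → ℂ)
      (b : Basis (Σ c, Fin (ℓ c)) ℂ (Fin n → ℂ)),
      ∀ (c : κ) (j : Fin (ℓ c)), Z *ᵥ b ⟨c, j⟩ = lam c • b ⟨c, j⟩ +
        (if h : (j : ℕ) + 1 < ℓ c then b ⟨c, ⟨j + 1, h⟩⟩ else 0) :=
  cljn_chains_end (Matrix.mulVecLin Z)

/-- chains indexed by `Fin m` -/
theorem cljn_chains_fin (Z : ClMat n) :
    ∃ (m : ℕ) (ℓ : Fin m → ℕ) (lam : Fin m → ℂ)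
      (b : Basis (Σ c, Fin (ℓ c)) ℂ (Fin n → ℂ)),
      ∀ (c : Fin m) (j : Fin (ℓ c)), Z *ᵥ b ⟨c, j⟩ = lam c • b ⟨c, j⟩ +
        (if h : (j : ℕ) + 1 < ℓ c then b ⟨c, ⟨j + 1, h⟩⟩ else 0) := by
  obtain ⟨κ, _, ℓ, lam, b, hb⟩ := cl_jordan_chains Z
  let e : Fin (Fintype.card κ) ≃ κ := (Fintype.equivFin κ).symm
  refine ⟨Fintype.card κ, fun i => ℓ (e i), fun i => lam (e i),
    b.reindex (Equiv.sigmaCongrLeft (β := fun c => Fin (ℓ c)) e).symm, fun c j => ?_⟩
  simp only [Basis.reindex_apply, Equiv.symm_symm]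
  exact hb (e c) j

/-- **Jordan normal form**, master matrix form. -/
theorem cljn_master (Z : ClMat n) :
    ∃ (P P' N₀ : ClMat n) (lam : Fin n → ℂ), P * P' = 1 ∧ P' * P = 1 ∧
      Z = P * (Matrix.diagonal lam + N₀) * P' ∧
      (∀ i j, N₀ i j = 0 ∨ N₀ i j = 1) ∧
      (∀ i j, N₀ i j ≠ 0 → lam i = lam j ∧ (i : ℕ) = j + 1) ∧
      (∀ i, ∃ i', lam i' = lam i ∧ ∀ k, N₀ k i' = 0) ∧
      (∀ i, ∃ j', lam j' = lam i ∧ ∀ k, N₀ j' k = 0) := by
  classical
  obtain ⟨m, ℓ, lam, b, hb⟩ := cljn_chains_fin Z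
  have hn : ∑ i, ℓ i = n := by
    have h1 := Module.finrank_eq_card_basis b
    rw [Module.finrank_fin_fun, Fintype.card_sigma] at h1
    simpa using h1.symm
  let σ : (Σ c, Fin (ℓ c)) ≃ Fin n := finSigmaFinEquiv.trans (finCongr hn)
  have hσ : ∀ (c : Fin m) (j : Fin (ℓ c)) (h : (j : ℕ) + 1 < ℓ c),
      (σ ⟨c, ⟨j + 1, h⟩⟩ : ℕ) = (σ ⟨c, j⟩ : ℕ) + 1 := by
    intro c j h
    simp only [σ, Equiv.trans_apply, finCongr_apply, Fin.val_cast, finSigmaFinEquiv_apply]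
    ring
  let β : Basis (Fin n) ℂ (Fin n → ℂ) := b.reindex σ
  have hβ : ∀ x, β (σ x) = b x := by
    intro x; simp [β]
  let lamF : Fin n → ℂ := fun i => lam (σ.symm i).1
  let nx : (Σ c, Fin (ℓ c)) → Fin n → ℂ := fun x i =>
    if ∃ h : (x.2 : ℕ) + 1 < ℓ x.1, i = σ ⟨x.1, ⟨x.2 + 1, h⟩⟩ then 1 else 0
  let N₀ : ClMat n := fun i j => nx (σ.symm j) i
  let P : ClMat n := (Pi.basisFun ℂ (Fin n)).toMatrix β
  let P' : ClMat n := β.toMatrix (Pi.basisFun ℂ (Fin n))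
  have hPP' : P * P' = 1 := Basis.toMatrix_mul_toMatrix_flip _ _
  have hP'P : P' * P = 1 := Basis.toMatrix_mul_toMatrix_flip _ _
  have hPe : ∀ r i, P r i = β i r := by
    intro r i
    simp [P, Basis.toMatrix_apply]
  have hN : ∀ i x, N₀ i (σ x)
      = if ∃ h : (x.2 : ℕ) + 1 < ℓ x.1, i = σ ⟨x.1, ⟨x.2 + 1, h⟩⟩ then 1 else 0 := by
    intro i x
    show nx (σ.symm (σ x)) i = _
    rw [Equiv.symm_apply_apply]
  have hlamF : ∀ x, lamF (σ x) = lam x.1 := by
    intro x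
    simp only [lamF, Equiv.symm_apply_apply]
  have hZP : Z * P = P * (Matrix.diagonal lamF + N₀) := by
    ext r j
    obtain ⟨x, rfl⟩ := σ.surjective j
    obtain ⟨c, k⟩ := x
    have h1 : (Z * P) r (σ ⟨c, k⟩) = (Z *ᵥ b ⟨c, k⟩) r := by
      rw [Matrix.mul_apply, Matrix.mulVec, dotProduct]
      refine Finset.sum_congr rfl fun s _ => ?_
      rw [hPe, hβ]
    rw [h1, hb, Matrix.mul_add, Matrix.add_apply, Matrix.mul_diagonal, hPe, hβ, hlamF,
      Pi.add_apply, Pi.smul_apply, smul_eq_mul, mul_comm, Matrix.mul_apply]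
    congr 1
    by_cases h : (k : ℕ) + 1 < ℓ c
    · rw [dif_pos h, Finset.sum_eq_single (σ ⟨c, ⟨k + 1, h⟩⟩)]
      · rw [hN, if_pos ⟨h, rfl⟩, mul_one, hPe, hβ]
      · intro i _ hi
        rw [hN, if_neg (fun ⟨_, h'⟩ => hi h'), mul_zero]
      · intro h'; exact absurd (Finset.mem_univ _) h'
    · rw [dif_neg h]
      symm
      refine Finset.sum_eq_zero fun i _ => ?_
      rw [hN, if_neg (fun ⟨h', _⟩ => h h'), mul_zero]
  refine ⟨P, P', N₀, lamF, hPP', hP'P, ?_, ?_, ?_, ?_, ?_⟩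
  · rw [← hZP, Matrix.mul_assoc, hPP', Matrix.mul_one]
  · intro i j
    obtain ⟨x, rfl⟩ := σ.surjective j
    rw [hN]
    split_ifs
    · right; rfl
    · left; rfl
  · intro i j hij
    obtain ⟨x, rfl⟩ := σ.surjective j
    obtain ⟨c, k⟩ := x
    rw [hN] at hij
    by_cases h : ∃ h : (k : ℕ) + 1 < ℓ c, i = σ ⟨c, ⟨k + 1, h⟩⟩
    · obtain ⟨h, rfl⟩ := h
      exact ⟨by rw [hlamF, hlamF], hσ c k h⟩
    · rw [if_neg h] at hij
      exact absurd rfl hij
  · intro i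
    obtain ⟨x, rfl⟩ := σ.surjective i
    obtain ⟨c, k⟩ := x
    have hpos : 0 < ℓ c := lt_of_le_of_lt (Nat.zero_le _) k.2
    refine ⟨σ ⟨c, ⟨ℓ c - 1, by omega⟩⟩, by rw [hlamF, hlamF], fun k' => ?_⟩
    rw [hN, if_neg]
    rintro ⟨h, _⟩
    simp only at h
    omega
  · intro i
    obtain ⟨x, rfl⟩ := σ.surjective i
    obtain ⟨c, k⟩ := x
    have hpos : 0 < ℓ c := lt_of_le_of_lt (Nat.zero_le _) k.2
    refine ⟨σ ⟨c, ⟨0, hpos⟩⟩, by rw [hlamF, hlamF], fun k' => ?_⟩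
    obtain ⟨y, rfl⟩ := σ.surjective k'
    obtain ⟨c', k''⟩ := y
    rw [hN, if_neg]
    rintro ⟨h, h'⟩
    have h2 := σ.injective h'
    obtain ⟨rfl, h3⟩ := Sigma.mk.inj_iff.mp h2
    have h4 := congrArg Fin.val (eq_of_heq h3)
    simp at h4

/-- **Jordan normal form, classical subdiagonal form.** -/
theorem cl_jordan_sub (Z : ClMat n) :
    ∃ (P P' N₀ : ClMat n) (lam : Fin n → ℂ), P * P' = 1 ∧ P' * P = 1 ∧
      Z = P * (Matrix.diagonal lam + N₀) * P' ∧
      (∀ i j, N₀ i j = 0 ∨ N₀ i j = 1) ∧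
      (∀ i j, N₀ i j ≠ 0 → lam i = lam j ∧ (i : ℕ) = j + 1) := by
  obtain ⟨P, P', N₀, lam, h1, h2, h3, h4, h5, _, _⟩ := cljn_master Z
  exact ⟨P, P', N₀, lam, h1, h2, h3, h4, h5⟩

/-- **Jordan normal form, matrix form.**  `N₀` is a `0/1` matrix with zero diagonal which only links
indices with the same eigenvalue (so it commutes with `Δ`); moreover every eigenvalue class contains
an index `i` with zero `N₀`-column (`e_i` is an eigenvector of `Δ + N₀`) and an index `j` with zero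
`N₀`-row (`e_jᵀ` is a left eigenvector). -/
theorem cl_jordan_mat (Z : ClMat n) :
    ∃ (P P' N₀ : ClMat n) (lam : Fin n → ℂ), P * P' = 1 ∧ P' * P = 1 ∧
      Z = P * (Matrix.diagonal lam + N₀) * P' ∧
      (∀ i j, N₀ i j = 0 ∨ N₀ i j = 1) ∧
      (∀ i j, N₀ i j ≠ 0 → lam i = lam j ∧ i ≠ j) ∧
      (∀ i, ∃ i', lam i' = lam i ∧ ∀ k, N₀ k i' = 0) ∧
      (∀ i, ∃ j', lam j' = lam i ∧ ∀ k, N₀ j' k = 0) := by
  obtain ⟨P, P', N₀, lam, h1, h2, h3, h4, h5, h6, h7⟩ := cljn_master Z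
  refine ⟨P, P', N₀, lam, h1, h2, h3, h4, fun i j hij => ⟨(h5 i j hij).1, ?_⟩, h6, h7⟩
  rintro rfl
  have := (h5 i i hij).2
  omega

end Claimed.Agent.R236
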