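/-
Row 236 CLOSED, COUNTING leaf (J).  The owner of the leaf owns this file.  (owner helper162)
-/
import Claimed.Agent.R236.ClCntDefs
import Claimed.Agent.R236.ClJordan

set_option autoImplicit false

namespace Claimed.Agent.R236

open Matrix Module

variable {n : ℕ}

/-- rank-nullity for `ad Z` -/
theorem clj_rank_add_cent (Z : ClMat n) :
    finrank ℂ (LinearMap.range (clAd Z)) + finrank ℂ (clCent Z) = n ^ 2 := by
  have h := LinearMap.finrank_range_add_finrank_ker (clAd Z)
  rw [Module.finrank_matrix, Module.finrank_self] at h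
  rw [clCent, h]
  simp [sq]

/-- `ad Z ≠ 0` for a non scalar matrix -/
theorem clj_one_le_rank (Z : ClMat n) (hZ : ∀ z : ℂ, Z ≠ z • (1 : ClMat n)) :
    1 ≤ finrank ℂ (LinearMap.range (clAd Z)) := by
  rw [Nat.one_le_iff_ne_zero]
  intro h
  have h0 : LinearMap.range (clAd Z) = ⊥ := Submodule.finrank_eq_zero.mp h
  have h1 : Z ∈ Set.range (Matrix.scalar (Fin n)) := by
    refine Matrix.mem_range_scalar_of_commute_single fun i j _ => ?_
    have h2 : clAd Z (Matrix.single i j 1) ∈ LinearMap.range (clAd Z) := ⟨_, rfl⟩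
    rw [h0, Submodule.mem_bot, clAd_apply, sub_eq_zero] at h2
    exact h2.symm
  obtain ⟨z, hz⟩ := h1
  refine hZ z ?_
  rw [← hz, Matrix.scalar_apply, Matrix.smul_one_eq_diagonal]

/-- conjugation `M ↦ P M P'` -/
noncomputable def cljConj (P P' : ClMat n) : ClMat n →ₗ[ℂ] ClMat n :=
  LinearMap.mulLeft ℂ P ∘ₗ LinearMap.mulRight ℂ P'

@[simp] theorem cljConj_apply (P P' M : ClMat n) : cljConj P P' M = P * (M * P') := rfl

theorem cljConj_injective {P P' : ClMat n} (_h1 : P * P' = 1) (h2 : P' * P = 1) :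
    Function.Injective (cljConj P P') := by
  intro M M' h
  simp only [cljConj_apply] at h
  have := congrArg (fun X => P' * X * P) h
  simpa only [Matrix.mul_assoc, h2, Matrix.mul_one, ← Matrix.mul_assoc P' P, Matrix.one_mul]
    using this

/-- `ad` of a conjugate -/
theorem clj_ad_conj {P P' : ClMat n} (h2 : P' * P = 1) (J M : ClMat n) :
    clAd (P * J * P') (cljConj P P' M) = cljConj P P' (clAd J M) := by
  simp only [clAd_apply, cljConj_apply, Matrix.mul_sub, Matrix.sub_mul, Matrix.mul_assoc]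
  rw [← Matrix.mul_assoc P' P, h2, Matrix.one_mul, ← Matrix.mul_assoc P' P (J * P'), h2,
    Matrix.one_mul]

/-- matrix units are eigenvectors of `ad J` -/
theorem clj_ad_single (lam : Fin n → ℂ) (N₀ : ClMat n) (a b : Fin n) (ha : ∀ k, N₀ k a = 0)
    (hb : ∀ k, N₀ b k = 0) :
    clAd (Matrix.diagonal lam + N₀) (Matrix.single a b 1)
      = (lam a - lam b) • Matrix.single a b (1 : ℂ) := by
  have h1 : N₀ * Matrix.single a b (1 : ℂ) = 0 := by
    ext i j
    by_cases hj : j = b
    · subst hj; simp [ha]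
    · rw [Matrix.mul_single_apply_of_ne _ _ _ _ _ hj]; rfl
  have h2 : Matrix.single a b (1 : ℂ) * N₀ = 0 := by
    ext i j
    by_cases hi : i = a
    · subst hi; simp [hb]
    · rw [Matrix.single_mul_apply_of_ne _ _ _ _ _ hi]; rfl
  rw [clAd_apply, Matrix.add_mul, Matrix.mul_add, h1, h2, add_zero, add_zero]
  ext i j
  rw [Matrix.sub_apply, Matrix.diagonal_mul, Matrix.mul_diagonal, Matrix.smul_apply, smul_eq_mul]
  by_cases hi : a = i
  · by_cases hj : b = j
    · subst hi; subst hj; simp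
    · simp [hj]
  · simp [hi]

/-- the number of distinct eigenvalues is at most the rank of `ad Z` -/
theorem clj_card_le_rank (Z : ClMat n) (hZ : ∀ z : ℂ, Z ≠ z • (1 : ClMat n))
    {P P' N₀ : ClMat n} {lam : Fin n → ℂ} (h1 : P * P' = 1) (h2 : P' * P = 1)
    (hZJ : Z = P * (Matrix.diagonal lam + N₀) * P')
    (hcol : ∀ i, ∃ i', lam i' = lam i ∧ ∀ k, N₀ k i' = 0)
    (hrow : ∀ i, ∃ j', lam j' = lam i ∧ ∀ k, N₀ j' k = 0) :
    (Finset.univ.image lam).card ≤ finrank ℂ (LinearMap.range (clAd Z)) := by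
  classical
  set E := Finset.univ.image lam with hE
  by_cases hcard : E.card ≤ 1
  · exact hcard.trans (clj_one_le_rank Z hZ)
  · rw [not_le] at hcard
    obtain ⟨μ₀, hμ₀, μ₁, hμ₁, hne⟩ := Finset.one_lt_card.mp hcard
    have hex : ∀ μ : E, ∃ i, lam i = μ := by
      rintro ⟨μ, hμ⟩
      obtain ⟨i, _, hi⟩ := Finset.mem_image.mp hμ
      exact ⟨i, hi⟩
    have hexa : ∀ μ : E, ∃ a, lam a = μ ∧ ∀ k, N₀ k a = 0 := by
      intro μ
      obtain ⟨i, hi⟩ := hex μ
      obtain ⟨a, ha, ha'⟩ := hcol i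
      exact ⟨a, ha.trans hi, ha'⟩
    have hexb : ∀ μ : E, ∃ b, lam b = μ ∧ ∀ k, N₀ b k = 0 := by
      intro μ
      obtain ⟨i, hi⟩ := hex μ
      obtain ⟨b, hb, hb'⟩ := hrow i
      exact ⟨b, hb.trans hi, hb'⟩
    choose a ha ha' using hexa
    choose b hb hb' using hexb
    let σ : E → E := fun μ => if (μ : ℂ) = μ₀ then ⟨μ₁, hμ₁⟩ else ⟨μ₀, hμ₀⟩
    have hσ : ∀ μ : E, ((σ μ : E) : ℂ) ≠ μ := by
      intro μ
      by_cases h : (μ : ℂ) = μ₀
      · simp only [σ, if_pos h]; rw [h]; exact hne.symm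
      · simp only [σ, if_neg h]; exact fun h' => h h'.symm
    have hinj : Function.Injective fun μ : E => (a μ, b (σ μ)) := by
      intro μ ν h
      have h3 : a μ = a ν := congrArg Prod.fst h
      apply Subtype.ext
      rw [← ha μ, ← ha ν, h3]
    have hli : LinearIndependent ℂ fun μ : E => Matrix.single (a μ) (b (σ μ)) (1 : ℂ) := by
      have := (Matrix.stdBasis ℂ (Fin n) (Fin n)).linearIndependent.comp _ hinj
      convert this using 2 with μ
      simp [Matrix.stdBasis_eq_single]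
    have hli2 : LinearIndependent ℂ fun μ : E =>
        cljConj P P' (Matrix.single (a μ) (b (σ μ)) (1 : ℂ)) :=
      hli.map' _ (LinearMap.ker_eq_bot.mpr (cljConj_injective h1 h2))
    have hmem : ∀ μ : E, cljConj P P' (Matrix.single (a μ) (b (σ μ)) (1 : ℂ))
        ∈ LinearMap.range (clAd Z) := by
      intro μ
      have hc : lam (a μ) - lam (b (σ μ)) ≠ 0 := by
        rw [ha, hb, sub_ne_zero]; exact (hσ μ).symm
      refine ⟨(lam (a μ) - lam (b (σ μ)))⁻¹ •
        cljConj P P' (Matrix.single (a μ) (b (σ μ)) (1 : ℂ)), ?_⟩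
      rw [map_smul, hZJ, clj_ad_conj h2, clj_ad_single lam N₀ _ _ (ha' μ) (hb' (σ μ)), map_smul,
        smul_smul, inv_mul_cancel₀ hc, one_smul]
    have hli3 : LinearIndependent ℂ fun μ : E =>
        (⟨_, hmem μ⟩ : LinearMap.range (clAd Z)) := by
      refine LinearIndependent.of_comp (LinearMap.range (clAd Z)).subtype ?_
      exact hli2
    have := hli3.fintype_card_le_finrank
    simpa using this

/-- the derivative of a matrix in Jordan form -/
theorem clj_map_mem (D : ClD) {Z P P' N₀ : ClMat n} {lam : Fin n → ℂ} (h1 : P * P' = 1)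
    (h2 : P' * P = 1) (hZJ : Z = P * (Matrix.diagonal lam + N₀) * P')
    (h01 : ∀ i j, N₀ i j = 0 ∨ N₀ i j = 1) :
    Z.map D ∈ LinearMap.range (clAd Z) ⊔ Submodule.span ℂ
      ((Finset.univ.image lam).image fun μ =>
        cljConj P P' (Matrix.diagonal fun i => if lam i = μ then (1 : ℂ) else 0) : Set (ClMat n)) := by
  classical
  set J := Matrix.diagonal lam + N₀ with hJ
  have hN : N₀.map D = 0 := by
    ext i j
    rcases h01 i j with h | h
    · simp [h]
    · simp [h]
  have hDJ : J.map D = Matrix.diagonal fun i => D (lam i) := by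
    rw [hJ, cl_map_add, cl_map_diagonal, hN, add_zero]
  have hDZ : Z.map D = clAd Z (-(P.map D * P')) + cljConj P P' (J.map D) := by
    rw [clAd_apply, cljConj_apply]
    conv_lhs => rw [hZJ]
    rw [cl_map_mul, cl_map_mul, cl_map_inv D h1, hZJ]
    simp only [Matrix.mul_neg, Matrix.neg_mul, Matrix.mul_assoc, Matrix.add_mul]
    rw [← Matrix.mul_assoc P' P, h2, Matrix.one_mul]
    abel
  rw [hDZ]
  refine Submodule.add_mem_sup ⟨_, rfl⟩ ?_
  have hsum : J.map D = ∑ μ ∈ Finset.univ.image lam,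
      D μ • Matrix.diagonal fun i => if lam i = μ then (1 : ℂ) else 0 := by
    rw [hDJ]
    ext i j
    rw [Matrix.sum_apply]
    by_cases hij : i = j
    · subst hij
      simp only [Matrix.diagonal_apply_eq, Matrix.smul_apply, smul_eq_mul, mul_ite, mul_one,
        mul_zero]
      rw [Finset.sum_ite_eq]
      simp
    · simp [Matrix.diagonal_apply_ne _ hij]
  rw [hsum, map_sum]
  refine Submodule.sum_mem _ fun μ hμ => ?_
  rw [map_smul]
  refine Submodule.smul_mem _ _ (Submodule.subset_span ?_)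
  exact Finset.mem_coe.mpr (Finset.mem_image_of_mem _ hμ)

/-- **(J)** `td(Z) + 2 dim z(Z) ≤ 2 n²` for a non scalar matrix.
Proof: Jordan form `Z = P (Δ + N₀) P'`, `D Z = [DP P', Z] + P (DΔ) P'`, so
`td(Z) ≤ rank ad_Z + e`, `e` = number of distinct eigenvalues; and `e ≤ rank ad_Z`
(matrix units `v_λ ⊗ u_μ`, `λ ≠ μ`; for `e = 1`: `ad_Z ≠ 0`); `rank ad_Z = n² - dim z(Z)`. -/
theorem cl_single_bound (S : Set ℂ) (Z : ClMat n) (hZ : ∀ z : ℂ, Z ≠ z • (1 : ClMat n)) :
    finrank ℂ ((clDer S).map (clEvM Z)) + 2 * finrank ℂ (clCent Z) ≤ 2 * n ^ 2 := by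
  classical
  obtain ⟨P, P', N₀, lam, h1, h2, hZJ, h01, _, hcol, hrow⟩ := cl_jordan_mat Z
  have hr := clj_rank_add_cent Z
  have he := clj_card_le_rank Z hZ h1 h2 hZJ hcol hrow
  set T : Submodule ℂ (ClMat n) := Submodule.span ℂ
      ((Finset.univ.image lam).image fun μ =>
        cljConj P P' (Matrix.diagonal fun i => if lam i = μ then (1 : ℂ) else 0) : Set (ClMat n))
    with hT
  have hTc : finrank ℂ T ≤ (Finset.univ.image lam).card :=
    (finrank_span_finset_le_card _).trans Finset.card_image_le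
  have hle : (clDer S).map (clEvM Z) ≤ LinearMap.range (clAd Z) ⊔ T := by
    rintro _ ⟨D, _, rfl⟩
    exact clj_map_mem D h1 h2 hZJ h01
  have h5 : finrank ℂ ((clDer S).map (clEvM Z))
      ≤ finrank ℂ (LinearMap.range (clAd Z)) + finrank ℂ T :=
    (Submodule.finrank_mono hle).trans
      (Submodule.finrank_add_le_finrank_add_finrank (LinearMap.range (clAd Z)) T)
  omega

end Claimed.Agent.R236
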