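/-
Row 236 CLOSED, COUNTING leaf (b): pairs with a non trivial centraliser.  The owner owns this file.
(owner helper162)
-/
import Claimed.Agent.R236.ClCntB1
import Claimed.Agent.R236.ClCntJ

set_option autoImplicit false

namespace Claimed.Agent.R236

open Matrix Module

variable {n : ℕ}

theorem cl_ker_ev2 (A B : ClMat n) :
    LinearMap.ker (clEv2 A B) = LinearMap.ker (clEvM A) ⊓ LinearMap.ker (clEvM B) := by
  rw [clEv2, LinearMap.ker_prod]

theorem clDer_inf_ker_ev2 (S : Set ℂ) (A B : ClMat n) :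
    clDer S ⊓ LinearMap.ker (clEv2 A B) = clDer (S ∪ clEnt A ∪ clEnt B) := by
  rw [cl_ker_ev2, ← inf_assoc, clDer_inf_ker_evM, clDer_inf_ker_evM]

theorem cl_finrank_mat : finrank ℂ (ClMat n) = n ^ 2 := by
  rw [Module.finrank_matrix, Module.finrank_self]
  simp [sq]

theorem cl_finrank_mat2 : finrank ℂ (ClMat n × ClMat n) = 2 * n ^ 2 := by
  rw [Module.finrank_prod, cl_finrank_mat]; ring

/-- **(b)** `dim z(A,B) ≥ 2 ⇒ td(A,B) + dim z(A,B) ≤ 2 n²`. -/
theorem cl_pair_bound {S : Set ℂ} (hS : S.Countable) (A B : ClMat n)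
    (hk : 2 ≤ finrank ℂ (clCent2 A B)) :
    finrank ℂ ((clDer S).map (clEv2 A B)) + finrank ℂ (clCent2 A B) ≤ 2 * n ^ 2 := by
  have hS' : (S ∪ clEnt A ∪ clEnt B).Countable :=
    (hS.union (clEnt_countable A)).union (clEnt_countable B)
  obtain ⟨Z, hZmem, hZgen⟩ := cl_generic_in_subspace hS' (clCent2 A B)
  -- `Z` is not scalar
  have hZ : ∀ z : ℂ, Z ≠ z • (1 : ClMat n) := by
    rintro z rfl
    have h1 : (clDer (S ∪ clEnt A ∪ clEnt B)).map (clEvM (z • (1 : ClMat n)))
        ≤ Submodule.span ℂ {(1 : ClMat n)} := by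
      rintro _ ⟨D, _, rfl⟩
      rw [clEvM_apply, cl_map_smul, cl_map_one, smul_zero, add_zero]
      exact Submodule.smul_mem _ _ (Submodule.mem_span_singleton_self _)
    have h2 : finrank ℂ (clCent2 A B) ≤ finrank ℂ (Submodule.span ℂ {(1 : ClMat n)}) :=
      Submodule.finrank_mono (hZgen.trans h1)
    have h3 : finrank ℂ (Submodule.span ℂ {(1 : ClMat n)}) ≤ 1 := by
      have := finrank_span_le_card (R := ℂ) ({(1 : ClMat n)} : Set (ClMat n))
      simpa using this
    omega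
  -- the two computations
  have e1 := cl_finrank_map_prod (clDer S) (clEv2 A B) (clEvM Z)
  have e2 := cl_finrank_map_prod (clDer S) (clEvM Z) (clEv2 A B)
  have e3 : finrank ℂ ((clDer S).map ((clEv2 A B).prod (clEvM Z)))
      ≤ finrank ℂ ((clDer S).map ((clEvM Z).prod (clEv2 A B))) := by
    refine cl_finrank_map_le_of_ker _ _ _ fun D _ h => ?_
    have h1 : clEvM Z D = 0 := congrArg Prod.fst h
    have h2 : clEv2 A B D = 0 := congrArg Prod.snd h
    show (clEv2 A B D, clEvM Z D) = 0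
    rw [h1, h2]; rfl
  have e4 : finrank ℂ (clCent2 A B)
      ≤ finrank ℂ ((clDer S ⊓ LinearMap.ker (clEv2 A B)).map (clEvM Z)) := by
    rw [clDer_inf_ker_ev2]
    exact Submodule.finrank_mono hZgen
  have e5 : finrank ℂ ((clDer S ⊓ LinearMap.ker (clEvM Z)).map (clEv2 A B))
      ≤ 2 * finrank ℂ (clCent Z) := by
    have key : ∀ (𝒰 : Submodule ℂ ClD), 𝒰 ≤ LinearMap.ker (clEvM Z) → ∀ M : ClMat n,
        Z ∈ clCent M → finrank ℂ (𝒰.map (clEvM M)) ≤ finrank ℂ (clCent Z) := by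
      intro 𝒰 h𝒰 M hM
      refine Submodule.finrank_mono ?_
      rintro _ ⟨D, hD, rfl⟩
      have hD0 : Z.map D = 0 := LinearMap.mem_ker.mp (h𝒰 hD)
      rw [mem_clCent] at hM
      rw [clEvM_apply, mem_clCent]
      have h2 := congrArg (fun X : ClMat n => X.map D) hM
      simp only [cl_map_mul, hD0, Matrix.mul_zero, Matrix.zero_mul, add_zero, zero_add] at h2
      exact h2.symm
    have h1 : finrank ℂ ((clDer S ⊓ LinearMap.ker (clEvM Z)).map (clEv2 A B))
        = finrank ℂ ((clDer S ⊓ LinearMap.ker (clEvM Z)).map (clEvM A))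
          + finrank ℂ ((clDer S ⊓ LinearMap.ker (clEvM Z) ⊓ LinearMap.ker (clEvM A)).map
              (clEvM B)) :=
      cl_finrank_map_prod (clDer S ⊓ LinearMap.ker (clEvM Z)) (clEvM A) (clEvM B)
    have h2 := key (clDer S ⊓ LinearMap.ker (clEvM Z)) inf_le_right A hZmem.1
    have h3 := key (clDer S ⊓ LinearMap.ker (clEvM Z) ⊓ LinearMap.ker (clEvM A))
      (inf_le_left.trans inf_le_right) B hZmem.2
    omega
  have e6 := cl_single_bound S Z hZ
  omega

theorem cl_pair_le (S : Set ℂ) (A B : ClMat n) :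
    finrank ℂ ((clDer S).map (clEv2 A B)) ≤ 2 * n ^ 2 := by
  rw [← cl_finrank_mat2]
  exact Submodule.finrank_le _

theorem cl_one_le_cent2 (hn : 0 < n) (A B : ClMat n) : 1 ≤ finrank ℂ (clCent2 A B) := by
  have h1 : (1 : ClMat n) ∈ clCent2 A B := by
    exact ⟨mem_clCent.mpr (by simp), mem_clCent.mpr (by simp)⟩
  have : Nonempty (Fin n) := ⟨⟨0, hn⟩⟩
  have h2 : (1 : ClMat n) ≠ 0 := one_ne_zero
  have h3 : clCent2 A B ≠ ⊥ := by
    intro h
    rw [h, Submodule.mem_bot] at h1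
    exact h2 h1
  exact Nat.one_le_iff_ne_zero.mpr (fun h => h3 (Submodule.finrank_eq_zero.mp h))

end Claimed.Agent.R236
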