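/-
Row 236, package CLOSED FACETS (sub-captain helper215).  GENUS ONE, part A (Lemma
commuting-density): definitions, density of the simultaneously diagonalisable pairs,
diagonalisation of triangular matrices with distinct diagonal entries.
-/
import Claimed.Agent.R236.ClBasic
import Claimed.Agent.R236.ClCntDefs

set_option autoImplicit false

namespace Claimed.Agent.R236

open Polynomial Matrix

variable {d : ℕ}

/-- a pair of matrices as a family indexed by `Bool` (`false ↦ A`, `true ↦ B`) -/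
def clPair (A B : ClMat d) : Bool → ClMat d := fun b => cond b B A

@[simp] theorem clPair_false (A B : ClMat d) : clPair A B false = A := rfl
@[simp] theorem clPair_true (A B : ClMat d) : clPair A B true = B := rfl

theorem clPair_eta (x : Bool → ClMat d) : clPair (x false) (x true) = x := by
  funext b; cases b <;> rfl

/-- simultaneously diagonalisable invertible pairs -/
def clDiagPairs (d : ℕ) : Set (Bool → ClMat d) :=
  {x | ∃ (P P' : ClMat d) (u v : Fin d → ℂ), P * P' = 1 ∧ (∀ i, u i ≠ 0) ∧ (∀ i, v i ≠ 0) ∧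
    x false = P * Matrix.diagonal u * P' ∧ x true = P * Matrix.diagonal v * P'}

/-- commuting invertible pairs -/
def clCommPairs (d : ℕ) : Set (Bool → ClMat d) :=
  {x | IsUnit (x false).det ∧ IsUnit (x true).det ∧ x false * x true = x true * x false}

/-- the Krylov matrix `[v, M v, …, M^{d-1} v]` (columns) -/
def clKry (M : ClMat d) (v : Fin d → ℂ) : ClMat d :=
  Matrix.of fun i j => ((M ^ (j : ℕ)) *ᵥ v) i

theorem cl_conj_diag_isUnit {P P' : ClMat d} (h : P * P' = 1) {u : Fin d → ℂ} (hu : ∀ i, u i ≠ 0) :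
    IsUnit (P * Matrix.diagonal u * P').det := by
  have h1 : P.det * P'.det = 1 := by rw [← Matrix.det_mul, h, Matrix.det_one]
  rw [Matrix.det_mul, Matrix.det_mul, Matrix.det_diagonal, isUnit_iff_ne_zero]
  have h2 : ∏ i, u i ≠ 0 := Finset.prod_ne_zero_iff.2 fun i _ => hu i
  have h3 : P.det * (∏ i, u i) * P'.det = ∏ i, u i := by
    calc P.det * (∏ i, u i) * P'.det = (P.det * P'.det) * ∏ i, u i := by ring
      _ = _ := by rw [h1, one_mul]
  rw [h3]; exact h2

theorem cl_conj_mul {P P' : ClMat d} (h : P' * P = 1) (X Y : ClMat d) :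
    (P * X * P') * (P * Y * P') = P * (X * Y) * P' := by
  calc (P * X * P') * (P * Y * P') = P * X * (P' * P) * Y * P' := by
        simp only [Matrix.mul_assoc]
    _ = _ := by rw [h]; simp only [Matrix.mul_assoc, Matrix.mul_one]

theorem clDiagPairs_subset (d : ℕ) : clDiagPairs d ⊆ clCommPairs d := by
  rintro x ⟨P, P', u, v, h, hu, hv, h1, h2⟩
  have h' : P' * P = 1 := mul_eq_one_comm.1 h
  refine ⟨h1 ▸ cl_conj_diag_isUnit h hu, h2 ▸ cl_conj_diag_isUnit h hv, ?_⟩
  rw [h1, h2, cl_conj_mul h', cl_conj_mul h', Matrix.diagonal_mul_diagonal,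
    Matrix.diagonal_mul_diagonal]
  congr 3
  funext i
  exact mul_comm _ _

theorem cl_diag_dense (R : Subring ℂ) (hU : {z : ℂ | z ∈ R ∧ z⁻¹ ∈ R}.Infinite) (d : ℕ) :
    rg_Dense R (rg_matCoord Bool (Fin d)) (clDiagPairs d) := by
  have hD := (cl_gl_dense R hU d).prod ((cl_tor_dense R hU (Fin d)).prod (cl_tor_dense R hU (Fin d)))
  set c' := rg_prodCoord (rg_matCoord Unit (Fin d))
    (rg_prodCoord (clTorCoord (Fin d)) (clTorCoord (Fin d))) with hc'
  set S' : Set ((Unit → ClMat d) × ((Fin d → ℂ) × (Fin d → ℂ))) :=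
    {x | IsUnit (x ()).det} ×ˢ ({u | ∀ i, u i ≠ 0} ×ˢ {u | ∀ i, u i ≠ 0}) with hS'
  let Φ : (Unit → ClMat d) × ((Fin d → ℂ) × (Fin d → ℂ)) → (Bool → ClMat d) := fun y =>
    clPair (y.1 () * Matrix.diagonal y.2.1 * (y.1 ())⁻¹) (y.1 () * Matrix.diagonal y.2.2 * (y.1 ())⁻¹)
  -- regularity of the building blocks
  have hP : rg_MatOn R c' S' (fun y => y.1 ()) := fun a b =>
    rg_RegOn.coord (c := c') (Sum.inl ((), false, a, b))
  have hP' : rg_MatOn R c' S' (fun y => (y.1 ())⁻¹) := fun a b =>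
    rg_RegOn.coord (c := c') (Sum.inl ((), true, a, b))
  have hu : rg_MatOn R c' S' (fun y => Matrix.diagonal y.2.1) :=
    rg_MatOn.diagonal fun a => rg_RegOn.coord (c := c') (Sum.inr (Sum.inl (a, false)))
  have hu' : rg_MatOn R c' S' (fun y => Matrix.diagonal (fun i => (y.2.1 i)⁻¹)) :=
    rg_MatOn.diagonal fun a => rg_RegOn.coord (c := c') (Sum.inr (Sum.inl (a, true)))
  have hv : rg_MatOn R c' S' (fun y => Matrix.diagonal y.2.2) :=
    rg_MatOn.diagonal fun a => rg_RegOn.coord (c := c') (Sum.inr (Sum.inr (a, false)))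
  have hv' : rg_MatOn R c' S' (fun y => Matrix.diagonal (fun i => (y.2.2 i)⁻¹)) :=
    rg_MatOn.diagonal fun a => rg_RegOn.coord (c := c') (Sum.inr (Sum.inr (a, true)))
  have hinv : ∀ (P : ClMat d) (u : Fin d → ℂ), IsUnit P.det → (∀ i, u i ≠ 0) →
      (P * Matrix.diagonal u * P⁻¹)⁻¹ = P * Matrix.diagonal (fun i => (u i)⁻¹) * P⁻¹ := by
    intro P u hPd hu0
    apply Matrix.inv_eq_right_inv
    rw [cl_conj_mul (Matrix.nonsing_inv_mul P hPd), Matrix.diagonal_mul_diagonal]
    have : (fun i => u i * (u i)⁻¹) = fun _ => (1 : ℂ) := by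
      funext i; exact mul_inv_cancel₀ (hu0 i)
    rw [this, Matrix.diagonal_one, Matrix.mul_one, Matrix.mul_nonsing_inv P hPd]
  refine rg_Dense.transfer₁ (c' := c') (S' := S') Φ ?_ ?_ ?_ hD
  · refine rg_matCoord_regOn ?_ ?_
    · rintro (_ | _)
      · exact (hP.mul hu).mul hP'
      · exact (hP.mul hv).mul hP'
    · rintro (_ | _)
      · exact ((hP.mul hu').mul hP').congr fun y hy => hinv _ _ hy.1 hy.2.1
      · exact ((hP.mul hv').mul hP').congr fun y hy => hinv _ _ hy.1 hy.2.2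
  · intro y hy
    exact ⟨y.1 (), (y.1 ())⁻¹, y.2.1, y.2.2, Matrix.mul_nonsing_inv _ hy.1, hy.2.1, hy.2.2, rfl, rfl⟩
  · rintro x ⟨P, P', u, v, h, hu0, hv0, h1, h2⟩
    have hPd : IsUnit P.det := by
      have h1 : P.det * P'.det = 1 := by rw [← Matrix.det_mul, h, Matrix.det_one]
      exact IsUnit.of_mul_eq_one _ h1
    have hP'e : P⁻¹ = P' := Matrix.inv_eq_right_inv h
    refine ⟨(fun _ => P, (u, v)), ⟨hPd, hu0, hv0⟩, ?_⟩
    funext b
    cases b
    · show P * Matrix.diagonal u * P⁻¹ = x false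
      rw [hP'e, h1]
    · show P * Matrix.diagonal v * P⁻¹ = x true
      rw [hP'e, h2]

theorem cl_diagonalizable_of_charpoly (M : ClMat d) (u : Fin d → ℂ) (hu : Function.Injective u)
    (hM : M.charpoly = ∏ i, (X - C (u i))) :
    ∃ Q Q' : ClMat d, Q * Q' = 1 ∧ Q' * Q = 1 ∧ M = Q * Matrix.diagonal u * Q' := by
  classical
  have hex : ∀ i, ∃ w : Fin d → ℂ, w ≠ 0 ∧ M *ᵥ w = u i • w := by
    intro i
    have h1 : (Matrix.scalar (Fin d) (u i) - M).det = 0 := by
      rw [← Matrix.eval_charpoly, hM, eval_prod]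
      exact Finset.prod_eq_zero (Finset.mem_univ i) (by simp)
    obtain ⟨w, hw0, hw⟩ := Matrix.exists_mulVec_eq_zero_iff.2 h1
    refine ⟨w, hw0, ?_⟩
    rw [Matrix.sub_mulVec, sub_eq_zero] at hw
    rw [← hw]
    funext a
    simp [Matrix.mulVec, dotProduct, Matrix.scalar_apply, Matrix.diagonal_apply]
  choose w hw0 hw using hex
  have hli : LinearIndependent ℂ w := by
    refine Module.End.eigenvectors_linearIndependent' (Matrix.toLin' M) u hu w fun i => ?_
    refine ⟨Module.End.mem_eigenspace_iff.2 ?_, hw0 i⟩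
    rw [Matrix.toLin'_apply]; exact hw i
  let Q : ClMat d := Matrix.of fun a i => w i a
  have hQu : IsUnit Q := by
    rw [← Matrix.linearIndependent_cols_iff_isUnit]
    exact hli
  have hQd : IsUnit Q.det := (Matrix.isUnit_iff_isUnit_det Q).1 hQu
  have hMQ : M * Q = Q * Matrix.diagonal u := by
    ext a i
    have h1 : (M * Q) a i = (M *ᵥ w i) a := rfl
    rw [h1, hw i, Matrix.mul_diagonal]
    simp [Q, mul_comm]
  refine ⟨Q, Q⁻¹, Matrix.mul_nonsing_inv Q hQd, Matrix.nonsing_inv_mul Q hQd, ?_⟩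
  rw [← hMQ, Matrix.mul_assoc, Matrix.mul_nonsing_inv Q hQd, Matrix.mul_one]

theorem cl_diagonalizable_of_tri (T : ClMat d) (hT : ∀ i j, i < j → T i j = 0)
    (hinj : Function.Injective fun i => T i i) :
    ∃ Q Q' : ClMat d, Q * Q' = 1 ∧ Q' * Q = 1 ∧ T = Q * Matrix.diagonal (fun i => T i i) * Q' := by
  refine cl_diagonalizable_of_charpoly T _ hinj ?_
  rw [← Matrix.charpoly_transpose]
  have h : (Tᵀ).BlockTriangular id := by
    intro i j hij
    exact hT j i hij
  rw [Matrix.charpoly_of_isUpperTriangular _ h]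
  rfl

end Claimed.Agent.R236
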