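/-
Row 236, package CLOSED FACETS (sub-captain helper215).  GENUS ONE, part B: a regular function
vanishing on the simultaneously diagonalisable pairs vanishes on all pairs `(f(M), M)`.
-/
import Claimed.Agent.R236.ClCommA
import Claimed.Agent.R236.ClJordan

set_option autoImplicit false

namespace Claimed.Agent.R236

open Polynomial Matrix

variable {d : ℕ}

theorem cl_infinite_ne_zero (G : ℂ[X]) (hG : G ≠ 0) : {s : ℂ | G.eval s ≠ 0}.Infinite := by
  have hfin : {s : ℂ | G.eval s = 0}.Finite := by
    refine (G.roots.toFinset.finite_toSet).subset fun s hs => ?_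
    simp only [Finset.mem_coe, Multiset.mem_toFinset]
    exact (mem_roots hG).2 hs
  have h := (Set.infinite_univ (α := ℂ)).sdiff hfin
  refine h.mono fun s hs => hs.2

theorem cl_conj_pow {P P' : ClMat d} (h : P * P' = 1) (h' : P' * P = 1) (A : ClMat d) (k : ℕ) :
    (P * A * P') ^ k = P * A ^ k * P' := by
  induction k with
  | zero => simp [h]
  | succ k ih => rw [pow_succ, ih, cl_conj_mul h', pow_succ]

theorem cl_aeval_conj {P P' : ClMat d} (h : P * P' = 1) (h' : P' * P = 1) (A : ClMat d)
    (f : ℂ[X]) : aeval (P * A * P') f = P * aeval A f * P' := by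
  rw [aeval_eq_sum_range, aeval_eq_sum_range, Finset.mul_sum, Finset.sum_mul]
  refine Finset.sum_congr rfl fun k _ => ?_
  rw [cl_conj_pow h h', Matrix.mul_smul, Matrix.smul_mul]

theorem cl_aeval_diagonal (u : Fin d → ℂ) (f : ℂ[X]) :
    aeval (Matrix.diagonal u : ClMat d) f = Matrix.diagonal fun i => f.eval (u i) := by
  rw [aeval_eq_sum_range]
  ext i j
  rw [Matrix.sum_apply]
  by_cases hij : i = j
  · subst hij
    simp only [Matrix.diagonal_pow, Matrix.smul_apply, Matrix.diagonal_apply_eq, Pi.pow_apply,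
      smul_eq_mul]
    rw [eval_eq_sum_range]
  · simp [Matrix.diagonal_pow, Matrix.diagonal_apply_ne _ hij]

theorem cl_ne_zero_of_conj_diag {P P' : ClMat d} {u : Fin d → ℂ}
    (h : (P * Matrix.diagonal u * P').det ≠ 0) (i : Fin d) : u i ≠ 0 := by
  rw [Matrix.det_mul, Matrix.det_mul, Matrix.det_diagonal] at h
  have h2 : ∏ i, u i ≠ 0 := right_ne_zero_of_mul (left_ne_zero_of_mul h)
  exact (Finset.prod_ne_zero_iff.1 h2) i (Finset.mem_univ i)

theorem cl_map_eval_det (Y : Matrix (Fin d) (Fin d) ℂ[X]) (s : ℂ) :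
    (Y.map (eval s)).det = Y.det.eval s := by
  have := (RingHom.map_det (evalRingHom s) Y).symm
  simpa using this

theorem cl_map_eval_mul (Y Z : Matrix (Fin d) (Fin d) ℂ[X]) (s : ℂ) :
    (Y * Z).map (eval s) = Y.map (eval s) * Z.map (eval s) := by
  have := Matrix.map_mul (L := Y) (M := Z) (f := evalRingHom s)
  simpa using this

theorem cl_map_eval_C (A : ClMat d) (s : ℂ) : (A.map C).map (eval s) = A := by
  ext i j; simp

theorem cl_map_eval_aeval (Y : Matrix (Fin d) (Fin d) ℂ[X]) (f : ℂ[X]) (s : ℂ) :
    (aeval Y f).map (eval s) = aeval (Y.map (eval s)) f := by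
  have h := Polynomial.aeval_algHom_apply ((Polynomial.aeval s : ℂ[X] →ₐ[ℂ] ℂ).mapMatrix
    (m := Fin d)) Y f
  simp only [AlgHom.mapMatrix_apply, Polynomial.coe_aeval_eq_eval] at h
  exact h.symm

theorem cl_poly_pair_zero {F : (Bool → ClMat d) → ℂ}
    (hF : rg_IsReg ⊤ (rg_matCoord Bool (Fin d)) F) (h0 : ∀ x ∈ clDiagPairs d, F x = 0)
    (M : ClMat d) (f : ℂ[X]) (hM : IsUnit M.det) (hfM : IsUnit (aeval M f).det) :
    F (clPair (aeval M f) M) = 0 := by
  classical
  obtain ⟨P, P', N₀, lam, h1, h2, hZ, -, hsub⟩ := cl_jordan_sub M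
  -- the perturbed triangular matrix
  let Ts : ℂ → ClMat d := fun s => Matrix.diagonal (fun i : Fin d => lam i + ((i : ℕ) : ℂ) * s) + N₀
  let Tp : Matrix (Fin d) (Fin d) ℂ[X] :=
    Matrix.diagonal (fun i : Fin d => C (lam i) + C (((i : ℕ) : ℂ)) * X) + N₀.map C
  let Yt : Matrix (Fin d) (Fin d) ℂ[X] := P.map C * Tp * P'.map C
  let Yf : Matrix (Fin d) (Fin d) ℂ[X] := aeval Yt f
  let Y : Bool → Matrix (Fin d) (Fin d) ℂ[X] := fun b => cond b Yt Yf
  have hTp : ∀ s, Tp.map (eval s) = Ts s := by
    intro s
    ext i j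
    by_cases hij : i = j
    · subst hij; simp [Tp, Ts]
    · simp [Tp, Ts, Matrix.diagonal_apply_ne _ hij]
  have hYt : ∀ s, Yt.map (eval s) = P * Ts s * P' := by
    intro s
    simp only [Yt]
    rw [cl_map_eval_mul, cl_map_eval_mul, cl_map_eval_C, cl_map_eval_C, hTp]
  have hYf : ∀ s, Yf.map (eval s) = aeval (P * Ts s * P') f := by
    intro s
    simp only [Yf]
    rw [cl_map_eval_aeval, hYt]
  have hT0 : P * Ts 0 * P' = M := by
    rw [hZ]
    simp [Ts]
  have hY : ∀ s, (fun b => (Y b).map (eval s)) =
      clPair (aeval (P * Ts s * P') f) (P * Ts s * P') := by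
    intro s
    funext b
    cases b
    · exact hYf s
    · exact hYt s
  -- the exceptional polynomial
  let G : ℂ[X] := (∏ i : Fin d, ∏ j : Fin d,
      if i = j then 1 else (C (lam i - lam j) + C (((i : ℕ) : ℂ) - ((j : ℕ) : ℂ)) * X))
      * (Yt.det * Yf.det)
  have hG : G ≠ 0 := by
    refine mul_ne_zero (Finset.prod_ne_zero_iff.2 fun i _ => Finset.prod_ne_zero_iff.2 fun j _ => ?_)
      (mul_ne_zero ?_ ?_)
    · by_cases hij : i = j
      · simp [hij]
      · rw [if_neg hij]
        intro h
        have h3 := congrArg (fun q : ℂ[X] => q.coeff 1) h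
        simp only [coeff_add, coeff_C_mul, coeff_X_one, mul_one, coeff_zero] at h3
        rw [coeff_C_succ, zero_add, sub_eq_zero] at h3
        exact hij (Fin.ext (Nat.cast_injective h3))
    · intro h
      have h3 : (Yt.map (eval 0)).det = 0 := by rw [cl_map_eval_det, h]; simp
      rw [hYt, hT0] at h3
      exact hM.ne_zero h3
    · intro h
      have h3 : (Yf.map (eval 0)).det = 0 := by rw [cl_map_eval_det, h]; simp
      rw [hYf, hT0] at h3
      exact hfM.ne_zero h3
  have key := cl_curve hF Y 0 (by
      intro b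
      cases b
      · show IsUnit ((Yf.map (eval 0)).det)
        rw [hYf, hT0]; exact hfM
      · show IsUnit ((Yt.map (eval 0)).det)
        rw [hYt, hT0]; exact hM) (cl_infinite_ne_zero G hG) (by
      intro s hs
      rw [hY s]
      apply h0
      have hs' : G.eval s ≠ 0 := hs
      simp only [G, eval_mul] at hs'
      have hs1 := left_ne_zero_of_mul hs'
      have hs2 := left_ne_zero_of_mul (right_ne_zero_of_mul hs')
      have hs3 := right_ne_zero_of_mul (right_ne_zero_of_mul hs')
      -- diagonal entries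
      have hdiag : ∀ i, Ts s i i = lam i + ((i : ℕ) : ℂ) * s := by
        intro i
        have : N₀ i i = 0 := by
          by_contra hne
          have := (hsub i i hne).2
          omega
        simp [Ts, this]
      have htri : ∀ i j, i < j → Ts s i j = 0 := by
        intro i j hij
        have : N₀ i j = 0 := by
          by_contra hne
          have := (hsub i j hne).2
          have h4 : (i : ℕ) < j := hij
          omega
        simp [Ts, this, Matrix.diagonal_apply_ne _ (ne_of_lt hij)]
      have hinj : Function.Injective fun i => Ts s i i := by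
        intro i j hij
        by_contra hne
        simp only [hdiag] at hij
        rw [eval_prod] at hs1
        have h5 := (Finset.prod_ne_zero_iff.1 hs1) i (Finset.mem_univ i)
        rw [eval_prod] at h5
        have h6 := (Finset.prod_ne_zero_iff.1 h5) j (Finset.mem_univ j)
        rw [if_neg hne] at h6
        apply h6
        simp only [eval_add, eval_C, eval_mul, eval_X]
        linear_combination hij
      obtain ⟨Q, Q', q1, q2, hQ⟩ := cl_diagonalizable_of_tri (Ts s) htri hinj
      set u : Fin d → ℂ := fun i => Ts s i i with hu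
      have e1 : (P * Q) * (Q' * P') = 1 := by
        calc (P * Q) * (Q' * P') = P * (Q * Q') * P' := by simp only [Matrix.mul_assoc]
          _ = 1 := by rw [q1, Matrix.mul_one, h1]
      have e2 : (Q' * P') * (P * Q) = 1 := mul_eq_one_comm.1 e1
      have e3 : P * Ts s * P' = (P * Q) * Matrix.diagonal u * (Q' * P') := by
        rw [hQ]; simp only [Matrix.mul_assoc]
      have e4 : aeval (P * Ts s * P') f =
          (P * Q) * Matrix.diagonal (fun i => f.eval (u i)) * (Q' * P') := by
        rw [e3, cl_aeval_conj e1 e2, cl_aeval_diagonal]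
      refine ⟨P * Q, Q' * P', fun i => f.eval (u i), u, e1, ?_, ?_, e4, e3⟩
      · refine cl_ne_zero_of_conj_diag (P := P * Q) (P' := Q' * P') ?_
        rw [← e4, ← hYf, cl_map_eval_det]; exact hs3
      · refine cl_ne_zero_of_conj_diag (P := P * Q) (P' := Q' * P') ?_
        rw [← e3, ← hYt, cl_map_eval_det]; exact hs2)
  rw [hY 0, hT0] at key
  exact key

end Claimed.Agent.R236
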