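/-
Row 236, package CLOSED FACETS (sub-captain helper215).  GENUS ONE, part C: cyclic vectors.
(proofs: helper252; auxiliary lemmas have the prefix `clc`)
-/
import Claimed.Agent.R236.ClCommA
import Claimed.Agent.R236.ClJordan

set_option autoImplicit false
set_option linter.unusedVariables false

namespace Claimed.Agent.R236

open Polynomial Matrix

variable {d : ℕ}

theorem clc_mul_kry (X M : ClMat d) (v : Fin d → ℂ) (i j : Fin d) :
    (X * clKry M v) i j = (X *ᵥ ((M ^ (j : ℕ)) *ᵥ v)) i := rfl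

theorem clc_kry_mulVec (M : ClMat d) (v a : Fin d → ℂ) :
    clKry M v *ᵥ a = ∑ j : Fin d, a j • ((M ^ (j : ℕ)) *ᵥ v) := by
  funext i
  simp only [Matrix.mulVec, dotProduct, clKry, Matrix.of_apply, Finset.sum_apply, Pi.smul_apply,
    smul_eq_mul]
  exact Finset.sum_congr rfl fun j _ => mul_comm _ _

/-- The centraliser of a matrix with a cyclic vector consists of polynomials.
PLAN: `a := (clKry M v)⁻¹ *ᵥ (C *ᵥ v)`, `f := ∑ j, C (a j) * X ^ j`; then `(C - f(M)) M^j v = 0`
for all `j`, i.e. `(C - f(M)) * clKry M v = 0`. -/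
theorem cl_comm_cyclic (M C : ClMat d) (v : Fin d → ℂ) (hK : IsUnit (clKry M v).det)
    (hc : C * M = M * C) : ∃ f : ℂ[X], C = aeval M f := by
  set K := clKry M v with hKdef
  set a : Fin d → ℂ := K⁻¹ *ᵥ (C *ᵥ v) with ha
  refine ⟨∑ j : Fin d, Polynomial.C (a j) * X ^ (j : ℕ), ?_⟩
  have hF : aeval M (∑ j : Fin d, Polynomial.C (a j) * X ^ (j : ℕ)) =
      ∑ j : Fin d, a j • M ^ (j : ℕ) := by
    simp [map_sum, Algebra.smul_def]
  rw [hF]
  set F : ClMat d := ∑ j : Fin d, a j • M ^ (j : ℕ) with hFdef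
  have hFv : F *ᵥ v = C *ᵥ v := by
    have h1 : K *ᵥ a = C *ᵥ v := by
      rw [ha, Matrix.mulVec_mulVec, Matrix.mul_nonsing_inv _ hK, Matrix.one_mulVec]
    rw [← h1, hKdef, clc_kry_mulVec, hFdef, Matrix.sum_mulVec]
    exact Finset.sum_congr rfl fun j _ => Matrix.smul_mulVec _ _ _
  have hFM : ∀ k : ℕ, F * M ^ k = M ^ k * F := by
    intro k
    rw [hFdef, Finset.sum_mul, Finset.mul_sum]
    refine Finset.sum_congr rfl fun j _ => ?_
    rw [Matrix.smul_mul, Matrix.mul_smul, ← pow_add, ← pow_add, add_comm]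
  have hCM : ∀ k : ℕ, C * M ^ k = M ^ k * C := by
    intro k
    exact ((show Commute C M from hc).pow_right k)
  have hCK : C * K = F * K := by
    ext i j
    rw [hKdef, clc_mul_kry, clc_mul_kry, Matrix.mulVec_mulVec, Matrix.mulVec_mulVec, hCM, hFM,
      ← Matrix.mulVec_mulVec, ← Matrix.mulVec_mulVec, hFv]
  calc C = C * K * K⁻¹ := by rw [Matrix.mul_assoc, Matrix.mul_nonsing_inv _ hK, Matrix.mul_one]
    _ = F * K * K⁻¹ := by rw [hCK]
    _ = F := by rw [Matrix.mul_assoc, Matrix.mul_nonsing_inv _ hK, Matrix.mul_one]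

/-- the left annihilator of the cyclic subspace generated by `v` -/
def clcAnn (E : ClMat d) (v : Fin d → ℂ) : Submodule ℂ (Fin d → ℂ) where
  carrier := {w | ∀ j : ℕ, w ⬝ᵥ ((E ^ j) *ᵥ v) = 0}
  add_mem' := by
    intro a b ha hb j
    rw [add_dotProduct, ha j, hb j, add_zero]
  zero_mem' := by
    intro j
    rw [zero_dotProduct]
  smul_mem' := by
    intro c a ha j
    rw [smul_dotProduct, ha j, smul_zero]

theorem clc_mem_ann_of_lt (E : ClMat d) (v w : Fin d → ℂ)
    (h : ∀ j : Fin d, w ⬝ᵥ ((E ^ (j : ℕ)) *ᵥ v) = 0) : w ∈ clcAnn E v := by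
  intro k
  rcases Nat.eq_zero_or_pos d with hd | hd
  · subst hd
    simp [dotProduct]
  rw [Matrix.pow_eq_aeval_mod_charpoly]
  set p := X ^ k %ₘ E.charpoly with hp
  have hdeg : p.natDegree < d := by
    have h1 : p.degree < E.charpoly.degree := degree_modByMonic_lt _ (Matrix.charpoly_monic E)
    rw [Matrix.charpoly_degree_eq_dim, Fintype.card_fin] at h1
    by_cases hp0 : p = 0
    · rw [hp0]; simpa using hd
    · exact (natDegree_lt_iff_degree_lt hp0).2 h1
  rw [aeval_eq_sum_range' hdeg, Matrix.sum_mulVec, dotProduct_sum]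
  refine Finset.sum_eq_zero fun i hi => ?_
  rw [Matrix.smul_mulVec, dotProduct_smul, h ⟨i, Finset.mem_range.1 hi⟩, smul_zero]

/-- a singular Krylov matrix gives a left eigenvector which annihilates the cyclic subspace -/
theorem clc_exists_left_eigen (E : ClMat d) (v : Fin d → ℂ) (h : ¬ IsUnit (clKry E v).det) :
    ∃ (w : Fin d → ℂ) (μ : ℂ), w ≠ 0 ∧ w ᵥ* E = μ • w ∧ w ⬝ᵥ v = 0 := by
  have h0 : (clKry E v).det = 0 := by
    by_contra hne
    exact h (isUnit_iff_ne_zero.2 hne)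
  obtain ⟨w₀, hw₀, hw₀K⟩ := Matrix.exists_vecMul_eq_zero_iff.2 h0
  have hw₀mem : w₀ ∈ clcAnn E v := by
    refine clc_mem_ann_of_lt E v w₀ fun j => ?_
    have := congrFun hw₀K j
    exact this
  let T : (Fin d → ℂ) →ₗ[ℂ] (Fin d → ℂ) := Matrix.vecMulLinear E
  have hT : ∀ w ∈ clcAnn E v, T w ∈ clcAnn E v := by
    intro w hw j
    change (w ᵥ* E) ⬝ᵥ ((E ^ j) *ᵥ v) = 0
    rw [← Matrix.dotProduct_mulVec, Matrix.mulVec_mulVec, ← pow_succ']
    exact hw (j + 1)
  have hnt : Nontrivial (clcAnn E v) :=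
    ⟨⟨⟨w₀, hw₀mem⟩, 0, fun hh => hw₀ (congrArg Subtype.val hh)⟩⟩
  obtain ⟨μ, hμ⟩ := Module.End.exists_eigenvalue (T.restrict hT)
  obtain ⟨w, hw⟩ := hμ.exists_hasEigenvector
  refine ⟨w.1, μ, fun hh => hw.2 (Subtype.ext hh), ?_, ?_⟩
  · have := congrArg Subtype.val hw.apply_eq_smul
    exact this
  · have := w.2 0
    simpa using this

/-- The model regular matrix: lower bidiagonal, `eps j ∈ {0,1}` links `j` and `j+1`; whenever the
link is broken the diagonal entry changes to a new value.  The all-ones vector is cyclic.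
PLAN (left eigenvectors).  If `det (clKry E₀ 1) = 0` there is `w ≠ 0` with `w ⬝ᵥ E₀^j 1 = 0` for
`j < d`, hence for all `j : ℕ` (`Matrix.pow_eq_aeval_mod_charpoly`).  The space `W` of such `w` is
invariant under `w ↦ w ᵥ* E₀`, so it contains an eigenvector (`Module.End.exists_eigenvalue` for the
restriction): `(μ - mu_j) w_j = N₀ (j+1) j * w_{j+1}` (right side `0` for `j = d-1`).
Let `j` be the LAST index with `w_j ≠ 0`: then `μ = mu_j`.  If `j > 0` and `N₀ j (j-1) = 1` then
`mu_{j-1} = μ` and the equation at `j-1` reads `0 = w_j`: impossible.  So `j = 0` or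
`N₀ j (j-1) = 0`; in the second case `mu_i ≠ μ` for all `i < j` (`hbreak`) and downward induction
gives `w_i = 0` for `i < j`.  Hence `w = w_j e_j` and `w ⬝ᵥ 1 = w_j ≠ 0`, contradicting `w ∈ W`. -/
theorem cl_model_cyclic (N₀ : ClMat d) (mu : Fin d → ℂ)
    (h01 : ∀ i j, N₀ i j = 0 ∨ N₀ i j = 1) (hsub : ∀ i j, N₀ i j ≠ 0 → (i : ℕ) = j + 1)
    (hlink : ∀ i j, N₀ i j ≠ 0 → mu i = mu j)
    (hbreak : ∀ i j k : Fin d, (i : ℕ) ≤ j → (j : ℕ) + 1 = k → N₀ k j = 0 →
      ∀ l : Fin d, (k : ℕ) ≤ l → mu i ≠ mu l) :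
    IsUnit (clKry (Matrix.diagonal mu + N₀) (fun _ => 1)).det := by
  classical
  by_contra hnot
  obtain ⟨w, μ, hw0, hwE, hw1⟩ := clc_exists_left_eigen _ _ hnot
  have heq : ∀ i, w i * mu i + ∑ k, w k * N₀ k i = μ * w i := by
    intro i
    have := congrFun hwE i
    rw [Matrix.vecMul_add, Pi.add_apply, Matrix.vecMul_diagonal, Pi.smul_apply, smul_eq_mul] at this
    exact this
  -- the last index with `w j ≠ 0`
  have hS : (Finset.univ.filter fun i => w i ≠ 0).Nonempty := by
    by_contra hE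
    rw [Finset.not_nonempty_iff_eq_empty] at hE
    apply hw0
    funext i
    by_contra hi
    have : i ∈ Finset.univ.filter fun i => w i ≠ 0 := Finset.mem_filter.2 ⟨Finset.mem_univ _, hi⟩
    rw [hE] at this
    exact absurd this (Finset.notMem_empty _)
  set j := (Finset.univ.filter fun i => w i ≠ 0).max' hS with hjdef
  have hj : w j ≠ 0 := (Finset.mem_filter.1 (Finset.max'_mem _ hS)).2
  have hmax : ∀ i, w i ≠ 0 → i ≤ j := fun i hi =>
    Finset.le_max' _ i (Finset.mem_filter.2 ⟨Finset.mem_univ _, hi⟩)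
  have hμ : μ = mu j := by
    have h1 : ∑ k, w k * N₀ k j = 0 := by
      refine Finset.sum_eq_zero fun k _ => ?_
      by_contra hne
      have hk1 : w k ≠ 0 := fun h => hne (by rw [h, zero_mul])
      have hk2 : N₀ k j ≠ 0 := fun h => hne (by rw [h, mul_zero])
      have h3 := hsub k j hk2
      have h4 : (k : ℕ) ≤ j := hmax k hk1
      omega
    have h2 := heq j
    rw [h1, add_zero, mul_comm] at h2
    exact (mul_right_cancel₀ hj h2).symm
  subst hμ
  have hstep2 : ∀ j' : Fin d, (j' : ℕ) + 1 = j → N₀ j j' = 0 := by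
    intro j' hj'
    by_contra hne
    have h1 : ∑ k, w k * N₀ k j' = w j * N₀ j j' := by
      refine Finset.sum_eq_single j (fun k _ hk => ?_) (fun h => absurd (Finset.mem_univ _) h)
      by_contra hne'
      have hk2 : N₀ k j' ≠ 0 := fun h => hne' (by rw [h, mul_zero])
      have h3 := hsub k j' hk2
      exact hk (Fin.ext (by omega))
    have h2 := heq j'
    rw [h1, ← hlink j j' hne, mul_comm (w j') (mu j)] at h2
    have h3 : w j * N₀ j j' = 0 := by
      have := add_left_cancel (a := mu j * w j') (b := w j * N₀ j j') (c := 0) (by rw [h2, add_zero])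
      exact this
    rcases mul_eq_zero.1 h3 with h | h
    · exact hj h
    · exact hne h
  have hlow : ∀ i, i < j → w i = 0 := by
    by_contra hcon
    push Not at hcon
    obtain ⟨i₀, hi₀j, hi₀⟩ := hcon
    have hS' : (Finset.univ.filter fun i => i < j ∧ w i ≠ 0).Nonempty :=
      ⟨i₀, Finset.mem_filter.2 ⟨Finset.mem_univ _, hi₀j, hi₀⟩⟩
    set i := (Finset.univ.filter fun i => i < j ∧ w i ≠ 0).max' hS' with hidef
    have hi := (Finset.mem_filter.1 (Finset.max'_mem _ hS')).2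
    have himax : ∀ k, k < j → w k ≠ 0 → k ≤ i := fun k hk1 hk2 =>
      Finset.le_max' _ k (Finset.mem_filter.2 ⟨Finset.mem_univ _, hk1, hk2⟩)
    have hij : (i : ℕ) < j := hi.1
    have h1 : ∑ k, w k * N₀ k i = 0 := by
      refine Finset.sum_eq_zero fun k _ => ?_
      by_contra hne
      have hk1 : w k ≠ 0 := fun h => hne (by rw [h, zero_mul])
      have hk2 : N₀ k i ≠ 0 := fun h => hne (by rw [h, mul_zero])
      have h3 := hsub k i hk2
      rcases lt_or_eq_of_le (hmax k hk1) with hlt | heq'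
      · have h4 : (k : ℕ) ≤ i := himax k hlt hk1
        omega
      · subst heq'
        exact hk2 (hstep2 i h3.symm)
    have h2 := heq i
    rw [h1, add_zero, mul_comm] at h2
    have h3 : mu i = mu j := mul_right_cancel₀ hi.2 h2
    have hjpos : 0 < (j : ℕ) := by omega
    let j' : Fin d := ⟨(j : ℕ) - 1, by have := j.2; omega⟩
    have hj' : (j' : ℕ) + 1 = j := by
      change (j : ℕ) - 1 + 1 = j
      omega
    exact hbreak i j' j (by change (i : ℕ) ≤ (j : ℕ) - 1; omega) hj' (hstep2 j' hj') j le_rfl h3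
  have hsum : w ⬝ᵥ (fun _ => (1 : ℂ)) = w j := by
    simp only [dotProduct, mul_one]
    refine Finset.sum_eq_single j (fun k _ hk => ?_) (fun h => absurd (Finset.mem_univ _) h)
    rcases lt_or_gt_of_ne hk with h | h
    · exact hlow k h
    · by_contra hne
      exact absurd (hmax k hne) (not_le.2 h)
  rw [hsum] at hw1
  exact hj hw1

/-- a matrix which only links indices with equal `u` commutes with `diagonal u` -/
theorem clc_diag_comm (N₀ : ClMat d) (u : Fin d → ℂ) (h : ∀ i j, N₀ i j ≠ 0 → u i = u j) :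
    Matrix.diagonal u * N₀ = N₀ * Matrix.diagonal u := by
  ext i j
  rw [Matrix.diagonal_mul, Matrix.mul_diagonal]
  by_cases h0 : N₀ i j = 0
  · rw [h0, mul_zero, zero_mul]
  · rw [h i j h0, mul_comm]

theorem clc_conj_pow {P P' : ClMat d} (h : P' * P = 1) (X : ClMat d) (k : ℕ) (h' : P * P' = 1) :
    (P * X * P') ^ k = P * X ^ k * P' := by
  induction k with
  | zero => rw [pow_zero, pow_zero, Matrix.mul_one, h']
  | succ k ih => rw [pow_succ, ih, cl_conj_mul h, ← pow_succ]

open Classical in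
/-- number of broken links before `i` -/
noncomputable def clcCnt (N₀ : ClMat d) (i : ℕ) : ℕ :=
  ((Finset.range i).filter fun t => ∃ h : t + 1 < d, N₀ ⟨t + 1, h⟩ ⟨t, by omega⟩ = 0).card

theorem clcCnt_mono (N₀ : ClMat d) {i j : ℕ} (h : i ≤ j) : clcCnt N₀ i ≤ clcCnt N₀ j :=
  Finset.card_le_card (Finset.filter_subset_filter _ (Finset.range_mono h))

theorem clcCnt_succ_of_link (N₀ : ClMat d) (t : ℕ) (h : t + 1 < d)
    (hl : N₀ ⟨t + 1, h⟩ ⟨t, by omega⟩ ≠ 0) : clcCnt N₀ (t + 1) = clcCnt N₀ t := by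
  classical
  unfold clcCnt
  rw [Finset.range_add_one, Finset.filter_insert, if_neg]
  rintro ⟨_, h0⟩
  exact hl h0

theorem clcCnt_succ_of_break (N₀ : ClMat d) (t : ℕ) (h : t + 1 < d)
    (hl : N₀ ⟨t + 1, h⟩ ⟨t, by omega⟩ = 0) : clcCnt N₀ (t + 1) = clcCnt N₀ t + 1 := by
  classical
  unfold clcCnt
  rw [Finset.range_add_one, Finset.filter_insert, if_pos ⟨h, hl⟩, Finset.card_insert_of_notMem]
  intro hmem
  have := (Finset.mem_filter.1 hmem).1
  simp at this

/-- Every matrix commutes with a matrix having a cyclic vector.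
PLAN: `C = P (diag lam + N₀) P'` (`cl_jordan_sub`); `mu i := #{j < i | N₀ (j+1) j = 0}`;
`E := P (diag mu + N₀) P'`, `v := P *ᵥ 1`; `clKry E v = P * clKry (diag mu + N₀) 1`. -/
theorem cl_exists_regular_commuting (C : ClMat d) :
    ∃ (E : ClMat d) (v : Fin d → ℂ), C * E = E * C ∧ IsUnit (clKry E v).det := by
  obtain ⟨P, P', N₀, lam, h1, h2, hC, h01, hN⟩ := cl_jordan_sub C
  set mu : Fin d → ℂ := fun i => (clcCnt N₀ (i : ℕ) : ℂ) with hmu
  have hlink : ∀ i j, N₀ i j ≠ 0 → mu i = mu j := by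
    intro i j hij
    have h3 := (hN i j hij).2
    have h4 : (j : ℕ) + 1 < d := by have := i.2; omega
    have h5 : i = ⟨(j : ℕ) + 1, h4⟩ := Fin.ext h3
    have h6 := clcCnt_succ_of_link N₀ (j : ℕ) h4 (by rw [← h5]; exact hij)
    simp only [hmu]
    rw [h3, h6]
  have hmodel : IsUnit (clKry (Matrix.diagonal mu + N₀) (fun _ => 1)).det := by
    refine cl_model_cyclic N₀ mu h01 (fun i j h => (hN i j h).2) hlink ?_
    intro i j k hij hjk hbr l hkl hcon
    have h4 : (j : ℕ) + 1 < d := by have := k.2; omega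
    have h5 : k = ⟨(j : ℕ) + 1, h4⟩ := Fin.ext hjk.symm
    have h6 := clcCnt_succ_of_break N₀ (j : ℕ) h4 (by rw [← h5]; exact hbr)
    have h7 : clcCnt N₀ (i : ℕ) = clcCnt N₀ (l : ℕ) := by
      simp only [hmu] at hcon
      exact_mod_cast hcon
    have h8 := clcCnt_mono N₀ hij
    have h9 : clcCnt N₀ ((j : ℕ) + 1) ≤ clcCnt N₀ (l : ℕ) := clcCnt_mono N₀ (by omega)
    omega
  refine ⟨P * (Matrix.diagonal mu + N₀) * P', P *ᵥ (fun _ => 1), ?_, ?_⟩
  · rw [hC, cl_conj_mul h2, cl_conj_mul h2]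
    congr 2
    have e1 := clc_diag_comm N₀ lam (fun i j h => (hN i j h).1)
    have e2 := clc_diag_comm N₀ mu hlink
    rw [Matrix.add_mul, Matrix.mul_add, Matrix.mul_add, Matrix.add_mul, Matrix.mul_add,
      Matrix.mul_add, e1, ← e2, Matrix.diagonal_mul_diagonal, Matrix.diagonal_mul_diagonal]
    have e3 : (Matrix.diagonal fun i => lam i * mu i) = Matrix.diagonal fun i => mu i * lam i := by
      congr 1; funext i; exact mul_comm _ _
    rw [e3]
    abel
  · have hK : clKry (P * (Matrix.diagonal mu + N₀) * P') (P *ᵥ (fun _ => 1)) =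
        P * clKry (Matrix.diagonal mu + N₀) (fun _ => 1) := by
      ext i j
      change ((P * (Matrix.diagonal mu + N₀) * P') ^ (j : ℕ) *ᵥ (P *ᵥ (fun _ => 1))) i =
        (P *ᵥ ((Matrix.diagonal mu + N₀) ^ (j : ℕ) *ᵥ (fun _ => 1))) i
      rw [clc_conj_pow h2 _ _ h1, Matrix.mulVec_mulVec, Matrix.mulVec_mulVec, Matrix.mul_assoc, h2,
        Matrix.mul_one]
    rw [hK, Matrix.det_mul]
    have hP : IsUnit P.det := by
      have : P.det * P'.det = 1 := by rw [← Matrix.det_mul, h1, Matrix.det_one]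
      exact IsUnit.of_mul_eq_one _ this
    exact hP.mul hmodel

end Claimed.Agent.R236
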