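/-
Row 236, package CLOSED FACETS (sub-captain helper215).  GENUS ONE: Lemma commuting-density
(Motzkin-Taussky over `R`).
-/
import Claimed.Agent.R236.ClCommB
import Claimed.Agent.R236.ClCommC

set_option autoImplicit false

namespace Claimed.Agent.R236

open Polynomial Matrix

variable {d : ℕ}

/-- PLAN.  Let `F` vanish on the `R`-points.  By `cl_diag_dense` (and `clDiagPairs_subset`) `F = 0`
on `clDiagPairs d`.  Let `(C, D)` commute, `E, v` from `cl_exists_regular_commuting C`.  Curve
`Y false = C.map C`, `Y true = D.map C + X • (E - D).map C`, `s₀ = 0`.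
`T = {s | det (clKry D_s v) ≠ 0 ∧ det D_s ≠ 0}` is cofinite (two nonzero polynomials in `s`:
nonzero at `s = 1` resp. `s = 0`).  For `s ∈ T`: `C = f(D_s)` (`cl_comm_cyclic`), so `F = 0` there by
`cl_poly_pair_zero`.  Conclude with `cl_curve`. -/
theorem cl_commuting_dense (R : Subring ℂ) (hU : {z : ℂ | z ∈ R ∧ z⁻¹ ∈ R}.Infinite) (d : ℕ) :
    rg_Dense R (rg_matCoord Bool (Fin d)) (clCommPairs d) := by
  intro F hF h0 x hx
  have hdiag : ∀ y ∈ clDiagPairs d, F y = 0 :=
    cl_diag_dense R hU d F hF (fun y hy hyR => h0 y (clDiagPairs_subset d hy) hyR)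
  obtain ⟨hC, hD, hCD⟩ := hx
  set A : ClMat d := x false with hA
  set D : ClMat d := x true with hDdef
  obtain ⟨E, v, hAE, hK⟩ := cl_exists_regular_commuting A
  -- the curve
  let Yt : Matrix (Fin d) (Fin d) ℂ[X] := D.map C + (X : ℂ[X]) • (E - D).map C
  let Y : Bool → Matrix (Fin d) (Fin d) ℂ[X] := fun b => cond b Yt (A.map C)
  let Ds : ℂ → ClMat d := fun s => D + s • (E - D)
  have hYt : ∀ s, Yt.map (eval s) = Ds s := by
    intro s
    ext i j
    simp [Yt, Ds]
  have hYf : ∀ s, (A.map C).map (eval s) = A := by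
    intro s
    ext i j
    simp
  have hY : ∀ s, (fun i => (Y i).map (eval s)) = clPair A (Ds s) := by
    intro s
    funext b
    cases b
    · exact hYf s
    · exact hYt s
  have hDs0 : Ds 0 = D := by simp [Ds]
  have hDs1 : Ds 1 = E := by simp [Ds]
  have hcomm : ∀ s, A * Ds s = Ds s * A := by
    intro s
    simp only [Ds, Matrix.mul_add, Matrix.add_mul, Matrix.mul_smul, Matrix.smul_mul, Matrix.mul_sub,
      Matrix.sub_mul, hCD, hAE]
  -- the Krylov matrix as a polynomial matrix
  let Kp : Matrix (Fin d) (Fin d) ℂ[X] := Matrix.of fun i j => ((Yt ^ (j : ℕ)) *ᵥ (fun k => C (v k))) i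
  have hKp : ∀ s, Kp.map (eval s) = clKry (Ds s) v := by
    intro s
    ext i j
    have h1 : (Yt ^ (j : ℕ)).map (eval s) = Ds s ^ (j : ℕ) := by
      have := (RingHom.mapMatrix (evalRingHom s)).map_pow Yt (j : ℕ)
      rw [← hYt s]
      exact this
    simp only [Kp, clKry, Matrix.map_apply, Matrix.of_apply, Matrix.mulVec, dotProduct]
    rw [eval_finsetSum, ← h1]
    simp
  have hdet : ∀ (M : Matrix (Fin d) (Fin d) ℂ[X]) (s : ℂ), (M.map (eval s)).det = M.det.eval s := by
    intro M s
    have := (RingHom.map_det (evalRingHom s) M).symm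
    simpa using this
  set p : ℂ[X] := Kp.det * Yt.det with hp
  have hp0 : p ≠ 0 := by
    apply mul_ne_zero
    · intro h
      have h1 := hdet Kp 1
      rw [h, hKp, hDs1, eval_zero] at h1
      exact hK.ne_zero h1
    · intro h
      have h1 := hdet Yt 0
      rw [h, hYt, hDs0, eval_zero] at h1
      exact hD.ne_zero h1
  let T : Set ℂ := {s | p.eval s ≠ 0}
  have hT : T.Infinite := by
    have h1 : ({s | p.IsRoot s} : Set ℂ).Finite := Polynomial.finite_setOfPred_isRoot hp0
    have h2 := h1.infinite_compl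
    exact h2
  have hz : ∀ s ∈ T, F (fun i => (Y i).map (eval s)) = 0 := by
    intro s hs
    have hs' : (Kp.det).eval s * (Yt.det).eval s ≠ 0 := by
      have : p.eval s ≠ 0 := hs
      rwa [hp, eval_mul] at this
    have hs1 : IsUnit (clKry (Ds s) v).det := by
      rw [← hKp, hdet, isUnit_iff_ne_zero]
      exact left_ne_zero_of_mul hs'
    have hs2 : IsUnit (Ds s).det := by
      rw [← hYt, hdet, isUnit_iff_ne_zero]
      exact right_ne_zero_of_mul hs'
    obtain ⟨f, hf⟩ := cl_comm_cyclic (Ds s) A v hs1 (hcomm s)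
    rw [hY s]
    have := cl_poly_pair_zero hF hdiag (Ds s) f hs2 (hf ▸ hC)
    rwa [← hf] at this
  have hfin := cl_curve hF Y 0 (by
    intro b
    cases b
    · show IsUnit ((A.map C).map (eval 0)).det
      rw [hYf]; exact hC
    · show IsUnit (Yt.map (eval 0)).det
      rw [hYt, hDs0]; exact hD) hT hz
  rw [hY 0, hDs0, hA, hDdef, clPair_eta] at hfin
  exact hfin

end Claimed.Agent.R236
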