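/-
Row 236 CLOSED, COUNTING: the count.  The owner of the leaf owns this file.  (owner helper162)
-/
import Claimed.Agent.R236.ClCntA
import Claimed.Agent.R236.ClCntB

set_option autoImplicit false

namespace Claimed.Agent.R236

open Matrix Module

variable {n : ℕ}

/-! ### the count -/

/-- project away the handle `i`, keep the handle `j₀` apart, bound the others trivially -/
theorem cl_count_aux {g : ℕ} {S : Set ℂ} (A B A' B' : Fin (g + 2) → ClMat n)
    (hA : ∀ j, A j * A' j = 1) (hB : ∀ j, B j * B' j = 1)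
    (hrel : ∀ i, ∀ D ∈ clDer S, (∀ j, j ≠ i → (A j).map D = 0 ∧ (B j).map D = 0) →
      (A i * B i * A' i * B' i).map D = 0) (i j₀ : Fin (g + 2)) (hij : j₀ ≠ i) :
    finrank ℂ ((clDer S).map (LinearMap.pi fun j => clEv2 (A j) (B j)))
      ≤ finrank ℂ ((clDer S).map (clEv2 (A j₀) (B j₀))) + g * (2 * n ^ 2)
        + (n ^ 2 + finrank ℂ (clCent2 (A i) (B i))) := by
  have h1 := cl_finrank_map_pi_le_erase (clDer S) (fun j => clEv2 (A j) (B j)) i
  have h2 : finrank ℂ ((clDer S ⊓ ⨅ j ∈ Finset.univ.erase i,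
      LinearMap.ker (clEv2 (A j) (B j))).map (clEv2 (A i) (B i)))
      ≤ n ^ 2 + finrank ℂ (clCent2 (A i) (B i)) := by
    refine cl_fiber_bound (hA i) (hB i) _ ?_
    rintro D ⟨hD1, hD2⟩
    refine hrel i D hD1 fun j hj => ?_
    have h3 : D ∈ LinearMap.ker (clEv2 (A j) (B j)) := by
      have h4 := hD2
      simp only [SetLike.mem_coe, Submodule.mem_iInf] at h4
      exact h4 j (Finset.mem_erase.mpr ⟨hj, Finset.mem_univ _⟩)
    rw [cl_ker_ev2] at h3
    exact ⟨LinearMap.mem_ker.mp h3.1, LinearMap.mem_ker.mp h3.2⟩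
  have h3 : ∑ j ∈ Finset.univ.erase i, finrank ℂ ((clDer S).map (clEv2 (A j) (B j)))
      ≤ finrank ℂ ((clDer S).map (clEv2 (A j₀) (B j₀))) + g * (2 * n ^ 2) := by
    have hmem : j₀ ∈ Finset.univ.erase i := Finset.mem_erase.mpr ⟨hij, Finset.mem_univ _⟩
    rw [← Finset.add_sum_erase _ _ hmem]
    refine Nat.add_le_add_left ?_ _
    refine (Finset.sum_le_card_nsmul _ _ (2 * n ^ 2) fun j _ => cl_pair_le S (A j) (B j)).trans ?_
    rw [Finset.card_erase_of_mem hmem, Finset.card_erase_of_mem (Finset.mem_univ _),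
      Finset.card_univ, Fintype.card_fin, smul_eq_mul]
    exact le_of_eq (by congr 1)
  omega

/-- **COUNT** (abstract form: the surface relation enters only through `hrel`). -/
theorem cl_count {g : ℕ} {S : Set ℂ} (hS : S.Countable) (A B A' B' : Fin (g + 2) → ClMat n)
    (hA : ∀ j, A j * A' j = 1) (hB : ∀ j, B j * B' j = 1)
    (hrel : ∀ i, ∀ D ∈ clDer S, (∀ j, j ≠ i → (A j).map D = 0 ∧ (B j).map D = 0) →
      (A i * B i * A' i * B' i).map D = 0)
    (hN : (2 * (g + 2) - 1) * n ^ 2 + 1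
      ≤ finrank ℂ ((clDer S).map (LinearMap.pi fun j => clEv2 (A j) (B j)))) :
    (clDer S).map (clEv2 (A 0) (B 0)) = ⊤ := by
  by_contra hne
  have hd0 : finrank ℂ ((clDer S).map (clEv2 (A 0) (B 0))) < 2 * n ^ 2 := by
    rw [← cl_finrank_mat2]
    exact Submodule.finrank_lt hne
  have h01 : (0 : Fin (g + 2)) ≠ 1 := by
    intro h
    have := congrArg Fin.val h
    simp at this
  have hNN : (2 * (g + 2) - 1) * n ^ 2 = 2 * n ^ 2 + g * (2 * n ^ 2) + n ^ 2 := by
    have : 2 * (g + 2) - 1 = 2 * g + 3 := by omega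
    rw [this]; ring
  have a10 := cl_count_aux A B A' B' hA hB hrel 1 0 h01
  have a01 := cl_count_aux A B A' B' hA hB hrel 0 1 h01.symm
  by_cases hk1 : finrank ℂ (clCent2 (A 1) (B 1)) ≤ 1
  · omega
  · have p1 := cl_pair_bound hS (A 1) (B 1) (by omega)
    by_cases hk : finrank ℂ (clCent2 (A 0) (B 0)) ≤ finrank ℂ (clCent2 (A 1) (B 1))
    · omega
    · have p0 := cl_pair_bound hS (A 0) (B 0) (by omega)
      omega

end Claimed.Agent.R236
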