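import Mathlib

/-!
# Row 236, leaf `GenericPoint` (owner helper180)

Replacement of irreducibility / dimension theory in the closed-surface step.

* `gp_le_height_of_isMaximal` : every maximal ideal of `k[x_1..x_d]` has height `≥ d`;
* `gp_dim_lower` : if `p` is a minimal prime over `m` polynomials in `k[x_1..x_d]` and
  `k[x]/p` is integral over the image of `k[Y_1..Y_s]`, then `d ≤ s + m`;
* `gp_generic_point` : a point `y₀` with `f(y₀) = 0`, `F(y₀) ≠ 0` can be replaced by such a point
  `y` whose coordinates generate a field of transcendence degree `≥ d - m` over `k`.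
-/

namespace Claimed.Agent.R236

open Ideal

theorem gp_le_height_of_isMaximal (k : Type*) [Field k] :
    ∀ (d : ℕ) (m : Ideal (MvPolynomial (Fin d) k)), m.IsMaximal → (d : ℕ∞) ≤ m.height := by
  intro d
  induction d with
  | zero => intro m _; simp
  | succ d ih =>
    intro m hm
    let e : MvPolynomial (Fin (d + 1)) k ≃+* Polynomial (MvPolynomial (Fin d) k) :=
      (MvPolynomial.finSuccEquiv k d).toRingEquiv
    have hP : (m.map e).IsMaximal := Ideal.map_isMaximal_of_equiv e
    have hp : ((m.map e).comap (Polynomial.C : MvPolynomial (Fin d) k →+* _)).IsMaximal :=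
      Polynomial.isMaximal_comap_C_of_isJacobsonRing (m.map e)
    have hlo : (m.map e).LiesOver ((m.map e).comap (Polynomial.C : MvPolynomial (Fin d) k →+* _)) :=
      ⟨rfl⟩
    have h1 := Polynomial.height_eq_height_add_one
      ((m.map e).comap (Polynomial.C : MvPolynomial (Fin d) k →+* _)) (m.map e)
    have h2 : (m.map e).height = m.height := e.height_map m
    rw [← h2, h1]
    push_cast
    gcongr
    exact ih _ hp

/-- A domain `B` over a field `k` which is integral over the image of `k[Y_1..Y_s]`, the images of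
the `Y_i` being integral over `k`, is integral over `k`. -/
theorem gp_isIntegral_of_gens {k B : Type*} [Field k] [CommRing B] [Algebra k B] {s : ℕ}
    (g : MvPolynomial (Fin s) k →ₐ[k] B) (hg : g.IsIntegral)
    (hY : ∀ i, IsIntegral k (g (MvPolynomial.X i))) : Algebra.IsIntegral k B := by
  have hC : ∀ q, g q ∈ integralClosure k B := by
    intro q
    induction q using MvPolynomial.induction_on with
    | C a =>
      have : g (MvPolynomial.C a) = algebraMap k B a := by
        rw [← MvPolynomial.algebraMap_eq, AlgHom.commutes]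
      rw [this]; exact Subalgebra.algebraMap_mem _ a
    | add p q hp hq => rw [map_add]; exact add_mem hp hq
    | mul_X p i hp => rw [map_mul]; exact mul_mem hp (hY i)
  let g' : MvPolynomial (Fin s) k →ₐ[k] integralClosure k B := g.codRestrict _ hC
  refine ⟨fun b => ?_⟩
  obtain ⟨q, hq, hq0⟩ := hg b
  have hb : IsIntegral (integralClosure k B) b := by
    refine ⟨q.map g'.toRingHom, hq.map _, ?_⟩
    rw [Polynomial.eval₂_map]
    have : (algebraMap (integralClosure k B) B).comp g'.toRingHom = g.toRingHom := by
      ext x <;> rfl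
    rw [this]; exact hq0
  exact isIntegral_trans b hb

/-- **Lower bound for the dimension of a component.** -/
theorem gp_dim_lower {k : Type*} [Field k] {d : ℕ} (S : Finset (MvPolynomial (Fin d) k))
    (p : Ideal (MvPolynomial (Fin d) k)) (hp : p ∈ (Ideal.span (S : Set _)).minimalPrimes)
    {s : ℕ} (g : MvPolynomial (Fin s) k →ₐ[k] (MvPolynomial (Fin d) k ⧸ p)) (hg : g.IsIntegral) :
    d ≤ s + S.card := by
  classical
  set I : Ideal (MvPolynomial (Fin d) k) := Ideal.span (S : Set (MvPolynomial (Fin d) k)) with hI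
  have hpp : p.IsPrime := hp.1.1
  have hIp : I ≤ p := hp.1.2
  -- an element of all the other minimal primes, not in `p`
  have hfin : (I.minimalPrimes).Finite := Ideal.finite_minimalPrimes_of_isNoetherianRing (MvPolynomial (Fin d) k) I
  obtain ⟨h, hh, hhp⟩ : ∃ h : (MvPolynomial (Fin d) k), (∀ q ∈ I.minimalPrimes, q ≠ p → h ∈ q) ∧ h ∉ p := by
    let T : Finset (Ideal (MvPolynomial (Fin d) k)) := hfin.toFinset.erase p
    have hT : ¬ (T.inf id ≤ p) := by
      intro hle
      obtain ⟨q, hq, hqp⟩ := (Ideal.IsPrime.inf_le' hpp).1 hle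
      rw [Finset.mem_erase, Set.Finite.mem_toFinset] at hq
      exact hq.1 (le_antisymm hqp (hp.2 hq.2.1 hqp))
    obtain ⟨h, hhT, hhp⟩ := SetLike.not_le_iff_exists.1 hT
    refine ⟨h, fun q hq hqp => ?_, hhp⟩
    have : T.inf id ≤ q := Finset.inf_le (f := id) (by
      rw [Finset.mem_erase, Set.Finite.mem_toFinset]; exact ⟨hqp, hq⟩)
    exact this hhT
  -- a maximal ideal on the component, off the other components
  obtain ⟨M, hpM, hM, hhM⟩ : ∃ M : Ideal (MvPolynomial (Fin d) k), p ≤ M ∧ M.IsMaximal ∧ h ∉ M := by
    have hj : p.jacobson = p := IsJacobsonRing.out inferInstance hpp.isRadical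
    by_contra hcon
    push Not at hcon
    apply hhp
    rw [← hj, Ideal.jacobson, Ideal.mem_sInf]
    intro J hJ
    exact hcon J hJ.1 hJ.2
  -- lifts of the parameters and their minimal equations modulo `M`
  choose Y hY using fun i : Fin s => Ideal.Quotient.mk_surjective (g (MvPolynomial.X i))
  have hint := MvPolynomial.quotient_mk_comp_C_isIntegral_of_isJacobsonRing M
  choose μ hμ hμ0 using fun i : Fin s => hint (Ideal.Quotient.mk M (Y i))
  have hμM : ∀ i, Polynomial.aeval (Y i) (μ i) ∈ M := by
    intro i
    rw [← Ideal.Quotient.eq_zero_iff_mem, ← hμ0 i, Polynomial.aeval_def, Polynomial.hom_eval₂]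
    rfl
  let T' : Finset (MvPolynomial (Fin d) k) := S ∪ Finset.univ.image fun i => Polynomial.aeval (Y i) (μ i)
  have hcard : T'.card ≤ S.card + s := by
    refine (Finset.card_union_le _ _).trans ?_
    gcongr
    exact Finset.card_image_le.trans (by simp)
  have hmin : M ∈ (Ideal.span (T' : Set (MvPolynomial (Fin d) k))).minimalPrimes := by
    refine ⟨⟨hM.isPrime, ?_⟩, ?_⟩
    · rw [Ideal.span_le]
      intro x hx
      rw [Finset.mem_coe, Finset.mem_union] at hx
      rcases hx with hx | hx
      · exact hpM (hIp (Ideal.subset_span hx))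
      · obtain ⟨i, _, rfl⟩ := Finset.mem_image.1 hx
        exact hμM i
    · rintro P ⟨hP, hTP⟩ hPM
      have hIP : I ≤ P := by
        rw [hI, Ideal.span_le]
        intro x hx
        exact hTP (Ideal.subset_span (by
          rw [Finset.mem_coe, Finset.mem_union]; exact Or.inl hx))
      obtain ⟨q, hq, hqP⟩ := Ideal.exists_minimalPrimes_le hIP
      have hqp : q = p := by
        by_contra hne
        exact hhM (hPM (hqP (hh q hq hne)))
      subst hqp
      -- `(MvPolynomial (Fin d) k) ⧸ P` is integral over `k`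
      let φ : ((MvPolynomial (Fin d) k) ⧸ q) →ₐ[k] ((MvPolynomial (Fin d) k) ⧸ P) := Ideal.Quotient.factorₐ k hqP
      have hφ : Function.Surjective φ := Ideal.Quotient.factor_surjective hqP
      have hint' : Algebra.IsIntegral k ((MvPolynomial (Fin d) k) ⧸ P) := by
        refine gp_isIntegral_of_gens (φ.comp g) ?_ ?_
        · exact RingHom.IsIntegral.trans _ _ hg (RingHom.isIntegral_of_surjective _ hφ)
        · intro i
          refine ⟨μ i, hμ i, ?_⟩
          have h1 : (φ.comp g) (MvPolynomial.X i) = Ideal.Quotient.mk P (Y i) := by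
            rw [AlgHom.comp_apply, ← hY i]; rfl
          have h2 : Polynomial.aeval (Y i) (μ i) ∈ P := hTP (Ideal.subset_span (by
            rw [Finset.mem_coe, Finset.mem_union]
            exact Or.inr (Finset.mem_image.2 ⟨i, Finset.mem_univ _, rfl⟩)))
          rw [h1, ← Polynomial.aeval_def]
          have h3 : Polynomial.aeval (Ideal.Quotient.mk P (Y i)) (μ i) =
              Ideal.Quotient.mkₐ k P (Polynomial.aeval (Y i) (μ i)) := by
            rw [← Polynomial.aeval_algHom_apply]; rfl
          rw [h3]
          exact Ideal.Quotient.eq_zero_iff_mem.2 h2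
      have hfield : IsField ((MvPolynomial (Fin d) k) ⧸ P) :=
        isField_of_isIntegral_of_isField' (R := k) (Field.toIsField k)
      have hPmax : P.IsMaximal := Ideal.Quotient.maximal_of_isField P hfield
      exact (hPmax.eq_of_le hM.ne_top hPM).ge
  have h1 := gp_le_height_of_isMaximal k d M hM
  have h2 := Ideal.height_le_card_of_mem_minimalPrimes_span_finset hmin
  have h3 : (d : ℕ∞) ≤ (T'.card : ℕ∞) := h1.trans h2
  have h4 : d ≤ T'.card := by exact_mod_cast h3
  omega

/-- Values of polynomials at points of an intermediate field lie in it. -/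
theorem gp_aeval_mem {k K : Type*} [Field k] [Field K] [Algebra k K] {σ : Type*}
    (L : IntermediateField k K) (pt : σ → K) (hpt : ∀ j, pt j ∈ L) (q : MvPolynomial σ k) :
    MvPolynomial.aeval pt q ∈ L := by
  induction q using MvPolynomial.induction_on with
  | C a => rw [MvPolynomial.aeval_C]; exact L.algebraMap_mem a
  | add p q hp hq => rw [map_add]; exact add_mem hp hq
  | mul_X p i hp => rw [map_mul, MvPolynomial.aeval_X]; exact mul_mem hp (hpt i)

/-- Extension of an embedding into an algebraically closed field along an integral extension of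
domains. -/
theorem gp_extend {P B K : Type*} [CommRing P] [IsDomain P] [CommRing B] [IsDomain B] [Field K]
    [IsAlgClosed K] (g : P →+* B) (ginj : Function.Injective g) (gint : g.IsIntegral)
    (τ : P →+* K) (τinj : Function.Injective τ) : ∃ ψ : B →+* K, ψ.comp g = τ := by
  let _ : Algebra P B := g.toAlgebra
  let _ : Algebra P K := τ.toAlgebra
  have : Module.IsTorsionFree P B := Module.isTorsionFree_iff_algebraMap_injective.2 ginj
  have : Module.IsTorsionFree P K := Module.isTorsionFree_iff_algebraMap_injective.2 τinj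
  have : Algebra.IsIntegral P B := ⟨gint⟩
  let ψ : B →ₐ[P] K := IsAlgClosed.lift
  exact ⟨ψ.toRingHom, RingHom.ext fun x => ψ.commutes x⟩

/-- **Generic point lemma.**  `K` is an algebraically closed extension of `k` of infinite
transcendence degree.  If the system `f = 0 (f ∈ S)`, `F ≠ 0` in `d` unknowns has a solution in `K`,
it has a solution whose coordinates generate a field of transcendence degree `≥ d - |S|`. -/
theorem gp_generic_point {k K : Type*} [Field k] [Field K] [Algebra k K] [IsAlgClosed K]
    (hK : ∀ n : ℕ, ∃ t : Fin n → K, AlgebraicIndependent k t) {d : ℕ}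
    (S : Finset (MvPolynomial (Fin d) k)) (F : MvPolynomial (Fin d) k) (y₀ : Fin d → K)
    (h₀ : ∀ f ∈ S, MvPolynomial.aeval y₀ f = 0) (hF : MvPolynomial.aeval y₀ F ≠ 0) :
    ∃ y : Fin d → K, (∀ f ∈ S, MvPolynomial.aeval y f = 0) ∧ MvPolynomial.aeval y F ≠ 0 ∧
      ∃ s : ℕ, d ≤ s + S.card ∧ ∃ t : Fin s → K, AlgebraicIndependent k t ∧
        ∀ i, t i ∈ IntermediateField.adjoin k (Set.range y) := by
  classical
  let R : MvPolynomial (Fin d) k →ₐ[k] MvPolynomial (Fin (d + 1)) k :=
    MvPolynomial.rename Fin.castSucc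
  let W : MvPolynomial (Fin (d + 1)) k := MvPolynomial.X (Fin.last d) * R F - 1
  let S' : Finset (MvPolynomial (Fin (d + 1)) k) := insert W (S.image R)
  have hcard : S'.card ≤ S.card + 1 :=
    (Finset.card_insert_le _ _).trans (by gcongr; exact Finset.card_image_le)
  have hR : ∀ (pt : Fin (d + 1) → K) (f : MvPolynomial (Fin d) k),
      MvPolynomial.aeval pt (R f) = MvPolynomial.aeval (fun i => pt (Fin.castSucc i)) f := by
    intro pt f
    exact MvPolynomial.aeval_rename _ _ _
  let pt₀ : Fin (d + 1) → K := Fin.snoc y₀ (MvPolynomial.aeval y₀ F)⁻¹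
  have hpt₀ : (fun i => pt₀ (Fin.castSucc i)) = y₀ := by
    funext i; simp [pt₀]
  have hker : Ideal.span (S' : Set (MvPolynomial (Fin (d + 1)) k)) ≤
      RingHom.ker (MvPolynomial.aeval pt₀ : MvPolynomial (Fin (d + 1)) k →ₐ[k] K) := by
    rw [Ideal.span_le]
    intro x hx
    rw [Finset.mem_coe, Finset.mem_insert] at hx
    rw [SetLike.mem_coe, RingHom.mem_ker]
    rcases hx with rfl | hx
    · simp only [W, map_sub, map_mul, map_one, MvPolynomial.aeval_X, hR, hpt₀]
      simp [pt₀, hF]
    · obtain ⟨f, hf, rfl⟩ := Finset.mem_image.1 hx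
      rw [hR, hpt₀]; exact h₀ f hf
  have : (RingHom.ker (MvPolynomial.aeval pt₀ : MvPolynomial (Fin (d + 1)) k →ₐ[k] K)).IsPrime :=
    RingHom.ker_isPrime _
  obtain ⟨p, hp, -⟩ := Ideal.exists_minimalPrimes_le hker
  have hpp : p.IsPrime := hp.1.1
  obtain ⟨s, -, g, ginj, gint⟩ := exists_integral_inj_algHom_of_quotient p hpp.ne_top
  have hdim := gp_dim_lower S' p hp g gint
  obtain ⟨t, ht⟩ := hK s
  obtain ⟨ψ, hψ⟩ := gp_extend g.toRingHom ginj gint
    (MvPolynomial.aeval t : MvPolynomial (Fin s) k →ₐ[k] K).toRingHom ht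
  have hψ' : ∀ q, ψ (g q) = MvPolynomial.aeval t q := fun q => RingHom.congr_fun hψ q
  let pt : Fin (d + 1) → K := fun j => ψ (Ideal.Quotient.mk p (MvPolynomial.X j))
  have hΨ : ∀ q : MvPolynomial (Fin (d + 1)) k,
      ψ (Ideal.Quotient.mk p q) = MvPolynomial.aeval pt q := by
    intro q
    induction q using MvPolynomial.induction_on with
    | C a =>
      have h1 : Ideal.Quotient.mk p (MvPolynomial.C a) = g (MvPolynomial.C a) := by
        rw [← MvPolynomial.algebraMap_eq, ← MvPolynomial.algebraMap_eq, AlgHom.commutes]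
        rfl
      rw [h1, hψ', MvPolynomial.aeval_C, MvPolynomial.aeval_C]
    | add p q hp hq => rw [map_add, map_add, map_add, hp, hq]
    | mul_X p i hp => rw [map_mul, map_mul, map_mul, hp, MvPolynomial.aeval_X]
  have hzero : ∀ q ∈ S', MvPolynomial.aeval pt q = 0 := by
    intro q hq
    rw [← hΨ, Ideal.Quotient.eq_zero_iff_mem.2 (hp.1.2 (Ideal.subset_span hq)), map_zero]
  have hW : pt (Fin.last d) * MvPolynomial.aeval (fun i => pt (Fin.castSucc i)) F = 1 := by
    have := hzero W (Finset.mem_insert_self _ _)
    simp only [W, map_sub, map_mul, map_one, MvPolynomial.aeval_X, hR] at this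
    exact sub_eq_zero.1 this
  refine ⟨fun i => pt (Fin.castSucc i), ?_, ?_, s, by omega, t, ht, ?_⟩
  · intro f hf
    rw [← hR]
    exact hzero _ (Finset.mem_insert_of_mem (Finset.mem_image_of_mem _ hf))
  · intro h
    rw [h, mul_zero] at hW
    exact zero_ne_one hW
  · intro i
    obtain ⟨Y, hY⟩ := Ideal.Quotient.mk_surjective (g (MvPolynomial.X i))
    have h1 : t i = MvPolynomial.aeval pt Y := by
      rw [← hΨ, hY, hψ', MvPolynomial.aeval_X]
    rw [h1]
    apply gp_aeval_mem
    intro j
    refine Fin.lastCases ?_ (fun j => ?_) j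
    · have h2 : pt (Fin.last d) = (MvPolynomial.aeval (fun i => pt (Fin.castSucc i)) F)⁻¹ :=
        eq_inv_of_mul_eq_one_left hW
      rw [h2]
      apply inv_mem
      apply gp_aeval_mem
      intro j
      exact IntermediateField.subset_adjoin _ _ ⟨j, rfl⟩
    · exact IntermediateField.subset_adjoin _ _ ⟨j, rfl⟩

/-- Over a countable subfield, `ℂ` contains arbitrarily many algebraically independent elements. -/
theorem gp_complex_algebraicIndependent (k : Type) [Field k] [Algebra k ℂ] [Countable k] (n : ℕ) :
    ∃ t : Fin n → ℂ, AlgebraicIndependent k t := by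
  obtain ⟨B, hB⟩ := exists_isTranscendenceBasis k ℂ
  have hcard := IsAlgClosed.cardinal_eq_cardinal_transcendence_basis_of_aleph0_lt'
    (R := k) (K' := ℂ) ((↑) : B → ℂ) hB (Cardinal.mk_le_aleph0)
    (by rw [Cardinal.mk_complex]; exact Cardinal.aleph0_lt_continuum)
  have hinf : Infinite B := by
    rw [Cardinal.infinite_iff, ← hcard, Cardinal.mk_complex]
    exact Cardinal.aleph0_le_continuum
  let e : Fin n ↪ B := (Fin.valEmbedding).trans (Infinite.natEmbedding B)
  exact ⟨fun i => (e i : ℂ), hB.1.comp e e.injective⟩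

end Claimed.Agent.R236
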