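/-
Row 236, package CLOSED FACETS (sub-captain helper215).  FRIEDLAND'S THEOREM (multiplicative
inverse eigenvalue problem), in the "only the trivial zero" form.

* `cl_exists_nonzero_zero` : fewer than `d` polynomials in `d` variables over an algebraically
  closed field which all vanish at `0` have a common zero `≠ 0`;
* `cl_charpoly_smul_coeff` : homogeneity of the coefficients of the characteristic polynomial;
* `cl_friedland`.
-/
import Claimed.Agent.R236.GenericPoint

set_option autoImplicit false

namespace Claimed.Agent.R236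

open Matrix Polynomial

/-- Fewer than `d` polynomials in `d` variables, all vanishing at the origin, have a nontrivial
common zero (Krull's height theorem + Nullstellensatz). -/
theorem cl_exists_nonzero_zero {K : Type*} [Field K] [IsAlgClosed K] {d : ℕ}
    (S : Finset (MvPolynomial (Fin d) K)) (hS : S.card < d)
    (h0 : ∀ f ∈ S, MvPolynomial.eval 0 f = 0) :
    ∃ y : Fin d → K, y ≠ 0 ∧ ∀ f ∈ S, MvPolynomial.eval y f = 0 := by
  classical
  by_contra hcon
  have hcon' : ∀ y : Fin d → K, (∀ f ∈ S, MvPolynomial.eval y f = 0) → y = 0 := by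
    intro y hy
    by_contra hne
    exact hcon ⟨y, hne, hy⟩
  set I : Ideal (MvPolynomial (Fin d) K) := Ideal.span (S : Set (MvPolynomial (Fin d) K)) with hI
  set m : Ideal (MvPolynomial (Fin d) K) := MvPolynomial.vanishingIdeal K {(0 : Fin d → K)} with hm
  have hmmax : m.IsMaximal := inferInstance
  have hZ : MvPolynomial.zeroLocus K I = {(0 : Fin d → K)} := by
    rw [hI, MvPolynomial.zeroLocus_span]
    ext y
    simp only [Set.mem_ofPred_eq, Set.mem_singleton_iff, Finset.mem_coe]
    constructor
    · intro hy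
      exact hcon' y (fun f hf => by simpa [MvPolynomial.aeval_eq_eval] using hy f hf)
    · rintro rfl f hf
      simpa [MvPolynomial.aeval_eq_eval] using h0 f hf
  have hrad : I.radical = m := by
    rw [← MvPolynomial.vanishingIdeal_zeroLocus_eq_radical (K := K), hZ]
  have hmin : m ∈ I.minimalPrimes := by
    refine ⟨⟨hmmax.isPrime, hrad ▸ Ideal.le_radical⟩, ?_⟩
    rintro q ⟨hq, hIq⟩ _
    rw [← hrad]
    exact (hq.radical_le_iff).2 hIq
  have h1 : m.height ≤ S.card := Ideal.height_le_card_of_mem_minimalPrimes_span_finset hmin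
  have h2 : (d : ℕ∞) ≤ m.height := gp_le_height_of_isMaximal K d m hmmax
  have h3 : (d : ℕ∞) ≤ (S.card : ℕ∞) := h2.trans h1
  have h4 : d ≤ S.card := by exact_mod_cast h3
  omega

/-- Homogeneity of the characteristic polynomial. -/
theorem cl_charpoly_smul_coeff {n : ℕ} (M : Matrix (Fin n) (Fin n) ℂ) (c : ℂ) (hc : c ≠ 0) (k : ℕ) :
    (c • M).charpoly.coeff k = c ^ n * (M.charpoly.coeff k * (c⁻¹) ^ k) := by
  have key : (c • M).charpoly = C (c ^ n) * (M.charpoly.comp (C c⁻¹ * X)) := by
    apply Polynomial.funext
    intro x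
    rw [Matrix.eval_charpoly, eval_mul, eval_C, eval_comp, eval_mul, eval_C, eval_X,
      Matrix.eval_charpoly]
    have : Matrix.scalar (Fin n) x - c • M = c • (Matrix.scalar (Fin n) (c⁻¹ * x) - M) := by
      ext i j
      by_cases hij : i = j
      · subst hij
        simp [Matrix.scalar_apply, mul_sub]
        field_simp
      · simp [Matrix.scalar_apply, hij]
    rw [this, Matrix.det_smul, Fintype.card_fin]
  rw [key, coeff_C_mul, comp_C_mul_X_coeff]

theorem cl_monic_ext {p q : ℂ[X]} (hp : p.Monic) (hq : q.Monic) (n : ℕ) (hpn : p.natDegree = n)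
    (hqn : q.natDegree = n) (h : ∀ k < n, p.coeff k = q.coeff k) : p = q := by
  ext k
  rcases lt_trichotomy k n with hk | hk | hk
  · exact h k hk
  · subst hk
    have h1 : p.coeff p.natDegree = 1 := hp
    have h2 : q.coeff q.natDegree = 1 := hq
    rw [hpn] at h1
    rw [hqn] at h2
    rw [h1, h2]
  · rw [coeff_eq_zero_of_natDegree_lt (by omega), coeff_eq_zero_of_natDegree_lt (by omega)]

/-- **Friedland's theorem** (multiplicative inverse eigenvalue problem), in the form: if
`A * diagonal t` is never nilpotent for `t ≠ 0`, then every monic polynomial of degree `n` is the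
characteristic polynomial of some `A * diagonal t`. -/
theorem cl_friedland (n : ℕ) (A : Matrix (Fin n) (Fin n) ℂ)
    (h : ∀ t : Fin n → ℂ, t ≠ 0 → (A * Matrix.diagonal t).charpoly ≠ X ^ n)
    (p : ℂ[X]) (hp : p.Monic) (hd : p.natDegree = n) :
    ∃ t : Fin n → ℂ, (A * Matrix.diagonal t).charpoly = p := by
  classical
  -- the generic matrix
  let M : Matrix (Fin n) (Fin n) (MvPolynomial (Fin (n + 1)) ℂ) :=
    A.map MvPolynomial.C * Matrix.diagonal (fun i : Fin n => MvPolynomial.X i.castSucc)
  let f : Fin n → MvPolynomial (Fin (n + 1)) ℂ := fun k =>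
    M.charpoly.coeff k - MvPolynomial.C (p.coeff k) * MvPolynomial.X (Fin.last n) ^ (n - (k : ℕ))
  have hM : ∀ y : Fin (n + 1) → ℂ, M.map (MvPolynomial.eval y) =
      A * Matrix.diagonal (fun i : Fin n => y i.castSucc) := by
    intro y
    ext i j
    simp [M, Matrix.mul_apply, Matrix.diagonal_apply, Matrix.map_apply]
  have hf : ∀ (y : Fin (n + 1) → ℂ) (k : Fin n), MvPolynomial.eval y (f k) =
      (A * Matrix.diagonal (fun i : Fin n => y i.castSucc)).charpoly.coeff k
        - p.coeff k * y (Fin.last n) ^ (n - (k : ℕ)) := by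
    intro y k
    rw [← hM y, Matrix.charpoly_map, coeff_map]
    simp [f]
  have hcard : (Finset.univ.image f).card < n + 1 := by
    have := Finset.card_image_le (s := (Finset.univ : Finset (Fin n))) (f := f)
    simp only [Finset.card_univ, Fintype.card_fin] at this
    omega
  have hdeg : ∀ B : Matrix (Fin n) (Fin n) ℂ, B.charpoly.natDegree = n := by
    intro B
    rw [Matrix.charpoly_natDegree_eq_dim, Fintype.card_fin]
  obtain ⟨y, hy0, hy⟩ := cl_exists_nonzero_zero (Finset.univ.image f) hcard (by
    intro g hg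
    obtain ⟨k, -, rfl⟩ := Finset.mem_image.1 hg
    rw [hf]
    have h1 : Matrix.diagonal (fun i : Fin n => (0 : Fin (n + 1) → ℂ) i.castSucc) = 0 :=
      Matrix.diagonal_zero
    have h2 : n - (k : ℕ) ≠ 0 := by have := k.2; omega
    have h3 : (k : ℕ) ≠ n := by have := k.2; omega
    rw [h1, mul_zero, Matrix.charpoly_zero, Fintype.card_fin, coeff_X_pow,
      if_neg h3]
    simp [h2])
  have hy' : ∀ k : Fin n, (A * Matrix.diagonal (fun i : Fin n => y i.castSucc)).charpoly.coeff k
        = p.coeff k * y (Fin.last n) ^ (n - (k : ℕ)) := by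
    intro k
    have := hy (f k) (Finset.mem_image_of_mem f (Finset.mem_univ k))
    rw [hf] at this
    exact sub_eq_zero.1 this
  set t : Fin n → ℂ := fun i : Fin n => y i.castSucc with ht
  set u : ℂ := y (Fin.last n) with hu
  by_cases hu0 : u = 0
  · exfalso
    have ht0 : t ≠ 0 := by
      intro h0
      apply hy0
      funext i
      refine Fin.lastCases ?_ (fun j => ?_) i
      · exact hu0
      · exact congrFun h0 j
    apply h t ht0
    refine cl_monic_ext (Matrix.charpoly_monic _) (monic_X_pow n) n (hdeg _) (natDegree_X_pow n) ?_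
    intro k hk
    have := hy' ⟨k, hk⟩
    simp only at this
    rw [this, hu0, zero_pow (by omega), mul_zero, coeff_X_pow, if_neg (by omega)]
  · refine ⟨u⁻¹ • t, ?_⟩
    have hsm : A * Matrix.diagonal (u⁻¹ • t) = u⁻¹ • (A * Matrix.diagonal t) := by
      rw [← Matrix.mul_smul]
      congr 1
      ext i j
      by_cases hij : i = j
      · subst hij; simp
      · simp [hij]
    rw [hsm]
    refine cl_monic_ext (Matrix.charpoly_monic _) hp n (hdeg _) hd ?_
    intro k hk
    have := hy' ⟨k, hk⟩
    simp only at this
    rw [cl_charpoly_smul_coeff _ _ (inv_ne_zero hu0), this, inv_inv]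
    have h4 : u ^ n = u ^ (n - k) * u ^ k := by rw [← pow_add]; congr 1; omega
    rw [inv_pow, h4]
    field_simp

end Claimed.Agent.R236
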