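/-
Row 236, closed-surface step, TWIST LEMMA, part 1 (owner helper148; prefix `clt_`).
Genericity of a pair `(A,B)` of complex matrices whose `2n²` entries are algebraically independent, by ONE specialisation:
the ring hom `ℤ[entries] → ℂ`, `A ↦ 1`, `B ↦ diag p` (`p` multiplicatively independent) extends to the integral closure
`O` of `ℤ[entries]` in `ℂ` (`clt_extend_hom`: lying over + `gp_extend`).  The eigenvalues `b_i` of `B` lie in `O`, the vectors
`q_i = adj(b_i - B)(1,…,1)ᵀ` have entries in `O`, and everything can be checked after the specialisation.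
Export: `clt_generic_pair`.
-/
import Claimed.Agent.R236.GenericPoint

set_option autoImplicit false

namespace Claimed.Agent.R236

open Polynomial Matrix

/-- a ring hom into an algebraically closed field extends along an injective integral extension. -/
theorem clt_extend_hom {A B K : Type*} [CommRing A] [CommRing B] [Algebra A B]
    [Algebra.IsIntegral A B] (hinj : Function.Injective (algebraMap A B)) [Field K] [IsAlgClosed K]
    (φ₀ : A →+* K) : ∃ φ : B →+* K, φ.comp (algebraMap A B) = φ₀ := by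
  have hprime : (RingHom.ker φ₀).IsPrime := RingHom.ker_isPrime φ₀
  obtain ⟨Q, -, hQ, hQc⟩ := Ideal.exists_ideal_over_prime_of_isIntegral (RingHom.ker φ₀)
    (⊥ : Ideal B) (by
      rw [← RingHom.ker_eq_comap_bot, (RingHom.injective_iff_ker_eq_bot _).mp hinj]
      exact bot_le)
  have hQc' : (Q.comap (algebraMap A B)).IsPrime := by rw [hQc]; exact hprime
  let g : A ⧸ Q.comap (algebraMap A B) →+* B ⧸ Q := Ideal.quotientMap Q (algebraMap A B) le_rfl
  have ginj : Function.Injective g := Ideal.quotientMap_injective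
  have gint : g.IsIntegral :=
    RingHom.IsIntegral.quotient (algebraMap A B) Algebra.IsIntegral.isIntegral
  let τ : A ⧸ Q.comap (algebraMap A B) →+* K :=
    Ideal.Quotient.lift _ φ₀ (fun a ha => by rw [hQc] at ha; exact ha)
  have τinj : Function.Injective τ := by
    rw [injective_iff_map_eq_zero]
    intro a ha
    obtain ⟨a, rfl⟩ := Ideal.Quotient.mk_surjective a
    rw [Ideal.Quotient.eq_zero_iff_mem, hQc]
    exact ha
  obtain ⟨ψ, hψ⟩ := gp_extend g ginj gint τ τinj
  refine ⟨ψ.comp (Ideal.Quotient.mk Q), ?_⟩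
  ext a
  have := congrArg (fun f => f (Ideal.Quotient.mk _ a)) hψ
  have h2 : τ (Ideal.Quotient.mk _ a) = φ₀ a := Ideal.Quotient.lift_mk _ _ _
  have h3 : g (Ideal.Quotient.mk _ a) = Ideal.Quotient.mk Q (algebraMap A B a) :=
    Ideal.quotientMap_mk
  simp only [RingHom.comp_apply] at this ⊢
  rw [← h3, this, h2]

/-- multiplicative independence (monoid form). -/
def clt_MulIndep {n : ℕ} (b : Fin n → ℂ) : Prop :=
  ∀ e f : Fin n → ℕ, ∏ i, b i ^ e i = ∏ i, b i ^ f i → e = f

section Abstract
variable {n : ℕ} {O O' : Type*} [CommRing O] [CommRing O']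

/-- eigenvector matrix: the `i`-th column is `adj(b_i - B) (1,…,1)ᵀ`. -/
def clt_Q (B : Matrix (Fin n) (Fin n) O) (b : Fin n → O) : Matrix (Fin n) (Fin n) O :=
  of fun r i => ((scalar (Fin n) (b i) - B).adjugate *ᵥ fun _ => 1) r

/-- the matrix with columns `A q_i` (`i ∈ S`) and `q_i` (`i ∉ S`). -/
def clt_M (A Q : Matrix (Fin n) (Fin n) O) (S : Finset (Fin n)) : Matrix (Fin n) (Fin n) O :=
  of fun r i => if i ∈ S then (A * Q) r i else Q r i

lemma clt_Q_map (f : O →+* O') (B : Matrix (Fin n) (Fin n) O) (b : Fin n → O) :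
    f.mapMatrix (clt_Q B b) = clt_Q (f.mapMatrix B) (fun i => f (b i)) := by
  ext r i
  have h1 : f.mapMatrix (scalar (Fin n) (b i) - B) = scalar (Fin n) (f (b i)) - f.mapMatrix B := by
    rw [map_sub]
    congr 1
    ext r s
    simp [Matrix.diagonal_apply, apply_ite f]
  simp only [clt_Q, RingHom.mapMatrix_apply, map_apply, of_apply]
  rw [← RingHom.mapMatrix_apply, ← h1, ← RingHom.map_adjugate]
  simp [Matrix.mulVec, dotProduct]

lemma clt_M_map (f : O →+* O') (A Q : Matrix (Fin n) (Fin n) O) (S : Finset (Fin n)) :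
    f.mapMatrix (clt_M A Q S) = clt_M (f.mapMatrix A) (f.mapMatrix Q) S := by
  ext r i
  simp only [clt_M, RingHom.mapMatrix_apply, map_apply, of_apply]
  rw [← RingHom.mapMatrix_apply, ← RingHom.mapMatrix_apply, ← map_mul]
  split_ifs <;> simp

lemma clt_M_one (Q : Matrix (Fin n) (Fin n) O) (S : Finset (Fin n)) : clt_M 1 Q S = Q := by
  ext r i
  simp [clt_M]

lemma clt_Q_eigen (B : Matrix (Fin n) (Fin n) O) (b : Fin n → O)
    (hb : ∀ i, B.charpoly.eval (b i) = 0) : B * clt_Q B b = clt_Q B b * diagonal b := by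
  ext r i
  have h1 : (scalar (Fin n) (b i) - B) * (scalar (Fin n) (b i) - B).adjugate = 0 := by
    rw [mul_adjugate, ← eval_charpoly, hb i, zero_smul]
  have h2 : (scalar (Fin n) (b i) - B) *ᵥ
      ((scalar (Fin n) (b i) - B).adjugate *ᵥ fun _ => (1 : O)) = 0 := by
    rw [mulVec_mulVec, h1, zero_mulVec]
  have h3 := congrFun h2 r
  rw [sub_mulVec] at h3
  simp only [Pi.sub_apply, Pi.zero_apply, sub_eq_zero] at h3
  rw [mul_diagonal]
  have h4 : (B * clt_Q B b) r i
      = (B *ᵥ ((scalar (Fin n) (b i) - B).adjugate *ᵥ fun _ => (1 : O))) r := by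
    simp [Matrix.mul_apply, Matrix.mulVec, dotProduct, clt_Q]
  rw [h4, ← h3]
  simp [clt_Q, Matrix.mulVec, dotProduct, Matrix.diagonal_apply, mul_comm]

lemma clt_Q_diagonal (p : Fin n → O) :
    clt_Q (diagonal p) p = diagonal fun i => ∏ j ∈ Finset.univ.erase i, (p i - p j) := by
  ext r i
  have h1 : scalar (Fin n) (p i) - diagonal p = diagonal fun r => p i - p r := by
    ext r s
    by_cases h : r = s
    · subst h; simp
    · simp [h]
  simp only [clt_Q, of_apply, h1, adjugate_diagonal]
  rw [mulVec_diagonal, mul_one]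
  by_cases h : r = i
  · subst h; simp
  · rw [diagonal_apply_ne _ h]
    apply Finset.prod_eq_zero (Finset.mem_erase.mpr ⟨Ne.symm h, Finset.mem_univ i⟩)
    simp

lemma clt_MulIndep.injective {p : Fin n → ℂ} (hp : clt_MulIndep p) : Function.Injective p := by
  intro i j hij
  by_contra hne
  have := hp (Pi.single i 1) (Pi.single j 1) (by
    simp only [Pi.single_apply, pow_ite, pow_one, pow_zero, Finset.prod_ite_eq', Finset.mem_univ,
      if_true]
    exact hij)
  have h2 := congrFun this i
  simp [hne] at h2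

/-- the abstract form of the genericity statement. -/
theorem clt_generic_abs (ι φ : O →+* ℂ) (hι : Function.Injective ι)
    (A B : Matrix (Fin n) (Fin n) O) (b : Fin n → O) (p : Fin n → ℂ) (hp : clt_MulIndep p)
    (hroot : ∀ i, B.charpoly.eval (b i) = 0) (hA : φ.mapMatrix A = 1)
    (hB : φ.mapMatrix B = diagonal p) (hb : ∀ i, φ (b i) = p i) :
    clt_MulIndep (fun i => ι (b i)) ∧
      ι.mapMatrix B * ι.mapMatrix (clt_Q B b)
        = ι.mapMatrix (clt_Q B b) * diagonal (fun i => ι (b i)) ∧
      ∀ S, (clt_M (ι.mapMatrix A) (ι.mapMatrix (clt_Q B b)) S).det ≠ 0 := by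
  refine ⟨?_, ?_, ?_⟩
  · intro e f hef
    apply hp
    have h1 : ∏ i, b i ^ e i = ∏ i, b i ^ f i := by
      apply hι
      simpa [map_prod, map_pow] using hef
    have h2 := congrArg φ h1
    simpa [map_prod, map_pow, hb] using h2
  · have h1 := congrArg ι.mapMatrix (clt_Q_eigen B b hroot)
    rw [map_mul, map_mul] at h1
    rw [h1]
    congr 1
    ext r s
    simp [Matrix.diagonal_apply, apply_ite ι]
  · intro S hS
    rw [← clt_M_map, ← RingHom.map_det] at hS
    have h0 : (clt_M A (clt_Q B b) S).det = 0 := by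
      apply hι
      rw [hS, map_zero]
    have h1 := congrArg φ h0
    rw [RingHom.map_det, clt_M_map, hA, clt_M_one, clt_Q_map, hB, map_zero] at h1
    have h2 : (fun i => φ (b i)) = p := funext hb
    rw [h2, clt_Q_diagonal, det_diagonal, Finset.prod_eq_zero_iff] at h1
    obtain ⟨i, -, hi⟩ := h1
    rw [Finset.prod_eq_zero_iff] at hi
    obtain ⟨j, hj, hij⟩ := hi
    exact (Finset.mem_erase.mp hj).1 (hp.injective (sub_eq_zero.mp hij)).symm

end Abstract

/-- multiplicatively independent complex numbers exist. -/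
lemma clt_exists_mulIndep (n : ℕ) : ∃ p : Fin n → ℂ, clt_MulIndep p := by
  obtain ⟨t, ht⟩ := gp_complex_algebraicIndependent ℚ n
  refine ⟨t, ?_⟩
  intro e f hef
  have h1 : ∀ e : Fin n → ℕ, MvPolynomial.aeval t
      (MvPolynomial.monomial (Finsupp.equivFunOnFinite.symm e) (1 : ℚ)) = ∏ i, t i ^ e i := by
    intro e
    rw [MvPolynomial.aeval_monomial, map_one, one_mul, Finsupp.prod_fintype _ _ (by simp)]
    rfl
  have h2 := ht (a₁ := MvPolynomial.monomial (Finsupp.equivFunOnFinite.symm e) (1 : ℚ))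
    (a₂ := MvPolynomial.monomial (Finsupp.equivFunOnFinite.symm f) (1 : ℚ)) (by rw [h1, h1, hef])
  have h3 := (MvPolynomial.monomial_left_inj (one_ne_zero)).mp h2
  exact Finsupp.equivFunOnFinite.symm.injective h3

/-- **Genericity of a pair with algebraically independent entries**, by one specialisation
`A ↦ 1`, `B ↦ diag p`. -/
theorem clt_generic_pair {n : ℕ} (A B : Matrix (Fin n) (Fin n) ℂ)
    (hx : AlgebraicIndependent ℤ
      (fun v : Bool × Fin n × Fin n => if v.1 then A v.2.1 v.2.2 else B v.2.1 v.2.2)) :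
    ∃ (b : Fin n → ℂ) (Q : Matrix (Fin n) (Fin n) ℂ), clt_MulIndep b ∧
      B * Q = Q * diagonal b ∧ ∀ S, (clt_M A Q S).det ≠ 0 := by
  classical
  obtain ⟨p, hp⟩ := clt_exists_mulIndep n
  set x : Bool × Fin n × Fin n → ℂ :=
    fun v => if v.1 then A v.2.1 v.2.2 else B v.2.1 v.2.2 with hxdef
  let A0 := Algebra.adjoin ℤ (Set.range x)
  let O := integralClosure A0 ℂ
  let a : Bool × Fin n × Fin n → ℂ := fun v =>
    if v.1 then (if v.2.1 = v.2.2 then 1 else 0) else (if v.2.1 = v.2.2 then p v.2.1 else 0)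
  let φ₀ : A0 →+* ℂ := ((MvPolynomial.aeval a).comp hx.aevalEquiv.symm.toAlgHom).toRingHom
  have hinj : Function.Injective (algebraMap A0 O) := by
    intro u v huv
    have := congrArg (fun w : O => (w : ℂ)) huv
    exact Subtype.ext this
  obtain ⟨φ, hφ⟩ := clt_extend_hom hinj φ₀
  let xA : Bool × Fin n × Fin n → A0 := fun v => ⟨x v, Algebra.subset_adjoin ⟨v, rfl⟩⟩
  let xO : Bool × Fin n × Fin n → O := fun v => algebraMap A0 O (xA v)
  have hφx : ∀ v, φ (xO v) = a v := by
    intro v
    have h1 : φ (xO v) = φ₀ (xA v) := congrArg (fun f => f (xA v)) hφ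
    rw [h1]
    have h2 : hx.aevalEquiv.symm (xA v) = MvPolynomial.X v := by
      rw [AlgEquiv.symm_apply_eq]
      apply Subtype.ext
      simp [xA]
    change MvPolynomial.aeval a (hx.aevalEquiv.symm (xA v)) = a v
    rw [h2, MvPolynomial.aeval_X]
  let ι : O →+* ℂ := O.val.toRingHom
  have hι : Function.Injective ι := Subtype.val_injective
  have hιx : ∀ v, ι (xO v) = x v := fun v => rfl
  let AO : Matrix (Fin n) (Fin n) O := of fun r s => xO (true, r, s)
  let BO : Matrix (Fin n) (Fin n) O := of fun r s => xO (false, r, s)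
  have hAO : ι.mapMatrix AO = A := by
    ext r s
    simp [AO, hιx, hxdef]
  have hBO : ι.mapMatrix BO = B := by
    ext r s
    simp [BO, hιx, hxdef]
  have hφA : φ.mapMatrix AO = 1 := by
    ext r s
    simp [AO, hφx, a, Matrix.one_apply]
  have hφB : φ.mapMatrix BO = diagonal p := by
    ext r s
    simp [BO, hφx, a, Matrix.diagonal_apply]
  -- the roots of the characteristic polynomial lie in `O`
  have hchar : B.charpoly = BO.charpoly.map ι := by
    rw [← hBO, RingHom.mapMatrix_apply, charpoly_map]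
  have hint : ∀ ρ ∈ B.charpoly.roots, ρ ∈ O := by
    intro ρ hρ
    have h1 : IsIntegral O ρ := by
      refine ⟨BO.charpoly, charpoly_monic _, ?_⟩
      have h2 : (B.charpoly).eval ρ = 0 := (mem_roots'.mp hρ).2
      rw [hchar, eval_map] at h2
      exact h2
    have h2 : IsIntegral A0 ρ := isIntegral_trans ρ h1
    exact h2
  let R' : Multiset O := B.charpoly.roots.pmap (fun ρ h => (⟨ρ, h⟩ : O)) hint
  have hR' : R'.map ι = B.charpoly.roots := by
    simp only [R', Multiset.map_pmap]
    conv_rhs => rw [← Multiset.map_id B.charpoly.roots]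
    exact Multiset.pmap_eq_map _ _ _ hint
  have hf : BO.charpoly = (R'.map (fun β => X - C β)).prod := by
    apply map_injective ι hι
    rw [← hchar, Polynomial.map_multiset_prod, Multiset.map_map]
    conv_lhs => rw [(IsAlgClosed.splits B.charpoly).eq_prod_roots_of_monic (charpoly_monic B), ← hR',
      Multiset.map_map]
    congr 1
    apply Multiset.map_congr rfl
    intro β _
    simp
  have hex : ∀ i, ∃ β : O, BO.charpoly.eval β = 0 ∧ φ β = p i := by
    intro i
    have h1 : (BO.charpoly.map φ).eval (p i) = 0 := by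
      rw [← charpoly_map, ← RingHom.mapMatrix_apply, hφB, charpoly_diagonal, eval_prod]
      apply Finset.prod_eq_zero (Finset.mem_univ i)
      simp
    rw [hf, Polynomial.map_multiset_prod, eval_multiset_prod, Multiset.prod_eq_zero_iff] at h1
    simp only [Multiset.map_map, Multiset.mem_map, Function.comp_apply] at h1
    obtain ⟨β, hβ, hβ0⟩ := h1
    refine ⟨β, ?_, ?_⟩
    · rw [hf, eval_multiset_prod, Multiset.prod_eq_zero_iff]
      simp only [Multiset.map_map, Multiset.mem_map, Function.comp_apply]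
      exact ⟨β, hβ, by simp⟩
    · simp at hβ0
      exact (sub_eq_zero.mp hβ0).symm
  choose b hb0 hbp using hex
  obtain ⟨h1, h2, h3⟩ := clt_generic_abs ι φ hι AO BO b p hp hb0 hφA hφB hbp
  rw [hBO] at h2
  rw [hAO] at h3
  exact ⟨_, _, h1, h2, h3⟩

end Claimed.Agent.R236
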