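/-
Row 236, closed-surface step, TWIST LEMMA (owner helper148; prefix `clt_`).
* `clt_not_nilpotent`  the generic pair satisfies the hypothesis of Friedland's theorem;
* `clt_laurent_zero`   a Laurent polynomial vanishing at `t b^k`, `b` multiplicatively independent, is zero
                       (Dedekind's independence of characters);
* `clt_ev_theta`       a regular function restricted to `y a = M₁ diag(s) M₂` is a Laurent polynomial in `s`;
* `clt_twist`          the twist lemma, for an abstract set `V` of tuples stable under centraliser twists.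
-/
import Claimed.Agent.R236.ClTwistSpec

set_option autoImplicit false

namespace Claimed.Agent.R236

open Polynomial Matrix

section Nil
variable {n : ℕ}

lemma clt_M_empty (A Q : Matrix (Fin n) (Fin n) ℂ) : clt_M A Q ∅ = Q := by
  ext r i
  simp [clt_M]

lemma clt_pow_swap (X Y : Matrix (Fin n) (Fin n) ℂ) (m : ℕ) :
    (X * Y) ^ (m + 1) = X * (Y * X) ^ m * Y := by
  induction m with
  | zero => simp
  | succ m ih => rw [pow_succ, ih, pow_succ (Y * X)]; simp only [mul_assoc]

/-- if all the mixed determinants are nonzero then `Q⁻¹ A Q diag(t)` is not nilpotent for `t ≠ 0`. -/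
theorem clt_not_nilpotent (A Q : Matrix (Fin n) (Fin n) ℂ) (hM : ∀ S, (clt_M A Q S).det ≠ 0)
    (t : Fin n → ℂ) (ht : t ≠ 0) : (Q⁻¹ * A * Q * diagonal t).charpoly ≠ X ^ n := by
  classical
  intro hchar
  have hQ : Q.det ≠ 0 := by
    have := hM ∅
    rwa [clt_M_empty] at this
  have hQu : IsUnit Q.det := isUnit_iff_ne_zero.mpr hQ
  set A' := Q⁻¹ * A * Q with hA'
  have hN : (A' * diagonal t) ^ n = 0 := by
    have := aeval_self_charpoly (A' * diagonal t)
    rw [hchar] at this
    simpa using this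
  set S : Finset (Fin n) := Finset.univ.filter (fun i => t i ≠ 0) with hS
  set K := diagonal t * A' with hK
  have hK0 : K ^ (n + 1) = 0 := by
    rw [hK, clt_pow_swap, hN]
    simp
  have hsupp : ∀ w : Fin n → ℂ, ∀ i ∉ S, (K *ᵥ w) i = 0 := by
    intro w i hi
    have hti : t i = 0 := by
      by_contra h
      exact hi (by simp [hS, h])
    rw [hK, ← mulVec_mulVec, mulVec_diagonal, hti, zero_mul]
  have hinj : ∀ w : Fin n → ℂ, (∀ i ∉ S, w i = 0) → K *ᵥ w = 0 → w = 0 := by
    intro w hw hKw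
    set u := A' *ᵥ w with hu
    have hu0 : ∀ i ∈ S, u i = 0 := by
      intro i hi
      have h1 := congrFun hKw i
      rw [hK, ← mulVec_mulVec, mulVec_diagonal] at h1
      have hti : t i ≠ 0 := by simpa [hS] using hi
      exact (mul_eq_zero.mp h1).resolve_left hti
    have hQu' : Q *ᵥ u = (A * Q) *ᵥ w := by
      rw [hu, hA', mulVec_mulVec, mul_assoc, ← mul_assoc Q, mul_nonsing_inv _ hQu, one_mul]
    have hz : clt_M A Q S *ᵥ (fun i => if i ∈ S then w i else - u i) = 0 := by
      have h2 : clt_M A Q S *ᵥ (fun i => if i ∈ S then w i else - u i)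
          = (A * Q) *ᵥ w - Q *ᵥ u := by
        ext r
        simp only [mulVec, dotProduct, Pi.sub_apply, ← Finset.sum_sub_distrib, clt_M, of_apply]
        refine Finset.sum_congr rfl fun i _ => ?_
        by_cases hi : i ∈ S
        · simp [hi, hu0 i hi]
        · simp [hi, hw i hi]
      rw [h2, hQu', sub_self]
    have hz0 := eq_zero_of_mulVec_eq_zero (hM S) hz
    ext i
    by_cases hi : i ∈ S
    · have := congrFun hz0 i
      simpa [hi] using this
    · exact hw i hi
  obtain ⟨i0, hi0⟩ : ∃ i, t i ≠ 0 := by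
    by_contra h
    exact ht (funext fun i => by_contra fun hi => h ⟨i, hi⟩)
  have hind : ∀ m : ℕ, (K ^ m) *ᵥ (Pi.single i0 1) ≠ 0 ∧
      ∀ i ∉ S, ((K ^ m) *ᵥ (Pi.single i0 (1 : ℂ))) i = 0 := by
    intro m
    induction m with
    | zero =>
      refine ⟨?_, ?_⟩
      · intro h
        have := congrFun h i0
        simp at this
      · intro i hi
        have : i ≠ i0 := by
          rintro rfl
          exact hi (by simp [hS, hi0])
        simp [this]
    | succ m ih =>
      rw [pow_succ', ← mulVec_mulVec]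
      refine ⟨fun h => ih.1 (hinj _ ih.2 h), hsupp _⟩
  have := (hind (n + 1)).1
  rw [hK0, zero_mulVec] at this
  exact this rfl

end Nil

section Laurent
variable {n : ℕ}

/-- the character `m ↦ ∏ s_i^{m_i}` of `ℤⁿ`. -/
noncomputable def clt_chi (s : Fin n → ℂˣ) : Multiplicative (Fin n → ℤ) →* ℂ where
  toFun m := ((∏ i, s i ^ (Multiplicative.toAdd m i) : ℂˣ) : ℂ)
  map_one' := by simp
  map_mul' := by
    intro a b
    rw [← Units.val_mul, ← Finset.prod_mul_distrib]
    congr 1
    refine Finset.prod_congr rfl fun i _ => ?_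
    rw [← _root_.zpow_add]
    rfl

/-- evaluation of a Laurent polynomial at a point of the torus. -/
noncomputable def clt_ev (s : Fin n → ℂˣ) : AddMonoidAlgebra ℂ (Fin n → ℤ) →ₐ[ℂ] ℂ :=
  AddMonoidAlgebra.lift ℂ ℂ (Fin n → ℤ) (clt_chi s)

lemma clt_chi_mul_pow (t b : Fin n → ℂˣ) (k : ℕ) (m : Multiplicative (Fin n → ℤ)) :
    clt_chi (fun i => t i * b i ^ k) m = clt_chi t m * clt_chi b m ^ k := by
  simp only [clt_chi, MonoidHom.coe_mk, OneHom.coe_mk]
  rw [← Units.val_pow_eq_pow_val, ← Units.val_mul]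
  congr 1
  rw [← Finset.prod_pow, ← Finset.prod_mul_distrib]
  refine Finset.prod_congr rfl fun i _ => ?_
  rw [mul_zpow, ← zpow_natCast, ← zpow_natCast, ← _root_.zpow_mul, ← _root_.zpow_mul, mul_comm (k : ℤ)]

/-- A Laurent polynomial vanishing at `t b^k` for all `k`, `b` multiplicatively independent, is zero. -/
theorem clt_laurent_zero (G : AddMonoidAlgebra ℂ (Fin n → ℤ)) (t b : Fin n → ℂˣ)
    (hb : Function.Injective (clt_chi b))
    (h : ∀ k : ℕ, clt_ev (fun i => t i * b i ^ k) G = 0) : G = 0 := by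
  classical
  -- characters of `ℕ`
  let ψ : (Fin n → ℤ) → (Multiplicative ℕ →* ℂ) := fun m =>
    powersHom ℂ (clt_chi b (Multiplicative.ofAdd m))
  have hψ : Function.Injective ψ := by
    intro m m' hmm
    have h1 := (powersHom ℂ).injective hmm
    exact Multiplicative.ofAdd.injective (hb h1)
  have hli := (linearIndependent_monoidHom (Multiplicative ℕ) ℂ).comp ψ hψ
  rw [linearIndependent_iff'] at hli
  have hsum : ∑ m ∈ G.coeff.support, (G.coeff m * clt_chi t (Multiplicative.ofAdd m)) •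
      (((fun f : Multiplicative ℕ →* ℂ => (f : Multiplicative ℕ → ℂ)) ∘ ψ) m) = 0 := by
    funext k
    have hk := h (Multiplicative.toAdd k)
    rw [clt_ev, AddMonoidAlgebra.lift_apply, Finsupp.sum] at hk
    rw [Finset.sum_apply, Pi.zero_apply, ← hk]
    refine Finset.sum_congr rfl fun m _ => ?_
    rw [clt_chi_mul_pow]
    simp [ψ, powersHom, mul_assoc]
  have hz := hli G.coeff.support _ hsum
  apply AddMonoidAlgebra.coeff_injective
  ext m
  by_cases hm : m ∈ G.coeff.support
  · have h1 := hz m hm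
    have h2 : clt_chi t (Multiplicative.ofAdd m) ≠ 0 := Units.ne_zero _
    simpa using (mul_eq_zero.mp h1).resolve_right h2
  · simpa using hm

lemma clt_chi_injective (b : Fin n → ℂˣ) (hb : clt_MulIndep (fun i => (b i : ℂ))) :
    Function.Injective (clt_chi b) := by
  intro m m' hmm
  have h0 : (∏ i, b i ^ (Multiplicative.toAdd m i) : ℂˣ) = ∏ i, b i ^ (Multiplicative.toAdd m' i) :=
    Units.ext hmm
  set μ : Fin n → ℤ := Multiplicative.toAdd m with hμ
  set μ' : Fin n → ℤ := Multiplicative.toAdd m' with hμ'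
  have h1 : (∏ i, b i ^ (μ i - min (μ i) (μ' i)) : ℂˣ) = ∏ i, b i ^ (μ' i - min (μ i) (μ' i)) := by
    simp only [_root_.zpow_sub, Finset.prod_mul_distrib]
    rw [h0]
  have h2 : ∀ (ν : Fin n → ℤ), (∀ i, 0 ≤ ν i) →
      (((∏ i, b i ^ ν i : ℂˣ)) : ℂ) = ∏ i, (b i : ℂ) ^ (ν i).toNat := by
    intro ν hν
    rw [Units.coe_prod]
    refine Finset.prod_congr rfl fun i _ => ?_
    conv_lhs => rw [← Int.toNat_of_nonneg (hν i), zpow_natCast]
    simp
  have h3 := hb (fun i => (μ i - min (μ i) (μ' i)).toNat) (fun i => (μ' i - min (μ i) (μ' i)).toNat) (by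
    rw [← h2 (fun i => μ i - min (μ i) (μ' i)) (fun i => by have := min_le_left (μ i) (μ' i); omega),
      ← h2 (fun i => μ' i - min (μ i) (μ' i)) (fun i => by have := min_le_right (μ i) (μ' i); omega),
      h1])
  have h4 : μ = μ' := by
    funext i
    have h5 := congrFun h3 i
    have h6 := min_le_left (μ i) (μ' i)
    have h7 := min_le_right (μ i) (μ' i)
    omega
  exact Multiplicative.toAdd.injective h4

lemma clt_chi_single (s : Fin n → ℂˣ) (l : Fin n) (e : ℤ) :
    clt_chi s (Multiplicative.ofAdd (Pi.single l e)) = ((s l ^ e : ℂˣ) : ℂ) := by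
  simp only [clt_chi, MonoidHom.coe_mk, OneHom.coe_mk, toAdd_ofAdd]
  congr 1
  rw [Finset.prod_eq_single l]
  · simp
  · intro i _ hi
    simp [hi]
  · simp

end Laurent

section Theta
variable {n : ℕ} {I : Type*} [DecidableEq I]

/-- coordinates of a tuple of matrices: the entries of the matrices and of their inverses. -/
noncomputable def clt_pt (y : I → Matrix (Fin n) (Fin n) ℂ) : I × Bool × Fin n × Fin n → ℂ :=
  fun v => if v.2.1 then y v.1 v.2.2.1 v.2.2.2 else (y v.1)⁻¹ v.2.2.1 v.2.2.2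

/-- substitution `y a := M₁ diag(s) M₂` as a map to Laurent polynomials in `s`. -/
noncomputable def clt_theta (y : I → Matrix (Fin n) (Fin n) ℂ) (a : I)
    (M₁ M₂ : Matrix (Fin n) (Fin n) ℂ) :
    MvPolynomial (I × Bool × Fin n × Fin n) ℂ →ₐ[ℂ] AddMonoidAlgebra ℂ (Fin n → ℤ) :=
  MvPolynomial.aeval fun v =>
    if v.1 = a then
      (if v.2.1 then
        ∑ l, AddMonoidAlgebra.single (Pi.single l (1 : ℤ)) (M₁ v.2.2.1 l * M₂ l v.2.2.2)
      else ∑ l, AddMonoidAlgebra.single (Pi.single l (-1 : ℤ)) (M₂⁻¹ v.2.2.1 l * M₁⁻¹ l v.2.2.2))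
    else algebraMap ℂ _ (clt_pt y v)

lemma clt_inv_sandwich (M₁ M₂ : Matrix (Fin n) (Fin n) ℂ) (h₁ : IsUnit M₁.det) (h₂ : IsUnit M₂.det)
    (s : Fin n → ℂˣ) :
    (M₁ * diagonal (fun i => (s i : ℂ)) * M₂)⁻¹
      = M₂⁻¹ * diagonal (fun i => ((s i ^ (-1 : ℤ) : ℂˣ) : ℂ)) * M₁⁻¹ := by
  apply inv_eq_right_inv
  have hd : diagonal (fun i => (s i : ℂ)) * diagonal (fun i => ((s i ^ (-1 : ℤ) : ℂˣ) : ℂ)) = 1 := by
    rw [diagonal_mul_diagonal]
    simp
  calc M₁ * diagonal (fun i => (s i : ℂ)) * M₂ *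
        (M₂⁻¹ * diagonal (fun i => ((s i ^ (-1 : ℤ) : ℂˣ) : ℂ)) * M₁⁻¹)
      = M₁ * (diagonal (fun i => (s i : ℂ)) * (M₂ * M₂⁻¹) *
          diagonal (fun i => ((s i ^ (-1 : ℤ) : ℂˣ) : ℂ))) * M₁⁻¹ := by simp only [mul_assoc]
    _ = 1 := by rw [mul_nonsing_inv _ h₂, mul_one, hd, mul_one, mul_nonsing_inv _ h₁]

theorem clt_ev_theta (y : I → Matrix (Fin n) (Fin n) ℂ) (a : I)
    (M₁ M₂ : Matrix (Fin n) (Fin n) ℂ) (h₁ : IsUnit M₁.det) (h₂ : IsUnit M₂.det)
    (s : Fin n → ℂˣ) (P : MvPolynomial (I × Bool × Fin n × Fin n) ℂ) :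
    clt_ev s (clt_theta y a M₁ M₂ P)
      = MvPolynomial.aeval
          (clt_pt (Function.update y a (M₁ * diagonal (fun i => (s i : ℂ)) * M₂))) P := by
  have h : (clt_ev s).comp (clt_theta y a M₁ M₂)
      = MvPolynomial.aeval
          (clt_pt (Function.update y a (M₁ * diagonal (fun i => (s i : ℂ)) * M₂))) := by
    apply MvPolynomial.algHom_ext
    rintro ⟨i, β, r, c⟩
    simp only [AlgHom.comp_apply, clt_theta, MvPolynomial.aeval_X]
    by_cases hi : i = a
    · subst hi
      cases β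
      · simp only [if_true, Bool.false_eq_true, if_false, map_sum, clt_ev,
          AddMonoidAlgebra.lift_single, clt_chi_single, clt_pt, Function.update_self]
        rw [clt_inv_sandwich M₁ M₂ h₁ h₂, Matrix.mul_apply]
        refine Finset.sum_congr rfl fun l _ => ?_
        rw [mul_diagonal]
        simp only [smul_eq_mul]
        ring
      · simp only [if_true, map_sum, clt_ev,
          AddMonoidAlgebra.lift_single, clt_chi_single, clt_pt, Function.update_self]
        rw [Matrix.mul_apply]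
        refine Finset.sum_congr rfl fun l _ => ?_
        rw [mul_diagonal]
        simp only [smul_eq_mul, zpow_one]
        ring
    · simp only [hi, if_false, AlgHom.commutes]
      simp [clt_pt, Function.update_of_ne hi]
  exact congrArg (fun f => f P) h

end Theta

/-- **Interface to Friedland's theorem** (multiplicative inverse eigenvalue problem). -/
def StClFriedland : Prop :=
  ∀ (n : ℕ) (A : Matrix (Fin n) (Fin n) ℂ),
    (∀ t : Fin n → ℂ, t ≠ 0 → (A * diagonal t).charpoly ≠ X ^ n) →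
    ∀ p : ℂ[X], p.Monic → p.natDegree = n → ∃ t : Fin n → ℂ, (A * diagonal t).charpoly = p

lemma clt_MulIndep.ne_zero {n : ℕ} {p : Fin n → ℂ} (hp : clt_MulIndep p) (i : Fin n) : p i ≠ 0 := by
  intro h0
  have := hp (Pi.single i 1) (Pi.single i 2) (by
    rw [Finset.prod_eq_zero (Finset.mem_univ i) (by simp [h0]),
      Finset.prod_eq_zero (Finset.mem_univ i) (by simp [h0])])
  have h2 := congrFun this i
  simp at h2

section Twist
variable {n : ℕ} {I : Type*} [DecidableEq I]

/-- **Twist lemma.** -/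
theorem clt_twist (hFr : StClFriedland) (a b : I) (hab : a ≠ b)
    (V : Set (I → Matrix (Fin n) (Fin n) ℂ))
    (hV : ∀ y ∈ V, ∀ T : Matrix (Fin n) (Fin n) ℂ, IsUnit T.det → T * y b = y b * T →
      Function.update y a (y a * T) ∈ V)
    (p : ℂ[X]) (hp : p.Monic) (hpn : p.natDegree = n) (hp0 : p.eval 0 ≠ 0)
    (P : MvPolynomial (I × Bool × Fin n × Fin n) ℂ)
    (H : ∀ y ∈ V, (y a).charpoly = p → ∀ k : ℕ,
      MvPolynomial.aeval (clt_pt (Function.update y a (y a * (y b) ^ k))) P = 0)
    (y : I → Matrix (Fin n) (Fin n) ℂ) (hy : y ∈ V) (hya : IsUnit (y a).det)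
    (hgen : AlgebraicIndependent ℤ (fun v : Bool × Fin n × Fin n =>
      if v.1 then y a v.2.1 v.2.2 else y b v.2.1 v.2.2)) :
    MvPolynomial.aeval (clt_pt y) P = 0 := by
  classical
  obtain ⟨bb, Q, hmi, hBQ, hM⟩ := clt_generic_pair (y a) (y b) hgen
  have hQ : Q.det ≠ 0 := by
    have := hM ∅
    rwa [clt_M_empty] at this
  have hQu : IsUnit Q.det := isUnit_iff_ne_zero.mpr hQ
  have hQi : IsUnit (Q⁻¹).det := by
    rw [det_nonsing_inv]
    exact hQu.ringInverse
  obtain ⟨t, ht⟩ := hFr n (Q⁻¹ * y a * Q) (clt_not_nilpotent _ _ hM) p hp hpn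
  have ht0 : ∀ i, t i ≠ 0 := by
    intro i hi
    have h1 := det_eq_sign_charpoly_coeff (Q⁻¹ * y a * Q * diagonal t)
    rw [ht, coeff_zero_eq_eval_zero, det_mul, det_diagonal,
      Finset.prod_eq_zero (Finset.mem_univ i) hi, mul_zero] at h1
    have h2 := mul_eq_zero.mp h1.symm
    rcases h2 with h2 | h2
    · exact pow_ne_zero _ (by norm_num) h2
    · exact hp0 h2
  let tu : Fin n → ℂˣ := fun i => Units.mk0 (t i) (ht0 i)
  let bu : Fin n → ℂˣ := fun i => Units.mk0 (bb i) (hmi.ne_zero i)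
  have hB : y b = Q * diagonal bb * Q⁻¹ := by
    rw [← hBQ, mul_assoc, mul_nonsing_inv _ hQu, mul_one]
  have hBk : ∀ k : ℕ, (y b) ^ k = Q * diagonal (fun i => bb i ^ k) * Q⁻¹ := by
    intro k
    induction k with
    | zero => simp [mul_nonsing_inv _ hQu]
    | succ k ih =>
      rw [pow_succ, ih, hB]
      calc Q * diagonal (fun i => bb i ^ k) * Q⁻¹ * (Q * diagonal bb * Q⁻¹)
          = Q * (diagonal (fun i => bb i ^ k) * (Q⁻¹ * Q) * diagonal bb) * Q⁻¹ := by
            simp only [mul_assoc]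
        _ = Q * diagonal (fun i => bb i ^ (k + 1)) * Q⁻¹ := by
            rw [nonsing_inv_mul _ hQu, mul_one, diagonal_mul_diagonal]
            simp only [pow_succ]
  set T := Q * diagonal t * Q⁻¹ with hT
  have hTu : IsUnit T.det := by
    rw [hT, det_mul, det_mul, det_diagonal]
    refine (hQu.mul ?_).mul hQi
    exact isUnit_iff_ne_zero.mpr (Finset.prod_ne_zero_iff.mpr fun i _ => ht0 i)
  have hTB : T * y b = y b * T := by
    rw [hT, hB]
    calc Q * diagonal t * Q⁻¹ * (Q * diagonal bb * Q⁻¹)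
        = Q * (diagonal t * (Q⁻¹ * Q) * diagonal bb) * Q⁻¹ := by simp only [mul_assoc]
      _ = Q * (diagonal bb * (Q⁻¹ * Q) * diagonal t) * Q⁻¹ := by
          rw [nonsing_inv_mul _ hQu, mul_one, mul_one, diagonal_mul_diagonal, diagonal_mul_diagonal]
          simp only [mul_comm]
      _ = Q * diagonal bb * Q⁻¹ * (Q * diagonal t * Q⁻¹) := by simp only [mul_assoc]
  have hy' := hV y hy T hTu hTB
  have hchar : (Function.update y a (y a * T) a).charpoly = p := by
    rw [Function.update_self, ← ht]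
    have h1 : y a * T = Q * (Q⁻¹ * y a * Q * diagonal t) * Q⁻¹ := by
      rw [hT]
      calc y a * (Q * diagonal t * Q⁻¹) = (Q * Q⁻¹) * y a * Q * diagonal t * Q⁻¹ := by
            rw [mul_nonsing_inv _ hQu, one_mul]; simp only [mul_assoc]
        _ = _ := by simp only [mul_assoc]
    rw [h1]
    have h2 := charpoly_units_conj (nonsingInvUnit Q hQu) (Q⁻¹ * y a * Q * diagonal t)
    exact h2
  have hH := H _ hy' hchar
  have hzero : ∀ k : ℕ, clt_ev (fun i => tu i * bu i ^ k) (clt_theta y a (y a * Q) Q⁻¹ P) = 0 := by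
    intro k
    rw [clt_ev_theta y a (y a * Q) Q⁻¹ (by rw [det_mul]; exact hya.mul hQu) hQi]
    have h1 := hH k
    rw [Function.update_idem, Function.update_self, Function.update_of_ne hab.symm, hBk k] at h1
    have h2 : y a * T * (Q * diagonal (fun i => bb i ^ k) * Q⁻¹)
        = y a * Q * diagonal (fun i => ((tu i * bu i ^ k : ℂˣ) : ℂ)) * Q⁻¹ := by
      rw [hT]
      calc y a * (Q * diagonal t * Q⁻¹) * (Q * diagonal (fun i => bb i ^ k) * Q⁻¹)
          = y a * Q * (diagonal t * (Q⁻¹ * Q) * diagonal (fun i => bb i ^ k)) * Q⁻¹ := by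
            simp only [mul_assoc]
        _ = _ := by
            rw [nonsing_inv_mul _ hQu, mul_one, diagonal_mul_diagonal]
            simp [tu, bu]
    rw [← h2]
    exact h1
  have hG := clt_laurent_zero _ tu bu (clt_chi_injective bu (by simpa [bu] using hmi)) hzero
  have h1 := clt_ev_theta y a (y a * Q) Q⁻¹ (by rw [det_mul]; exact hya.mul hQu) hQi (fun _ => 1) P
  rw [hG, map_zero] at h1
  have h2 : y a * Q * diagonal (fun _ : Fin n => (((1 : ℂˣ)) : ℂ)) * Q⁻¹ = y a := by
    simp [mul_assoc, mul_nonsing_inv _ hQu]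
  rw [h2, Function.update_eq_self] at h1
  exact h1.symm

end Twist

end Claimed.Agent.R236
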