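/-
Row 236, closed-surface step, ASSEMBLY OF C2 (genus at least two; owner helper148; prefix `clt_`).
* `clt_isReg_aeval`, `clt_exists_poly`  regular functions of `Reg.lean` = polynomials in `clt_pt`;
* `clt_V`            the twisted representation set `∏ [A_i,B_i] = c`;
* `clt_der_factor`   a derivation killing all factors but one of a constant product kills the last one;
* `clt_count`        wrapper of the counting chain (`cl_count`) for points of `clt_V`;
* `clt_generic`      a generic point of `clt_V` off the zero set of a polynomial (`gp_generic_point`);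
* `clt_C2`           density of the integral points with prescribed characteristic polynomial of `A_1`
                     implies density of the integral points.
-/
import Claimed.Agent.R236.ClTwist
import Claimed.Agent.R236.ClCount
import Claimed.Agent.R236.GenericPoint
import Claimed.Agent.R236.Reg

set_option autoImplicit false

namespace Claimed.Agent.R236

open Polynomial Matrix Module

section Bridge
variable {n : ℕ} {I : Type*}

lemma clt_pt_eq_coord (y : I → Matrix (Fin n) (Fin n) ℂ) (v : I × Bool × Fin n × Fin n) :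
    clt_pt y v = rg_matCoord I (Fin n) (v.1, !v.2.1, v.2.2.1, v.2.2.2) y := by
  obtain ⟨i, β, r, s⟩ := v
  cases β <;> simp [clt_pt, rg_matCoord]

lemma clt_coord_eq_pt (y : I → Matrix (Fin n) (Fin n) ℂ) (v : I × Bool × Fin n × Fin n) :
    rg_matCoord I (Fin n) v y = clt_pt y (v.1, !v.2.1, v.2.2.1, v.2.2.2) := by
  obtain ⟨i, β, r, s⟩ := v
  cases β <;> simp [clt_pt, rg_matCoord]

theorem clt_isReg_aeval (P : MvPolynomial (I × Bool × Fin n × Fin n) ℂ) :
    rg_IsReg ⊤ (rg_matCoord I (Fin n)) (fun y => MvPolynomial.aeval (clt_pt y) P) := by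
  induction P using MvPolynomial.induction_on with
  | C a => simpa using rg_IsReg.const (c := rg_matCoord I (Fin n)) a (Subring.mem_top a)
  | add p q hp hq => simpa using hp.add hq
  | mul_X p v hp =>
    have := hp.mul (rg_IsReg.coord (v.1, !v.2.1, v.2.2.1, v.2.2.2))
    simpa [clt_pt_eq_coord] using this

theorem clt_exists_poly {F : (I → Matrix (Fin n) (Fin n) ℂ) → ℂ}
    (hF : rg_IsReg ⊤ (rg_matCoord I (Fin n)) F) :
    ∃ P : MvPolynomial (I × Bool × Fin n × Fin n) ℂ,
      ∀ y, F y = MvPolynomial.aeval (clt_pt y) P := by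
  induction hF with
  | coord k =>
    exact ⟨MvPolynomial.X (k.1, !k.2.1, k.2.2.1, k.2.2.2), fun y => by
      rw [MvPolynomial.aeval_X, clt_coord_eq_pt]⟩
  | const z _ => exact ⟨MvPolynomial.C z, fun y => by simp⟩
  | add _ _ h1 h2 =>
    obtain ⟨P, hP⟩ := h1
    obtain ⟨Q, hQ⟩ := h2
    exact ⟨P + Q, fun y => by rw [map_add, ← hP, ← hQ]⟩
  | mul _ _ h1 h2 =>
    obtain ⟨P, hP⟩ := h1
    obtain ⟨Q, hQ⟩ := h2
    exact ⟨P * Q, fun y => by rw [map_mul, ← hP, ← hQ]⟩

end Bridge

section Word
variable {n g : ℕ}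

/-- the surface word `∏ [A_i, B_i]`, `A_i = y (i,true)`, `B_i = y (i,false)` -/
noncomputable def clt_word (y : Fin g × Bool → Matrix (Fin n) (Fin n) ℂ) :
    Matrix (Fin n) (Fin n) ℂ :=
  (List.ofFn fun i => y (i, true) * y (i, false) * (y (i, true))⁻¹ * (y (i, false))⁻¹).prod

/-- the twisted representation set of the closed surface of genus `g` -/
def clt_V (n g : ℕ) (c : ℂ) : Set (Fin g × Bool → Matrix (Fin n) (Fin n) ℂ) :=
  {y | (∀ v, IsUnit (y v).det) ∧ clt_word y = c • (1 : Matrix (Fin n) (Fin n) ℂ)}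

/-- centraliser twists of the `A` of a handle do not change the word -/
theorem clt_word_twist (y : Fin g × Bool → Matrix (Fin n) (Fin n) ℂ) (i : Fin g)
    (T : Matrix (Fin n) (Fin n) ℂ) (hT : IsUnit T.det) (hc : T * y (i, false) = y (i, false) * T) :
    clt_word (Function.update y (i, true) (y (i, true) * T)) = clt_word y := by
  unfold clt_word
  congr 1
  apply congrArg
  funext j
  by_cases hj : j = i
  · subst hj
    rw [Function.update_self, Function.update_of_ne (by simp), Matrix.mul_inv_rev]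
    calc y (j, true) * T * y (j, false) * (T⁻¹ * (y (j, true))⁻¹) * (y (j, false))⁻¹
        = y (j, true) * (T * y (j, false)) * T⁻¹ * (y (j, true))⁻¹ * (y (j, false))⁻¹ := by
          simp only [mul_assoc]
      _ = y (j, true) * y (j, false) * (T * T⁻¹) * (y (j, true))⁻¹ * (y (j, false))⁻¹ := by
          rw [hc]; simp only [mul_assoc]
      _ = _ := by rw [mul_nonsing_inv _ hT, mul_one]
  · rw [Function.update_of_ne (by simp [hj]), Function.update_of_ne (by simp [hj])]

theorem clt_V_twist (c : ℂ) (i : Fin g) (y : Fin g × Bool → Matrix (Fin n) (Fin n) ℂ)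
    (hy : y ∈ clt_V n g c) (T : Matrix (Fin n) (Fin n) ℂ) (hT : IsUnit T.det)
    (hc : T * y (i, false) = y (i, false) * T) :
    Function.update y (i, true) (y (i, true) * T) ∈ clt_V n g c := by
  refine ⟨fun v => ?_, ?_⟩
  · by_cases hv : v = (i, true)
    · subst hv
      rw [Function.update_self, det_mul]
      exact (hy.1 _).mul hT
    · rw [Function.update_of_ne hv]
      exact hy.1 v
  · rw [clt_word_twist y i T hT hc]
    exact hy.2

end Word

section Count
variable {n : ℕ}

/-- a derivation killing all factors kills the product -/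
lemma clt_der_list_prod (D : ClD) (L : List (ClMat n)) (h : ∀ M ∈ L, M.map D = 0) :
    L.prod.map D = 0 := by
  induction L with
  | nil => simpa using cl_map_one D
  | cons M L ih =>
    rw [List.prod_cons, cl_map_mul, h M (by simp), ih (fun M' hM' => h M' (by simp [hM'])),
      zero_mul, mul_zero, add_zero]

/-- a derivation killing a product of units and all its factors but one kills the last factor -/
theorem clt_der_factor {ι : Type*} (D : ClD) (f : ι → ClMat n) (hf : ∀ j, IsUnit (f j)) (i : ι) :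
    ∀ L : List ι, L.Nodup → i ∈ L → (∀ j ∈ L, j ≠ i → (f j).map D = 0) →
      ((L.map f).prod).map D = 0 → (f i).map D = 0 := by
  intro L
  induction L with
  | nil => intro _ hi; simp at hi
  | cons j L ih =>
    intro hnd hi hk hp
    rw [List.map_cons, List.prod_cons, cl_map_mul] at hp
    rw [List.nodup_cons] at hnd
    by_cases hji : j = i
    · subst hji
      have h1 : ((L.map f).prod).map D = 0 := by
        apply clt_der_list_prod
        intro M hM
        obtain ⟨j', hj', rfl⟩ := List.mem_map.mp hM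
        exact hk j' (by simp [hj']) (fun h => hnd.1 (h ▸ hj'))
      rw [h1, mul_zero, add_zero] at hp
      have hu : IsUnit (L.map f).prod := by
        apply List.prod_isUnit
        intro M hM
        obtain ⟨j', _, rfl⟩ := List.mem_map.mp hM
        exact hf j'
      exact hu.mul_left_eq_zero.mp hp
    · rw [hk j (by simp) hji, zero_mul, zero_add] at hp
      have h1 := (hf j).mul_right_eq_zero.mp hp
      have hi' : i ∈ L := by
        rcases List.mem_cons.mp hi with h | h
        · exact absurd h.symm hji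
        · exact h
      exact ih hnd.2 hi' (fun j' hj' => hk j' (by simp [hj'])) h1

/-- **Counting, wrapper**: a point of `clt_V` of transcendence degree at least `(2g-1)n²+1` over a
countable field containing `c` has a generic first handle. -/
theorem clt_count {g : ℕ} {S : Set ℂ} (hS : S.Countable) (c : ℂ) (hc : c ∈ S)
    (y : Fin (g + 2) × Bool → ClMat n) (hy : y ∈ clt_V n (g + 2) c) {s : ℕ}
    (hs : (2 * (g + 2) - 1) * n ^ 2 + 1 ≤ s) (t : Fin s → ℂ)
    (ht : AlgebraicIndependent (clFld S) t)
    (hty : ∀ i, t i ∈ IntermediateField.adjoin (clFld S) (Set.range (clt_pt y))) :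
    AlgebraicIndependent (clFld S) (fun v : Bool × Fin n × Fin n =>
      if v.1 then y (0, true) v.2.1 v.2.2 else y (0, false) v.2.1 v.2.2) := by
  classical
  have hinv : ∀ v, y v * (y v)⁻¹ = 1 := fun v => mul_nonsing_inv _ (hy.1 v)
  have h1 := cl_dd_ge_of_indep (clt_pt y) t ht hty
  have h2 : finrank ℂ ((clDer S).map (clEv (clt_pt y)))
      ≤ finrank ℂ ((clDer S).map
          (LinearMap.pi fun j : Fin (g + 2) => clEv2 (y (j, true)) (y (j, false)))) := by
    refine cl_finrank_map_le_of_ker _ _ _ fun D _ h0 => ?_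
    have h3 : ∀ v, (y v).map D = 0 := by
      rintro ⟨j, β⟩
      have h4 : clEv2 (y (j, true)) (y (j, false)) D = 0 := congrFun h0 j
      cases β
      · exact congrArg Prod.snd h4
      · exact congrArg Prod.fst h4
    funext v
    obtain ⟨i, β, r, q⟩ := v
    cases β
    · have h5 := cl_map_inv D (hinv i)
      rw [h3 i, mul_zero, zero_mul, neg_zero] at h5
      have h6 := congrFun (congrFun h5 r) q
      simpa [clt_pt] using h6
    · have h6 := congrFun (congrFun (h3 i) r) q
      simpa [clt_pt] using h6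
  have h3 := cl_count hS (fun j => y (j, true)) (fun j => y (j, false)) (fun j => (y (j, true))⁻¹)
    (fun j => (y (j, false))⁻¹) (fun j => hinv _) (fun j => hinv _) (by
      intro i D hD hk
      have hu : ∀ v, IsUnit (y v) := fun v => (Matrix.isUnit_iff_isUnit_det _).mpr (hy.1 v)
      have hu' : ∀ v, IsUnit (y v)⁻¹ := fun v =>
        (Matrix.isUnit_iff_isUnit_det _).mpr ((Matrix.isUnit_nonsing_inv_det_iff).mpr (hy.1 v))
      refine clt_der_factor D
        (fun j => y (j, true) * y (j, false) * (y (j, true))⁻¹ * (y (j, false))⁻¹)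
        (fun j => (((hu _).mul (hu _)).mul (hu' _)).mul (hu' _)) i (List.finRange (g + 2))
        (List.nodup_finRange _) (List.mem_finRange i) ?_ ?_
      · intro j _ hj
        obtain ⟨ha, hb⟩ := hk j hj
        have ha' := cl_map_inv D (hinv (j, true))
        have hb' := cl_map_inv D (hinv (j, false))
        rw [ha, mul_zero, zero_mul, neg_zero] at ha'
        rw [hb, mul_zero, zero_mul, neg_zero] at hb'
        rw [cl_map_mul, cl_map_mul, cl_map_mul, ha, hb, ha', hb']
        simp
      · have h4 := hy.2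
        rw [clt_word, List.ofFn_eq_map] at h4
        rw [h4, cl_map_smul, cl_map_one, hD c hc]
        simp) (hs.trans (h1.trans h2))
  apply cl_indep_of_full
  rw [eq_top_iff]
  intro w _
  have h4 : ((Matrix.of fun r q => w (true, r, q) : ClMat n), (Matrix.of fun r q => w (false, r, q) : ClMat n))
      ∈ (clDer S).map (clEv2 (y (0, true)) (y (0, false))) := by
    rw [h3]; trivial
  obtain ⟨D, hD, hDe⟩ := h4
  refine ⟨D, hD, ?_⟩
  funext v
  obtain ⟨β, r, q⟩ := v
  cases β
  · exact congrFun (congrFun (congrArg Prod.snd hDe) r) q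
  · exact congrFun (congrFun (congrArg Prod.fst hDe) r) q

end Count

section Generic

/-- `gp_generic_point` for an arbitrary finite set of variables, over `ℂ` -/
theorem clt_gp {k : Type} [Field k] [Algebra k ℂ] [Countable k] {σ : Type*} [Fintype σ]
    (S : Finset (MvPolynomial σ k)) (F : MvPolynomial σ k) (y₀ : σ → ℂ)
    (h₀ : ∀ f ∈ S, MvPolynomial.aeval y₀ f = 0) (hF : MvPolynomial.aeval y₀ F ≠ 0) :
    ∃ y : σ → ℂ, (∀ f ∈ S, MvPolynomial.aeval y f = 0) ∧ MvPolynomial.aeval y F ≠ 0 ∧
      ∃ s : ℕ, Fintype.card σ ≤ s + S.card ∧ ∃ t : Fin s → ℂ, AlgebraicIndependent k t ∧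
        ∀ i, t i ∈ IntermediateField.adjoin k (Set.range y) := by
  classical
  let e := Fintype.equivFin σ
  have he : (y₀ ∘ e.symm) ∘ e = y₀ := by
    funext i; simp
  obtain ⟨y, h1, h2, s, h3, t, h4, h5⟩ := gp_generic_point (gp_complex_algebraicIndependent k)
    (S.image (MvPolynomial.rename e)) (MvPolynomial.rename e F) (y₀ ∘ e.symm) (by
      intro f hf
      obtain ⟨f', hf', rfl⟩ := Finset.mem_image.mp hf
      rw [MvPolynomial.aeval_rename, he]
      exact h₀ f' hf') (by
      rw [MvPolynomial.aeval_rename, he]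
      exact hF)
  refine ⟨y ∘ e, ?_, ?_, s, ?_, t, h4, ?_⟩
  · intro f hf
    rw [← MvPolynomial.aeval_rename]
    exact h1 _ (Finset.mem_image_of_mem _ hf)
  · rw [← MvPolynomial.aeval_rename]
    exact h2
  · exact h3.trans (Nat.add_le_add_left Finset.card_image_le _)
  · rw [e.surjective.range_comp]
    exact h5

lemma clt_det_word {n g : ℕ} (y : Fin g × Bool → Matrix (Fin n) (Fin n) ℂ)
    (hy : ∀ v, IsUnit (y v).det) : (clt_word y).det = 1 := by
  unfold clt_word
  have h1 := map_list_prod (Matrix.detMonoidHom (n := Fin n) (R := ℂ))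
    (List.ofFn fun i => y (i, true) * y (i, false) * (y (i, true))⁻¹ * (y (i, false))⁻¹)
  rw [Matrix.coe_detMonoidHom] at h1
  rw [h1]
  apply List.prod_eq_one
  intro x hx
  obtain ⟨M, hM, rfl⟩ := List.mem_map.mp hx
  obtain ⟨i, rfl⟩ := (List.mem_ofFn' _ _).mp hM
  have ha := mul_nonsing_inv _ (hy (i, true))
  have hb := mul_nonsing_inv _ (hy (i, false))
  have ha' := congrArg Matrix.det ha
  have hb' := congrArg Matrix.det hb
  rw [det_mul, det_one] at ha' hb'
  rw [det_mul, det_mul, det_mul]
  calc _ = ((y (i, true)).det * ((y (i, true))⁻¹).det) * ((y (i, false)).det * ((y (i, false))⁻¹).det) := by ring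
    _ = 1 := by rw [ha', hb', one_mul]

end Generic

section Generic2
variable {n g : ℕ}

/-- matrices of variables -/
noncomputable def clt_XM (k : Type) [CommRing k] (v : Fin g × Bool) (β : Bool) :
    Matrix (Fin n) (Fin n) (MvPolynomial ((Fin g × Bool) × Bool × Fin n × Fin n) k) :=
  Matrix.of fun r q => MvPolynomial.X (v, β, r, q)

/-- the surface word in the matrices of variables -/
noncomputable def clt_XW (k : Type) [CommRing k] :
    Matrix (Fin n) (Fin n) (MvPolynomial ((Fin g × Bool) × Bool × Fin n × Fin n) k) :=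
  (List.ofFn fun i : Fin g => clt_XM k (i, true) true * clt_XM k (i, false) true
    * clt_XM k (i, true) false * clt_XM k (i, false) false).prod

/-- the matrices read off from a point -/
def clt_Z (z : (Fin g × Bool) × Bool × Fin n × Fin n → ℂ) (v : Fin g × Bool) (β : Bool) :
    Matrix (Fin n) (Fin n) ℂ := Matrix.of fun r q => z (v, β, r, q)

lemma clt_XM_map (k : Type) [CommRing k] [Algebra k ℂ]
    (z : (Fin g × Bool) × Bool × Fin n × Fin n → ℂ) (v : Fin g × Bool) (β : Bool) :
    (clt_XM k v β).map (MvPolynomial.aeval z : MvPolynomial _ k →ₐ[k] ℂ) = clt_Z z v β := by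
  ext r q
  simp [clt_XM, clt_Z]

lemma clt_XW_map (k : Type) [CommRing k] [Algebra k ℂ]
    (z : (Fin g × Bool) × Bool × Fin n × Fin n → ℂ) :
    (clt_XW k).map (MvPolynomial.aeval z : MvPolynomial _ k →ₐ[k] ℂ)
      = (List.ofFn fun i : Fin g => clt_Z z (i, true) true * clt_Z z (i, false) true
          * clt_Z z (i, true) false * clt_Z z (i, false) false).prod := by
  have h1 := map_list_prod
    ((MvPolynomial.aeval z : MvPolynomial _ k →ₐ[k] ℂ).toRingHom.mapMatrix (m := Fin n))
    (List.ofFn fun i : Fin g => clt_XM k (i, true) true * clt_XM k (i, false) true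
      * clt_XM k (i, true) false * clt_XM k (i, false) false)
  rw [List.map_ofFn] at h1
  have h2 : ∀ M : Matrix (Fin n) (Fin n) (MvPolynomial ((Fin g × Bool) × Bool × Fin n × Fin n) k),
      (MvPolynomial.aeval z : MvPolynomial _ k →ₐ[k] ℂ).toRingHom.mapMatrix M
        = M.map (MvPolynomial.aeval z : MvPolynomial _ k →ₐ[k] ℂ) := fun M => rfl
  rw [h2] at h1
  rw [clt_XW, h1]
  congr 1
  apply congrArg
  funext i
  simp only [Function.comp, h2, Matrix.map_mul, clt_XM_map]

lemma clt_Z_pt_true (y : Fin g × Bool → Matrix (Fin n) (Fin n) ℂ) (v : Fin g × Bool) :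
    clt_Z (clt_pt y) v true = y v := by
  ext r q
  simp [clt_Z, clt_pt]

lemma clt_Z_pt_false (y : Fin g × Bool → Matrix (Fin n) (Fin n) ℂ) (v : Fin g × Bool) :
    clt_Z (clt_pt y) v false = (y v)⁻¹ := by
  ext r q
  simp [clt_Z, clt_pt]

/-- a point all of whose `false` matrices are inverse to the `true` matrices is a `clt_pt` -/
lemma clt_eq_pt (z : (Fin g × Bool) × Bool × Fin n × Fin n → ℂ)
    (h : ∀ v, clt_Z z v true * clt_Z z v false = 1) : z = clt_pt fun v => clt_Z z v true := by
  funext w
  obtain ⟨v, β, r, q⟩ := w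
  cases β
  · have h1 : (clt_Z z v true)⁻¹ = clt_Z z v false := Matrix.inv_eq_right_inv (h v)
    simp only [clt_pt, Bool.false_eq_true, if_false, h1]
    rfl
  · simp only [clt_pt, if_true]
    rfl

/-- the equations `Y Y' = 1` -/
noncomputable def clt_e1 (k : Type) [CommRing k] (w : (Fin g × Bool) × Fin n × Fin n) :
    MvPolynomial ((Fin g × Bool) × Bool × Fin n × Fin n) k :=
  (clt_XM k w.1 true * clt_XM k w.1 false :
    Matrix (Fin n) (Fin n) (MvPolynomial ((Fin g × Bool) × Bool × Fin n × Fin n) k)) w.2.1 w.2.2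
      - MvPolynomial.C (if w.2.1 = w.2.2 then 1 else 0)

/-- the equations `word = c` -/
noncomputable def clt_e2 (k : Type) [CommRing k] (c' : k) (w : Fin n × Fin n) :
    MvPolynomial ((Fin g × Bool) × Bool × Fin n × Fin n) k :=
  (clt_XW k : Matrix (Fin n) (Fin n) (MvPolynomial ((Fin g × Bool) × Bool × Fin n × Fin n) k))
    w.1 w.2 - MvPolynomial.C (if w.1 = w.2 then c' else 0)

lemma clt_e1_eval (k : Type) [CommRing k] [Algebra k ℂ]
    (z : (Fin g × Bool) × Bool × Fin n × Fin n → ℂ) (w : (Fin g × Bool) × Fin n × Fin n) :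
    MvPolynomial.aeval z (clt_e1 k w)
      = (clt_Z z w.1 true * clt_Z z w.1 false) w.2.1 w.2.2
        - (1 : Matrix (Fin n) (Fin n) ℂ) w.2.1 w.2.2 := by
  have h1 : MvPolynomial.aeval z
      ((clt_XM k w.1 true * clt_XM k w.1 false :
        Matrix (Fin n) (Fin n) (MvPolynomial ((Fin g × Bool) × Bool × Fin n × Fin n) k))
          w.2.1 w.2.2)
      = ((clt_XM k w.1 true * clt_XM k w.1 false).map
          (MvPolynomial.aeval z : MvPolynomial _ k →ₐ[k] ℂ)) w.2.1 w.2.2 := rfl
  simp only [clt_e1, map_sub, h1, Matrix.map_mul, clt_XM_map, MvPolynomial.aeval_C,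
    Matrix.one_apply]
  split_ifs <;> simp

lemma clt_e2_eval (k : Type) [CommRing k] [Algebra k ℂ] (c' : k)
    (z : (Fin g × Bool) × Bool × Fin n × Fin n → ℂ) (w : Fin n × Fin n) :
    MvPolynomial.aeval z (clt_e2 k c' w)
      = (List.ofFn fun i : Fin g => clt_Z z (i, true) true * clt_Z z (i, false) true
          * clt_Z z (i, true) false * clt_Z z (i, false) false).prod w.1 w.2
        - (algebraMap k ℂ c' • (1 : Matrix (Fin n) (Fin n) ℂ)) w.1 w.2 := by
  have h1 : MvPolynomial.aeval z ((clt_XW k :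
      Matrix (Fin n) (Fin n) (MvPolynomial ((Fin g × Bool) × Bool × Fin n × Fin n) k)) w.1 w.2)
      = ((clt_XW k).map (MvPolynomial.aeval z : MvPolynomial _ k →ₐ[k] ℂ)) w.1 w.2 := rfl
  simp only [clt_e2, map_sub, h1, clt_XW_map, MvPolynomial.aeval_C, Matrix.smul_apply,
    Matrix.one_apply]
  split_ifs <;> simp

end Generic2

/-- **Generic point of `clt_V`** off the zero set of a polynomial. -/
theorem clt_generic_k {k : Type} [Field k] [Algebra k ℂ] [Countable k] {m g : ℕ} (hg : 0 < g)
    (c' : k) (P0 : MvPolynomial ((Fin g × Bool) × Bool × Fin (m + 1) × Fin (m + 1)) k)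
    (y₀ : Fin g × Bool → Matrix (Fin (m + 1)) (Fin (m + 1)) ℂ)
    (hy₀ : y₀ ∈ clt_V (m + 1) g (algebraMap k ℂ c'))
    (hP0 : MvPolynomial.aeval (clt_pt y₀) P0 ≠ 0) :
    ∃ y ∈ clt_V (m + 1) g (algebraMap k ℂ c'), MvPolynomial.aeval (clt_pt y) P0 ≠ 0 ∧
      ∃ s : ℕ, (2 * g - 1) * (m + 1) ^ 2 + 1 ≤ s ∧ ∃ t : Fin s → ℂ,
        AlgebraicIndependent k t ∧
        ∀ i, t i ∈ IntermediateField.adjoin k (Set.range (clt_pt y)) := by
  classical
  set c : ℂ := algebraMap k ℂ c' with hc
  let E1 : Finset (MvPolynomial ((Fin g × Bool) × Bool × Fin (m + 1) × Fin (m + 1)) k) :=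
    Finset.univ.image (clt_e1 k)
  let E2 : Finset (MvPolynomial ((Fin g × Bool) × Bool × Fin (m + 1) × Fin (m + 1)) k) :=
    (Finset.univ.erase (Fin.last m, Fin.last m)).image (clt_e2 k c')
  obtain ⟨z, hz1, hz2, s, hs, t, ht, hty⟩ := clt_gp (E1 ∪ E2) P0 (clt_pt y₀) (by
      intro f hf
      rcases Finset.mem_union.mp hf with hf | hf
      · obtain ⟨w, _, rfl⟩ := Finset.mem_image.mp hf
        rw [clt_e1_eval, clt_Z_pt_true, clt_Z_pt_false, mul_nonsing_inv _ (hy₀.1 _), sub_self]
      · obtain ⟨w, _, rfl⟩ := Finset.mem_image.mp hf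
        rw [clt_e2_eval]
        simp only [clt_Z_pt_true, clt_Z_pt_false]
        have := hy₀.2
        rw [clt_word] at this
        rw [this, sub_self]) hP0
  have hinv : ∀ v, clt_Z z v true * clt_Z z v false = 1 := by
    intro v
    ext r q
    have := hz1 (clt_e1 k (v, r, q))
      (Finset.mem_union_left _ (Finset.mem_image_of_mem _ (Finset.mem_univ _)))
    rw [clt_e1_eval] at this
    exact sub_eq_zero.mp this
  have hzpt := clt_eq_pt z hinv
  set Y : Fin g × Bool → Matrix (Fin (m + 1)) (Fin (m + 1)) ℂ := fun v => clt_Z z v true with hY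
  have hYu : ∀ v, IsUnit (Y v).det := fun v => Matrix.isUnit_det_of_right_inverse (hinv v)
  have hword : ∀ w : Fin (m + 1) × Fin (m + 1), w ≠ (Fin.last m, Fin.last m) →
      clt_word Y w.1 w.2 = (c • (1 : Matrix (Fin (m + 1)) (Fin (m + 1)) ℂ)) w.1 w.2 := by
    intro w hw
    have := hz1 (clt_e2 k c' w) (Finset.mem_union_right _ (Finset.mem_image_of_mem _
      (Finset.mem_erase.mpr ⟨hw, Finset.mem_univ _⟩)))
    rw [clt_e2_eval, hzpt] at this
    simp only [clt_Z_pt_true, clt_Z_pt_false] at this
    exact sub_eq_zero.mp this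
  have hcn : c ^ (m + 1) = 1 := by
    have h1 := clt_det_word y₀ hy₀.1
    rw [hy₀.2, det_smul, det_one, mul_one, Fintype.card_fin] at h1
    exact h1
  have hc0 : c ^ m ≠ 0 := by
    intro h
    rw [pow_succ, h, zero_mul] at hcn
    exact zero_ne_one hcn
  have hdiag : clt_word Y = diagonal fun i => clt_word Y i i := by
    ext r q
    by_cases hrq : r = q
    · subst hrq; simp
    · rw [diagonal_apply_ne _ hrq, hword (r, q) (by
        intro h
        exact hrq ((congrArg Prod.fst h).trans (congrArg Prod.snd h).symm))]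
      simp [hrq]
  have hlast : clt_word Y (Fin.last m) (Fin.last m) = c := by
    have h1 := clt_det_word Y hYu
    rw [hdiag, det_diagonal, Fin.prod_univ_castSucc] at h1
    have h2 : ∀ i : Fin m, clt_word Y i.castSucc i.castSucc = c := by
      intro i
      rw [hword (i.castSucc, i.castSucc) (by
        intro h
        exact (Fin.castSucc_lt_last i).ne (congrArg Prod.fst h))]
      simp
    simp only [h2, Finset.prod_const, Finset.card_univ, Fintype.card_fin] at h1
    have h3 : c ^ m * clt_word Y (Fin.last m) (Fin.last m) = c ^ m * c := by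
      rw [h1, ← pow_succ, hcn]
    exact mul_left_cancel₀ hc0 h3
  have hYV : Y ∈ clt_V (m + 1) g c := by
    refine ⟨hYu, ?_⟩
    ext r q
    by_cases hw : (r, q) = (Fin.last m, Fin.last m)
    · obtain ⟨rfl, rfl⟩ := Prod.mk.inj hw
      rw [hlast]; simp
    · exact hword (r, q) hw
  refine ⟨Y, hYV, ?_, s, ?_, t, ht, ?_⟩
  · rw [← hzpt]; exact hz2
  · have hc1 : E1.card ≤ g * 2 * ((m + 1) * (m + 1)) := by
      refine Finset.card_image_le.trans ?_
      simp [Finset.card_univ, Fintype.card_prod]
    have hc2 : E2.card ≤ (m + 1) * (m + 1) - 1 := by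
      refine Finset.card_image_le.trans ?_
      rw [Finset.card_erase_of_mem (Finset.mem_univ _)]
      simp [Finset.card_univ, Fintype.card_prod]
    have hc3 := Finset.card_union_le E1 E2
    have hc4 : Fintype.card ((Fin g × Bool) × Bool × Fin (m + 1) × Fin (m + 1))
        = g * 2 * (2 * ((m + 1) * (m + 1))) := by
      simp [Fintype.card_prod]
    rw [hc4] at hs
    obtain ⟨g', rfl⟩ : ∃ g', g = g' + 1 := ⟨g - 1, by omega⟩
    have a1 : 2 * (g' + 1) - 1 = 2 * g' + 1 := by omega
    rw [a1]
    have a2 : (g' + 1) * 2 * (2 * ((m + 1) * (m + 1)))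
        = 4 * (g' * ((m + 1) * (m + 1))) + 4 * ((m + 1) * (m + 1)) := by ring
    have a3 : (g' + 1) * 2 * ((m + 1) * (m + 1))
        = 2 * (g' * ((m + 1) * (m + 1))) + 2 * ((m + 1) * (m + 1)) := by ring
    have a4 : (2 * g' + 1) * (m + 1) ^ 2 + 1
        = 2 * (g' * ((m + 1) * (m + 1))) + (m + 1) * (m + 1) + 1 := by ring
    have a5 : 1 ≤ (m + 1) * (m + 1) := Nat.mul_pos (Nat.succ_pos _) (Nat.succ_pos _)
    rw [a2] at hs
    rw [a3] at hc1
    rw [a4]
    omega
  · rw [← hzpt]; exact hty

/-- **C2** (genus at least two): density of the integral points whose first `A` has the prescribed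
characteristic polynomial implies density of the integral points. -/
theorem clt_C2 (hFr : StClFriedland) {n g : ℕ} (c : ℂ) (R : Subring ℂ) (p : ℂ[X]) (hp : p.Monic)
    (hpn : p.natDegree = n) (hp0 : p.eval 0 ≠ 0)
    (h : rg_Dense R (rg_matCoord (Fin (g + 2) × Bool) (Fin n))
      (clt_V n (g + 2) c ∩ {y | (y (0, true)).charpoly = p})) :
    rg_Dense R (rg_matCoord (Fin (g + 2) × Bool) (Fin n)) (clt_V n (g + 2) c) := by
  classical
  intro F hF h0 x hx
  rcases Nat.eq_zero_or_pos n with rfl | hn
  · exact h0 x hx (fun k => k.2.2.1.elim0)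
  obtain ⟨m, rfl⟩ : ∃ m, n = m + 1 := ⟨n - 1, by omega⟩
  obtain ⟨P, hP⟩ := clt_exists_poly hF
  by_contra hne
  rw [hP] at hne
  set S : Set ℂ := insert c (P.coeffs : Set ℂ) with hS
  have hSc : S.Countable := (P.coeffs.finite_toSet.countable).insert c
  have hcS : c ∈ S := Set.mem_insert _ _
  have hcount : Countable (clFld S) := Cardinal.mk_le_aleph0_iff.mp (clFld_countable hSc)
  obtain ⟨P0, hP0⟩ : P ∈ Set.range (MvPolynomial.map (algebraMap (clFld S) ℂ)) := by
    rw [MvPolynomial.mem_range_map_iff_coeffs_subset]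
    intro a ha
    exact ⟨⟨a, IntermediateField.subset_adjoin ℚ S (Set.mem_insert_of_mem _ ha)⟩, rfl⟩
  have hev : ∀ z : (Fin (g + 2) × Bool) × Bool × Fin (m + 1) × Fin (m + 1) → ℂ,
      MvPolynomial.aeval z P0 = MvPolynomial.aeval z P := by
    intro z; rw [← hP0, MvPolynomial.aeval_map_algebraMap]
  obtain ⟨y, hyV, hyP, s, hs, t, ht, hty⟩ := clt_generic_k (k := clFld S) (g := g + 2)
    (Nat.succ_pos _) ⟨c, IntermediateField.subset_adjoin ℚ S hcS⟩ P0 x hx (by rw [hev]; exact hne)
  have hyV' : y ∈ clt_V (m + 1) (g + 2) c := hyV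
  have hgen := clt_count hSc c hcS y hyV' hs t ht hty
  have hgenZ := hgen.restrictScalars (R := ℤ) (FaithfulSMul.algebraMap_injective ℤ (clFld S))
  apply hyP
  rw [hev]
  refine clt_twist hFr (0, true) (0, false) (by simp) (clt_V (m + 1) (g + 2) c)
    (fun y hy T hT hc => clt_V_twist c 0 y hy T hT hc) p hp hpn hp0 P ?_ y hyV' (hyV'.1 _) hgenZ
  intro y hy hchar k
  rw [← hP]
  have htw : ∀ x ∈ clt_V (m + 1) (g + 2) c,
      Function.update x (0, true) (x (0, true) * x (0, false) ^ k) ∈ clt_V (m + 1) (g + 2) c := by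
    intro x hx
    refine clt_V_twist c 0 x hx _ ?_ ?_
    · rw [det_pow]; exact (hx.1 _).pow k
    · exact (pow_succ (x (0, false)) k).symm.trans (pow_succ' (x (0, false)) k)
  have hreg : ∀ κ, rg_RegOn R (rg_matCoord (Fin (g + 2) × Bool) (Fin (m + 1)))
      (clt_V (m + 1) (g + 2) c ∩ {y | (y (0, true)).charpoly = p})
      (fun x => rg_matCoord (Fin (g + 2) × Bool) (Fin (m + 1)) κ
        (Function.update x (0, true) (x (0, true) * x (0, false) ^ k))) := by
    apply rg_matCoord_regOn
    · intro i
      by_cases hi : i = (0, true)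
      · subst hi
        exact ((rg_matCoord_mat (0, true)).mul ((rg_matCoord_mat (0, false)).pow k)).congr
          fun x _ => by rw [Function.update_self]
      · exact (rg_matCoord_mat i).congr fun x _ => by rw [Function.update_of_ne hi]
    · intro i
      by_cases hi : i = (0, true)
      · subst hi
        exact (((rg_matCoord_inv (0, false)).pow k).mul (rg_matCoord_inv (0, true))).congr
          fun x _ => by rw [Function.update_self, Matrix.mul_inv_rev, Matrix.inv_pow']
      · exact (rg_matCoord_inv i).congr fun x _ => by rw [Function.update_of_ne hi]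
  exact h.regOn (hF.comp fun κ => (hreg κ).mono le_top)
    (fun x hx hxR => h0 _ (htw x hx.1) fun κ => (hreg κ).mem hx hxR) y ⟨hy, hchar⟩

end Claimed.Agent.R236
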