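/-
Row 236 (S0471, S0472): top glue, basic definitions.
Everything here is independent of the diagram machinery: the single input is `top_ThmN`.
-/
import Mathlib

set_option autoImplicit false

namespace Claimed.Agent.R236

open MvPolynomial

/-- Complex Zariski closure of a set of points of affine space. -/
def top_zcl {ι : Type} (S : Set (ι → ℂ)) : Set (ι → ℂ) :=
  {z | ∀ Φ : MvPolynomial ι ℂ, (∀ w ∈ S, eval w Φ = 0) → eval z Φ = 0}

/-- The ring of integers of `F`, as a subring of `ℂ`. -/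
noncomputable def top_O (F : IntermediateField ℚ ℂ) : Subring ℂ :=
  F.toSubfield.toSubring ⊓ (integralClosure ℤ ℂ).toSubring

/-- generators of the punctured surface group: handles `(i,0)=a_i`, `(i,1)=b_i`, punctures `c_j` -/
abbrev top_Gen (g s : ℕ) : Type := Fin g × Fin 2 ⊕ Fin s

/-- matrix variables of the flag variety `N`: `(i,0)=A_i, (i,1)=A_i⁻¹, (i,2)=B_i, (i,3)=B_i⁻¹`,
`(j,0)=G_j, (j,1)=G_j⁻¹, (j,2)=T_j`. -/
abbrev top_NGen (g s : ℕ) : Type := Fin g × Fin 4 ⊕ Fin s × Fin 3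

/-- coordinates to matrices -/
def top_mat {κ α : Type} (z : κ × α × α → ℂ) (k : κ) : Matrix α α ℂ := fun p q => z (k, p, q)

/-- matrices to coordinates -/
def top_vec {κ α : Type} (ρ : κ → Matrix α α ℂ) : κ × α × α → ℂ := fun v => ρ v.1 v.2.1 v.2.2

section
variable {α β : Type} [Fintype α] [DecidableEq α] [Fintype β] [DecidableEq β]

/-- the surface word `∏ [a_i,b_i] ∏ c_j` -/
noncomputable def top_word {g s : ℕ} (ρ : top_Gen g s → Matrix α α ℂ) : Matrix α α ℂ :=
  ((List.finRange g).map fun i =>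
    ρ (Sum.inl (i, 0)) * ρ (Sum.inl (i, 1)) * (ρ (Sum.inl (i, 0)))⁻¹ *
      (ρ (Sum.inl (i, 1)))⁻¹).prod *
  ((List.finRange s).map fun j => ρ (Sum.inr j)).prod

/-- `GL`-representation of the punctured surface group -/
def top_GLRep {g s : ℕ} (ρ : top_Gen g s → Matrix α α ℂ) : Prop :=
  (∀ γ, IsUnit (ρ γ).det) ∧ top_word ρ = 1

/-- invariant subspace -/
def top_Inv {κ : Type} (ρ : κ → Matrix α α ℂ) (W : Submodule ℂ (α → ℂ)) : Prop :=
  ∀ γ, ∀ w ∈ W, (ρ γ).mulVec w ∈ W

/-- completely reducible -/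
def top_CR {κ : Type} (ρ : κ → Matrix α α ℂ) : Prop :=
  ∀ W, top_Inv ρ W → ∃ W', IsCompl W W' ∧ top_Inv ρ W'

/-- no proper nonzero invariant subspace -/
def top_Irr {κ : Type} (ρ : κ → Matrix α α ℂ) : Prop :=
  ∀ W, top_Inv ρ W → W = ⊥ ∨ W = ⊤

/-- similarity of matrices, allowing different index types -/
def top_Sim (M : Matrix α α ℂ) (M' : Matrix β β ℂ) : Prop :=
  ∃ (P : Matrix α β ℂ) (Q : Matrix β α ℂ), P * Q = 1 ∧ Q * P = 1 ∧ M = P * M' * Q

/-- simultaneous similarity of tuples, allowing different index types -/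
def top_Conj {κ : Type} (ρ : κ → Matrix α α ℂ) (ρ' : κ → Matrix β β ℂ) : Prop :=
  ∃ (P : Matrix α β ℂ) (Q : Matrix β α ℂ), P * Q = 1 ∧ Q * P = 1 ∧ ∀ γ, ρ γ = P * ρ' γ * Q

/-- all eigenvalues are roots of unity in `K` -/
def top_QU (K : IntermediateField ℚ ℂ) (M : Matrix α α ℂ) : Prop :=
  ∀ (μ : ℂ) (v : α → ℂ), v ≠ 0 → M.mulVec v = μ • v → μ ∈ K ∧ ∃ m : ℕ, 0 < m ∧ μ ^ m = 1

/-- block upper triangular with scalar diagonal blocks -/
def top_IsOfType (blk : α → ℕ) (lam : ℕ → ℂ) (T : Matrix α α ℂ) : Prop :=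
  ∀ p q, (blk q < blk p → T p q = 0) ∧
    (blk p = blk q → T p q = if p = q then lam (blk p) else 0)

/-- the complex points of the flag variety `N` -/
def top_NSol (g s : ℕ) (blk : Fin s → α → ℕ) (lam : Fin s → ℕ → ℂ) :
    Set (top_NGen g s × α × α → ℂ) :=
  {z | (∀ i, top_mat z (Sum.inl (i, 0)) * top_mat z (Sum.inl (i, 1)) = 1) ∧
    (∀ i, top_mat z (Sum.inl (i, 2)) * top_mat z (Sum.inl (i, 3)) = 1) ∧
    (∀ j, top_mat z (Sum.inr (j, 0)) * top_mat z (Sum.inr (j, 1)) = 1) ∧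
    (∀ j, top_IsOfType (blk j) (lam j) (top_mat z (Sum.inr (j, 2)))) ∧
    ((List.finRange g).map fun i =>
      top_mat z (Sum.inl (i, 0)) * top_mat z (Sum.inl (i, 2)) * top_mat z (Sum.inl (i, 1)) *
        top_mat z (Sum.inl (i, 3))).prod *
    ((List.finRange s).map fun j =>
      top_mat z (Sum.inr (j, 0)) * top_mat z (Sum.inr (j, 2)) * top_mat z (Sum.inr (j, 1))).prod
      = 1}

/-- integral representations with an extra property `Q`: entries in `O_F`, handle determinants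
units of `O_F`, surface relation. -/
def top_Good {g s : ℕ} (F : IntermediateField ℚ ℂ)
    (Q : (top_Gen g s → Matrix α α ℂ) → Prop) : Set (top_Gen g s × α × α → ℂ) :=
  {z | (∀ v, z v ∈ top_O F) ∧
    (∀ h, (top_mat z (Sum.inl h)).det ≠ 0 ∧ ((top_mat z (Sum.inl h)).det)⁻¹ ∈ top_O F) ∧
    top_word (top_mat z) = 1 ∧ Q (top_mat z)}

/-- integral representations with handle determinants one and an extra property `Q` -/
def top_GoodSL {g s : ℕ} (L : IntermediateField ℚ ℂ)
    (Q : (top_Gen g s → Matrix α α ℂ) → Prop) : Set (top_Gen g s × α × α → ℂ) :=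
  {z | (∀ v, z v ∈ top_O L) ∧ (∀ h, (top_mat z (Sum.inl h)).det = 1) ∧
    top_word (top_mat z) = 1 ∧ Q (top_mat z)}

/-- the property used for S0472: completely reducible with prescribed puncture classes -/
def top_QCR {g s : ℕ} (M : Fin s → Matrix β β ℂ) (ρ : top_Gen g s → Matrix α α ℂ) : Prop :=
  top_CR ρ ∧ ∀ j, top_Sim (ρ (Sum.inr j)) (M j)

end

/-- **The single input of the top glue** for a fixed field `F`: in every rank `≤ r` and for all
flag types with root-of-unity scalars in `K`, the `O_F`-points of `N` are Zariski dense. -/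
def top_ThmNFor (F : IntermediateField ℚ ℂ) (r g s : ℕ) (K : IntermediateField ℚ ℂ) : Prop :=
  ∀ (α : Type) [Fintype α] [DecidableEq α], Fintype.card α ≤ r →
    ∀ (blk : Fin s → α → ℕ) (lam : Fin s → ℕ → ℂ),
      (∀ j p, lam j (blk j p) ∈ K ∧ ∃ m : ℕ, 0 < m ∧ lam j (blk j p) ^ m = 1) →
      top_NSol g s blk lam ⊆
        top_zcl (top_NSol g s blk lam ∩ {z | ∀ v, z v ∈ top_O F})

/-- **The single input of the top glue.** -/
def top_ThmN (r g s : ℕ) (K : IntermediateField ℚ ℂ) : Prop :=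
  ∃ F : IntermediateField ℚ ℂ, FiniteDimensional ℚ F ∧ K ≤ F ∧ top_ThmNFor F r g s K

end Claimed.Agent.R236
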