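/-
Row 236, closed-surface step, STEP (1): THE CUT (owner helper148; prefix `clt_`).
The integral points of the closed variety whose first `A` has characteristic polynomial
`∏ (X - α_i)` (`α_i` units with unit differences) are dense, provided that the integral points of the
flag variety `top_NSol (g+1) 2` with two full flags are dense.
* `clt_tri_aeval`     polynomials in a triangular matrix;
* `clt_proj`          Lagrange polynomials, spectral projectors;
* `clt_glue`          the unitriangular matrix `C = ∑ e_i(T₁) e_i(T₀)`, `T₁ C T₀ = c⁻¹ C`;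
* `clt_cut_dense`     density of `V_α`;
* `clt_closed_of_N`   density of the closed variety of genus at least two.
-/
import Claimed.Agent.R236.ClTwistMain
import Claimed.Agent.R236.ClFriedland
import Claimed.Agent.R236.RegBasic
import Claimed.Agent.R236.TopDefs

set_option autoImplicit false

namespace Claimed.Agent.R236

open Polynomial Matrix

section Tri
variable {n : ℕ}

lemma clt_tri_mul_diag {M N : Matrix (Fin n) (Fin n) ℂ} (hM : M.IsUpperTriangular)
    (hN : N.IsUpperTriangular) (k : Fin n) : (M * N) k k = M k k * N k k := by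
  rw [Matrix.mul_apply]
  refine Finset.sum_eq_single k (fun l _ hl => ?_) (fun h => absurd (Finset.mem_univ k) h)
  rcases lt_or_gt_of_ne hl with h | h
  · rw [hM (show id l < id k from h), zero_mul]
  · rw [hN (show id k < id l from h), mul_zero]

/-- a polynomial in an upper triangular matrix -/
theorem clt_tri_aeval {T : Matrix (Fin n) (Fin n) ℂ} (hT : T.IsUpperTriangular) (q : ℂ[X]) :
    (aeval T q).IsUpperTriangular ∧ ∀ k, (aeval T q) k k = q.eval (T k k) := by
  induction q using Polynomial.induction_on with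
  | C a =>
    rw [aeval_C]
    refine ⟨blockTriangular_algebraMap a, fun k => ?_⟩
    simp [Matrix.algebraMap_matrix_apply]
  | add p q hp hq =>
    rw [map_add]
    exact ⟨hp.1.add hq.1, fun k => by rw [Matrix.add_apply, hp.2, hq.2, eval_add]⟩
  | monomial m a h =>
    have h1 : aeval T (C a * X ^ (m + 1)) = aeval T (C a * X ^ m) * T := by
      rw [pow_succ, ← mul_assoc, map_mul, aeval_X]
    rw [h1]
    refine ⟨h.1.mul hT, fun k => ?_⟩
    rw [clt_tri_mul_diag h.1 hT, h.2]
    simp [pow_succ, mul_assoc]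

/-- a polynomial in a diagonal matrix -/
theorem clt_aeval_diagonal (d : Fin n → ℂ) (q : ℂ[X]) :
    aeval (diagonal d) q = diagonal fun k => q.eval (d k) := by
  have h1 := aeval_algHom_apply (Matrix.diagonalAlgHom (n := Fin n) ℂ (α := ℂ)) d q
  have h2 : ∀ k, (aeval d q) k = q.eval (d k) := by
    intro k
    have h3 := aeval_algHom_apply (Pi.evalAlgHom ℂ (fun _ : Fin n => ℂ) k) d q
    simp only [Pi.evalAlgHom_apply] at h3
    rw [← h3]
    rfl
  have h4 : (Matrix.diagonalAlgHom (n := Fin n) ℂ (α := ℂ)) d = diagonal d := rfl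
  rw [h4] at h1
  rw [h1]
  show diagonal (aeval d q) = _
  congr 1
  funext k
  exact h2 k

end Tri

section Proj
variable {n : ℕ}

/-- the Lagrange polynomials of the nodes `β` -/
noncomputable def clt_lag (β : Fin n → ℂ) (i : Fin n) : ℂ[X] :=
  C (∏ j ∈ Finset.univ.erase i, (β i - β j)⁻¹) * ∏ j ∈ Finset.univ.erase i, (X - C (β j))

lemma clt_lag_eval (β : Fin n → ℂ) (hβ : Function.Injective β) (i k : Fin n) :
    (clt_lag β i).eval (β k) = if k = i then 1 else 0 := by
  rw [clt_lag, eval_mul, eval_C, eval_prod]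
  simp only [eval_sub, eval_X, eval_C]
  split_ifs with h
  · subst h
    rw [← Finset.prod_mul_distrib]
    apply Finset.prod_eq_one
    intro j hj
    have : β k - β j ≠ 0 := sub_ne_zero.mpr fun h => (Finset.mem_erase.mp hj).1 (hβ h).symm
    exact inv_mul_cancel₀ this
  · rw [Finset.prod_eq_zero (f := fun j => β k - β j)
      (Finset.mem_erase.mpr ⟨h, Finset.mem_univ k⟩) (sub_self _), mul_zero]

lemma clt_lag_mul (β : Fin n → ℂ) (i : Fin n) :
    (X - C (β i)) * clt_lag β i
      = C (∏ j ∈ Finset.univ.erase i, (β i - β j)⁻¹) * ∏ j, (X - C (β j)) := by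
  rw [clt_lag, mul_left_comm,
    Finset.mul_prod_erase Finset.univ (fun j => X - C (β j)) (Finset.mem_univ i)]

/-- the spectral projectors are eigen-matrices -/
lemma clt_lag_eigen {T : Matrix (Fin n) (Fin n) ℂ} (β : Fin n → ℂ)
    (hT : T.charpoly = ∏ j, (X - C (β j))) (i : Fin n) :
    T * aeval T (clt_lag β i) = β i • aeval T (clt_lag β i) := by
  have h1 : aeval T ((X - C (β i)) * clt_lag β i) = 0 := by
    rw [clt_lag_mul, ← hT, map_mul, aeval_self_charpoly, mul_zero]
  rw [map_mul, map_sub, aeval_X, aeval_C, sub_mul, sub_eq_zero] at h1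
  rw [h1, Algebra.algebraMap_eq_smul_one, smul_mul_assoc, one_mul]

lemma clt_lag_eigen' {T : Matrix (Fin n) (Fin n) ℂ} (β : Fin n → ℂ)
    (hT : T.charpoly = ∏ j, (X - C (β j))) (i : Fin n) :
    aeval T (clt_lag β i) * T = β i • aeval T (clt_lag β i) := by
  rw [← clt_lag_eigen β hT i]
  have h1 : aeval T (clt_lag β i * X) = aeval T (X * clt_lag β i) := by rw [mul_comm]
  rwa [map_mul, map_mul, aeval_X] at h1

/-- upper triangular with prescribed diagonal -/
def clt_TriDiag (β : Fin n → ℂ) (T : Matrix (Fin n) (Fin n) ℂ) : Prop :=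
  T.IsUpperTriangular ∧ ∀ k, T k k = β k

lemma clt_TriDiag.charpoly {β : Fin n → ℂ} {T : Matrix (Fin n) (Fin n) ℂ} (h : clt_TriDiag β T) :
    T.charpoly = ∏ j, (X - C (β j)) := by
  rw [Matrix.charpoly_of_isUpperTriangular T h.1]
  simp only [h.2]

/-- the gluing matrix -/
noncomputable def clt_glue (α β : Fin n → ℂ) (T₀ T₁ : Matrix (Fin n) (Fin n) ℂ) :
    Matrix (Fin n) (Fin n) ℂ :=
  ∑ i, aeval T₁ (clt_lag β i) * aeval T₀ (clt_lag α i)

lemma clt_glue_tri {α β : Fin n → ℂ} (hα : Function.Injective α) (hβ : Function.Injective β)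
    {T₀ T₁ : Matrix (Fin n) (Fin n) ℂ} (h₀ : clt_TriDiag α T₀) (h₁ : clt_TriDiag β T₁) :
    clt_TriDiag (fun _ => 1) (clt_glue α β T₀ T₁) := by
  constructor
  · intro p q hpq
    rw [clt_glue, Matrix.sum_apply]
    apply Finset.sum_eq_zero
    intro i _
    exact ((clt_tri_aeval h₁.1 _).1.mul (clt_tri_aeval h₀.1 _).1) hpq
  · intro k
    rw [clt_glue, Matrix.sum_apply]
    rw [Finset.sum_eq_single k]
    · rw [clt_tri_mul_diag (clt_tri_aeval h₁.1 _).1 (clt_tri_aeval h₀.1 _).1,
        (clt_tri_aeval h₁.1 _).2, (clt_tri_aeval h₀.1 _).2, h₀.2, h₁.2, clt_lag_eval α hα,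
        clt_lag_eval β hβ]
      simp
    · intro i _ hi
      rw [clt_tri_mul_diag (clt_tri_aeval h₁.1 _).1 (clt_tri_aeval h₀.1 _).1,
        (clt_tri_aeval h₁.1 _).2, h₁.2, clt_lag_eval β hβ, if_neg (Ne.symm hi), zero_mul]
    · intro h; exact absurd (Finset.mem_univ k) h

lemma clt_glue_det {α β : Fin n → ℂ} (hα : Function.Injective α) (hβ : Function.Injective β)
    {T₀ T₁ : Matrix (Fin n) (Fin n) ℂ} (h₀ : clt_TriDiag α T₀) (h₁ : clt_TriDiag β T₁) :
    (clt_glue α β T₀ T₁).det = 1 := by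
  have h := clt_glue_tri hα hβ h₀ h₁
  rw [Matrix.det_of_isUpperTriangular h.1]
  simp [h.2]

lemma clt_glue_rel {α β : Fin n → ℂ} (d : ℂ) (hd : ∀ i, β i * α i = d)
    {T₀ T₁ : Matrix (Fin n) (Fin n) ℂ} (h₀ : clt_TriDiag α T₀) (h₁ : clt_TriDiag β T₁) :
    T₁ * clt_glue α β T₀ T₁ * T₀ = d • clt_glue α β T₀ T₁ := by
  rw [clt_glue, Finset.mul_sum, Finset.sum_mul, Finset.smul_sum]
  refine Finset.sum_congr rfl fun i _ => ?_
  calc T₁ * (aeval T₁ (clt_lag β i) * aeval T₀ (clt_lag α i)) * T₀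
      = (T₁ * aeval T₁ (clt_lag β i)) * (aeval T₀ (clt_lag α i) * T₀) := by
        simp only [mul_assoc]
    _ = _ := by
        rw [clt_lag_eigen β h₁.charpoly, clt_lag_eigen' α h₀.charpoly, smul_mul_smul_comm, hd]

lemma clt_glue_diagonal {α β : Fin n → ℂ} (hα : Function.Injective α)
    (hβ : Function.Injective β) : clt_glue α β (diagonal α) (diagonal β) = 1 := by
  rw [clt_glue]
  simp only [clt_aeval_diagonal, clt_lag_eval α hα, clt_lag_eval β hβ, diagonal_mul_diagonal]
  ext p q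
  rw [Matrix.sum_apply]
  by_cases hpq : p = q
  · subst hpq
    simp
  · simp [hpq]

end Proj

section RegAeval
variable {P : Type*} {κ : Type*} {R : Subring ℂ} {c : κ → P → ℂ} {S : Set P} {n : ℕ}

theorem clt_matOn_sum {ι : Type*} (s : Finset ι) {f : ι → P → Matrix (Fin n) (Fin n) ℂ}
    (hf : ∀ i ∈ s, rg_MatOn R c S (f i)) : rg_MatOn R c S (fun x => ∑ i ∈ s, f i x) :=
  fun a b => (rg_RegOn.sum s fun i hi => hf i hi a b).congr fun x _ =>
    Matrix.sum_apply a b s fun i => f i x

theorem clt_matOn_aeval {f : P → Matrix (Fin n) (Fin n) ℂ} (hf : rg_MatOn R c S f) (q : ℂ[X])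
    (hq : ∀ k, q.coeff k ∈ R) : rg_MatOn R c S (fun x => aeval (f x) q) := by
  have h : ∀ x, aeval (f x) q = ∑ i ∈ Finset.range (q.natDegree + 1), q.coeff i • (f x) ^ i :=
    fun x => aeval_eq_sum_range _
  simp only [h]
  exact clt_matOn_sum _ fun i _ => rg_MatOn.smul (rg_RegOn.const (hq i)) (hf.pow i)

lemma clt_lag_coeff (β : Fin n → ℂ) (h1 : ∀ j, β j ∈ R)
    (h2 : ∀ i j, i ≠ j → (β i - β j)⁻¹ ∈ R) (i : Fin n) (k : ℕ) : (clt_lag β i).coeff k ∈ R := by
  have hκ : ∏ j ∈ Finset.univ.erase i, (β i - β j)⁻¹ ∈ R :=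
    Subring.prod_mem R fun j hj => h2 i j (Finset.mem_erase.mp hj).1.symm
  have h3 : clt_lag β i = (C (⟨_, hκ⟩ : R) *
      ∏ j ∈ Finset.univ.erase i, (X - C (⟨β j, h1 j⟩ : R))).map R.subtype := by
    simp [clt_lag, Polynomial.map_mul, Polynomial.map_prod]
  rw [h3, coeff_map]
  exact SetLike.coe_mem _

theorem clt_matOn_glue {α β : Fin n → ℂ} (hα1 : ∀ j, α j ∈ R)
    (hα2 : ∀ i j, i ≠ j → (α i - α j)⁻¹ ∈ R) (hβ1 : ∀ j, β j ∈ R)
    (hβ2 : ∀ i j, i ≠ j → (β i - β j)⁻¹ ∈ R) {f₀ f₁ : P → Matrix (Fin n) (Fin n) ℂ}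
    (h₀ : rg_MatOn R c S f₀) (h₁ : rg_MatOn R c S f₁) :
    rg_MatOn R c S (fun x => clt_glue α β (f₀ x) (f₁ x)) :=
  clt_matOn_sum _ fun i _ => (clt_matOn_aeval h₁ _ (clt_lag_coeff β hβ1 hβ2 i)).mul
    (clt_matOn_aeval h₀ _ (clt_lag_coeff α hα1 hα2 i))

end RegAeval

/-- the closure formulation of density implies the `Reg` formulation -/
theorem clt_dense_of_zcl {ι : Type} (R : Subring ℂ) (X : Set (ι → ℂ))
    (h : X ⊆ top_zcl (X ∩ {z | ∀ v, z v ∈ R})) : rg_Dense R (rg_affCoord ι) X := by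
  intro F hF h0 x hx
  have hP : ∃ Φ : MvPolynomial ι ℂ, ∀ z, F z = MvPolynomial.eval z Φ := by
    clear h0
    induction hF with
    | coord k => exact ⟨MvPolynomial.X k, fun z => by simp [rg_affCoord]⟩
    | const z _ => exact ⟨MvPolynomial.C z, fun y => by simp⟩
    | add _ _ h1 h2 =>
      obtain ⟨P, hP⟩ := h1
      obtain ⟨Q, hQ⟩ := h2
      exact ⟨P + Q, fun y => by rw [map_add, ← hP, ← hQ]⟩
    | mul _ _ h1 h2 =>
      obtain ⟨P, hP⟩ := h1
      obtain ⟨Q, hQ⟩ := h2
      exact ⟨P * Q, fun y => by rw [map_mul, ← hP, ← hQ]⟩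
  obtain ⟨Φ, hΦ⟩ := hP
  rw [hΦ]
  exact h hx Φ fun w hw => by rw [← hΦ]; exact h0 w hw.1 hw.2

/-- a matrix whose characteristic polynomial has simple roots is diagonalisable -/
theorem clt_diagonalize {n : ℕ} (A : Matrix (Fin n) (Fin n) ℂ) (α : Fin n → ℂ)
    (hα : Function.Injective α) (h : A.charpoly = ∏ j, (X - C (α j))) :
    ∃ E : Matrix (Fin n) (Fin n) ℂ, IsUnit E.det ∧ A * E = E * diagonal α := by
  have h1 : ∀ i, ∃ v : Fin n → ℂ, v ≠ 0 ∧ A *ᵥ v = α i • v := by
    intro i
    have h2 : (scalar (Fin n) (α i) - A).det = 0 := by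
      rw [← eval_charpoly, h, eval_prod]
      exact Finset.prod_eq_zero (Finset.mem_univ i) (by simp)
    obtain ⟨v, hv, hv0⟩ := Matrix.exists_mulVec_eq_zero_iff.mpr h2
    refine ⟨v, hv, ?_⟩
    rw [sub_mulVec, sub_eq_zero] at hv0
    rw [← hv0]
    ext r
    simp [Matrix.mulVec, dotProduct, Matrix.diagonal_apply]
  choose v hv0 hv using h1
  have hli : LinearIndependent ℂ v := by
    apply Module.End.eigenvectors_linearIndependent' (Matrix.toLin' A) α hα v
    intro i
    rw [Module.End.hasEigenvector_iff]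
    refine ⟨?_, hv0 i⟩
    rw [Module.End.mem_eigenspace_iff, Matrix.toLin'_apply]
    exact hv i
  let E : Matrix (Fin n) (Fin n) ℂ := Matrix.of fun r i => v i r
  have hE : IsUnit E := by
    rw [← Matrix.linearIndependent_cols_iff_isUnit]
    exact hli
  refine ⟨E, (Matrix.isUnit_iff_isUnit_det _).mp hE, ?_⟩
  ext r i
  rw [mul_diagonal]
  have := congrFun (hv i) r
  simp only [Matrix.mulVec, dotProduct, Pi.smul_apply, smul_eq_mul] at this
  rw [Matrix.mul_apply]
  simp only [E, Matrix.of_apply]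
  rw [this, mul_comm]

section Core
variable {n : ℕ}

lemma clt_cut_core (A₁ B₁ M' W : Matrix (Fin n) (Fin n) ℂ) (c : ℂ) (hc : c ≠ 0)
    (hA₁ : IsUnit A₁.det) (hB₁ : IsUnit B₁.det) (h1 : M' * B₁ * A₁ = c⁻¹ • B₁)
    (h2 : W * (A₁ * M') = 1) : A₁ * B₁ * A₁⁻¹ * B₁⁻¹ * W = c • (1 : Matrix (Fin n) (Fin n) ℂ) := by
  have h3 : M' = c⁻¹ • (B₁ * A₁⁻¹ * B₁⁻¹) := by
    calc M' = M' * B₁ * A₁ * A₁⁻¹ * B₁⁻¹ := by
          rw [mul_assoc (M' * B₁), mul_nonsing_inv _ hA₁, mul_one, mul_assoc,
            mul_nonsing_inv _ hB₁, mul_one]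
      _ = _ := by rw [h1, smul_mul_assoc, smul_mul_assoc]
  have h4 : A₁ * B₁ * A₁⁻¹ * B₁⁻¹ = c • (A₁ * M') := by
    rw [h3, mul_smul_comm, smul_smul, mul_inv_cancel₀ hc, one_smul]
    simp only [mul_assoc]
  rw [h4, smul_mul_assoc, mul_eq_one_comm.mp h2]

lemma clt_cut_core' (A₁ B₁ W : Matrix (Fin n) (Fin n) ℂ) (c : ℂ) (hc : c ≠ 0)
    (h : A₁ * B₁ * A₁⁻¹ * B₁⁻¹ * W = c • (1 : Matrix (Fin n) (Fin n) ℂ)) :
    W * (A₁ * (c⁻¹ • (B₁ * A₁⁻¹ * B₁⁻¹))) = 1 := by
  apply mul_eq_one_comm.mp
  rw [mul_smul_comm, smul_mul_assoc]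
  have : A₁ * (B₁ * A₁⁻¹ * B₁⁻¹) * W = A₁ * B₁ * A₁⁻¹ * B₁⁻¹ * W := by simp only [mul_assoc]
  rw [this, h, smul_smul, inv_mul_cancel₀ hc, one_smul]

end Core

section Cut
variable {n g : ℕ}

/-- two full flags -/
def clt_blk (n : ℕ) : Fin 2 → Fin n → ℕ := fun _ p => p.val

/-- the scalars of the two punctures of the cut surface -/
noncomputable def clt_lam (α : Fin n → ℂ) (c : ℂ) : Fin 2 → ℕ → ℂ := fun j k =>
  if h : k < n then (if j = 0 then α ⟨k, h⟩ else c⁻¹ * (α ⟨k, h⟩)⁻¹) else 1

lemma clt_isOfType_iff (lam : ℕ → ℂ) (j : Fin 2) (T : Matrix (Fin n) (Fin n) ℂ) :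
    top_IsOfType (clt_blk n j) lam T ↔ clt_TriDiag (fun k => lam k.val) T := by
  constructor
  · intro h
    exact ⟨fun p q hpq => (h p q).1 hpq, fun k => by simpa [clt_blk] using (h k k).2 rfl⟩
  · intro h p q
    refine ⟨fun hpq => h.1 hpq, fun hpq => ?_⟩
    have : p = q := Fin.ext hpq
    subst this
    simpa [clt_blk] using h.2 p

/-- the map from the flag variety of the cut surface to the closed variety -/
noncomputable def clt_cutMap (α β : Fin n → ℂ) (z : top_NGen (g + 1) 2 × Fin n × Fin n → ℂ) :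
    Fin (g + 2) × Bool → Matrix (Fin n) (Fin n) ℂ := fun v =>
  Fin.cases (motive := fun _ => Matrix (Fin n) (Fin n) ℂ)
    (if v.2 then top_mat z (Sum.inr (0, 0)) * top_mat z (Sum.inr (0, 2)) * top_mat z (Sum.inr (0, 1))
     else top_mat z (Sum.inr (1, 0)) *
      clt_glue α β (top_mat z (Sum.inr (0, 2))) (top_mat z (Sum.inr (1, 2))) *
        top_mat z (Sum.inr (0, 1)))
    (fun i => if v.2 then top_mat z (Sum.inl (i, 0)) else top_mat z (Sum.inl (i, 2))) v.1

/-- the inverses -/
noncomputable def clt_cutInv (α β : Fin n → ℂ) (z : top_NGen (g + 1) 2 × Fin n × Fin n → ℂ) :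
    Fin (g + 2) × Bool → Matrix (Fin n) (Fin n) ℂ := fun v =>
  Fin.cases (motive := fun _ => Matrix (Fin n) (Fin n) ℂ)
    (if v.2 then top_mat z (Sum.inr (0, 0)) *
        ((∏ i, (α i)⁻¹) • (top_mat z (Sum.inr (0, 2))).adjugate) * top_mat z (Sum.inr (0, 1))
     else top_mat z (Sum.inr (0, 0)) *
      (clt_glue α β (top_mat z (Sum.inr (0, 2))) (top_mat z (Sum.inr (1, 2)))).adjugate *
        top_mat z (Sum.inr (1, 1)))
    (fun i => if v.2 then top_mat z (Sum.inl (i, 1)) else top_mat z (Sum.inl (i, 3))) v.1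

lemma clt_sandwich_one {G G' M M' : Matrix (Fin n) (Fin n) ℂ} {H H' : Matrix (Fin n) (Fin n) ℂ}
    (hG : G * G' = 1) (hH : H * H' = 1) (hM : M * M' = 1) :
    (G * M * H') * (H * M' * G') = 1 := by
  have hH' : H' * H = 1 := mul_eq_one_comm.mp hH
  calc G * M * H' * (H * M' * G') = G * (M * ((H' * H) * M')) * G' := by simp only [mul_assoc]
    _ = 1 := by rw [hH', one_mul, hM, mul_one, hG]

lemma clt_top_mat_regOn (R : Subring ℂ) {κ : Type} (S : Set (κ × Fin n × Fin n → ℂ)) (k : κ) :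
    rg_MatOn R (rg_affCoord (κ × Fin n × Fin n)) S (fun z => top_mat z k) :=
  fun a b => rg_RegOn.coord (c := rg_affCoord (κ × Fin n × Fin n)) (k, a, b)


/-- **Step (1)**: density of the integral points with prescribed characteristic polynomial. -/
theorem clt_cut_dense (R : Subring ℂ) (c : ℂ) (α : Fin n → ℂ) (hc : c ≠ 0) (hcR : c ∈ R)
    (hcR' : c⁻¹ ∈ R) (hα0 : ∀ i, α i ≠ 0) (hαR : ∀ i, α i ∈ R) (hαR' : ∀ i, (α i)⁻¹ ∈ R)
    (hαd : ∀ i j, i ≠ j → α i ≠ α j ∧ (α i - α j)⁻¹ ∈ R)
    (hN : top_NSol (g + 1) 2 (clt_blk n) (clt_lam α c) ⊆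
      top_zcl (top_NSol (g + 1) 2 (clt_blk n) (clt_lam α c) ∩ {z | ∀ v, z v ∈ R})) :
    rg_Dense R (rg_matCoord (Fin (g + 2) × Bool) (Fin n))
      (clt_V n (g + 2) c ∩ {y | (y (0, true)).charpoly = ∏ i, (X - C (α i))}) := by
  classical
  set β : Fin n → ℂ := fun i => c⁻¹ * (α i)⁻¹ with hβ
  have hαinj : Function.Injective α := fun i j hij => by
    by_contra hne
    exact (hαd i j hne).1 hij
  have hβinj : Function.Injective β := fun i j hij => by
    have h1 : (α i)⁻¹ = (α j)⁻¹ := mul_left_cancel₀ (inv_ne_zero hc) hij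
    exact hαinj (inv_injective h1)
  have hβR : ∀ i, β i ∈ R := fun i => R.mul_mem hcR' (hαR' i)
  have hβd : ∀ i j, i ≠ j → (β i - β j)⁻¹ ∈ R := by
    intro i j hij
    have h1 : (β i - β j)⁻¹ = c * α i * α j * (α j - α i)⁻¹ := by
      have h2 : α j - α i ≠ 0 := sub_ne_zero.mpr (hαd j i hij.symm).1
      have h3 : β i - β j = (α j - α i) * (c * α i * α j)⁻¹ := by
        simp only [hβ]
        field_simp [hα0 i, hα0 j]
      rw [h3, mul_inv, inv_inv, mul_comm]
    rw [h1]
    exact R.mul_mem (R.mul_mem (R.mul_mem hcR (hαR i)) (hαR j)) (hαd j i hij.symm).2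
  have hβα : ∀ i, β i * α i = c⁻¹ := fun i => by
    simp only [hβ]
    rw [mul_assoc, inv_mul_cancel₀ (hα0 i), mul_one]
  have hlam0 : (fun k : Fin n => clt_lam α c 0 k.val) = α := by
    funext k; simp [clt_lam]
  have hlam1 : (fun k : Fin n => clt_lam α c 1 k.val) = β := by
    funext k; simp [clt_lam, hβ]
  set X := top_NSol (g + 1) 2 (clt_blk n) (clt_lam α c) with hX
  have hD := clt_dense_of_zcl R X hN
  -- facts on the points of the flag variety
  have hT0 : ∀ z ∈ X, clt_TriDiag α (top_mat z (Sum.inr (0, 2))) := fun z hz => by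
    have := (clt_isOfType_iff _ 0 _).mp (hz.2.2.2.1 0)
    rwa [hlam0] at this
  have hT1 : ∀ z ∈ X, clt_TriDiag β (top_mat z (Sum.inr (1, 2))) := fun z hz => by
    have := (clt_isOfType_iff _ 1 _).mp (hz.2.2.2.1 1)
    rwa [hlam1] at this
  have hinv : ∀ z ∈ X, ∀ v, clt_cutMap α β z v * clt_cutInv α β z v = 1 := by
    rintro z hz ⟨i, b⟩
    obtain ⟨hA, hB, hG, -, -⟩ := id hz
    refine Fin.cases ?_ (fun i => ?_) i
    · cases b
      · simp only [clt_cutMap, clt_cutInv, Fin.cases_zero, Bool.false_eq_true, if_false]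
        refine clt_sandwich_one (hG 1) (hG 0) ?_
        rw [mul_adjugate, clt_glue_det hαinj hβinj (hT0 z hz) (hT1 z hz), one_smul]
      · simp only [clt_cutMap, clt_cutInv, Fin.cases_zero, if_true]
        refine clt_sandwich_one (hG 0) (hG 0) ?_
        rw [mul_smul_comm, mul_adjugate, Matrix.det_of_isUpperTriangular (hT0 z hz).1, smul_smul]
        simp only [(hT0 z hz).2]
        rw [← Finset.prod_mul_distrib, Finset.prod_eq_one fun i _ => inv_mul_cancel₀ (hα0 i),
          one_smul]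
    · cases b
      · simpa only [clt_cutMap, clt_cutInv, Fin.cases_succ, Bool.false_eq_true, if_false] using hB i
      · simpa only [clt_cutMap, clt_cutInv, Fin.cases_succ, if_true] using hA i
  have hinv' : ∀ z ∈ X, ∀ v, (clt_cutMap α β z v)⁻¹ = clt_cutInv α β z v := fun z hz v =>
    Matrix.inv_eq_right_inv (hinv z hz v)
  refine rg_Dense.transfer₁ (clt_cutMap α β) ?_ ?_ ?_ hD
  · -- regularity
    apply rg_matCoord_regOn
    · rintro ⟨i, b⟩
      refine Fin.cases ?_ (fun i => ?_) i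
      · cases b
        · simp only [clt_cutMap, Fin.cases_zero, Bool.false_eq_true, if_false]
          exact ((clt_top_mat_regOn R X _).mul (clt_matOn_glue hαR (fun i j h => (hαd i j h).2) hβR
            hβd (clt_top_mat_regOn R X _) (clt_top_mat_regOn R X _))).mul (clt_top_mat_regOn R X _)
        · simp only [clt_cutMap, Fin.cases_zero, if_true]
          exact ((clt_top_mat_regOn R X _).mul (clt_top_mat_regOn R X _)).mul
            (clt_top_mat_regOn R X _)
      · cases b
        · simp only [clt_cutMap, Fin.cases_succ, Bool.false_eq_true, if_false]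
          exact clt_top_mat_regOn R X _
        · simp only [clt_cutMap, Fin.cases_succ, if_true]
          exact clt_top_mat_regOn R X _
    · intro v
      refine rg_MatOn.congr (f := fun z => clt_cutInv α β z v) ?_ (fun z hz => hinv' z hz v)
      obtain ⟨i, b⟩ := v
      refine Fin.cases ?_ (fun i => ?_) i
      · cases b
        · simp only [clt_cutInv, Fin.cases_zero, Bool.false_eq_true, if_false]
          exact ((clt_top_mat_regOn R X _).mul (clt_matOn_glue hαR (fun i j h => (hαd i j h).2) hβR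
            hβd (clt_top_mat_regOn R X _) (clt_top_mat_regOn R X _)).adjugate).mul
              (clt_top_mat_regOn R X _)
        · simp only [clt_cutInv, Fin.cases_zero, if_true]
          exact ((clt_top_mat_regOn R X _).mul (rg_MatOn.smul
            (rg_RegOn.const (Subring.prod_mem R fun i _ => hαR' i))
            (clt_top_mat_regOn R X _).adjugate)).mul (clt_top_mat_regOn R X _)
      · cases b
        · simp only [clt_cutInv, Fin.cases_succ, Bool.false_eq_true, if_false]
          exact clt_top_mat_regOn R X _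
        · simp only [clt_cutInv, Fin.cases_succ, if_true]
          exact clt_top_mat_regOn R X _
  · -- the image lies in `V_α`
    intro z hz
    obtain ⟨hA, hB, hG, -, hrel⟩ := id hz
    have hG' : ∀ j, top_mat z (Sum.inr (j, 1)) * top_mat z (Sum.inr (j, 0)) = 1 := fun j =>
      mul_eq_one_comm.mp (hG j)
    have hu : ∀ v, IsUnit (clt_cutMap α β z v).det := fun v =>
      Matrix.isUnit_det_of_right_inverse (hinv z hz v)
    refine ⟨⟨hu, ?_⟩, ?_⟩
    · rw [clt_word, List.ofFn_succ, List.prod_cons]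
      have htail : (List.ofFn fun i : Fin (g + 1) =>
          clt_cutMap α β z (i.succ, true) * clt_cutMap α β z (i.succ, false) *
            (clt_cutMap α β z (i.succ, true))⁻¹ * (clt_cutMap α β z (i.succ, false))⁻¹)
          = (List.finRange (g + 1)).map fun i =>
            top_mat z (Sum.inl (i, 0)) * top_mat z (Sum.inl (i, 2)) * top_mat z (Sum.inl (i, 1)) *
              top_mat z (Sum.inl (i, 3)) := by
        rw [List.ofFn_eq_map]
        apply List.map_congr_left
        intro i _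
        rw [hinv' z hz, hinv' z hz]
        simp only [clt_cutMap, clt_cutInv, Fin.cases_succ, Bool.false_eq_true, if_false, if_true]
      rw [htail]
      refine clt_cut_core _ _ (top_mat z (Sum.inr (1, 0)) * top_mat z (Sum.inr (1, 2)) *
        top_mat z (Sum.inr (1, 1))) _ c hc (hu _) (hu _) ?_ ?_
      · simp only [clt_cutMap, Fin.cases_zero, Bool.false_eq_true, if_false, if_true]
        set G0 := top_mat z (Sum.inr (0, 0))
        set G0' := top_mat z (Sum.inr (0, 1))
        set T0 := top_mat z (Sum.inr (0, 2))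
        set G1 := top_mat z (Sum.inr (1, 0))
        set G1' := top_mat z (Sum.inr (1, 1))
        set T1 := top_mat z (Sum.inr (1, 2))
        calc G1 * T1 * G1' * (G1 * clt_glue α β T0 T1 * G0') * (G0 * T0 * G0')
            = G1 * (T1 * ((G1' * G1) * clt_glue α β T0 T1 * (G0' * G0)) * T0) * G0' := by
              simp only [mul_assoc]
          _ = G1 * (T1 * clt_glue α β T0 T1 * T0) * G0' := by
              rw [hG' 1, hG' 0, one_mul, mul_one]
          _ = _ := by
              rw [clt_glue_rel c⁻¹ hβα (hT0 z hz) (hT1 z hz), mul_smul_comm, smul_mul_assoc]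
      · have h2 : ((List.finRange 2).map fun j : Fin 2 =>
            top_mat z (Sum.inr (j, 0)) * top_mat z (Sum.inr (j, 2)) * top_mat z (Sum.inr (j, 1))).prod
            = clt_cutMap α β z (0, true) * (top_mat z (Sum.inr (1, 0)) * top_mat z (Sum.inr (1, 2)) *
              top_mat z (Sum.inr (1, 1))) := by
          simp [List.finRange_succ, clt_cutMap]
        rw [← h2]
        exact hrel
    · show (clt_cutMap α β z (0, true)).charpoly = _
      simp only [clt_cutMap, Fin.cases_zero, if_true]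
      have h3 := Matrix.charpoly_units_conj
        (⟨top_mat z (Sum.inr (0, 0)), top_mat z (Sum.inr (0, 1)), hG 0, hG' 0⟩ :
          (Matrix (Fin n) (Fin n) ℂ)ˣ) (top_mat z (Sum.inr (0, 2)))
      have h4 : (((⟨top_mat z (Sum.inr (0, 0)), top_mat z (Sum.inr (0, 1)), hG 0, hG' 0⟩ :
          (Matrix (Fin n) (Fin n) ℂ)ˣ) : Matrix (Fin n) (Fin n) ℂ))⁻¹ = top_mat z (Sum.inr (0, 1)) :=
        Matrix.inv_eq_right_inv (hG 0)
      rw [h4] at h3
      rw [h3, (hT0 z hz).charpoly]
  · -- surjectivity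
    rintro y ⟨hyV, hychar⟩
    obtain ⟨E, hE, hAE⟩ := clt_diagonalize (y (0, true)) α hαinj hychar
    have hEE : E * E⁻¹ = 1 := mul_nonsing_inv _ hE
    have hEE' : E⁻¹ * E = 1 := nonsing_inv_mul _ hE
    have hyy : ∀ v, y v * (y v)⁻¹ = 1 := fun v => mul_nonsing_inv _ (hyV.1 v)
    have hyy' : ∀ v, (y v)⁻¹ * y v = 1 := fun v => nonsing_inv_mul _ (hyV.1 v)
    let ρ : top_NGen (g + 1) 2 → Matrix (Fin n) (Fin n) ℂ := fun k =>
      match k with
      | Sum.inl (i, k) =>
        ![y (i.succ, true), (y (i.succ, true))⁻¹, y (i.succ, false), (y (i.succ, false))⁻¹] k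
      | Sum.inr (j, k) =>
        ![![E, E⁻¹, diagonal α], ![y (0, false) * E, E⁻¹ * (y (0, false))⁻¹, diagonal β]] j k
    have hρ : ∀ k, top_mat (top_vec ρ) k = ρ k := fun k => rfl
    have hA1 : y (0, true) = E * diagonal α * E⁻¹ := by
      rw [← hAE, mul_assoc, hEE, mul_one]
    have hA1' : (y (0, true))⁻¹ = E * diagonal (fun i => (α i)⁻¹) * E⁻¹ := by
      apply Matrix.inv_eq_right_inv
      rw [hA1]
      refine clt_sandwich_one hEE hEE ?_
      rw [diagonal_mul_diagonal]
      simp [hα0]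
    refine ⟨top_vec ρ, ⟨?_, ?_, ?_, ?_, ?_⟩, ?_⟩
    · intro i; simp only [hρ]; exact hyy _
    · intro i; simp only [hρ]; exact hyy _
    · intro j
      simp only [hρ]
      fin_cases j
      · exact hEE
      · show y (0, false) * E * (E⁻¹ * (y (0, false))⁻¹) = 1
        rw [mul_assoc, ← mul_assoc E, hEE, one_mul, hyy]
    · intro j
      rw [clt_isOfType_iff, hρ]
      fin_cases j
      · show clt_TriDiag (fun k : Fin n => clt_lam α c 0 k.val) (diagonal α)
        rw [hlam0]
        exact ⟨blockTriangular_diagonal α, fun k => diagonal_apply_eq α k⟩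
      · show clt_TriDiag (fun k : Fin n => clt_lam α c 1 k.val) (diagonal β)
        rw [hlam1]
        exact ⟨blockTriangular_diagonal β, fun k => diagonal_apply_eq β k⟩
    · simp only [hρ]
      have h2 : ((List.finRange 2).map fun j : Fin 2 =>
          ρ (Sum.inr (j, 0)) * ρ (Sum.inr (j, 2)) * ρ (Sum.inr (j, 1))).prod
          = y (0, true) * (c⁻¹ • (y (0, false) * (y (0, true))⁻¹ * (y (0, false))⁻¹)) := by
        have h3 : ρ (Sum.inr (0, 0)) * ρ (Sum.inr (0, 2)) * ρ (Sum.inr (0, 1)) = y (0, true) :=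
          hA1.symm
        have h4 : ρ (Sum.inr (1, 0)) * ρ (Sum.inr (1, 2)) * ρ (Sum.inr (1, 1))
            = c⁻¹ • (y (0, false) * (y (0, true))⁻¹ * (y (0, false))⁻¹) := by
          show y (0, false) * E * diagonal β * (E⁻¹ * (y (0, false))⁻¹) = _
          have h5 : diagonal β = c⁻¹ • diagonal (fun i => (α i)⁻¹) := by
            ext p q
            by_cases hpq : p = q
            · subst hpq; simp [hβ]
            · simp [hpq]
          rw [hA1', h5]
          simp only [mul_smul_comm, smul_mul_assoc, mul_assoc]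
        simp only [List.finRange_succ, List.finRange_zero, List.map_cons, List.map_nil,
          List.prod_cons, List.prod_nil, mul_one]
        exact congrArg₂ (· * ·) h3 h4
      rw [h2]
      apply clt_cut_core' _ _ _ c hc
      have h6 := hyV.2
      rw [clt_word, List.ofFn_succ, List.prod_cons, List.ofFn_eq_map] at h6
      exact h6
    · funext v
      obtain ⟨i, b⟩ := v
      refine Fin.cases ?_ (fun i => ?_) i
      · cases b
        · simp only [clt_cutMap, Fin.cases_zero, Bool.false_eq_true, if_false, hρ]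
          show y (0, false) * E * clt_glue α β (diagonal α) (diagonal β) * E⁻¹ = _
          rw [clt_glue_diagonal hαinj hβinj, mul_one, mul_assoc, hEE, mul_one]
        · simp only [clt_cutMap, Fin.cases_zero, if_true, hρ]
          exact hA1.symm
      · cases b
        · simp only [clt_cutMap, Fin.cases_succ, Bool.false_eq_true, if_false, hρ]
          rfl
        · simp only [clt_cutMap, Fin.cases_succ, if_true, hρ]
          rfl

/-- Friedland's theorem in the form of the interface -/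
theorem clt_friedland : StClFriedland := fun n A h p hp hd => cl_friedland n A h p hp hd

/-- **Closed surfaces of genus at least two**: the integral points are dense, provided that the
integral points of the flag variety of the cut surface are dense. -/
theorem clt_closed_of_N (R : Subring ℂ) (c : ℂ) (α : Fin n → ℂ) (hc : c ≠ 0) (hcR : c ∈ R)
    (hcR' : c⁻¹ ∈ R) (hα0 : ∀ i, α i ≠ 0) (hαR : ∀ i, α i ∈ R) (hαR' : ∀ i, (α i)⁻¹ ∈ R)
    (hαd : ∀ i j, i ≠ j → α i ≠ α j ∧ (α i - α j)⁻¹ ∈ R)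
    (hN : top_NSol (g + 1) 2 (clt_blk n) (clt_lam α c) ⊆
      top_zcl (top_NSol (g + 1) 2 (clt_blk n) (clt_lam α c) ∩ {z | ∀ v, z v ∈ R})) :
    rg_Dense R (rg_matCoord (Fin (g + 2) × Bool) (Fin n)) (clt_V n (g + 2) c) := by
  refine clt_C2 clt_friedland c R (∏ i, (X - C (α i)))
    (monic_prod_of_monic _ _ fun i _ => monic_X_sub_C _) ?_ ?_
    (clt_cut_dense R c α hc hcR hcR' hα0 hαR hαR' hαd hN)
  · rw [natDegree_prod_of_monic _ _ fun i _ => monic_X_sub_C _]
    simp
  · rw [eval_prod]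
    exact Finset.prod_ne_zero_iff.mpr fun i _ => by simpa using hα0 i

end Cut

end Claimed.Agent.R236
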