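/-
Row 236, package CLOSED FACETS (sub-captain helper215).  GENUS ONE, Lemma torus-density, part A:
clock and shift matrices and their algebra.
-/
import Claimed.Agent.R236.ClCommA

set_option autoImplicit false

namespace Claimed.Agent.R236

open Polynomial Matrix

/-- `diag(C, cC, …, c^{m-1} C)` -/
def clClock (m r : ℕ) (c : ℂ) (C : ClMat r) : Matrix (Fin m × Fin r) (Fin m × Fin r) ℂ :=
  Matrix.of fun p q => if p.1 = q.1 then c ^ (p.1 : ℕ) * C p.2 q.2 else 0

/-- `(v_0, …, v_{m-1}) ↦ (D v_{m-1}, v_0, …, v_{m-2})` -/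
def clShift (m r : ℕ) (D : ClMat r) : Matrix (Fin m × Fin r) (Fin m × Fin r) ℂ :=
  Matrix.of fun p q => if (p.1 : ℕ) = q.1 + 1 then (1 : ClMat r) p.2 q.2
    else if (p.1 : ℕ) = 0 ∧ (q.1 : ℕ) + 1 = m then D p.2 q.2 else 0

/-- `(w_0, …, w_{m-1}) ↦ (w_1, …, w_{m-1}, D' w_0)` -/
def clShiftInv (m r : ℕ) (D' : ClMat r) : Matrix (Fin m × Fin r) (Fin m × Fin r) ℂ :=
  Matrix.of fun p q => if (q.1 : ℕ) = p.1 + 1 then (1 : ClMat r) p.2 q.2
    else if (q.1 : ℕ) = 0 ∧ (p.1 : ℕ) + 1 = m then D' p.2 q.2 else 0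

variable {m r : ℕ}

theorem clClock_mul (c c' : ℂ) (C C' : ClMat r) :
    clClock m r c C * clClock m r c' C' = clClock m r (c * c') (C * C') := by
  ext ⟨i, a⟩ ⟨j, b⟩
  rw [Matrix.mul_apply, Fintype.sum_prod_type]
  simp only [clClock, Matrix.of_apply]
  rw [Finset.sum_eq_single i]
  · by_cases hij : i = j
    · subst hij
      simp only [if_true, Matrix.mul_apply, Finset.mul_sum, mul_pow]
      refine Finset.sum_congr rfl fun k _ => ?_
      ring
    · simp [hij]
  · intro k _ hk
    simp [Ne.symm hk]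
  · intro h; exact absurd (Finset.mem_univ i) h

theorem clClock_one : clClock m r 1 (1 : ClMat r) = 1 := by
  ext ⟨i, a⟩ ⟨j, b⟩
  simp only [clClock, Matrix.of_apply, one_pow, one_mul]
  by_cases hij : i = j
  · subst hij
    by_cases hab : a = b
    · subst hab; simp
    · rw [if_pos rfl, Matrix.one_apply_ne hab, Matrix.one_apply_ne]
      intro h; exact hab (Prod.ext_iff.1 h).2
  · rw [if_neg hij, Matrix.one_apply_ne]
    intro h; exact hij (Prod.ext_iff.1 h).1

theorem clClock_apply (c : ℂ) (C : ClMat r) (i k : Fin m) (a e : Fin r) :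
    clClock m r c C (i, a) (k, e) = if i = k then c ^ (i : ℕ) * C a e else 0 := rfl

theorem clShift_apply (D : ClMat r) (i k : Fin m) (a e : Fin r) :
    clShift m r D (i, a) (k, e) = if (i : ℕ) = k + 1 then (1 : ClMat r) a e
      else if (i : ℕ) = 0 ∧ (k : ℕ) + 1 = m then D a e else 0 := rfl

theorem clShiftInv_apply (D : ClMat r) (i k : Fin m) (a e : Fin r) :
    clShiftInv m r D (i, a) (k, e) = if (k : ℕ) = i + 1 then (1 : ClMat r) a e
      else if (k : ℕ) = 0 ∧ (i : ℕ) + 1 = m then D a e else 0 := rfl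

theorem cl_one_prod_apply (i j : Fin m) (a b : Fin r) :
    (1 : Matrix (Fin m × Fin r) (Fin m × Fin r) ℂ) (i, a) (j, b) =
      if i = j then (1 : ClMat r) a b else 0 := by
  by_cases hij : i = j
  · subst hij
    by_cases hab : a = b
    · subst hab; simp
    · rw [if_pos rfl, Matrix.one_apply_ne hab, Matrix.one_apply_ne]
      intro h; exact hab (Prod.ext_iff.1 h).2
  · rw [if_neg hij, Matrix.one_apply_ne]
    intro h; exact hij (Prod.ext_iff.1 h).1

theorem clShift_mul_inv (D D' : ClMat r) (h : D * D' = 1) :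
    clShift m r D * clShiftInv m r D' = 1 := by
  ext ⟨i, a⟩ ⟨j, b⟩
  rw [Matrix.mul_apply, Fintype.sum_prod_type, cl_one_prod_apply]
  have hi := i.2
  have hj := j.2
  by_cases hi0 : (i : ℕ) = 0
  · -- first block row: only `k = m - 1` contributes
    rw [Finset.sum_eq_single (⟨m - 1, by omega⟩ : Fin m)]
    · have f1 : ∀ e, clShift m r D (i, a) (⟨m - 1, by omega⟩, e) = D a e := by
        intro e
        rw [clShift_apply, if_neg (by simp only []; omega), if_pos ⟨hi0, by simp only []; omega⟩]
      by_cases hj0 : (j : ℕ) = 0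
      · have hij : i = j := Fin.ext (by omega)
        have f2 : ∀ e, clShiftInv m r D' (⟨m - 1, by omega⟩, e) (j, b) = D' e b := by
          intro e
          rw [clShiftInv_apply, if_neg (by simp only []; omega),
            if_pos ⟨hj0, by simp only []; omega⟩]
        simp only [f1, f2]
        rw [← Matrix.mul_apply, h, if_pos hij]
      · have hij : i ≠ j := fun h => hj0 (by rw [← h]; exact hi0)
        have f2 : ∀ e, clShiftInv m r D' (⟨m - 1, by omega⟩, e) (j, b) = 0 := by
          intro e
          rw [clShiftInv_apply, if_neg (by simp only []; omega), if_neg (fun h => hj0 h.1)]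
        simp only [f2, mul_zero, Finset.sum_const_zero, if_neg hij]
    · intro k _ hk
      have hk' : (k : ℕ) ≠ m - 1 := fun h => hk (Fin.ext h)
      have hk2 := k.2
      refine Finset.sum_eq_zero fun e _ => ?_
      rw [clShift_apply, if_neg (by omega), if_neg (by omega), zero_mul]
    · intro h; exact absurd (Finset.mem_univ _) h
  · rw [Finset.sum_eq_single (⟨(i : ℕ) - 1, by omega⟩ : Fin m)]
    · have f1 : ∀ e, clShift m r D (i, a) (⟨(i : ℕ) - 1, by omega⟩, e) = (1 : ClMat r) a e := by
        intro e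
        rw [clShift_apply, if_pos (by simp only []; omega)]
      by_cases hij : i = j
      · have f2 : ∀ e, clShiftInv m r D' (⟨(i : ℕ) - 1, by omega⟩, e) (j, b)
            = (1 : ClMat r) e b := by
          intro e
          rw [clShiftInv_apply, if_pos (by simp only []; rw [← hij]; omega)]
        simp only [f1, f2]
        rw [← Matrix.mul_apply, Matrix.one_mul, if_pos hij]
      · have e3 : ¬ ((j : ℕ) = (i : ℕ)) := fun h => hij (Fin.ext h.symm)
        have f2 : ∀ e, clShiftInv m r D' (⟨(i : ℕ) - 1, by omega⟩, e) (j, b) = 0 := by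
          intro e
          rw [clShiftInv_apply, if_neg (by simp only []; omega), if_neg (by simp only []; omega)]
        simp only [f2, mul_zero, Finset.sum_const_zero, if_neg hij]
    · intro k _ hk
      have hk' : (k : ℕ) ≠ (i : ℕ) - 1 := fun h => hk (Fin.ext h)
      refine Finset.sum_eq_zero fun e _ => ?_
      rw [clShift_apply, if_neg (by omega), if_neg (by omega), zero_mul]
    · intro h; exact absurd (Finset.mem_univ _) h

theorem clClock_mul_clShift (c : ℂ) (hc : c ^ m = 1) (C D : ClMat r) (h : C * D = D * C) :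
    clClock m r c C * clShift m r D = c • (clShift m r D * clClock m r c C) := by
  ext ⟨i, a⟩ ⟨j, b⟩
  rw [Matrix.smul_apply, Matrix.mul_apply, Matrix.mul_apply, Fintype.sum_prod_type,
    Fintype.sum_prod_type]
  have hL : ∑ k : Fin m, ∑ e : Fin r, clClock m r c C (i, a) (k, e) * clShift m r D (k, e) (j, b)
      = ∑ e : Fin r, c ^ (i : ℕ) * C a e * clShift m r D (i, e) (j, b) := by
    rw [Finset.sum_eq_single i]
    · refine Finset.sum_congr rfl fun e _ => ?_
      rw [clClock_apply, if_pos rfl]
    · intro k _ hk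
      refine Finset.sum_eq_zero fun e _ => ?_
      rw [clClock_apply, if_neg (Ne.symm hk), zero_mul]
    · intro h; exact absurd (Finset.mem_univ _) h
  have hR : ∑ k : Fin m, ∑ e : Fin r, clShift m r D (i, a) (k, e) * clClock m r c C (k, e) (j, b)
      = ∑ e : Fin r, clShift m r D (i, a) (j, e) * (c ^ (j : ℕ) * C e b) := by
    rw [Finset.sum_eq_single j]
    · refine Finset.sum_congr rfl fun e _ => ?_
      rw [clClock_apply, if_pos rfl]
    · intro k _ hk
      refine Finset.sum_eq_zero fun e _ => ?_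
      rw [clClock_apply, if_neg hk, mul_zero]
    · intro h; exact absurd (Finset.mem_univ _) h
  rw [hL, hR]
  by_cases h1 : (i : ℕ) = j + 1
  · have f1 : ∀ a' e, clShift m r D (i, a') (j, e) = (1 : ClMat r) a' e := by
      intro a' e; rw [clShift_apply, if_pos h1]
    simp only [f1]
    have g1 : ∑ e : Fin r, c ^ (i : ℕ) * C a e * (1 : ClMat r) e b = c ^ (i : ℕ) * C a b := by
      simp only [mul_assoc]
      rw [← Finset.mul_sum, ← Matrix.mul_apply, Matrix.mul_one]
    have g2 : ∑ e : Fin r, (1 : ClMat r) a e * (c ^ (j : ℕ) * C e b) = c ^ (j : ℕ) * C a b := by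
      have : ∀ e, (1 : ClMat r) a e * (c ^ (j : ℕ) * C e b)
          = c ^ (j : ℕ) * ((1 : ClMat r) a e * C e b) := fun e => by ring
      simp only [this]
      rw [← Finset.mul_sum, ← Matrix.mul_apply, Matrix.one_mul]
    rw [g1, g2, h1, pow_succ, smul_eq_mul]
    ring
  · by_cases h2 : (i : ℕ) = 0 ∧ (j : ℕ) + 1 = m
    · have f1 : ∀ a' e, clShift m r D (i, a') (j, e) = D a' e := by
        intro a' e; rw [clShift_apply, if_neg h1, if_pos h2]
      simp only [f1]
      have g1 : ∑ e : Fin r, c ^ (i : ℕ) * C a e * D e b = (C * D) a b := by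
        rw [h2.1, Matrix.mul_apply]
        simp
      have g2 : ∑ e : Fin r, D a e * (c ^ (j : ℕ) * C e b) = c ^ (j : ℕ) * (D * C) a b := by
        have : ∀ e, D a e * (c ^ (j : ℕ) * C e b) = c ^ (j : ℕ) * (D a e * C e b) :=
          fun e => by ring
        simp only [this]
        rw [← Finset.mul_sum, ← Matrix.mul_apply]
      rw [g1, g2, h, smul_eq_mul, ← mul_assoc, ← pow_succ', h2.2, hc, one_mul]
    · have f1 : ∀ a' e, clShift m r D (i, a') (j, e) = 0 := by
        intro a' e; rw [clShift_apply, if_neg h1, if_neg h2]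
      simp [f1]

end Claimed.Agent.R236
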