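/-
Row 236, package CLOSED FACETS (sub-captain helper215).  GENUS ONE, Lemma torus-density, part B:
the clock/shift normal form of a solution of `A B = c B A`.  (proofs: helper58)

Route: generalised eigenspaces `G_λ` of `A` (`Module.End.maxGenEigenspace`); `B G_λ = G_{cλ}`;
`V₀ = ⨆ G_λ` over a set of representatives `λ` of `ℂ \ {0}` modulo `⟨c⟩`; the spaces `B^j V₀`,
`j < m`, are independent and span; basis `B^j w_a`.
-/
import Claimed.Agent.R236.ClTorusA
import Claimed.Agent.R236.ClJordan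

set_option autoImplicit false

namespace Claimed.Agent.R236

open Polynomial Matrix

section abstract

variable {V : Type*} [AddCommGroup V] [Module ℂ V]

theorem cltb_pow_comm (f g : Module.End ℂ V) (c lam : ℂ) (h : f * g = c • (g * f)) (k : ℕ) :
    (f - (c * lam) • (1 : Module.End ℂ V)) ^ k * g
      = c ^ k • (g * (f - lam • (1 : Module.End ℂ V)) ^ k) := by
  have h1 : (f - (c * lam) • (1 : Module.End ℂ V)) * g
      = c • (g * (f - lam • (1 : Module.End ℂ V))) := by
    rw [sub_mul, mul_sub, h, smul_sub, smul_mul_assoc, one_mul, mul_smul_comm, mul_one, smul_smul]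
  induction k with
  | zero => simp
  | succ k ih =>
    rw [pow_succ', mul_assoc, ih, mul_smul_comm, ← mul_assoc, h1, smul_mul_assoc, smul_smul,
      mul_assoc, ← pow_succ', ← pow_succ]

theorem cltb_map_le (f g : Module.End ℂ V) (c lam : ℂ) (h : f * g = c • (g * f)) :
    (f.maxGenEigenspace lam).map g ≤ f.maxGenEigenspace (c * lam) := by
  rintro _ ⟨v, hv, rfl⟩
  rw [SetLike.mem_coe, Module.End.mem_maxGenEigenspace] at hv
  obtain ⟨k, hk⟩ := hv
  rw [Module.End.mem_maxGenEigenspace]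
  refine ⟨k, ?_⟩
  have := congrArg (fun φ : Module.End ℂ V => φ v) (cltb_pow_comm f g c lam h k)
  simpa [hk] using this

theorem cltb_map_eq (f g g' : Module.End ℂ V) (c lam : ℂ) (hc : c ≠ 0)
    (h : f * g = c • (g * f)) (h1 : g * g' = 1) (h2 : g' * g = 1) :
    (f.maxGenEigenspace lam).map g = f.maxGenEigenspace (c * lam) := by
  refine le_antisymm (cltb_map_le f g c lam h) ?_
  have h' : f * g' = c⁻¹ • (g' * f) := by
    have e : g' * (f * g) * g' = g' * (c • (g * f)) * g' := by rw [h]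
    rw [mul_assoc, mul_assoc, h1, mul_one, mul_smul_comm, smul_mul_assoc, ← mul_assoc g' g,
      h2, one_mul] at e
    rw [e, smul_smul, inv_mul_cancel₀ hc, one_smul]
  intro v hv
  have hv' : g' v ∈ f.maxGenEigenspace (c⁻¹ * (c * lam)) :=
    cltb_map_le f g' c⁻¹ (c * lam) h' ⟨v, hv, rfl⟩
  rw [inv_mul_cancel_left₀ hc] at hv'
  refine ⟨g' v, hv', ?_⟩
  have := congrArg (fun φ : Module.End ℂ V => φ v) h1
  simpa using this

theorem cltb_map_pow_eq (f g g' : Module.End ℂ V) (c lam : ℂ) (hc : c ≠ 0)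
    (h : f * g = c • (g * f)) (h1 : g * g' = 1) (h2 : g' * g = 1) (j : ℕ) :
    (f.maxGenEigenspace lam).map (g ^ j) = f.maxGenEigenspace (c ^ j * lam) := by
  induction j with
  | zero => simp [Module.End.one_eq_id]
  | succ j ih =>
    rw [pow_succ', Module.End.mul_eq_comp, Submodule.map_comp, ih,
      cltb_map_eq f g g' c _ hc h h1 h2, pow_succ', mul_assoc]

theorem cltb_indep_regroup {ι κ : Type*} {G : ι → Submodule ℂ V} (hG : iSupIndep G)
    (S : κ → Set ι) (hS : Pairwise (Function.onFun Disjoint S)) :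
    iSupIndep (fun k => ⨆ i ∈ S k, G i) := by
  rw [iSupIndep_def]
  intro k
  have hle : (⨆ (k') (_ : k' ≠ k), ⨆ i ∈ S k', G i) ≤ ⨆ i ∈ (⋃ (k') (_ : k' ≠ k), S k'), G i := by
    refine iSup₂_le fun k' hk' => iSup₂_le fun i hi => ?_
    exact le_iSup₂_of_le i (Set.mem_iUnion₂.mpr ⟨k', hk', hi⟩) le_rfl
  refine Disjoint.mono_right hle (hG.disjoint_biSup_biSup ?_)
  rw [Set.disjoint_iUnion₂_right]
  exact fun k' hk' => hS hk'.symm

theorem cltb_decomp [FiniteDimensional ℂ V] (m : ℕ) (c : ℂ) (hc : IsPrimitiveRoot c m) (hm : 0 < m)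
    (f g g' : Module.End ℂ V) (hf : Function.Injective f)
    (h : f * g = c • (g * f)) (h1 : g * g' = 1) (h2 : g' * g = 1) :
    ∃ V0 : Submodule ℂ V, (∀ v ∈ V0, f v ∈ V0) ∧ (∀ v ∈ V0, (g ^ m) v ∈ V0) ∧
      iSupIndep (fun j : Fin m => V0.map (g ^ (j : ℕ))) ∧
      ⨆ j : Fin m, V0.map (g ^ (j : ℕ)) = ⊤ := by
  classical
  have hc0 : c ≠ 0 := hc.ne_zero hm.ne'
  have hcm : c ^ m = 1 := hc.pow_eq_one
  obtain ⟨ρ, hρ⟩ : ∃ ρ : ℂ → ℂ, ∀ w, ρ w ^ m = w :=
    ⟨fun w => (IsAlgClosed.exists_pow_nat_eq w hm).choose,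
      fun w => (IsAlgClosed.exists_pow_nat_eq w hm).choose_spec⟩
  set T : Set ℂ := {lam | lam ≠ 0 ∧ ρ (lam ^ m) = lam} with hT
  set G : ℂ → Submodule ℂ V := f.maxGenEigenspace with hG
  have hmap : ∀ j : ℕ, (⨆ lam ∈ T, G lam).map (g ^ j) = ⨆ lam ∈ T, G (c ^ j * lam) := by
    intro j
    simp only [Submodule.map_iSup]
    refine iSup_congr fun lam => iSup_congr fun _ => ?_
    exact cltb_map_pow_eq f g g' c lam hc0 h h1 h2 j
  refine ⟨⨆ lam ∈ T, G lam, ?_, ?_, ?_, ?_⟩
  · intro v hv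
    have hle : (⨆ lam ∈ T, G lam).map f ≤ ⨆ lam ∈ T, G lam := by
      simp only [Submodule.map_iSup]
      refine iSup₂_mono fun lam _ => ?_
      rintro _ ⟨x, hx, rfl⟩
      exact Module.End.mapsTo_maxGenEigenspace_of_comm (Commute.refl f) lam hx
    exact hle ⟨v, hv, rfl⟩
  · intro v hv
    have hle : (⨆ lam ∈ T, G lam).map (g ^ m) = ⨆ lam ∈ T, G lam := by
      rw [hmap]; simp only [hcm, one_mul]
    rw [← hle]
    exact ⟨v, hv, rfl⟩
  · simp only [hmap]
    have key := cltb_indep_regroup (Module.End.independent_maxGenEigenspace f)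
      (fun j : Fin m => (fun lam => c ^ (j : ℕ) * lam) '' T) ?_
    · simpa only [iSup_image] using key
    · intro i j hij
      rw [Function.onFun, Set.disjoint_left]
      rintro _ ⟨x, hx, rfl⟩ ⟨y, hy, hxy⟩
      apply hij
      replace hxy : c ^ (j : ℕ) * y = c ^ (i : ℕ) * x := hxy
      have hxy' : y = x := by
        have e : (c ^ (j : ℕ) * y) ^ m = (c ^ (i : ℕ) * x) ^ m := by rw [hxy]
        rw [mul_pow, mul_pow, ← pow_mul, ← pow_mul, mul_comm (j : ℕ), mul_comm (i : ℕ), pow_mul,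
          pow_mul, hcm, one_pow, one_pow, one_mul, one_mul] at e
        rw [← hy.2, ← hx.2, e]
      subst hxy'
      have e2 : c ^ (j : ℕ) = c ^ (i : ℕ) := mul_right_cancel₀ hy.1 hxy
      exact Fin.ext (hc.pow_inj i.2 j.2 e2.symm)
  · rw [eq_top_iff, ← Module.End.iSup_maxGenEigenspace_eq_top f]
    refine iSup_le fun mu => ?_
    by_cases hmu : mu = 0
    · subst hmu
      intro v hv
      rw [Module.End.mem_maxGenEigenspace] at hv
      obtain ⟨k, hk⟩ := hv
      rw [zero_smul, sub_zero, Module.End.pow_apply] at hk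
      have : v = 0 := (hf.iterate k) (by rw [hk]; simp)
      rw [this]; exact Submodule.zero_mem _
    · set lam := ρ (mu ^ m) with hlam
      have hlm : lam ^ m = mu ^ m := hρ _
      have hl0 : lam ≠ 0 := by
        intro h0
        rw [h0, zero_pow hm.ne'] at hlm
        exact hmu (pow_eq_zero_iff hm.ne' |>.mp hlm.symm)
      have hlT : lam ∈ T := ⟨hl0, by rw [hlm]⟩
      have hq : (mu / lam) ^ m = 1 := by rw [div_pow, hlm, div_self (pow_ne_zero _ hmu)]
      have : NeZero m := ⟨hm.ne'⟩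
      obtain ⟨j, hj, hcj⟩ := hc.eq_pow_of_pow_eq_one hq
      have hmu' : mu = c ^ j * lam := by rw [hcj, div_mul_cancel₀ _ hl0]
      refine le_trans ?_ (le_iSup _ (⟨j, hj⟩ : Fin m))
      rw [hmap]
      refine le_trans ?_ (le_iSup₂ lam hlT)
      rw [← hmu']

end abstract

theorem cltb_comm_pow {n : ℕ} (c : ℂ) (A B : ClMat n) (hAB : A * B = c • (B * A)) (j : ℕ) :
    A * B ^ j = c ^ j • (B ^ j * A) := by
  induction j with
  | zero => simp
  | succ j ih =>
    rw [pow_succ, ← mul_assoc, ih, smul_mul_assoc, mul_assoc, hAB, mul_smul_comm, smul_smul,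
      ← mul_assoc, ← pow_succ]

/-- **Abstract normal form.**  If `V₀` (spanned by the columns of `W`) is stable under `A` and
`B ^ m` and `ℂ^n = ⊕_{j<m} B^j V₀`, then `(A,B)` is conjugate to a clock/shift pair.  Here the
hypothesis is packaged as: the matrix `P` with columns `B^j w_a` is invertible. -/
theorem cl_clock_shift_of_basis (n m r : ℕ) (c : ℂ) (hm : 0 < m) (A B : ClMat n)
    (hAB : A * B = c • (B * A)) (W : Matrix (Fin n) (Fin r) ℂ) (C D : ClMat r)
    (hA : A * W = W * C) (hB : B ^ m * W = W * D)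
    (P : Matrix (Fin n) (Fin m × Fin r) ℂ) (hP : ∀ i p, P i p = (B ^ (p.1 : ℕ) * W) i p.2)
    (P' : Matrix (Fin m × Fin r) (Fin n) ℂ) (h1 : P * P' = 1) (_h2 : P' * P = 1) :
    A = P * clClock m r c C * P' ∧ B = P * clShift m r D * P' := by
  have hAP : A * P = P * clClock m r c C := by
    ext i ⟨j, a⟩
    have e1 : (A * P) i (j, a) = (A * (B ^ (j : ℕ) * W)) i a := by
      simp only [Matrix.mul_apply, hP]
    rw [e1, ← Matrix.mul_assoc, cltb_comm_pow c A B hAB, Matrix.smul_mul, Matrix.mul_assoc, hA,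
      ← Matrix.mul_assoc]
    simp only [Matrix.smul_apply, Matrix.mul_apply (M := P), Fintype.sum_prod_type, clClock,
      Matrix.of_apply, hP, smul_eq_mul]
    rw [Finset.sum_eq_single j]
    · simp only [if_true, Matrix.mul_apply (M := B ^ (j : ℕ) * W), Finset.mul_sum]
      refine Finset.sum_congr rfl fun b _ => ?_
      ring
    · intro j' _ hj'
      simp [hj']
    · simp
  have hBP : B * P = P * clShift m r D := by
    ext i ⟨j, a⟩
    have e1 : (B * P) i (j, a) = (B ^ ((j : ℕ) + 1) * W) i a := by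
      rw [pow_succ', Matrix.mul_assoc]
      simp only [Matrix.mul_apply (M := B), hP]
    rw [e1]
    simp only [Matrix.mul_apply (M := P), Fintype.sum_prod_type, clShift, Matrix.of_apply, hP]
    by_cases hj : (j : ℕ) + 1 < m
    · rw [Finset.sum_eq_single (⟨(j : ℕ) + 1, hj⟩ : Fin m)]
      · simp [Matrix.one_apply]
      · intro j' _ hj'
        have h3 : ¬ ((j' : ℕ) = (j : ℕ) + 1) := fun h => hj' (Fin.ext h)
        have h4 : ¬ ((j' : ℕ) = 0 ∧ (j : ℕ) + 1 = m) := fun h => by omega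
        simp [h3, h4]
      · simp
    · have hjm : (j : ℕ) + 1 = m := by have := j.2; omega
      rw [Finset.sum_eq_single (⟨0, hm⟩ : Fin m)]
      · have h3 : ¬ ((0 : ℕ) = m) := by omega
        rw [hjm, hB, Matrix.mul_apply]
        refine Finset.sum_congr rfl fun b _ => ?_
        simp [h3]
      · intro j' _ hj'
        have h3 : ¬ ((j' : ℕ) = (j : ℕ) + 1) := fun h => by have := j'.2; omega
        have h4 : ¬ ((j' : ℕ) = 0 ∧ (j : ℕ) + 1 = m) := fun h => hj' (Fin.ext h.1)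
        simp [h3, h4]
      · simp
  constructor
  · rw [← hAP, Matrix.mul_assoc, h1, Matrix.mul_one]
  · rw [← hBP, Matrix.mul_assoc, h1, Matrix.mul_one]

theorem cltb_exists_mat {n r : ℕ} (V0 : Submodule ℂ (Fin n → ℂ)) (w : Module.Basis (Fin r) ℂ V0)
    (M : ClMat n) (h : ∀ v ∈ V0, M *ᵥ v ∈ V0) :
    ∃ C : ClMat r, M * (Matrix.of fun i a => (w a : Fin n → ℂ) i : Matrix (Fin n) (Fin r) ℂ)
      = (Matrix.of fun i a => (w a : Fin n → ℂ) i : Matrix (Fin n) (Fin r) ℂ) * C := by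
  refine ⟨Matrix.of fun b a => w.repr ⟨M *ᵥ (w a : Fin n → ℂ), h _ (w a).2⟩ b, ?_⟩
  ext i a
  have e := congrArg (fun x : V0 => (x : Fin n → ℂ) i)
    (w.sum_repr ⟨M *ᵥ (w a : Fin n → ℂ), h _ (w a).2⟩)
  simp only [Submodule.coe_sum, Finset.sum_apply, Submodule.coe_smul, Pi.smul_apply,
    smul_eq_mul] at e
  simp only [Matrix.mul_apply, Matrix.of_apply]
  rw [show (∑ j, M i j * (w a : Fin n → ℂ) j) = (M *ᵥ (w a : Fin n → ℂ)) i from rfl, ← e]
  exact Finset.sum_congr rfl fun b _ => mul_comm _ _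

/-- **Clock/shift normal form** (proof of Lemma torus-density), via the generalised eigenspaces
`G_λ` of `A`: `B G_λ = G_{cλ}`, `V₀ = ⨁ G_λ` over representatives `λ` of `ℂˣ / ⟨c⟩`. -/
theorem cl_clock_shift_form (n m : ℕ) (c : ℂ) (hc : IsPrimitiveRoot c m) (hm : 0 < m)
    (A B : ClMat n) (hA : IsUnit A.det) (hB : IsUnit B.det) (hAB : A * B = c • (B * A)) :
    ∃ (r : ℕ) (P : Matrix (Fin n) (Fin m × Fin r) ℂ) (P' : Matrix (Fin m × Fin r) (Fin n) ℂ)
      (C D : ClMat r), n = m * r ∧ P * P' = 1 ∧ P' * P = 1 ∧ IsUnit C.det ∧ IsUnit D.det ∧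
      C * D = D * C ∧ A = P * clClock m r c C * P' ∧ B = P * clShift m r D * P' := by
  classical
  set f : Module.End ℂ (Fin n → ℂ) := Matrix.toLinAlgEquiv' A with hf
  set g : Module.End ℂ (Fin n → ℂ) := Matrix.toLinAlgEquiv' B with hg
  set g' : Module.End ℂ (Fin n → ℂ) := Matrix.toLinAlgEquiv' B⁻¹ with hg'
  have hfg : f * g = c • (g * f) := by rw [hf, hg, ← map_mul, hAB, map_smul, map_mul]
  have h1 : g * g' = 1 := by rw [hg, hg', ← map_mul, Matrix.mul_nonsing_inv _ hB, map_one]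
  have h2 : g' * g = 1 := by rw [hg, hg', ← map_mul, Matrix.nonsing_inv_mul _ hB, map_one]
  have hfinj : Function.Injective f := by
    intro x y hxy
    have hxy' : A *ᵥ x = A *ᵥ y := hxy
    have := congrArg (fun v => A⁻¹ *ᵥ v) hxy'
    simpa [Matrix.mulVec_mulVec, Matrix.nonsing_inv_mul _ hA] using this
  have hginj : Function.Injective g := by
    intro x y hxy
    have e := congrArg g' hxy
    have e1 : ∀ z, g' (g z) = z := fun z => by
      have := congrArg (fun φ : Module.End ℂ (Fin n → ℂ) => φ z) h2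
      simpa using this
    rwa [e1, e1] at e
  have hgjinj : ∀ j : ℕ, Function.Injective (g ^ j) := fun j => by
    rw [Module.End.coe_pow]; exact hginj.iterate j
  have hgpow : ∀ (j : ℕ) (x : Fin n → ℂ), (g ^ j) x = (B ^ j) *ᵥ x := fun j x => by
    rw [hg, ← map_pow]; rfl
  obtain ⟨V0, hV0f, hV0g, hind, htop⟩ := cltb_decomp m c hc hm f g g' hfinj hfg h1 h2
  obtain ⟨r, hr⟩ : ∃ r, r = Module.finrank ℂ V0 := ⟨_, rfl⟩
  let w : Module.Basis (Fin r) ℂ V0 := (Module.finBasis ℂ V0).reindex (finCongr hr.symm)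
  let v : ∀ j : Fin m, Module.Basis (Fin r) ℂ (V0.map (g ^ (j : ℕ))) := fun j =>
    w.map (Submodule.equivMapOfInjective (g ^ (j : ℕ)) (hgjinj j) V0)
  have hint := DirectSum.isInternal_submodule_of_iSupIndep_of_iSup_eq_top hind htop
  let b : Module.Basis (Fin m × Fin r) ℂ (Fin n → ℂ) :=
    (hint.collectedBasis v).reindex (Equiv.sigmaEquivProd (Fin m) (Fin r))
  have hb : ∀ p : Fin m × Fin r, b p = (B ^ (p.1 : ℕ)) *ᵥ (w p.2 : Fin n → ℂ) := by
    intro p
    rw [← hgpow]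
    simp [b, v, DirectSum.IsInternal.collectedBasis_coe]
  set W : Matrix (Fin n) (Fin r) ℂ := Matrix.of fun i a => (w a : Fin n → ℂ) i with hW
  obtain ⟨C, hC⟩ := cltb_exists_mat V0 w A hV0f
  obtain ⟨D, hD⟩ := cltb_exists_mat V0 w (B ^ m) (fun x hx => by rw [← hgpow]; exact hV0g x hx)
  rw [← hW] at hC hD
  set P : Matrix (Fin n) (Fin m × Fin r) ℂ := (Pi.basisFun ℂ (Fin n)).toMatrix b with hP
  set P' : Matrix (Fin m × Fin r) (Fin n) ℂ := b.toMatrix (Pi.basisFun ℂ (Fin n)) with hP'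
  have hPP' : P * P' = 1 := Module.Basis.toMatrix_mul_toMatrix_flip _ _
  have hP'P : P' * P = 1 := Module.Basis.toMatrix_mul_toMatrix_flip _ _
  have hPe : ∀ i p, P i p = (B ^ (p.1 : ℕ) * W) i p.2 := by
    intro i p
    rw [hP, Module.Basis.toMatrix_apply, Pi.basisFun_repr, hb]
    rfl
  have hn : n = m * r := by
    have := Module.finrank_eq_card_basis b
    simpa using this
  set W' : Matrix (Fin r) (Fin n) ℂ := Matrix.of fun a i => P' (⟨0, hm⟩, a) i with hW'
  have hW'W : W' * W = 1 := by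
    ext a a'
    have e := congrFun (congrFun hP'P (⟨0, hm⟩, a)) (⟨0, hm⟩, a')
    rw [Matrix.mul_apply] at e
    rw [Matrix.mul_apply]
    simp only [hPe, pow_zero, Matrix.one_mul] at e
    simp only [hW', Matrix.of_apply]
    rw [e]
    simp [Matrix.one_apply]
  have hBm : IsUnit (B ^ m).det := by rw [Matrix.det_pow]; exact hB.pow m
  refine ⟨r, P, P', C, D, hn, hPP', hP'P, ?_, ?_, ?_,
    cl_clock_shift_of_basis n m r c hm A B hAB W C D hC hD P hPe P' hPP' hP'P⟩
  · refine Matrix.isUnit_det_of_left_inverse (B := W' * A⁻¹ * W) ?_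
    rw [Matrix.mul_assoc, ← hC, Matrix.mul_assoc, ← Matrix.mul_assoc A⁻¹,
      Matrix.nonsing_inv_mul _ hA, Matrix.one_mul, hW'W]
  · refine Matrix.isUnit_det_of_left_inverse (B := W' * (B ^ m)⁻¹ * W) ?_
    rw [Matrix.mul_assoc, ← hD, Matrix.mul_assoc, ← Matrix.mul_assoc (B ^ m)⁻¹,
      Matrix.nonsing_inv_mul _ hBm, Matrix.one_mul, hW'W]
  · have e1 : W * (C * D) = W * (D * C) := by
      rw [← Matrix.mul_assoc, ← hC, Matrix.mul_assoc, ← hD, ← Matrix.mul_assoc,
        cltb_comm_pow c A B hAB, hc.pow_eq_one, one_smul, Matrix.mul_assoc, hC,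
        ← Matrix.mul_assoc, hD, Matrix.mul_assoc]
    have e2 := congrArg (fun X => W' * X) e1
    simpa only [← Matrix.mul_assoc, hW'W, Matrix.one_mul] using e2

end Claimed.Agent.R236
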