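/-
Row 236, package CLOSED FACETS (sub-captain helper215).  GENUS ONE: Lemma torus-density = export C1.
-/
import Claimed.Agent.R236.ClComm
import Claimed.Agent.R236.ClTorusB

set_option autoImplicit false

namespace Claimed.Agent.R236

open Polynomial Matrix

/-- `R_{n,1}(c)`: invertible pairs with `A B = c B A`. -/
def clTorusPairs (n : ℕ) (c : ℂ) : Set (Bool → ClMat n) :=
  {x | IsUnit (x false).det ∧ IsUnit (x true).det ∧ x false * x true = c • (x true * x false)}

theorem cltor_conj_inv {n : ℕ} {Q X X' : ClMat n} (hQ : IsUnit Q.det) (h : X * X' = 1) :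
    (Q * X * Q⁻¹)⁻¹ = Q * X' * Q⁻¹ := by
  apply Matrix.inv_eq_right_inv
  rw [cl_conj_mul (Matrix.nonsing_inv_mul Q hQ), h, Matrix.mul_one, Matrix.mul_nonsing_inv Q hQ]

theorem cltor_conj_isUnit {n : ℕ} {Q X X' : ClMat n} (hQ : IsUnit Q.det) (h : X * X' = 1) :
    IsUnit (Q * X * Q⁻¹).det := by
  have h1 : (Q * X * Q⁻¹) * (Q * X' * Q⁻¹) = 1 := by
    rw [cl_conj_mul (Matrix.nonsing_inv_mul Q hQ), h, Matrix.mul_one, Matrix.mul_nonsing_inv Q hQ]
  exact Matrix.isUnit_det_of_right_inverse h1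

/-- **C1 = Lemma torus-density.**
PLAN.  `n = 0`: every point is an `R`-point.  `n > 0`: `m := orderOf c > 0`
(`IsPrimitiveRoot.orderOf`), if the set is nonempty then `n = m * r` (`cl_clock_shift_form`); fix
`e : Fin m × Fin r ≃ Fin n`.  `rg_Dense.transfer₁` from
`{x | IsUnit (x ()).det} ×ˢ clCommPairs r` (`cl_gl_dense`, `cl_commuting_dense`, `rg_Dense.prod`) with
`Φ (Q, y) = clPair (Q () * (clClock m r c (y false)).submatrix e.symm e.symm * (Q ())⁻¹)
                  (Q () * (clShift m r (y true)).submatrix e.symm e.symm * (Q ())⁻¹)`;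
inverses: `clClock m r c⁻¹ (y false)⁻¹` (`c⁻¹ = c^(m-1) ∈ R`) and `clShiftInv m r (y true)⁻¹`. -/
theorem cl_torus_dense (R : Subring ℂ) (hU : {z : ℂ | z ∈ R ∧ z⁻¹ ∈ R}.Infinite) (n : ℕ) (c : ℂ)
    (hc : c ∈ R) (hcn : c ^ n = 1) :
    rg_Dense R (rg_matCoord Bool (Fin n)) (clTorusPairs n c) := by
  rcases Nat.eq_zero_or_pos n with rfl | hn
  · intro F hF h0 x hx
    refine h0 x hx ?_
    rintro ⟨i, b, a, _⟩
    exact a.elim0
  set m := orderOf c with hm
  have hmpos : 0 < m := orderOf_pos_iff.2 (isOfFinOrder_iff_pow_eq_one.2 ⟨n, hn, hcn⟩)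
  have hprim : IsPrimitiveRoot c m := IsPrimitiveRoot.orderOf c
  have hcm : c ^ m = 1 := hprim.pow_eq_one
  have hc0 : c ≠ 0 := by
    rintro rfl
    rw [zero_pow hn.ne'] at hcn
    exact zero_ne_one hcn
  have hcinv : c⁻¹ ∈ R := by
    have : c⁻¹ = c ^ (n - 1) := by
      apply inv_eq_of_mul_eq_one_right
      rw [← pow_succ', Nat.sub_add_cancel hn, hcn]
    rw [this]
    exact R.pow_mem hc _
  by_cases hr : ∃ r, n = m * r
  swap
  · intro F hF h0 x hx
    exfalso
    obtain ⟨r, -, -, -, -, h, -⟩ := cl_clock_shift_form n m c hprim hmpos (x false) (x true) hx.1 hx.2.1 hx.2.2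
    exact hr ⟨r, h⟩
  obtain ⟨r, hnr⟩ := hr
  let e : Fin m × Fin r ≃ Fin n := finProdFinEquiv.trans (finCongr hnr.symm)
  let sub : Matrix (Fin m × Fin r) (Fin m × Fin r) ℂ → ClMat n := fun X => X.submatrix e.symm e.symm
  have hsub_mul : ∀ X Y, sub X * sub Y = sub (X * Y) := fun X Y =>
    Matrix.submatrix_mul_equiv X Y e.symm e.symm e.symm
  have hsub_one : sub 1 = 1 := Matrix.submatrix_one_equiv e.symm
  have hsub_smul : ∀ (z : ℂ) X, sub (z • X) = z • sub X := fun z X => rfl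
  have hD := (cl_gl_dense R hU n).prod (cl_commuting_dense R hU r)
  set c' := rg_prodCoord (rg_matCoord Unit (Fin n)) (rg_matCoord Bool (Fin r)) with hc'
  set S' : Set ((Unit → ClMat n) × (Bool → ClMat r)) :=
    {x | IsUnit (x ()).det} ×ˢ clCommPairs r with hS'
  let Φ : (Unit → ClMat n) × (Bool → ClMat r) → (Bool → ClMat n) := fun y =>
    clPair (y.1 () * sub (clClock m r c (y.2 false)) * (y.1 ())⁻¹)
      (y.1 () * sub (clShift m r (y.2 true)) * (y.1 ())⁻¹)
  -- inverses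
  have hck : ∀ y ∈ S', clClock m r c (y.2 false) * clClock m r c⁻¹ (y.2 false)⁻¹ = 1 := by
    rintro y ⟨-, h1, -, -⟩
    rw [clClock_mul, mul_inv_cancel₀ hc0, Matrix.mul_nonsing_inv _ h1, clClock_one]
  have hsh : ∀ y ∈ S', clShift m r (y.2 true) * clShiftInv m r (y.2 true)⁻¹ = 1 := by
    rintro y ⟨-, -, h1, -⟩
    exact clShift_mul_inv _ _ (Matrix.mul_nonsing_inv _ h1)
  have hck' : ∀ y ∈ S', sub (clClock m r c (y.2 false)) * sub (clClock m r c⁻¹ (y.2 false)⁻¹) = 1 := by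
    intro y hy
    rw [hsub_mul, hck y hy, hsub_one]
  have hsh' : ∀ y ∈ S', sub (clShift m r (y.2 true)) * sub (clShiftInv m r (y.2 true)⁻¹) = 1 := by
    intro y hy
    rw [hsub_mul, hsh y hy, hsub_one]
  -- regularity of the building blocks
  have hQ : rg_MatOn R c' S' (fun y => y.1 ()) := fun a b =>
    rg_RegOn.coord (c := c') (Sum.inl ((), false, a, b))
  have hQ' : rg_MatOn R c' S' (fun y => (y.1 ())⁻¹) := fun a b =>
    rg_RegOn.coord (c := c') (Sum.inl ((), true, a, b))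
  have hy : ∀ i, rg_MatOn R c' S' (fun y => y.2 i) := fun i a b =>
    rg_RegOn.coord (c := c') (Sum.inr (i, false, a, b))
  have hy' : ∀ i, rg_MatOn R c' S' (fun y => (y.2 i)⁻¹) := fun i a b =>
    rg_RegOn.coord (c := c') (Sum.inr (i, true, a, b))
  have hone : rg_MatOn R c' S' (fun _ => (1 : ClMat r)) := rg_MatOn.one
  have hclock : ∀ (z : ℂ) (_ : z ∈ R) (f : (Unit → ClMat n) × (Bool → ClMat r) → ClMat r),
      rg_MatOn R c' S' f → rg_MatOn R c' S' (fun y => sub (clClock m r z (f y))) := by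
    intro z hz f hf
    refine rg_MatOn.submatrix (f := fun y => clClock m r z (f y)) ?_ e.symm e.symm
    intro p q
    exact rg_RegOn.ite ((rg_RegOn.const (R.pow_mem hz _)).mul (hf p.2 q.2)) rg_RegOn.zero
  have hshift : ∀ (f : (Unit → ClMat n) × (Bool → ClMat r) → ClMat r),
      rg_MatOn R c' S' f → rg_MatOn R c' S' (fun y => sub (clShift m r (f y))) := by
    intro f hf
    refine rg_MatOn.submatrix (f := fun y => clShift m r (f y)) ?_ e.symm e.symm
    intro p q
    exact rg_RegOn.ite (hone p.2 q.2) (rg_RegOn.ite (hf p.2 q.2) rg_RegOn.zero)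
  have hshiftInv : ∀ (f : (Unit → ClMat n) × (Bool → ClMat r) → ClMat r),
      rg_MatOn R c' S' f → rg_MatOn R c' S' (fun y => sub (clShiftInv m r (f y))) := by
    intro f hf
    refine rg_MatOn.submatrix (f := fun y => clShiftInv m r (f y)) ?_ e.symm e.symm
    intro p q
    exact rg_RegOn.ite (hone p.2 q.2) (rg_RegOn.ite (hf p.2 q.2) rg_RegOn.zero)
  refine rg_Dense.transfer₁ Φ (rg_matCoord_regOn ?_ ?_) ?_ ?_ hD
  · rintro (_ | _)
    · exact (hQ.mul (hclock c hc _ (hy false))).mul hQ'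
    · exact (hQ.mul (hshift _ (hy true))).mul hQ'
  · rintro (_ | _)
    · refine ((hQ.mul (hclock c⁻¹ hcinv _ (hy' false))).mul hQ').congr fun y hyS => ?_
      exact cltor_conj_inv hyS.1 (hck' y hyS)
    · refine ((hQ.mul (hshiftInv _ (hy' true))).mul hQ').congr fun y hyS => ?_
      exact cltor_conj_inv hyS.1 (hsh' y hyS)
  · intro y hyS
    refine ⟨cltor_conj_isUnit hyS.1 (hck' y hyS), cltor_conj_isUnit hyS.1 (hsh' y hyS), ?_⟩
    have hQi := Matrix.nonsing_inv_mul _ hyS.1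
    show (y.1 () * sub (clClock m r c (y.2 false)) * (y.1 ())⁻¹) *
        (y.1 () * sub (clShift m r (y.2 true)) * (y.1 ())⁻¹) =
      c • ((y.1 () * sub (clShift m r (y.2 true)) * (y.1 ())⁻¹) *
        (y.1 () * sub (clClock m r c (y.2 false)) * (y.1 ())⁻¹))
    rw [cl_conj_mul hQi, cl_conj_mul hQi, hsub_mul, hsub_mul,
      clClock_mul_clShift c hcm _ _ hyS.2.2.2, hsub_smul, Matrix.mul_smul, Matrix.smul_mul]
  · intro x hx
    obtain ⟨r', P, P', C, D, h, hPP', hP'P, hC, hDu, hCD, hA, hB⟩ :=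
      cl_clock_shift_form n m c hprim hmpos (x false) (x true) hx.1 hx.2.1 hx.2.2
    have hrr : r' = r := Nat.eq_of_mul_eq_mul_left hmpos (h.symm.trans hnr)
    subst hrr
    let Q : ClMat n := P.submatrix id e.symm
    let Q' : ClMat n := P'.submatrix e.symm id
    have hQQ' : Q * Q' = 1 := by
      have h1 : Q * Q' = (P * P').submatrix id id := Matrix.submatrix_mul_equiv P P' id e.symm id
      rw [h1, hPP']
      rfl
    have hQu : IsUnit Q.det := Matrix.isUnit_det_of_right_inverse hQQ'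
    have hQinv : Q⁻¹ = Q' := Matrix.inv_eq_right_inv hQQ'
    have hconj : ∀ X, Q * sub X * Q' = P * X * P' := by
      intro X
      have h1 : Q * sub X = (P * X).submatrix id e.symm := Matrix.submatrix_mul_equiv P X id e.symm e.symm
      rw [h1]
      have h2 := Matrix.submatrix_mul_equiv (P * X) P' id e.symm id
      rw [h2]
      rfl
    refine ⟨(fun _ => Q, clPair C D), ⟨hQu, hC, hDu, hCD⟩, ?_⟩
    show clPair (Q * sub (clClock m r' c C) * Q⁻¹) (Q * sub (clShift m r' D) * Q⁻¹) = x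
    rw [hQinv, hconj, hconj, ← hA, ← hB, clPair_eta]

end Claimed.Agent.R236
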