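import Mathlib
import Claimed.Agent.R236.Reg

/-!
# Row 236: balanced block-word systems ("Model G2"), syntax and semantics (owner helper10)

This replaces the surface diagrams of the paper.

* All matrices are `N × N` complex matrices (`N` = the global size); a matrix of "rank `m`" is the
  identity outside of the top left `m × m` corner (`gs_IsCorner`).
* A *frame* of an equation of rank `n` is a set of cuts `K : Finset ℕ` with `0, n ∈ K ⊆ [0,n]`; its
  blocks are the intervals between consecutive cuts.  `gs_IsUni n K u` : `u` is block upper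
  unitriangular for `K` (and the identity outside of the `n`-corner).
* A variable `y` has a signature `(rk, s, t)`: it is an invertible matrix of rank `rk`, read as a map
  from the frame `{0, t, rk}` (columns) to the frame `{0, s, rk}` (rows).
* Letters: `G false y o` (the matrix of `y` moved to offset `o`), `G true y o` (its inverse),
  `S o a b` (swap of the adjacent blocks `[o,o+a)`, `[o+a,o+a+b)`), `L lam` (diagonal matrix,
  constant on blocks).
* An equation is `∏ (letter_i * u_i) = 1` with *free* `u_i` unitriangular for the frame after the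
  `i`-th letter.  The `u_i` are coordinates of the solution.
* A point is a family of matrices indexed by `Y ⊕ ℕ × ℕ` (`inr (e,i)` = the unipotent after the
  `i`-th letter of the `e`-th equation).
-/

set_option autoImplicit false

namespace Claimed.Agent.R236

/-- the matrices -/
abbrev gs_Mat (N : ℕ) := Matrix (Fin N) (Fin N) ℂ

/-- signature of a variable: rank, source cut, target cut -/
structure gs_Sig where
  rk : ℕ
  s : ℕ
  t : ℕ

/-- source cut of the letter `G inv y` -/
def gs_Sig.src (σ : gs_Sig) (inv : Bool) : ℕ := if inv then σ.t else σ.s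

/-- target cut of the letter `G inv y` -/
def gs_Sig.tgt (σ : gs_Sig) (inv : Bool) : ℕ := if inv then σ.s else σ.t

/-- letters -/
inductive gs_Letter (Y : Type) where
  | G (inv : Bool) (y : Y) (o : ℕ)
  | S (o a b : ℕ)
  | L (lam : ℕ → ℂ)

/-- renaming of the variables of a letter -/
def gs_Letter.map {Y Y' : Type} (f : Y → Y') : gs_Letter Y → gs_Letter Y'
  | .G inv y o => .G inv (f y) o
  | .S o a b => .S o a b
  | .L lam => .L lam

/-- an equation: rank, base frame, letters -/
structure gs_Eqn (Y : Type) where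
  rk : ℕ
  K0 : Finset ℕ
  ls : List (gs_Letter Y)

/-- renaming of the variables of an equation -/
def gs_Eqn.map {Y Y' : Type} (f : Y → Y') (E : gs_Eqn Y) : gs_Eqn Y' :=
  ⟨E.rk, E.K0, E.ls.map (gs_Letter.map f)⟩

/-- the trivial equation -/
def gs_Eqn.triv (Y : Type) : gs_Eqn Y := ⟨0, {0}, []⟩

/-- a system -/
structure gs_Sys (Y : Type) where
  sig : Y → gs_Sig
  eqs : List (gs_Eqn Y)

/-- the `e`-th equation (trivial if out of range) -/
def gs_Sys.eq {Y : Type} (S : gs_Sys Y) (e : ℕ) : gs_Eqn Y := S.eqs.getD e (gs_Eqn.triv Y)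

/-! ## frames -/

/-- replace the cuts strictly inside `(o, o+m)` by the single cut `o + c` -/
def gs_cutRepl (K : Finset ℕ) (o m c : ℕ) : Finset ℕ :=
  insert (o + c) (K.filter fun d => d ≤ o ∨ o + m ≤ d)

/-- `[o,o+m)` is a union of blocks of `K`, cut exactly at `o + a` -/
def gs_midOK (K : Finset ℕ) (o m a : ℕ) : Prop :=
  o ∈ K ∧ o + a ∈ K ∧ o + m ∈ K ∧ a ≤ m ∧ ∀ d ∈ K, o < d → d < o + m → d = o + a

section frames
variable {Y : Type}

/-- the frame after a letter -/
def gs_step (sig : Y → gs_Sig) (K : Finset ℕ) : gs_Letter Y → Finset ℕ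
  | .G inv y o => gs_cutRepl K o (sig y).rk ((sig y).tgt inv)
  | .S o a b => gs_cutRepl K o (a + b) b
  | .L _ => K

/-- the letter may be applied at the frame `K` of an equation of rank `n` -/
def gs_app (sig : Y → gs_Sig) (n : ℕ) (K : Finset ℕ) : gs_Letter Y → Prop
  | .G inv y o => gs_midOK K o (sig y).rk ((sig y).src inv)
  | .S o a b => gs_midOK K o (a + b) a
  | .L lam => (∀ j, j + 1 < n → j + 1 ∉ K → lam j = lam (j + 1)) ∧ (∀ j, n ≤ j → lam j = 1)

/-- the frame after the first `i` letters -/
def gs_frame (sig : Y → gs_Sig) (K0 : Finset ℕ) (ls : List (gs_Letter Y)) (i : ℕ) : Finset ℕ :=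
  (ls.take i).foldl (gs_step sig) K0

/-- the interval `[o, o+m)` touched by a letter (`L` touches nothing) -/
def gs_mid (sig : Y → gs_Sig) : gs_Letter Y → ℕ × ℕ
  | .G _ y o => (o, (sig y).rk)
  | .S o a b => (o, a + b)
  | .L _ => (0, 0)

/-- variables occurring with the given exponent -/
def gs_occL (inv : Bool) : List (gs_Letter Y) → List Y
  | [] => []
  | .G i y _ :: ls => if i = inv then y :: gs_occL inv ls else gs_occL inv ls
  | _ :: ls => gs_occL inv ls

end frames

/-! ## matrices -/

section matrices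
variable {N : ℕ}

/-- identity outside of the top left `m`-corner -/
def gs_IsCorner (m : ℕ) (A : gs_Mat N) : Prop :=
  ∀ i j : Fin N, (m ≤ (i : ℕ) ∨ m ≤ (j : ℕ)) → A i j = (1 : gs_Mat N) i j

/-- block upper unitriangular for the frame `K` of rank `n` -/
def gs_IsUni (n : ℕ) (K : Finset ℕ) (u : gs_Mat N) : Prop :=
  ∀ i j : Fin N, u i j ≠ (1 : gs_Mat N) i j → (j : ℕ) < n ∧ ∃ c ∈ K, (i : ℕ) < c ∧ c ≤ (j : ℕ)

/-- move a matrix to offset `o` (identity before `o`) -/
def gs_emb (o : ℕ) (A : gs_Mat N) : gs_Mat N := fun i j =>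
  if h : o ≤ (i : ℕ) ∧ o ≤ (j : ℕ) then A ⟨i - o, by omega⟩ ⟨j - o, by omega⟩
  else (1 : gs_Mat N) i j

/-- the index map of a swap: position before the swap `↦` position after the swap -/
def gs_swapFn (o a b r : ℕ) : ℕ :=
  if o ≤ r ∧ r < o + a then r + b else if o + a ≤ r ∧ r < o + a + b then r - a else r

/-- the block permutation matrix (rows: frame before, columns: frame after) -/
def gs_swapMat (o a b : ℕ) : gs_Mat N := fun r c =>
  if gs_swapFn o a b r = (c : ℕ) then 1 else 0

variable {Y : Type}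

/-- points: families of matrices -/
abbrev gs_Pt (Y : Type) (N : ℕ) := Y ⊕ ℕ × ℕ → gs_Mat N

/-- the matrix of a letter -/
noncomputable def gs_lmat (x : gs_Pt Y N) : gs_Letter Y → gs_Mat N
  | .G false y o => gs_emb o (x (.inl y))
  | .G true y o => gs_emb o (x (.inl y))⁻¹
  | .S o a b => gs_swapMat o a b
  | .L lam => Matrix.diagonal fun j => lam j

/-- the value of a word of the `e`-th equation whose first letter has index `i` -/
noncomputable def gs_val (x : gs_Pt Y N) (e : ℕ) : ℕ → List (gs_Letter Y) → gs_Mat N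
  | _, [] => 1
  | i, l :: ls => gs_lmat x l * x (.inr (e, i)) * gs_val x e (i + 1) ls

end matrices

/-! ## solutions, density -/

section sol
variable {Y : Type}

/-- rank of the unipotent `(e,i)`: `0` (pinned to `1`) if out of range -/
def gs_Sys.urk (S : gs_Sys Y) (e i : ℕ) : ℕ := if i < (S.eq e).ls.length then (S.eq e).rk else 0

/-- the frame of the `e`-th equation after `i` letters -/
def gs_Sys.frame (S : gs_Sys Y) (e i : ℕ) : Finset ℕ := gs_frame S.sig (S.eq e).K0 (S.eq e).ls i

/-- the complex solutions -/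
def gs_Sol (N : ℕ) (S : gs_Sys Y) : Set (gs_Pt Y N) :=
  {x | (∀ y, IsUnit (x (.inl y)).det ∧ gs_IsCorner (S.sig y).rk (x (.inl y))) ∧
    (∀ e i, gs_IsUni (S.urk e i) (S.frame e (i + 1)) (x (.inr (e, i)))) ∧
    ∀ e, gs_val x e 0 (S.eq e).ls = 1}

/-- the `R`-points are Zariski dense in the complex solutions -/
def gs_Dense (N : ℕ) (R : Subring ℂ) (S : gs_Sys Y) : Prop :=
  rg_Dense R (rg_matCoord (Y ⊕ ℕ × ℕ) (Fin N)) (gs_Sol N S)

/-- well-formed equation -/
structure gs_Eqn.WF (sig : Y → gs_Sig) (N : ℕ) (R : Subring ℂ) (E : gs_Eqn Y) : Prop where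
  rk_le : E.rk ≤ N
  zero_mem : 0 ∈ E.K0
  rk_mem : E.rk ∈ E.K0
  le_rk : ∀ d ∈ E.K0, d ≤ E.rk
  app : ∀ (i : ℕ) (h : i < E.ls.length), gs_app sig E.rk (gs_frame sig E.K0 E.ls i) E.ls[i]
  closed : gs_frame sig E.K0 E.ls E.ls.length = E.K0
  unit : ∀ lam, gs_Letter.L lam ∈ E.ls → ∀ j, lam j ≠ 0 ∧ lam j ∈ R ∧ (lam j)⁻¹ ∈ R

/-- variables occurring with the given exponent -/
def gs_Sys.occ (S : gs_Sys Y) (inv : Bool) : List Y := S.eqs.flatMap fun E => gs_occL inv E.ls

/-- well-formed balanced system -/
structure gs_Sys.WF (N : ℕ) (R : Subring ℂ) (S : gs_Sys Y) : Prop where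
  sig_s : ∀ y, (S.sig y).s ≤ (S.sig y).rk
  sig_t : ∀ y, (S.sig y).t ≤ (S.sig y).rk
  eqn : ∀ E ∈ S.eqs, E.WF S.sig N R
  nodup : (S.occ false).Nodup
  perm : (S.occ false).Perm (S.occ true)
  rk0 : ∀ y, y ∉ S.occ false → (S.sig y).rk = 0

/-- all equations have rank `≤ n` -/
def gs_Sys.RkLe (S : gs_Sys Y) (n : ℕ) : Prop := ∀ E ∈ S.eqs, E.rk ≤ n

/-- a frame of rank `n` is proper: it has a cut strictly between `0` and `n` -/
def gs_Proper (n : ℕ) (K : Finset ℕ) : Prop := ∃ c ∈ K, 0 < c ∧ c < n

end sol

/-- forces the equation lemmas of the recursive definitions of this file to be stored here (and not,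
with different proofs, in several later modules) -/
theorem gs_forced_syntax : True := by
  have := @gs_occL.eq_1
  have := @gs_occL.eq_def
  have := @gs_val.eq_1
  have := @gs_val.eq_def
  trivial

end Claimed.Agent.R236
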