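import Mathlib
import Claimed.Agent.R236.GSyntax

/-!
# Row 236, Model G2: measure, the progress statements and the induction (owner helper95, prefix gi_)

`gi_DD` : every well-formed (balanced) system is dense, PROVED from five interface statements

* `StZero`        (P0) rank zero;
* `StMixed`       (P1) CLEAN / CANCEL / SLIDE: an equation of top rank with a proper and an improper frame;
* `StReduceStep`  (P2) REDUCE followed by MERGE: an entirely proper equation of top rank;
* `StClosedStep`  (P3) CLOSEDSPLIT: all equations of top rank are entirely improper;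
* `StClosedFromA` Closed(n) from A(n) (cut system + closed step).

Measure at rank `n`: `(vn, en, inn)` lexicographic = (number of variables of rank `n`, number of equations
of rank `n`, number of improper ends of variables of rank `n`).
-/

set_option autoImplicit false

namespace Claimed.Agent.R236

section defs
variable {Y : Type}

/-- all frames improper -/
def gs_Eqn.AllImp (sig : Y → gs_Sig) (E : gs_Eqn Y) : Prop :=
  ∀ i, i ≤ E.ls.length → ¬ gs_Proper E.rk (gs_frame sig E.K0 E.ls i)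

/-- all frames proper -/
def gs_Eqn.AllProp (sig : Y → gs_Sig) (E : gs_Eqn Y) : Prop :=
  ∀ i, i ≤ E.ls.length → gs_Proper E.rk (gs_frame sig E.K0 E.ls i)

/-- number of improper ends of a signature -/
def gs_Sig.imp (σ : gs_Sig) : ℕ :=
  (if σ.s = 0 ∨ σ.s = σ.rk then 1 else 0) + (if σ.t = 0 ∨ σ.t = σ.rk then 1 else 0)

/-- number of variables of rank `n` -/
def gs_Sys.vn (S : gs_Sys Y) (n : ℕ) : ℕ :=
  ((S.occ false).map fun y => if (S.sig y).rk = n then 1 else 0).sum

/-- number of equations of rank `n` -/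
def gs_Sys.en (S : gs_Sys Y) (n : ℕ) : ℕ := (S.eqs.map fun E => if E.rk = n then 1 else 0).sum

/-- number of improper ends of variables of rank `n` -/
def gs_Sys.inn (S : gs_Sys Y) (n : ℕ) : ℕ :=
  ((S.occ false).map fun y => if (S.sig y).rk = n then (S.sig y).imp else 0).sum

/-- the measure at rank `n` -/
def gs_Sys.mu (S : gs_Sys Y) (n : ℕ) : ℕ ×ₗ ℕ ×ₗ ℕ := toLex (S.vn n, toLex (S.en n, S.inn n))

/-- no equation of rank `n` is entirely improper -/
def gs_Sys.NoImp (S : gs_Sys Y) (n : ℕ) : Prop := ∀ E ∈ S.eqs, E.rk = n → ¬ E.AllImp S.sig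

/-- well-formed of rank at most `n` -/
structure gs_Sys.Good (S : gs_Sys Y) (N : ℕ) (R : Subring ℂ) (n : ℕ) : Prop where
  wf : S.WF N R
  rkLe : S.RkLe n

end defs

/-- the closed step at rank `n`: the set is `clt_V n g c` of ClTwistMain.lean, unfolded -/
def gi_ClosedOK (R : Subring ℂ) (n : ℕ) : Prop :=
  ∀ (g : ℕ) (c : ℂ), c ∈ R → c⁻¹ ∈ R → c ≠ 0 →
    rg_Dense R (rg_matCoord (Fin g × Bool) (Fin n))
      {y : Fin g × Bool → Matrix (Fin n) (Fin n) ℂ | (∀ v, IsUnit (y v).det) ∧
        (List.ofFn fun i => y (i, true) * y (i, false) * (y (i, true))⁻¹ * (y (i, false))⁻¹).prod =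
          c • (1 : Matrix (Fin n) (Fin n) ℂ)}

/-- P0: rank zero. -/
def StZero (N : ℕ) (R : Subring ℂ) : Prop :=
  ∀ (Y : Type) (S : gs_Sys Y), S.Good N R 0 → gs_Dense N R S

/-- P1 (CLEAN / CANCEL / SLIDE): an equation of top rank with a proper and an improper frame. -/
def StMixed (N : ℕ) (R : Subring ℂ) : Prop :=
  ∀ (Y : Type) (S : gs_Sys Y) (n : ℕ), S.Good N R n →
    ∀ E ∈ S.eqs, E.rk = n → ¬ E.AllImp S.sig → ¬ E.AllProp S.sig →
      ∃ (Y' : Type) (S' : gs_Sys Y'), S'.Good N R n ∧ S'.mu n < S.mu n ∧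
        (S.NoImp n → S'.NoImp n) ∧ (gs_Dense N R S' → gs_Dense N R S)

/-- P2 (REDUCE, then MERGE if the equation contains a variable of top rank; an equation without
letters is replaced by the trivial one): an entirely proper equation of top rank. -/
def StReduceStep (N : ℕ) (R : Subring ℂ) : Prop :=
  ∀ (Y : Type) (S : gs_Sys Y) (n : ℕ), S.Good N R n →
    ∀ E ∈ S.eqs, E.rk = n → E.AllProp S.sig →
      ∃ (ι : Type) (Y' : ι → Type) (S' : ∀ τ, gs_Sys (Y' τ)),
        (∀ τ, (S' τ).Good N R n ∧ (S' τ).mu n < S.mu n ∧ (S.NoImp n → (S' τ).NoImp n)) ∧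
        ((∀ τ, gs_Dense N R (S' τ)) → gs_Dense N R S)

/-- P3 (CLOSEDSPLIT): all equations of top rank are entirely improper. -/
def StClosedStep (N : ℕ) (R : Subring ℂ) : Prop :=
  ∀ (Y : Type) (S : gs_Sys Y) (n : ℕ), 0 < n → S.Good N R n →
    (∀ E ∈ S.eqs, E.rk = n → E.AllImp S.sig) → (gi_ClosedOK R n ∨ S.NoImp n) →
      ∃ (Y' : Type) (S' : gs_Sys Y'), S'.Good N R (n - 1) ∧ (gs_Dense N R S' → gs_Dense N R S)

/-- Closed(n) from A(n). -/
def StClosedFromA (N : ℕ) (R : Subring ℂ) : Prop :=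
  ∀ n : ℕ, 0 < n → n ≤ N →
    (∀ (Y : Type) (S : gs_Sys Y), S.Good N R n → S.NoImp n → gs_Dense N R S) → gi_ClosedOK R n

section induction
variable {N : ℕ} {R : Subring ℂ}

/-- the induction at a fixed rank -/
theorem gi_rank_induction (h1 : StMixed N R) (h2 : StReduceStep N R) (h3 : StClosedStep N R)
    (n : ℕ) (hn : 0 < n)
    (IH : ∀ (Y : Type) (S : gs_Sys Y), S.Good N R (n - 1) → gs_Dense N R S)
    (Y : Type) (S : gs_Sys Y) (hS : S.Good N R n) (hcl : gi_ClosedOK R n ∨ S.NoImp n) :
    gs_Dense N R S := by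
  induction hm : S.mu n using WellFoundedLT.induction generalizing Y S with
  | ind m ih =>
    subst hm
    by_cases hA : ∀ E ∈ S.eqs, E.rk = n → E.AllImp S.sig
    · obtain ⟨Y', S', hS', hd⟩ := h3 Y S n hn hS hA hcl
      exact hd (IH Y' S' hS')
    · push Not at hA
      obtain ⟨E, hE, he, hi⟩ := hA
      by_cases hp : E.AllProp S.sig
      · obtain ⟨ι, Y', S', hS', hd⟩ := h2 Y S n hS E hE he hp
        refine hd fun τ => ?_
        obtain ⟨hg, hlt, hno⟩ := hS' τ
        exact ih _ hlt (Y' τ) (S' τ) hg (hcl.imp id hno) rfl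
      · obtain ⟨Y', S', hg, hlt, hno, hd⟩ := h1 Y S n hS E hE he hi hp
        exact hd (ih _ hlt Y' S' hg (hcl.imp id hno) rfl)

/-- **Theorem DD**: every well-formed system is dense. -/
theorem gi_DD (h0 : StZero N R) (h1 : StMixed N R) (h2 : StReduceStep N R)
    (h3 : StClosedStep N R) (h4 : StClosedFromA N R) (n : ℕ) (Y : Type) (S : gs_Sys Y)
    (hS : S.Good N R n) : gs_Dense N R S := by
  induction n generalizing Y S with
  | zero => exact h0 Y S hS
  | succ n ih =>
    have IH : ∀ (Y : Type) (S : gs_Sys Y), S.Good N R (n + 1 - 1) → gs_Dense N R S := by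
      simpa using ih
    have hA : ∀ (Y : Type) (S : gs_Sys Y), S.Good N R (n + 1) → S.NoImp (n + 1) →
        gs_Dense N R S := fun Y S hS hno =>
      gi_rank_induction h1 h2 h3 (n + 1) (Nat.succ_pos n) IH Y S hS (Or.inr hno)
    by_cases hN : n + 1 ≤ N
    · exact gi_rank_induction h1 h2 h3 (n + 1) (Nat.succ_pos n) IH Y S hS
        (Or.inl (h4 (n + 1) (Nat.succ_pos n) hN hA))
    · refine hA Y S hS fun E hE he => ?_
      have := (hS.wf.eqn E hE).rk_le
      omega

/-- every well-formed system is dense -/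
theorem gi_DD' (h0 : StZero N R) (h1 : StMixed N R) (h2 : StReduceStep N R)
    (h3 : StClosedStep N R) (h4 : StClosedFromA N R) (Y : Type) (S : gs_Sys Y)
    (hS : S.WF N R) : gs_Dense N R S :=
  gi_DD h0 h1 h2 h3 h4 N Y S ⟨hS, fun E hE => (hS.eqn E hE).rk_le⟩

end induction

end Claimed.Agent.R236
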