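/-
Row 236, closed-surface step, ASSEMBLY OF Closed(n) (owner helper148; prefix `clr_`).
* `clr_cor`            corner embedding `M ↦ M ⊕ 1` of `n × n` matrices into `(n+d) × (n+d)` matrices (API);
* `clr_V_dense_zero`, `clr_V_dense_one` (from `cl_torus_dense`), genus at least two: `clt_closed_of_N`;
* `StClCutN`           the remaining hypothesis (layer L3): density for the cut surface;
* `clr_closedOK`, `clr_closedFromA`   Closed(n) = `gi_ClosedOK R n`, `StClosedFromA N R`.
-/
import Claimed.Agent.R236.ClCut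
import Claimed.Agent.R236.GInduct
import Claimed.Agent.R236.ClTorus
set_option autoImplicit false
namespace Claimed.Agent.R236
open Matrix

section Corner
variable {n d : ℕ}

/-- corner embedding `M ↦ M ⊕ 1` as a monoid homomorphism -/
noncomputable def clr_cor (n d : ℕ) :
    Matrix (Fin n) (Fin n) ℂ →* Matrix (Fin (n + d)) (Fin (n + d)) ℂ where
  toFun M := Matrix.reindex finSumFinEquiv finSumFinEquiv (Matrix.fromBlocks M 0 0 1)
  map_one' := by
    rw [Matrix.fromBlocks_one]
    ext i j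
    simp [Matrix.one_apply]
  map_mul' M M' := by
    have h := Matrix.fromBlocks_multiply M (0 : Matrix (Fin n) (Fin d) ℂ) (0 : Matrix (Fin d) (Fin n) ℂ)
      (1 : Matrix (Fin d) (Fin d) ℂ) M' (0 : Matrix (Fin n) (Fin d) ℂ) (0 : Matrix (Fin d) (Fin n) ℂ)
      (1 : Matrix (Fin d) (Fin d) ℂ)
    simp only [Matrix.mul_zero, Matrix.zero_mul, add_zero, zero_add, Matrix.mul_one] at h
    rw [← h]
    simp only [Matrix.reindex_apply]
    rw [Matrix.submatrix_mul_equiv]

lemma clr_cor_apply (M : Matrix (Fin n) (Fin n) ℂ) (i j : Fin (n + d)) :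
    clr_cor n d M i j = Matrix.fromBlocks M 0 0 1 (finSumFinEquiv.symm i) (finSumFinEquiv.symm j) :=
  rfl

lemma clr_cor_cc (M : Matrix (Fin n) (Fin n) ℂ) (i j : Fin n) :
    clr_cor n d M (Fin.castAdd d i) (Fin.castAdd d j) = M i j := by
  simp [clr_cor_apply]

lemma clr_cor_outside (M : Matrix (Fin n) (Fin n) ℂ) (i j : Fin (n + d))
    (h : n ≤ i.val ∨ n ≤ j.val) : clr_cor n d M i j = if i = j then 1 else 0 := by
  rw [clr_cor_apply]
  induction i using Fin.addCases with
  | left i' =>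
    induction j using Fin.addCases with
    | left j' =>
      exfalso
      rcases h with h | h
      · simp at h; omega
      · simp at h; omega
    | right j' =>
      have : Fin.castAdd d i' ≠ Fin.natAdd n j' := by
        intro h'
        have := congrArg Fin.val h'
        simp at this
        omega
      simp [this]
  | right i' =>
    induction j using Fin.addCases with
    | left j' =>
      have : Fin.natAdd n i' ≠ Fin.castAdd d j' := by
        intro h'
        have := congrArg Fin.val h'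
        simp at this
        omega
      simp [this]
    | right j' =>
      simp [Matrix.one_apply]

lemma clr_cor_injective : Function.Injective (clr_cor n d) := by
  intro M M' h
  ext i j
  rw [← clr_cor_cc (d := d) M, ← clr_cor_cc (d := d) M', h]

lemma clr_cor_smul_one (c : ℂ) :
    clr_cor n d (c • (1 : Matrix (Fin n) (Fin n) ℂ))
      = diagonal fun j : Fin (n + d) => if j.val < n then c else 1 := by
  ext i j
  by_cases hij : n ≤ i.val ∨ n ≤ j.val
  · rw [clr_cor_outside _ _ _ hij]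
    by_cases h : i = j
    · subst h
      have : ¬ i.val < n := by omega
      simp [this]
    · simp [h]
  · obtain ⟨i', rfl⟩ : ∃ i', i = Fin.castAdd d i' := ⟨⟨i, by omega⟩, Fin.ext rfl⟩
    obtain ⟨j', rfl⟩ : ∃ j', j = Fin.castAdd d j' := ⟨⟨j, by omega⟩, Fin.ext rfl⟩
    rw [clr_cor_cc]
    by_cases h : i' = j'
    · subst h; simp
    · have h' : Fin.castAdd d i' ≠ Fin.castAdd d j' := fun h'' => h (Fin.castAdd_injective n d h'')
      simp [h, h']

lemma clr_cor_matOn {P : Type*} {κ : Type*} {R : Subring ℂ} {c : κ → P → ℂ} {S : Set P}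
    {f : P → Matrix (Fin n) (Fin n) ℂ} (hf : rg_MatOn R c S f) :
    rg_MatOn R c S (fun x => clr_cor n d (f x)) :=
  (rg_MatOn.fromBlocks hf (rg_MatOn.zero (m := Fin n) (n := Fin d))
    (rg_MatOn.zero (m := Fin d) (n := Fin n)) (rg_MatOn.one (n := Fin d))).submatrix
      finSumFinEquiv.symm finSumFinEquiv.symm

end Corner

section Genus
variable {n : ℕ}

/-- genus zero -/
theorem clr_V_dense_zero (R : Subring ℂ) (c : ℂ) :
    rg_Dense R (rg_matCoord (Fin 0 × Bool) (Fin n)) (clt_V n 0 c) :=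
  fun _ _ h0 x hx => h0 x hx fun k => k.1.1.elim0

/-- genus one -/
theorem clr_V_dense_one (R : Subring ℂ) (hU : {z : ℂ | z ∈ R ∧ z⁻¹ ∈ R}.Infinite) (c : ℂ)
    (hc : c ∈ R) : rg_Dense R (rg_matCoord (Fin 1 × Bool) (Fin n)) (clt_V n 1 c) := by
  by_cases hcn : c ^ n = 1
  · refine rg_Dense.transfer₁ (fun (x : Bool → ClMat n) (k : Fin 1 × Bool) => x (!k.2)) ?_ ?_ ?_
      (cl_torus_dense R hU n c hc hcn)
    · exact rg_matCoord_regOn (fun i => rg_matCoord_mat (!i.2)) (fun i => rg_matCoord_inv (!i.2))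
    · rintro x ⟨h1, h2, h3⟩
      refine ⟨?_, ?_⟩
      · rintro ⟨i, b⟩
        cases b
        · exact h2
        · exact h1
      · simp only [clt_word, List.ofFn_succ, List.ofFn_zero, List.prod_cons, List.prod_nil, mul_one,
          Bool.not_true, Bool.not_false]
        rw [h3, smul_mul_assoc, smul_mul_assoc, mul_assoc (x true), mul_nonsing_inv _ h1, mul_one,
          mul_nonsing_inv _ h2]
    · rintro y ⟨h1, h2⟩
      refine ⟨fun b => y (0, !b), ⟨h1 _, h1 _, ?_⟩, ?_⟩
      · simp only [clt_word, List.ofFn_succ, List.ofFn_zero, List.prod_cons, List.prod_nil,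
          mul_one] at h2
        simp only [Bool.not_true, Bool.not_false]
        calc y (0, true) * y (0, false)
            = y (0, true) * y (0, false) * (y (0, true))⁻¹ * (y (0, false))⁻¹ *
                (y (0, false) * y (0, true)) := by
              rw [mul_assoc _ (y (0, false))⁻¹, ← mul_assoc (y (0, false))⁻¹,
                nonsing_inv_mul _ (h1 _), one_mul, mul_assoc _ (y (0, true))⁻¹,
                nonsing_inv_mul _ (h1 _), mul_one]
          _ = _ := by rw [h2, smul_mul_assoc, one_mul]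
      · funext k
        obtain ⟨i, b⟩ := k
        have : i = 0 := Subsingleton.elim _ _
        subst this
        simp
  · intro F _ _ y hy
    exfalso
    have h1 := clt_det_word y hy.1
    rw [hy.2, det_smul, det_one, mul_one, Fintype.card_fin] at h1
    exact hcn h1

end Genus

/-- the hypothesis on the cut surface: density of the integral points of the flag variety with two
full flags (layer L3, to be derived from `A(n)`). -/
def StClCutN (R : Subring ℂ) (n : ℕ) : Prop :=
  ∀ (g : ℕ) (c : ℂ) (α : Fin n → ℂ), c ≠ 0 → c ∈ R → c⁻¹ ∈ R → (∀ i, α i ≠ 0) → (∀ i, α i ∈ R) →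
    (∀ i, (α i)⁻¹ ∈ R) → (∀ i j, i ≠ j → α i ≠ α j ∧ (α i - α j)⁻¹ ∈ R) →
    top_NSol (g + 1) 2 (clt_blk n) (clt_lam α c) ⊆
      top_zcl (top_NSol (g + 1) 2 (clt_blk n) (clt_lam α c) ∩ {z | ∀ v, z v ∈ R})

/-- **Closed(n)** from the density for the cut surface. -/
theorem clr_closedOK {R : Subring ℂ} (hU : {z : ℂ | z ∈ R ∧ z⁻¹ ∈ R}.Infinite) (n : ℕ)
    (α : Fin n → ℂ) (hα0 : ∀ i, α i ≠ 0) (hαR : ∀ i, α i ∈ R) (hαR' : ∀ i, (α i)⁻¹ ∈ R)
    (hαd : ∀ i j, i ≠ j → α i ≠ α j ∧ (α i - α j)⁻¹ ∈ R) (hL3 : StClCutN R n) :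
    gi_ClosedOK R n := by
  intro g c hc hc' hc0
  match g with
  | 0 => exact clr_V_dense_zero R c
  | 1 => exact clr_V_dense_one R hU c hc
  | g + 2 =>
    exact clt_closed_of_N R c α hc0 hc hc' hα0 hαR hαR' hαd (hL3 g c α hc0 hc hc' hα0 hαR hαR' hαd)

/-- **Closed(n) from A(n)**, modulo layer L3; the arithmetic hypotheses are those of `top_arith`. -/
theorem clr_closedFromA {N : ℕ} {R : Subring ℂ} (hU : {z : ℂ | z ∈ R ∧ z⁻¹ ∈ R}.Infinite)
    (hα : ∃ α : ℕ → ℂ, (∀ i, α i ≠ 0 ∧ α i ∈ R ∧ (α i)⁻¹ ∈ R) ∧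
      ∀ i j, i < N → j < N → i ≠ j → α i - α j ≠ 0 ∧ α i - α j ∈ R ∧ (α i - α j)⁻¹ ∈ R)
    (hL3 : ∀ n, 0 < n → n ≤ N →
      (∀ (Y : Type) (S : gs_Sys Y), S.Good N R n → S.NoImp n → gs_Dense N R S) → StClCutN R n) :
    StClosedFromA N R := by
  intro n hn hnN hA
  obtain ⟨α, hα1, hα2⟩ := hα
  refine clr_closedOK hU n (fun i => α i.val) (fun i => (hα1 _).1) (fun i => (hα1 _).2.1)
    (fun i => (hα1 _).2.2) ?_ (hL3 n hn hnN hA)
  intro i j hij
  have h := hα2 i.val j.val (by omega) (by omega) (fun h => hij (Fin.ext h))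
  exact ⟨fun h' => h.1 (sub_eq_zero.mpr h'), h.2.2⟩

end Claimed.Agent.R236
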