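import Claimed.Agent.R236.ClosedSplitC

/-!
# Row 236, `ClosedSplit` (owner helper180, prefix `qc_`): P3 (CLOSEDSPLIT) and P0

* `qc_closedStep : StClosedStep N R`;
* `qc_zero : StZero N R`.
-/

set_option autoImplicit false

namespace Claimed.Agent.R236

open Matrix

section prep

variable {Y : Type} {R : Subring ℂ}

theorem qc_lsc_mem {l : gs_Letter Y}
    (h : ∀ lam, l = gs_Letter.L lam → lam 0 ≠ 0 ∧ lam 0 ∈ R ∧ (lam 0)⁻¹ ∈ R) :
    qc_lsc l ∈ qd_Z R := by
  cases l with
  | G inv y o => exact (qd_Z R).one_mem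
  | S o a b => exact (qd_Z R).one_mem
  | L lam =>
    obtain ⟨h0, h1, h2⟩ := h lam rfl
    simp only [qc_lsc, dif_neg h0]
    exact ⟨h1, by simpa using h2⟩

theorem qc_scal_mem {ls : List (gs_Letter Y)}
    (h : ∀ lam, gs_Letter.L lam ∈ ls → lam 0 ≠ 0 ∧ lam 0 ∈ R ∧ (lam 0)⁻¹ ∈ R) :
    qc_scal ls ∈ qd_Z R := by
  refine Subgroup.list_prod_mem _ fun c hc => ?_
  obtain ⟨l, hl, rfl⟩ := List.mem_map.1 hc
  exact qc_lsc_mem fun lam hlam => h lam (hlam ▸ hl)

open Classical in
/-- the constant of an equation -/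
noncomputable def qc_cZ (R : Subring ℂ) (n : ℕ) (E : gs_Eqn Y) : qd_Z R :=
  if h : E.rk = n ∧ (qc_scal E.ls)⁻¹ ∈ qd_Z R then ⟨(qc_scal E.ls)⁻¹, h.2⟩ else 1

/-- the quadratic system -/
noncomputable def qc_qsys (R : Subring ℂ) (S : gs_Sys Y) (n : ℕ) :
    List (List (Y × Bool) × qd_Z R) :=
  S.eqs.map fun E => (qc_word S.sig n E.ls, qc_cZ R n E)

theorem qc_letters_qsys (S : gs_Sys Y) (n : ℕ) :
    qw_letters (qc_qsys R S n) = qc_letters S n := by
  simp [qw_letters, qc_qsys, qc_letters, List.flatMap_map]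

theorem qc_uni_zero {N : ℕ} {K : Finset ℕ} {u : gs_Mat N} (hu : gs_IsUni 0 K u) : u = 1 := by
  ext i j
  by_contra h
  exact absurd (hu i j h).1 (Nat.not_lt_zero _)

variable {N : ℕ} {S : gs_Sys Y} {n : ℕ}

theorem qc_Hyp.eq_wf (H : qc_Hyp N R S n) (e : ℕ) : (S.eq e).WF S.sig N R := qc_eq_wf H.good.wf e

theorem qc_Hyp.eq_le (H : qc_Hyp N R S n) (e : ℕ) : (S.eq e).rk ≤ n := by
  rcases qc_eq_mem_or S e with h | h
  · exact H.good.rkLe _ h
  · rw [h]; exact Nat.zero_le _

theorem qc_Hyp.eq_imp (H : qc_Hyp N R S n) (e : ℕ) (hrk : (S.eq e).rk = n) :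
    (S.eq e).AllImp S.sig := by
  rcases qc_eq_mem_or S e with h | h
  · exact H.imp _ h hrk
  · rw [h] at hrk
    have := H.pos
    simp [gs_Eqn.triv] at hrk
    omega

/-- the unipotents of an equation of top rank are trivial -/
theorem qc_Hyp.unip (H : qc_Hyp N R S n) (e : ℕ) (hrk : (S.eq e).rk = n) (i : ℕ) {u : gs_Mat N}
    (hu : gs_IsUni (S.urk e i) (S.frame e (i + 1)) u) : u = 1 := by
  unfold gs_Sys.urk at hu
  by_cases hlt : i < (S.eq e).ls.length
  · rw [if_pos hlt] at hu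
    exact qc_uni_eq_one (qc_inv_of (qc_frame_bd H.sigOK _ _ (H.eq_wf e).le_rk
      (qc_WF.typed (H.eq_wf e)) (i + 1)) (H.eq_imp e hrk (i + 1) hlt)) le_rfl hu
  · rw [if_neg hlt] at hu
    exact qc_uni_zero hu

theorem qc_word_eq_nil {sig : Y → gs_Sig} {ls : List (gs_Letter Y)}
    (h : ∀ inv y o, gs_Letter.G inv y o ∈ ls → (sig y).rk ≠ n) : qc_word sig n ls = [] := by
  refine List.eq_nil_iff_forall_not_mem.2 fun p hp => ?_
  obtain ⟨h1, o, h2⟩ := qc_rk_of_mem_word hp
  exact h _ _ _ h2 h1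

end prep

section main

variable {Y : Type} {R : Subring ℂ} {S : gs_Sys Y} {n d : ℕ}

/-- an equation of top rank, in the group -/
theorem qc_Hyp.top_eq (H : qc_Hyp (n + d) R S n) (e : ℕ) (hrk : (S.eq e).rk = n) {g : Y → qd_G n}
    {x : gs_Pt Y (n + d)} (hxn : ∀ y, (S.sig y).rk = n → x (.inl y) = qc_cor n d (g y).val)
    (hx0 : ∀ y, (S.sig y).rk = 0 → x (.inl y) = 1) (hu : ∀ i, x (.inr (e, i)) = 1) :
    gs_val x e 0 (S.eq e).ls = 1 ↔
      qw_ev g (qc_word S.sig n (S.eq e).ls) = qd_sc n (qc_cZ R n (S.eq e)).1 := by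
  have hE := H.eq_wf e
  have hi := H.eq_imp e hrk
  have hK : qc_Inv n (S.eq e).K0 := hrk ▸ qc_inv_K0 hE hi
  have ht : qc_Typed S.sig n (S.eq e).K0 (S.eq e).ls := hrk ▸ qc_WF.typed hE
  have hw : qc_ImpW S.sig n (S.eq e).K0 (S.eq e).ls :=
    qc_impW_of_frames _ _ fun i hi' => hrk ▸ hi i hi'
  rw [qc_val_imp H.pos H.sigOK hxn hx0 e hu _ _ 0 hK ht hw fun lam hl => (hE.unit lam hl 0).1,
    qc_cor_eq_one_iff]
  have hm : (qc_scal (S.eq e).ls)⁻¹ ∈ qd_Z R :=
    (qd_Z R).inv_mem (qc_scal_mem fun lam hl => hE.unit lam hl 0)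
  have hc : (qc_cZ R n (S.eq e)).1 = (qc_scal (S.eq e).ls)⁻¹ := by
    simp only [qc_cZ, dif_pos (And.intro hrk hm)]
  rw [hc, map_inv, mul_eq_one_iff_eq_inv]

open Classical in
/-- the transfer map -/
noncomputable def qc_Phi (S : gs_Sys Y) (n d : ℕ) (p : (Y → qd_G n) × gs_Pt Y (n + d)) :
    gs_Pt Y (n + d)
  | .inl y => if (S.sig y).rk = n then qc_cor n d (p.1 y).val else p.2 (.inl y)
  | .inr q => p.2 (.inr q)

theorem qc_dense (H : qc_Hyp (n + d) R S n) (hcl : gi_ClosedOK R n)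
    (hD : gs_Dense (n + d) R (qc_sys S n)) : gs_Dense (n + d) R S := by
  classical
  have hq : qw_Quad (qw_letters (qc_qsys R S n)) := by
    rw [qc_letters_qsys]; exact qc_quad H.good.wf n
  have hT := qd_quad_dense hcl (qc_qsys R S n) hq
  have hn := H.pos
  -- equations of the two systems
  have heq : ∀ e, (S.eq e).rk ≠ n → (qc_sys S n).eq e = S.eq e := fun e h => by
    rw [qc_sys_eq S hn, qc_f, if_neg h]
  have heq' : ∀ e, (S.eq e).rk = n → (qc_sys S n).eq e = qc_col (S.eq e) := fun e h => by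
    rw [qc_sys_eq S hn, qc_f, if_pos h]
  have hlow : ∀ e, (S.eq e).rk ≠ n → ∀ inv y o, gs_Letter.G inv y o ∈ (S.eq e).ls →
      (S.sig y).rk ≠ n := fun e h => H.rk_lt (H.eq_wf e) (H.eq_le e) h
  have hfr : ∀ e i, (S.eq e).rk ≠ n → (qc_sys S n).frame e i = S.frame e i := fun e i h => by
    unfold gs_Sys.frame
    rw [heq e h]
    exact (qc_frame_congr _ _ _ fun inv y o hy => (qc_sig_of_ne (hlow e h inv y o hy)).symm).symm
  have hurk : ∀ e i, (S.eq e).rk ≠ n → (qc_sys S n).urk e i = S.urk e i := fun e i h => by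
    unfold gs_Sys.urk
    rw [heq e h]
  have hurk' : ∀ e i, (S.eq e).rk = n → (qc_sys S n).urk e i = 0 := fun e i h => by
    unfold gs_Sys.urk
    rw [heq' e h]
    simp [qc_col]
  refine rg_Dense.transfer₁ (qc_Phi S n d) (rg_matCoord_regOn ?_ ?_) ?_ ?_ (hT.prod hD)
  · -- regularity
    rintro (y | q)
    · by_cases h : (S.sig y).rk = n
      · simp only [qc_Phi, if_pos h]
        exact qc_cor_matOn fun a b => rg_RegOn.coord
          (c := rg_prodCoord (rg_unitsCoord Y (Fin n)) (rg_matCoord (Y ⊕ ℕ × ℕ) (Fin (n + d))))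
          (Sum.inl (y, false, a, b))
      · simp only [qc_Phi, if_neg h]
        exact fun a b => rg_RegOn.coord
          (c := rg_prodCoord (rg_unitsCoord Y (Fin n)) (rg_matCoord (Y ⊕ ℕ × ℕ) (Fin (n + d))))
          (Sum.inr (Sum.inl y, false, a, b))
    · exact fun a b => rg_RegOn.coord
        (c := rg_prodCoord (rg_unitsCoord Y (Fin n)) (rg_matCoord (Y ⊕ ℕ × ℕ) (Fin (n + d))))
        (Sum.inr (Sum.inr q, false, a, b))
  · rintro (y | q)
    · by_cases h : (S.sig y).rk = n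
      · simp only [qc_Phi, if_pos h, qc_cor_inv]
        exact qc_cor_matOn fun a b => rg_RegOn.coord
          (c := rg_prodCoord (rg_unitsCoord Y (Fin n)) (rg_matCoord (Y ⊕ ℕ × ℕ) (Fin (n + d))))
          (Sum.inl (y, true, a, b))
      · simp only [qc_Phi, if_neg h]
        exact fun a b => rg_RegOn.coord
          (c := rg_prodCoord (rg_unitsCoord Y (Fin n)) (rg_matCoord (Y ⊕ ℕ × ℕ) (Fin (n + d))))
          (Sum.inr (Sum.inl y, true, a, b))
    · exact fun a b => rg_RegOn.coord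
        (c := rg_prodCoord (rg_unitsCoord Y (Fin n)) (rg_matCoord (Y ⊕ ℕ × ℕ) (Fin (n + d))))
        (Sum.inr (Sum.inr q, true, a, b))
  · -- maps into the solutions
    rintro ⟨g, w⟩ ⟨⟨-, hg⟩, hw1, hw2, hw3⟩
    have hxn : ∀ y, (S.sig y).rk = n → qc_Phi S n d (g, w) (.inl y) = qc_cor n d (g y).val :=
      fun y h => by simp only [qc_Phi, if_pos h]
    have hxl : ∀ y, (S.sig y).rk ≠ n → qc_Phi S n d (g, w) (.inl y) = w (.inl y) :=
      fun y h => by simp only [qc_Phi, if_neg h]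
    have hw1' : ∀ y, (S.sig y).rk ≠ n →
        IsUnit (w (.inl y)).det ∧ gs_IsCorner (S.sig y).rk (w (.inl y)) := fun y h => by
      have := hw1 y
      change _ ∧ gs_IsCorner (qc_sig S.sig n y).rk _ at this
      rwa [qc_sig_of_ne h] at this
    have hx0 : ∀ y, (S.sig y).rk = 0 → qc_Phi S n d (g, w) (.inl y) = 1 := fun y h => by
      have hne : (S.sig y).rk ≠ n := by omega
      rw [hxl y hne]
      have := (hw1' y hne).2
      rw [h] at this
      exact gm_corner_zero_iff.1 this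
    have hu1 : ∀ e, (S.eq e).rk = n → ∀ i, w (.inr (e, i)) = 1 := fun e h i => by
      have := hw2 e i
      rw [hurk' e i h] at this
      exact qc_uni_zero this
    refine ⟨fun y => ?_, fun e i => ?_, fun e => ?_⟩
    · by_cases h : (S.sig y).rk = n
      · rw [hxn y h, h]
        exact ⟨qc_cor_isUnit _, qc_cor_corner _⟩
      · rw [hxl y h]
        exact hw1' y h
    · change gs_IsUni _ _ (w (.inr (e, i)))
      by_cases h : (S.eq e).rk = n
      · rw [hu1 e h i]
        exact qc_uni_one _ _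
      · have := hw2 e i
        rwa [hurk e i h, hfr e _ h] at this
    · by_cases h : (S.eq e).rk = n
      · refine (H.top_eq e h hxn hx0 (hu1 e h)).2 ?_
        rcases qc_eq_mem_or S e with hm | hm
        · exact hg _ (List.mem_map.2 ⟨S.eq e, hm, rfl⟩)
        · rw [hm] at h
          simp [gs_Eqn.triv] at h
          omega
      · have := hw3 e
        rw [heq e h] at this
        rw [← this]
        exact qc_val_congr (x := qc_Phi S n d (g, w)) (x' := w) e (fun i => rfl) _ _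
          fun inv y o hy => hxl y (hlow e h inv y o hy)
  · -- onto
    rintro x ⟨hx1, hx2, hx3⟩
    have hex : ∀ y, ∃ gy : qd_G n, ((S.sig y).rk = n → qc_cor n d gy.val = x (.inl y)) ∧
        ((S.sig y).rk ≠ n → gy = 1) := by
      intro y
      by_cases h : (S.sig y).rk = n
      · obtain ⟨gy, hgy⟩ := qc_exists_cor (h ▸ (hx1 y).2) (hx1 y).1
        exact ⟨gy, fun _ => hgy, fun h' => absurd h h'⟩
      · exact ⟨1, fun h' => absurd h' h, fun _ => rfl⟩
    choose g hg using hex
    let w : gs_Pt Y (n + d) := fun k => match k with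
      | .inl y => if (S.sig y).rk = n then 1 else x (.inl y)
      | .inr q => x (.inr q)
    have hwn : ∀ y, (S.sig y).rk = n → w (.inl y) = 1 := fun y h => by simp only [w, if_pos h]
    have hwl : ∀ y, (S.sig y).rk ≠ n → w (.inl y) = x (.inl y) := fun y h => by
      simp only [w, if_neg h]
    have hx0 : ∀ y, (S.sig y).rk = 0 → x (.inl y) = 1 := fun y h => by
      have := (hx1 y).2
      rw [h] at this
      exact gm_corner_zero_iff.1 this
    have hu1 : ∀ e, (S.eq e).rk = n → ∀ i, x (.inr (e, i)) = 1 := fun e h i =>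
      H.unip e h i (hx2 e i)
    refine ⟨(g, w), ⟨⟨fun y hy => ?_, fun t ht => ?_⟩, fun y => ?_, fun e i => ?_, fun e => ?_⟩, ?_⟩
    · by_cases h : (S.sig y).rk = n
      · rw [qc_letters_qsys] at hy
        exact absurd rfl (hy _ (qc_mem_letters H.good.wf hn h))
      · exact (hg y).2 h
    · obtain ⟨E, hE, rfl⟩ := List.mem_map.1 ht
      obtain ⟨e, he, rfl⟩ := List.getElem_of_mem hE
      have hEe : S.eq e = S.eqs[e] := List.getD_eq_getElem _ _ he
      rw [← hEe]
      by_cases h : (S.eq e).rk = n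
      · exact (H.top_eq e h (fun y hy => ((hg y).1 hy).symm) hx0 (hu1 e h)).1 (hx3 e)
      · have h1 : qc_word S.sig n (S.eq e).ls = [] := qc_word_eq_nil (hlow e h)
        have h2 : qc_cZ R n (S.eq e) = 1 := dif_neg fun h' => h h'.1
        simp [h1, h2, qw_ev]
    · change IsUnit (w (.inl y)).det ∧ gs_IsCorner (qc_sig S.sig n y).rk (w (.inl y))
      by_cases h : (S.sig y).rk = n
      · rw [hwn y h]
        exact ⟨by simp, gm_corner_one _⟩
      · rw [hwl y h, qc_sig_of_ne h]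
        exact hx1 y
    · change gs_IsUni _ _ (x (.inr (e, i)))
      by_cases h : (S.eq e).rk = n
      · rw [hu1 e h i]
        exact qc_uni_one _ _
      · rw [hurk e i h, hfr e _ h]
        exact hx2 e i
    · by_cases h : (S.eq e).rk = n
      · rw [heq' e h]
        refine qc_col_val (x := w) e (hu1 e h) _ _ fun inv y o hy => ?_
        by_cases hy' : (S.sig y).rk = n
        · exact hwn y hy'
        · rw [hwl y hy']
          rcases H.rk_top (H.eq_wf e) (H.eq_imp e h) inv y o hy with h0 | h0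
          · exact hx0 y h0
          · exact absurd (h0.2.trans h) hy'
      · rw [heq e h, ← hx3 e]
        exact qc_val_congr (x := w) (x' := x) e (fun i => rfl) _ _
          fun inv y o hy => hwl y (hlow e h inv y o hy)
    · funext k
      rcases k with y | q
      · by_cases h : (S.sig y).rk = n
        · simp only [qc_Phi, if_pos h]
          exact (hg y).1 h
        · simp only [qc_Phi, if_neg h]
          exact hwl y h
      · rfl

end main

/-- **P3 (CLOSEDSPLIT).** -/
theorem qc_closedStep (N : ℕ) (R : Subring ℂ) : StClosedStep N R := by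
  intro Y S n hn hS hAll hcl
  have hno : (∀ E ∈ S.eqs, E.rk ≠ n) →
      ∃ (Y' : Type) (S' : gs_Sys Y'), S'.Good N R (n - 1) ∧ (gs_Dense N R S' → gs_Dense N R S) :=
    fun h => ⟨Y, S, ⟨hS.wf, fun E hE => by
      have := hS.rkLe E hE
      have := h E hE
      omega⟩, id⟩
  rcases hcl with hcl | hcl
  · by_cases hnN : n ≤ N
    · obtain ⟨d, rfl⟩ := Nat.exists_eq_add_of_le hnN
      have H : qc_Hyp (n + d) R S n := ⟨hn, hS, hAll⟩
      exact ⟨Y, qc_sys S n, H.good', qc_dense H hcl⟩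
    · refine hno fun E hE h => ?_
      have := (hS.wf.eqn E hE).rk_le
      omega
  · exact hno fun E hE h => hcl E hE h (hAll E hE h)

/-- **P0: rank zero.** -/
theorem qc_zero (N : ℕ) (R : Subring ℂ) : StZero N R := by
  intro Y S hS
  have hs := qc_WF.sigOK hS.wf
  have hrk : ∀ y, (S.sig y).rk = 0 := by
    intro y
    by_cases hy : y ∈ S.occ false
    · obtain ⟨E, hE, hy⟩ := List.mem_flatMap.1 hy
      obtain ⟨o, ho⟩ := qc_mem_occL hy
      have h1 := qc_rk_le hs E.ls E.K0 (hS.wf.eqn E hE).le_rk (qc_WF.typed (hS.wf.eqn E hE)) _ _ _ ho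
      have h2 := hS.rkLe E hE
      omega
    · exact hS.wf.rk0 y hy
  have hone : ∀ x ∈ gs_Sol N S, ∀ k, x k = 1 := by
    rintro x ⟨h1, h2, -⟩ (y | ⟨e, i⟩)
    · have := (h1 y).2
      rw [hrk y] at this
      exact gm_corner_zero_iff.1 this
    · have := h2 e i
      have h0 : S.urk e i = 0 := by
        unfold gs_Sys.urk
        split_ifs
        · rcases qc_eq_mem_or S e with h | h
          · exact Nat.le_zero.1 (hS.rkLe _ h)
          · rw [h]; rfl
        · rfl
      rw [h0] at this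
      exact qc_uni_zero this
  refine rg_dense_of_forall_mem fun x hx => (rg_matCoord_mem_iff x).2 fun k a b => ?_
  rw [hone x hx k, inv_one, Matrix.one_apply]
  split_ifs
  exacts [⟨R.one_mem, R.one_mem⟩, ⟨R.zero_mem, R.zero_mem⟩]

end Claimed.Agent.R236
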