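import Mathlib
import Claimed.Agent.R236.GSyntax

/-!
# Row 236: the operation REDUCE on block-word systems: definitions (owner helper10)

`E` = an equation of rank `n` whose base frame has a cut `0 < k < n`.  For a solution put
`U_0 = ℂ^k`, `U_{i-1} = M_i u_i U_i`.  The relative position of `U_i` and of the frame `K_i` is
recorded by a colouring `col i : ℕ → Bool` of the indices `[0,n)` (`true` = `U`, `false` = `Q`),
with the `U`'s first inside every block.  `gr_reduce` replaces `E` by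

* `eU` (rank `k`), `eQ` (rank `n-k`): every letter of `E` gives exactly four letters,
* link equations of the rank of the strands; slot `0`, `1`: the links of the letter itself,
  slot `c+2`: the link of the untouched block starting at `c`.

ALL old variables and all other equations are kept.
New variables: `H i c : (block of frame i starting at c) → (u,q)`; per `G` letter `YU i`, `YQ i`;
per `S` letter `T i : (b+h) → (b,h)`, `S i : (a+h) → (a,h)`, `R i : (h+x) → (h,x)`,
`V i : (h+y) → (h,y)`.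
-/

set_option autoImplicit false

namespace Claimed.Agent.R236

/-- the new variables -/
inductive gr_Var where
  | H (i c : ℕ)
  | YU (i : ℕ)
  | YQ (i : ℕ)
  | T (i : ℕ)
  | S (i : ℕ)
  | R (i : ℕ)
  | V (i : ℕ)

/-- number of `U`-coloured indices `< j` -/
def gr_cU (c : ℕ → Bool) (j : ℕ) : ℕ := Nat.count (fun t => c t = true) j

/-- number of `Q`-coloured indices `< j` -/
def gr_cQ (c : ℕ → Bool) (j : ℕ) : ℕ := Nat.count (fun t => c t = false) j

/-- number of `U`-coloured indices in `[lo,hi)` -/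
def gr_nU (c : ℕ → Bool) (lo hi : ℕ) : ℕ := gr_cU c hi - gr_cU c lo

/-- number of `Q`-coloured indices in `[lo,hi)` -/
def gr_nQ (c : ℕ → Bool) (lo hi : ℕ) : ℕ := gr_cQ c hi - gr_cQ c lo

/-- the next cut after `c` -/
noncomputable def gr_nxt (K : Finset ℕ) (c : ℕ) : ℕ := sInf {d | d ∈ K ∧ c < d}

/-- the five numbers of a swap: `A = a+h+x`, `B = b+h+y` -/
structure gr_SNum where
  a : ℕ
  b : ℕ
  h : ℕ
  x : ℕ
  y : ℕ

/-- the numbers of the swap `S o A B`; `cb`, `ca` = colouring before, after.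
before: `A = (a | h+x)`, `B = (b+h | y)`; after: `B = (b | h+y)`, `A = (a+h | x)`. -/
def gr_snum (cb ca : ℕ → Bool) (o A B : ℕ) : gr_SNum :=
  let a := gr_nU cb o (o + A)
  let b := gr_nU ca o (o + B)
  let h := gr_nU ca (o + B) (o + B + A) - a
  ⟨a, b, h, A - a - h, B - b - h⟩

/-- the data of a reduction -/
structure gr_Ctx (Y : Type) where
  sig : Y → gs_Sig
  E : gs_Eqn Y
  k : ℕ
  col : ℕ → ℕ → Bool

/-- letters of the new system -/
abbrev gr_Let (Y : Type) := gs_Letter (Y ⊕ gr_Var)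

/-- the padding letter -/
def gr_one (Y : Type) : gr_Let Y := .L fun _ => 1

namespace gr_Ctx

variable {Y : Type} (C : gr_Ctx Y)

/-- number of letters -/
def len : ℕ := C.E.ls.length

/-- rank -/
def n : ℕ := C.E.rk

/-- the frames -/
def K (i : ℕ) : Finset ℕ := gs_frame C.sig C.E.K0 C.E.ls i

/-- cyclic index of a frame -/
def w (i : ℕ) : ℕ := i % C.len

/-- frames of `eU` -/
def KU (i : ℕ) : Finset ℕ := (C.K i).image (gr_cU (C.col i))

/-- frames of `eQ` -/
def KQ (i : ℕ) : Finset ℕ := (C.K i).image (gr_cQ (C.col i))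

/-- signatures of the new variables -/
noncomputable def nsig : gr_Var → gs_Sig
  | .H i c =>
    if i < C.len ∧ c ∈ C.K i ∧ c < C.n then
      ⟨gr_nxt (C.K i) c - c, 0, gr_nU (C.col i) c (gr_nxt (C.K i) c)⟩
    else ⟨0, 0, 0⟩
  | .YU i =>
    match C.E.ls[i]? with
    | some (.G inv y o) =>
      ⟨gr_nU (C.col i) o (o + (C.sig y).rk), gr_nU (C.col i) o (o + (C.sig y).src inv),
        gr_nU (C.col (i + 1)) o (o + (C.sig y).tgt inv)⟩
    | _ => ⟨0, 0, 0⟩
  | .YQ i =>
    match C.E.ls[i]? with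
    | some (.G inv y o) =>
      ⟨gr_nQ (C.col i) o (o + (C.sig y).rk), gr_nQ (C.col i) o (o + (C.sig y).src inv),
        gr_nQ (C.col (i + 1)) o (o + (C.sig y).tgt inv)⟩
    | _ => ⟨0, 0, 0⟩
  | .T i =>
    match C.E.ls[i]? with
    | some (.S o A B) =>
      let s := gr_snum (C.col i) (C.col (i + 1)) o A B
      ⟨s.b + s.h, 0, s.b⟩
    | _ => ⟨0, 0, 0⟩
  | .S i =>
    match C.E.ls[i]? with
    | some (.S o A B) =>
      let s := gr_snum (C.col i) (C.col (i + 1)) o A B
      ⟨s.a + s.h, 0, s.a⟩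
    | _ => ⟨0, 0, 0⟩
  | .R i =>
    match C.E.ls[i]? with
    | some (.S o A B) =>
      let s := gr_snum (C.col i) (C.col (i + 1)) o A B
      ⟨s.h + s.x, 0, s.h⟩
    | _ => ⟨0, 0, 0⟩
  | .V i =>
    match C.E.ls[i]? with
    | some (.S o A B) =>
      let s := gr_snum (C.col i) (C.col (i + 1)) o A B
      ⟨s.h + s.y, 0, s.h⟩
    | _ => ⟨0, 0, 0⟩

/-- the four letters of `eU` coming from the `i`-th letter -/
noncomputable def segU (i : ℕ) : gs_Letter Y → List (gr_Let Y)
  | .L lam =>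
    [.L (fun j => if j < C.k then lam (Nat.nth (fun t => C.col i t = true) j) else 1),
      gr_one Y, gr_one Y, gr_one Y]
  | .G _ _ o => [.G false (.inr (.YU i)) (gr_cU (C.col i) o), gr_one Y, gr_one Y, gr_one Y]
  | .S o A B =>
    let s := gr_snum (C.col i) (C.col (i + 1)) o A B
    let oU := gr_cU (C.col i) o
    [.G false (.inr (.T i)) (oU + s.a), .S oU s.a s.b, .G true (.inr (.S i)) (oU + s.b), gr_one Y]

/-- the four letters of `eQ` coming from the `i`-th letter -/
noncomputable def segQ (i : ℕ) : gs_Letter Y → List (gr_Let Y)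
  | .L lam =>
    [.L (fun j => if j < C.n - C.k then lam (Nat.nth (fun t => C.col i t = false) j) else 1),
      gr_one Y, gr_one Y, gr_one Y]
  | .G _ _ o => [.G false (.inr (.YQ i)) (gr_cQ (C.col i) o), gr_one Y, gr_one Y, gr_one Y]
  | .S o A B =>
    let s := gr_snum (C.col i) (C.col (i + 1)) o A B
    let oQ := gr_cQ (C.col i) o
    [.G false (.inr (.R i)) oQ, .L (fun j => if oQ ≤ j ∧ j < oQ + s.h then -1 else 1),
      .S (oQ + s.h) s.x s.y, .G true (.inr (.V i)) oQ]

/-- the equation `eU` -/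
noncomputable def eU : gs_Eqn (Y ⊕ gr_Var) :=
  ⟨C.k, C.KU 0, C.E.ls.zipIdx.flatMap fun p => C.segU p.2 p.1⟩

/-- the equation `eQ` -/
noncomputable def eQ : gs_Eqn (Y ⊕ gr_Var) :=
  ⟨C.n - C.k, C.KQ 0, C.E.ls.zipIdx.flatMap fun p => C.segQ p.2 p.1⟩

/-- link of an untouched block: `(n_c) G h_{i+1,c} (u,q) G' h_{i,c} (n_c)` -/
noncomputable def linkUn (i c : ℕ) : gs_Eqn (Y ⊕ gr_Var) :=
  let sz := gr_nxt (C.K i) c - c
  ⟨sz, {0, sz}, [.G false (.inr (.H (C.w (i + 1)) c)) 0, .G true (.inr (.H i c)) 0]⟩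

/-- link of a letter `G inv y o` (it contains the occurrence `G inv y` that was deleted with `E`):
`(a|m-a) G y (c|m-c) G h⁺ G h⁺ (v1,p1,v2,p2) S (v1,v2,p1,p2) G' yU G' yQ (u1,u2,q1,q2) S
(u1,q1,u2,q2) G' h⁻ G' h⁻ (a|m-a)` -/
noncomputable def linkG (i : ℕ) (inv : Bool) (y : Y) (o : ℕ) : gs_Eqn (Y ⊕ gr_Var) :=
  let m := (C.sig y).rk
  let a := (C.sig y).src inv
  let c := (C.sig y).tgt inv
  let cb := C.col i
  let ca := C.col (i + 1)
  let u1 := gr_nU cb o (o + a)
  let q1 := gr_nQ cb o (o + a)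
  let u2 := gr_nU cb (o + a) (o + m)
  let v1 := gr_nU ca o (o + c)
  let p1 := gr_nQ ca o (o + c)
  let v2 := gr_nU ca (o + c) (o + m)
  ⟨m, {0, a, m},
    [.G inv (.inl y) 0,
      if 0 < c then .G false (.inr (.H (C.w (i + 1)) o)) 0 else gr_one Y,
      if c < m then .G false (.inr (.H (C.w (i + 1)) (o + c))) c else gr_one Y,
      .S v1 p1 v2,
      .G true (.inr (.YU i)) 0,
      .G true (.inr (.YQ i)) (u1 + u2),
      .S u1 u2 q1,
      if 0 < a then .G true (.inr (.H i o)) 0 else gr_one Y,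
      if a < m then .G true (.inr (.H i (o + a))) a else gr_one Y]⟩

/-- link of the strand `A` of a swap -/
noncomputable def linkA (i o A B : ℕ) : gs_Eqn (Y ⊕ gr_Var) :=
  let s := gr_snum (C.col i) (C.col (i + 1)) o A B
  ⟨A, {0, A},
    [if 0 < A then .G false (.inr (.H (C.w (i + 1)) (o + B))) 0 else gr_one Y,
      .G false (.inr (.S i)) 0,
      .G true (.inr (.R i)) s.a,
      if 0 < A then .G true (.inr (.H i o)) 0 else gr_one Y]⟩

/-- link of the strand `B` of a swap -/
noncomputable def linkB (i o A B : ℕ) : gs_Eqn (Y ⊕ gr_Var) :=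
  let s := gr_snum (C.col i) (C.col (i + 1)) o A B
  ⟨B, {0, B},
    [if 0 < B then .G false (.inr (.H (C.w (i + 1)) o)) 0 else gr_one Y,
      .G false (.inr (.V i)) s.b,
      .G true (.inr (.T i)) 0,
      if 0 < B then .G true (.inr (.H i (o + A))) 0 else gr_one Y]⟩

open Classical in
/-- the link equation in slot `s` of the `i`-th letter -/
noncomputable def link (i s : ℕ) : gs_Eqn (Y ⊕ gr_Var) :=
  match C.E.ls[i]? with
  | none => gs_Eqn.triv _
  | some l =>
    match s with
    | 0 =>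
      match l with
      | .G inv y o => C.linkG i inv y o
      | .S o A B => C.linkA i o A B
      | .L _ => gs_Eqn.triv _
    | 1 =>
      match l with
      | .S o A B => C.linkB i o A B
      | _ => gs_Eqn.triv _
    | c + 2 =>
      if c ∈ C.K i ∧ c < C.n ∧
          (c < (gs_mid C.sig l).1 ∨ (gs_mid C.sig l).1 + (gs_mid C.sig l).2 ≤ c) then
        C.linkUn i c
      else gs_Eqn.triv _

/-- compatibility of the colourings before and after a letter -/
def stepOK (cb ca : ℕ → Bool) : gs_Letter Y → Prop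
  | .L _ => ca = cb
  | .G _ y o =>
    (∀ j, j < o ∨ o + (C.sig y).rk ≤ j → ca j = cb j) ∧
      gr_nU ca o (o + (C.sig y).rk) = gr_nU cb o (o + (C.sig y).rk)
  | .S o A B =>
    (∀ j, j < o ∨ o + (A + B) ≤ j → ca j = cb j) ∧
      gr_nU cb o (o + A) ≤ gr_nU ca (o + B) (o + B + A) ∧
      gr_nU cb (o + A) (o + A + B) =
        gr_nU ca o (o + B) + (gr_nU ca (o + B) (o + B + A) - gr_nU cb o (o + A))

/-- admissible colourings -/
structure WF : Prop where
  base : ∀ j, C.col 0 j = decide (j < C.k)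
  closed : C.col C.len = C.col 0
  beyond : ∀ i j, C.n ≤ j → C.col i j = false
  adapted : ∀ i j, j + 1 < C.n → j + 1 ∉ C.K i → C.col i (j + 1) = true → C.col i j = true
  step : ∀ (i : ℕ) (h : i < C.E.ls.length), C.stepOK (C.col i) (C.col (i + 1)) C.E.ls[i]

end gr_Ctx

/-- the context of the reduction of the `e0`-th equation of `S` -/
def gr_ctx {Y : Type} (S : gs_Sys Y) (e0 k : ℕ) (col : ℕ → ℕ → Bool) : gr_Ctx Y :=
  ⟨S.sig, S.eq e0, k, col⟩

/-- **REDUCE**: `eU` takes the place of the `e0`-th equation; `eQ` has index `E0 = S.eqs.length`,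
the link in slot `s` of the letter `i` has index `E0 + 1 + i * (N+2) + s`. -/
noncomputable def gr_reduce {Y : Type} (N : ℕ) (S : gs_Sys Y) (e0 k : ℕ) (col : ℕ → ℕ → Bool) :
    gs_Sys (Y ⊕ gr_Var) :=
  let C := gr_ctx S e0 k col
  ⟨Sum.elim S.sig C.nsig,
    (S.eqs.map (gs_Eqn.map Sum.inl)).set e0 C.eU ++
      C.eQ :: (List.range (C.len * (N + 2))).map fun t => C.link (t / (N + 2)) (t % (N + 2))⟩

end Claimed.Agent.R236
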