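import Mathlib
import Claimed.Agent.R236.GReduce

/-!
# Row 236, REDUCE: colour calculus, definitions (owner helper10)

A colouring `c : ℕ → Bool` of `[0,n)` with `k` indices of colour `U` (`true`).
*refined coordinates* = the coordinates of the equation `E`; *standard coordinates* = first the
`U`-coloured indices (in order), then the `Q`-coloured ones.

* `gr_sh c n k` : permutation matrix, rows refined, columns standard.
* `gr_asm k XU XQ β = [[XU, β], [0, XQ]]` in standard coordinates.
* `gr_Tri n k XU XQ Z` : `Z = [[XU, *], [0, XQ]]`.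
-/

set_option autoImplicit false

namespace Claimed.Agent.R236

variable {N : ℕ}

/-- refined index `↦` standard index -/
def gr_shFn (c : ℕ → Bool) (n k r : ℕ) : ℕ :=
  if r < n then (if c r then gr_cU c r else k + gr_cQ c r) else r

/-- the shuffle matrix: rows refined, columns standard -/
def gr_sh (c : ℕ → Bool) (n k : ℕ) : gs_Mat N := fun r s =>
  if gr_shFn c n k r = (s : ℕ) then 1 else 0

/-- supported on rows `< k`, columns in `[k,n)` -/
def gr_IsUQ (n k : ℕ) (β : gs_Mat N) : Prop :=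
  ∀ i j : Fin N, β i j ≠ 0 → (i : ℕ) < k ∧ k ≤ (j : ℕ) ∧ (j : ℕ) < n

/-- `[[XU, β], [0, XQ]]` -/
def gr_asm (k : ℕ) (XU XQ β : gs_Mat N) : gs_Mat N := XU * gs_emb k XQ + β

/-- `Z = [[XU, *], [0, XQ]]` -/
def gr_Tri (n k : ℕ) (XU XQ Z : gs_Mat N) : Prop := ∃ β, gr_IsUQ n k β ∧ Z = gr_asm k XU XQ β

/-- block upper triangular in standard coordinates: identity outside of the `n`-corner, zero in
the block (rows `≥ k`) × (columns `< k`) -/
def gr_IsTri (n k : ℕ) (Z : gs_Mat N) : Prop :=
  gs_IsCorner n Z ∧ ∀ i j : Fin N, k ≤ (i : ℕ) → (j : ℕ) < k → Z i j = 0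

/-- keep the entries at the positions satisfying `P` -/
noncomputable def gr_mask (P : ℕ → ℕ → Prop) (A : gs_Mat N) : gs_Mat N := by
  classical exact fun i j => if P i j then A i j else 0

/-- positions (standard coordinates) of the entries `U`-row, `Q`-column which conjugate into
`U(K)`: the block of the row is strictly before the block of the column -/
def gr_good (c : ℕ → Bool) (K : Finset ℕ) (n k : ℕ) (i j : ℕ) : Prop :=
  i < k ∧ k ≤ j ∧ j < n ∧
    ∃ d ∈ K, Nat.nth (fun t => c t = true) i < d ∧ d ≤ Nat.nth (fun t => c t = false) (j - k)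

/-- positions allowed in `U(K)` which are not inside `[o,o+m) × [o,o+m)` -/
def gr_radPos (K : Finset ℕ) (n o m : ℕ) (i j : ℕ) : Prop :=
  j < n ∧ (∃ d ∈ K, i < d ∧ d ≤ j) ∧ ¬ (o ≤ i ∧ j < o + m)

/-- block diagonal for the frame `K` of rank `n` (identity outside of the `n`-corner) -/
def gr_IsBD (n : ℕ) (K : Finset ℕ) (d : gs_Mat N) : Prop :=
  gs_IsCorner n d ∧ ∀ i j : Fin N, d i j ≠ 0 → ∀ c ∈ K, ((i : ℕ) < c ↔ (j : ℕ) < c)

/-- the colouring is adapted to the frame: `U` first inside each block, `Q` beyond `n` -/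
def gr_Adapted (n : ℕ) (K : Finset ℕ) (c : ℕ → Bool) : Prop :=
  (∀ j, n ≤ j → c j = false) ∧ ∀ j, j + 1 < n → j + 1 ∉ K → c (j + 1) = true → c j = true

/-- the colouring of the interval `[o,o+m)`, moved to `[0,m)` -/
def gr_colMid (c : ℕ → Bool) (o m : ℕ) : ℕ → Bool := fun j => decide (j < m) && c (o + j)

/-- the part of a matrix inside `[o,o+m) × [o,o+m)`, moved to the corner -/
def gr_midBlock (o m : ℕ) (A : gs_Mat N) : gs_Mat N := fun i j =>
  if h : (i : ℕ) < m ∧ (j : ℕ) < m ∧ o + m ≤ N then A ⟨o + i, by omega⟩ ⟨o + j, by omega⟩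
  else (1 : gs_Mat N) i j

end Claimed.Agent.R236
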