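import Mathlib
import Claimed.Agent.R236.GColor

/-!
# Row 236: matrix library for Model G2 (layer 0)  (librarian helper252; prefix `gm_`)

Basic API for `gs_IsCorner`, `gs_emb`, `gs_IsUni`, `gs_swapMat`, `gr_IsBD`.

* corner: `gm_corner_one/mul/inv/mono/zero_iff`, rows and columns `gm_corner_row/col`, `gm_corner_mul_apply_*`;
* emb: `gm_emb_one`, `gm_emb_zero`, `gm_emb_emb`, `gm_emb_apply_ge/lt_row/lt_col`, `gm_emb_eq_submatrix` (conjugation by a rotation),
  `gm_emb_mul`, `gm_emb_inv`, `gm_emb_det`, `gm_emb_corner`, `gm_emb_commute`;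
* uni: `gm_uni_one/mul/inv/det/isUnit/mono/corner/zero_iff/emb`;
-/

set_option autoImplicit false

namespace Claimed.Agent.R236

open Matrix

variable {N : ℕ}

/-! ## corner matrices -/

theorem gm_corner_one (m : ℕ) : gs_IsCorner m (1 : gs_Mat N) := fun _ _ _ => rfl

theorem gm_corner_mono {m m' : ℕ} (h : m ≤ m') {A : gs_Mat N} (hA : gs_IsCorner m A) :
    gs_IsCorner m' A := fun i j hij => hA i j (by omega)

theorem gm_corner_of_le {m : ℕ} (h : N ≤ m) (A : gs_Mat N) : gs_IsCorner m A := by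
  intro i j hij
  have := i.2
  have := j.2
  omega

theorem gm_corner_zero_iff {A : gs_Mat N} : gs_IsCorner 0 A ↔ A = 1 :=
  ⟨fun h => by ext i j; exact h i j (Or.inl (Nat.zero_le _)), fun h => h ▸ gm_corner_one 0⟩

/-- a row outside of the corner is a row of the identity -/
theorem gm_corner_row {m : ℕ} {A : gs_Mat N} (hA : gs_IsCorner m A) {i : Fin N} (hi : m ≤ (i : ℕ)) :
    A i = (1 : gs_Mat N) i := funext fun j => hA i j (Or.inl hi)

theorem gm_corner_mul_apply_row {m : ℕ} {A : gs_Mat N} (hA : gs_IsCorner m A) (B : gs_Mat N)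
    {i : Fin N} (hi : m ≤ (i : ℕ)) (j : Fin N) : (A * B) i j = B i j := by
  have h1 : (A * B) i j = ((1 : gs_Mat N) * B) i j := by
    rw [Matrix.mul_apply, Matrix.mul_apply]
    exact Finset.sum_congr rfl fun k _ => by rw [hA i k (Or.inl hi)]
  rw [h1, Matrix.one_mul]

theorem gm_corner_mul_apply_col {m : ℕ} (A : gs_Mat N) {B : gs_Mat N} (hB : gs_IsCorner m B)
    (i : Fin N) {j : Fin N} (hj : m ≤ (j : ℕ)) : (A * B) i j = A i j := by
  have h1 : (A * B) i j = (A * (1 : gs_Mat N)) i j := by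
    rw [Matrix.mul_apply, Matrix.mul_apply]
    exact Finset.sum_congr rfl fun k _ => by rw [hB k j (Or.inr hj)]
  rw [h1, Matrix.mul_one]

theorem gm_corner_mul {m : ℕ} {A B : gs_Mat N} (hA : gs_IsCorner m A) (hB : gs_IsCorner m B) :
    gs_IsCorner m (A * B) := by
  intro i j hij
  rcases hij with h | h
  · rw [gm_corner_mul_apply_row hA B h, hB i j (Or.inl h)]
  · rw [gm_corner_mul_apply_col A hB i h, hA i j (Or.inr h)]

theorem gm_corner_inv {m : ℕ} {A : gs_Mat N} (hA : gs_IsCorner m A) (hu : IsUnit A.det) :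
    gs_IsCorner m A⁻¹ := by
  intro i j hij
  rcases hij with h | h
  · rw [← gm_corner_mul_apply_row hA A⁻¹ h, Matrix.mul_nonsing_inv _ hu]
  · rw [← gm_corner_mul_apply_col A⁻¹ hA i h, Matrix.nonsing_inv_mul _ hu]

/-! ## `gs_emb` -/

theorem gm_emb_apply_ge (o : ℕ) (A : gs_Mat N) {i j : Fin N} (hi : o ≤ (i : ℕ)) (hj : o ≤ (j : ℕ)) :
    gs_emb o A i j = A ⟨i - o, by omega⟩ ⟨j - o, by omega⟩ := by
  rw [gs_emb, dif_pos ⟨hi, hj⟩]

theorem gm_emb_apply_lt_row (o : ℕ) (A : gs_Mat N) {i : Fin N} (hi : (i : ℕ) < o) (j : Fin N) :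
    gs_emb o A i j = (1 : gs_Mat N) i j := by
  rw [gs_emb, dif_neg (by omega)]

theorem gm_emb_apply_lt_col (o : ℕ) (A : gs_Mat N) (i : Fin N) {j : Fin N} (hj : (j : ℕ) < o) :
    gs_emb o A i j = (1 : gs_Mat N) i j := by
  rw [gs_emb, dif_neg (by omega)]

theorem gm_one_apply_sub (o : ℕ) {i j : Fin N} (hi : o ≤ (i : ℕ)) (hj : o ≤ (j : ℕ)) :
    (1 : gs_Mat N) ⟨i - o, by omega⟩ ⟨j - o, by omega⟩ = (1 : gs_Mat N) i j := by
  rw [Matrix.one_apply, Matrix.one_apply]
  congr 1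
  rw [Fin.mk.injEq, eq_iff_iff, Fin.ext_iff]
  omega

theorem gm_emb_one (o : ℕ) : gs_emb o (1 : gs_Mat N) = 1 := by
  ext i j
  by_cases h : o ≤ (i : ℕ) ∧ o ≤ (j : ℕ)
  · rw [gm_emb_apply_ge o _ h.1 h.2, gm_one_apply_sub o h.1 h.2]
  · rw [gs_emb, dif_neg h]

theorem gm_emb_zero (A : gs_Mat N) : gs_emb 0 A = A := by
  ext i j
  rw [gm_emb_apply_ge 0 A (Nat.zero_le _) (Nat.zero_le _)]
  rfl

theorem gm_emb_emb (o o' : ℕ) (A : gs_Mat N) : gs_emb o (gs_emb o' A) = gs_emb (o + o') A := by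
  ext i j
  by_cases h : o ≤ (i : ℕ) ∧ o ≤ (j : ℕ)
  · rw [gm_emb_apply_ge o _ h.1 h.2]
    by_cases h' : o + o' ≤ (i : ℕ) ∧ o + o' ≤ (j : ℕ)
    · rw [gm_emb_apply_ge (o + o') _ h'.1 h'.2,
        gm_emb_apply_ge o' _ (by change o' ≤ (i : ℕ) - o; omega) (by change o' ≤ (j : ℕ) - o; omega)]
      congr 1 <;> (apply Fin.ext; change (_ : ℕ) - o - o' = _ - (o + o'); omega)
    · rw [gs_emb, dif_neg (by change ¬ (o' ≤ (i : ℕ) - o ∧ o' ≤ (j : ℕ) - o); omega),
        gs_emb, dif_neg h', gm_one_apply_sub o h.1 h.2]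
  · rw [gs_emb, dif_neg h, gs_emb, dif_neg (by omega)]

/-- the rotation `i ↦ i - o (mod N)` -/
def gm_rot (N o : ℕ) (ho : o ≤ N) : Fin N ≃ Fin N where
  toFun i := if h : o ≤ (i : ℕ) then ⟨i - o, by omega⟩ else ⟨i + N - o, by omega⟩
  invFun k := if h : (k : ℕ) + o < N then ⟨k + o, h⟩ else ⟨k + o - N, by omega⟩
  left_inv i := by
    apply Fin.ext
    by_cases h : o ≤ (i : ℕ)
    · have h2 : (i : ℕ) - o + o < N := by omega
      simp only [dif_pos h, dif_pos h2]
      omega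
    · have h2 : ¬ ((i : ℕ) + N - o + o < N) := by omega
      simp only [dif_neg h, dif_neg h2]
      omega
  right_inv k := by
    apply Fin.ext
    by_cases h : (k : ℕ) + o < N
    · have h2 : o ≤ (k : ℕ) + o := by omega
      simp only [dif_pos h, dif_pos h2]
      omega
    · have h2 : ¬ (o ≤ (k : ℕ) + o - N) := by omega
      simp only [dif_neg h, dif_neg h2]
      omega

theorem gm_rot_apply_ge {o : ℕ} (ho : o ≤ N) {i : Fin N} (h : o ≤ (i : ℕ)) :
    gm_rot N o ho i = ⟨i - o, by omega⟩ := by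
  simp only [gm_rot, Equiv.coe_fn_mk, dif_pos h]

theorem gm_rot_apply_lt {o : ℕ} (ho : o ≤ N) {i : Fin N} (h : (i : ℕ) < o) :
    ((gm_rot N o ho i : Fin N) : ℕ) = i + N - o := by
  simp only [gm_rot, Equiv.coe_fn_mk, dif_neg (not_le.2 h)]

/-- on corner matrices `gs_emb o` is the conjugation by a rotation -/
theorem gm_emb_eq_submatrix {m o : ℕ} {A : gs_Mat N} (hA : gs_IsCorner m A) (h : o + m ≤ N) :
    gs_emb o A = A.submatrix (gm_rot N o (by omega)) (gm_rot N o (by omega)) := by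
  have ho : o ≤ N := by omega
  ext i j
  rw [Matrix.submatrix_apply]
  by_cases hi : o ≤ (i : ℕ)
  · by_cases hj : o ≤ (j : ℕ)
    · rw [gm_emb_apply_ge o A hi hj, gm_rot_apply_ge ho hi, gm_rot_apply_ge ho hj]
    · have hj' : (j : ℕ) < o := not_le.1 hj
      rw [gm_emb_apply_lt_col o A i hj', hA _ _ (Or.inr (by rw [gm_rot_apply_lt ho hj']; omega)),
        Matrix.one_apply, Matrix.one_apply]
      congr 1
      rw [eq_iff_iff, (gm_rot N o ho).apply_eq_iff_eq]
  · have hi' : (i : ℕ) < o := not_le.1 hi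
    rw [gm_emb_apply_lt_row o A hi' j, hA _ _ (Or.inl (by rw [gm_rot_apply_lt ho hi']; omega)),
      Matrix.one_apply, Matrix.one_apply]
    congr 1
    rw [eq_iff_iff, (gm_rot N o ho).apply_eq_iff_eq]

theorem gm_emb_mul {m o : ℕ} {A B : gs_Mat N} (hA : gs_IsCorner m A) (hB : gs_IsCorner m B)
    (h : o + m ≤ N) : gs_emb o (A * B) = gs_emb o A * gs_emb o B := by
  rw [gm_emb_eq_submatrix (gm_corner_mul hA hB) h, gm_emb_eq_submatrix hA h,
    gm_emb_eq_submatrix hB h, Matrix.submatrix_mul_equiv]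

theorem gm_emb_det {m o : ℕ} {A : gs_Mat N} (hA : gs_IsCorner m A) (h : o + m ≤ N) :
    (gs_emb o A).det = A.det := by
  rw [gm_emb_eq_submatrix hA h, Matrix.det_submatrix_equiv_self]

theorem gm_emb_inv {m o : ℕ} {A : gs_Mat N} (hA : gs_IsCorner m A) (hu : IsUnit A.det)
    (h : o + m ≤ N) : gs_emb o A⁻¹ = (gs_emb o A)⁻¹ := by
  rw [gm_emb_eq_submatrix (gm_corner_inv hA hu) h, gm_emb_eq_submatrix hA h,
    Matrix.inv_submatrix_equiv]

theorem gm_emb_isUnit {m o : ℕ} {A : gs_Mat N} (hA : gs_IsCorner m A) (hu : IsUnit A.det)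
    (h : o + m ≤ N) : IsUnit (gs_emb o A).det := by
  rw [gm_emb_det hA h]; exact hu

theorem gm_emb_corner {m : ℕ} (o : ℕ) {A : gs_Mat N} (hA : gs_IsCorner m A) :
    gs_IsCorner (o + m) (gs_emb o A) := by
  intro i j hij
  by_cases h : o ≤ (i : ℕ) ∧ o ≤ (j : ℕ)
  · rw [gm_emb_apply_ge o A h.1 h.2, hA _ _ (by change m ≤ (i : ℕ) - o ∨ m ≤ (j : ℕ) - o; omega),
      gm_one_apply_sub o h.1 h.2]
  · rw [gs_emb, dif_neg h]

/-- rows before the offset: `gs_emb o B` acts as the identity -/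
theorem gm_emb_mul_apply_row (o : ℕ) (B C : gs_Mat N) {i : Fin N} (hi : (i : ℕ) < o) (j : Fin N) :
    (gs_emb o B * C) i j = C i j := by
  have h1 : (gs_emb o B * C) i j = ((1 : gs_Mat N) * C) i j := by
    rw [Matrix.mul_apply, Matrix.mul_apply]
    exact Finset.sum_congr rfl fun k _ => by rw [gm_emb_apply_lt_row o B hi k]
  rw [h1, Matrix.one_mul]

theorem gm_mul_emb_apply_col (o : ℕ) (B C : gs_Mat N) (i : Fin N) {j : Fin N} (hj : (j : ℕ) < o) :
    (C * gs_emb o B) i j = C i j := by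
  have h1 : (C * gs_emb o B) i j = (C * (1 : gs_Mat N)) i j := by
    rw [Matrix.mul_apply, Matrix.mul_apply]
    exact Finset.sum_congr rfl fun k _ => by rw [gm_emb_apply_lt_col o B k hj]
  rw [h1, Matrix.mul_one]

/-- a corner matrix commutes with a matrix moved beyond the corner -/
theorem gm_emb_commute {m o : ℕ} {A : gs_Mat N} (hA : gs_IsCorner m A) (h : m ≤ o) (B : gs_Mat N) :
    A * gs_emb o B = gs_emb o B * A := by
  ext i j
  by_cases hi : (i : ℕ) < o
  · rw [gm_emb_mul_apply_row o B A hi j]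
    by_cases hj : (j : ℕ) < o
    · rw [gm_mul_emb_apply_col o B A i hj]
    · -- `j ≥ o ≥ m`
      rw [hA i j (Or.inr (by omega)), Matrix.mul_apply]
      have : ∀ k ∈ Finset.univ, A i k * gs_emb o B k j = (1 : gs_Mat N) i k * (1 : gs_Mat N) k j := by
        intro k _
        by_cases hk : (k : ℕ) < o
        · rw [gm_emb_apply_lt_row o B hk j]
          have hkj : k ≠ j := fun hh => hj (hh ▸ hk)
          rw [Matrix.one_apply_ne hkj, mul_zero, mul_zero]
        · have hik : i ≠ k := fun hh => hk (hh ▸ hi)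
          rw [hA i k (Or.inr (by omega)), Matrix.one_apply_ne hik, zero_mul, zero_mul]
      rw [Finset.sum_congr rfl this, ← Matrix.mul_apply, Matrix.mul_one]
  · -- `i ≥ o ≥ m`
    rw [gm_corner_mul_apply_row hA _ (by omega : m ≤ (i : ℕ)) j]
    by_cases hj : (j : ℕ) < m
    · rw [gm_emb_apply_lt_col o B i (by omega), Matrix.mul_apply]
      have : ∀ k ∈ Finset.univ, gs_emb o B i k * A k j = (1 : gs_Mat N) i k * (1 : gs_Mat N) k j := by
        intro k _
        by_cases hk : (k : ℕ) < o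
        · rw [gm_emb_apply_lt_col o B i hk]
          have hik : i ≠ k := fun hh => hi (hh ▸ hk)
          rw [Matrix.one_apply_ne hik, zero_mul, zero_mul]
        · have hkj : k ≠ j := fun hh => hk (by rw [hh]; omega)
          rw [hA k j (Or.inl (by omega)), Matrix.one_apply_ne hkj, mul_zero, mul_zero]
      rw [Finset.sum_congr rfl this, ← Matrix.mul_apply, Matrix.mul_one]
    · rw [gm_corner_mul_apply_col _ hA i (by omega : m ≤ (j : ℕ))]

end Claimed.Agent.R236
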