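import Claimed.Agent.R236.QuadDense
import Claimed.Agent.R236.GMat

/-!
# Row 236, `ClosedSplitA` (owner helper180, prefix `qc_`): tools for CLOSEDSPLIT (P3) and P0

* the corner embedding `qc_cor n d : Matrix (Fin n) (Fin n) ℂ →* gs_Mat (n + d)`;
* frames: recursive typing predicates, bounds, congruence in the signature;
* values of words: congruence, words in improper frames.
-/

set_option autoImplicit false

namespace Claimed.Agent.R236

open Matrix

/-! ### The corner embedding -/

section corner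

variable {n d : ℕ}

/-- corner embedding `M ↦ M ⊕ 1` as a monoid homomorphism -/
noncomputable def qc_cor (n d : ℕ) : Matrix (Fin n) (Fin n) ℂ →* gs_Mat (n + d) where
  toFun M := Matrix.reindex finSumFinEquiv finSumFinEquiv (Matrix.fromBlocks M 0 0 1)
  map_one' := by
    rw [Matrix.fromBlocks_one]
    ext i j
    simp [Matrix.one_apply]
  map_mul' M M' := by
    have h := Matrix.fromBlocks_multiply M (0 : Matrix (Fin n) (Fin d) ℂ)
      (0 : Matrix (Fin d) (Fin n) ℂ) (1 : Matrix (Fin d) (Fin d) ℂ) M'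
      (0 : Matrix (Fin n) (Fin d) ℂ) (0 : Matrix (Fin d) (Fin n) ℂ) (1 : Matrix (Fin d) (Fin d) ℂ)
    simp only [Matrix.mul_zero, Matrix.zero_mul, add_zero, zero_add, Matrix.mul_one] at h
    rw [← h]
    simp only [Matrix.reindex_apply]
    rw [Matrix.submatrix_mul_equiv]

theorem qc_cor_apply (M : Matrix (Fin n) (Fin n) ℂ) (i j : Fin (n + d)) :
    qc_cor n d M i j = Matrix.fromBlocks M 0 0 1 (finSumFinEquiv.symm i) (finSumFinEquiv.symm j) :=
  rfl

theorem qc_cor_cc (M : Matrix (Fin n) (Fin n) ℂ) (i j : Fin n) :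
    qc_cor n d M (Fin.castAdd d i) (Fin.castAdd d j) = M i j := by
  simp [qc_cor_apply]

theorem qc_cor_corner (M : Matrix (Fin n) (Fin n) ℂ) : gs_IsCorner n (qc_cor n d M) := by
  intro i j h
  rw [qc_cor_apply, Matrix.one_apply]
  induction i using Fin.addCases with
  | left i' =>
    induction j using Fin.addCases with
    | left j' =>
      exfalso
      rcases h with h | h
      · simp at h; omega
      · simp at h; omega
    | right j' =>
      have : Fin.castAdd d i' ≠ Fin.natAdd n j' := by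
        intro h'
        have := congrArg Fin.val h'
        simp at this
        omega
      simp [this]
  | right i' =>
    induction j using Fin.addCases with
    | left j' =>
      have : Fin.natAdd n i' ≠ Fin.castAdd d j' := by
        intro h'
        have := congrArg Fin.val h'
        simp at this
        omega
      simp [this]
    | right j' =>
      simp [Matrix.one_apply]

theorem qc_cor_injective : Function.Injective (qc_cor n d) := by
  intro M M' h
  ext i j
  rw [← qc_cor_cc (d := d) M, ← qc_cor_cc (d := d) M', h]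

/-- a corner matrix is the image of its corner -/
theorem qc_cor_submatrix {M : gs_Mat (n + d)} (hM : gs_IsCorner n M) :
    qc_cor n d (M.submatrix (Fin.castAdd d) (Fin.castAdd d)) = M := by
  ext i j
  by_cases hij : n ≤ i.val ∨ n ≤ j.val
  · rw [qc_cor_corner _ i j hij, hM i j hij]
  · obtain ⟨i', rfl⟩ : ∃ i', i = Fin.castAdd d i' := ⟨⟨i, by omega⟩, Fin.ext rfl⟩
    obtain ⟨j', rfl⟩ : ∃ j', j = Fin.castAdd d j' := ⟨⟨j, by omega⟩, Fin.ext rfl⟩
    rw [qc_cor_cc]
    rfl

theorem qc_cor_smul_one (c : ℂ) :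
    qc_cor n d (c • (1 : Matrix (Fin n) (Fin n) ℂ))
      = diagonal fun j : Fin (n + d) => if j.val < n then c else 1 := by
  ext i j
  by_cases hij : n ≤ i.val ∨ n ≤ j.val
  · rw [qc_cor_corner _ _ _ hij, Matrix.one_apply]
    by_cases h : i = j
    · subst h
      have : ¬ i.val < n := by omega
      simp [this]
    · simp [h]
  · obtain ⟨i', rfl⟩ : ∃ i', i = Fin.castAdd d i' := ⟨⟨i, by omega⟩, Fin.ext rfl⟩
    obtain ⟨j', rfl⟩ : ∃ j', j = Fin.castAdd d j' := ⟨⟨j, by omega⟩, Fin.ext rfl⟩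
    rw [qc_cor_cc]
    by_cases h : i' = j'
    · subst h; simp
    · have h' : Fin.castAdd d i' ≠ Fin.castAdd d j' := fun h'' => h (Fin.castAdd_injective n d h'')
      simp [h, h']

theorem qc_cor_matOn {P : Type*} {κ : Type*} {R : Subring ℂ} {c : κ → P → ℂ} {S : Set P}
    {f : P → Matrix (Fin n) (Fin n) ℂ} (hf : rg_MatOn R c S f) :
    rg_MatOn R c S (fun x => qc_cor n d (f x)) :=
  (rg_MatOn.fromBlocks hf (rg_MatOn.zero (m := Fin n) (n := Fin d))
    (rg_MatOn.zero (m := Fin d) (n := Fin n)) (rg_MatOn.one (n := Fin d))).submatrix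
      finSumFinEquiv.symm finSumFinEquiv.symm

theorem qc_cor_mul_inv (g : qd_G n) : qc_cor n d g.val * qc_cor n d g⁻¹.val = 1 := by
  rw [← map_mul, ← Units.val_mul, mul_inv_cancel, Units.val_one, map_one]

theorem qc_cor_isUnit (g : qd_G n) : IsUnit (qc_cor n d g.val).det :=
  (Matrix.isUnit_iff_isUnit_det _).1 (g.isUnit.map (qc_cor n d))

theorem qc_cor_inv (g : qd_G n) : (qc_cor n d g.val)⁻¹ = qc_cor n d g⁻¹.val :=
  Matrix.inv_eq_right_inv (qc_cor_mul_inv g)

/-- every invertible corner matrix comes from the group -/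
theorem qc_exists_cor {M : gs_Mat (n + d)} (hM : gs_IsCorner n M) (hu : IsUnit M.det) :
    ∃ g : qd_G n, qc_cor n d g.val = M := by
  have hM' := gm_corner_inv hM hu
  have h1 := qc_cor_submatrix hM
  have h2 := qc_cor_submatrix hM'
  refine ⟨⟨M.submatrix (Fin.castAdd d) (Fin.castAdd d), M⁻¹.submatrix (Fin.castAdd d) (Fin.castAdd d),
    ?_, ?_⟩, h1⟩
  · apply qc_cor_injective (d := d)
    rw [map_mul, h1, h2, map_one, Matrix.mul_nonsing_inv _ hu]
  · apply qc_cor_injective (d := d)
    rw [map_mul, h1, h2, map_one, Matrix.nonsing_inv_mul _ hu]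

theorem qc_cor_eq_one_iff (g : qd_G n) : qc_cor n d g.val = 1 ↔ g = 1 := by
  constructor
  · intro h
    apply Units.ext
    apply qc_cor_injective (d := d)
    rw [h, Units.val_one, map_one]
  · rintro rfl
    rw [Units.val_one, map_one]

end corner

/-! ### Frames -/

section frames

variable {Y : Type} {sig : Y → gs_Sig}

theorem qc_frame_zero (K : Finset ℕ) (ls : List (gs_Letter Y)) : gs_frame sig K ls 0 = K := rfl

theorem qc_frame_nil (K : Finset ℕ) (i : ℕ) : gs_frame sig K [] i = K := by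
  simp [gs_frame]

theorem qc_frame_succ (K : Finset ℕ) (l : gs_Letter Y) (ls : List (gs_Letter Y)) (i : ℕ) :
    gs_frame sig K (l :: ls) (i + 1) = gs_frame sig (gs_step sig K l) ls i := by
  simp [gs_frame]

/-- recursive form of the typing condition `gs_Eqn.WF.app` -/
def qc_Typed (sig : Y → gs_Sig) (n : ℕ) : Finset ℕ → List (gs_Letter Y) → Prop
  | _, [] => True
  | K, l :: ls => gs_app sig n K l ∧ qc_Typed sig n (gs_step sig K l) ls

theorem qc_typed_of_app {n : ℕ} : ∀ (ls : List (gs_Letter Y)) (K : Finset ℕ),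
    (∀ (i : ℕ) (h : i < ls.length), gs_app sig n (gs_frame sig K ls i) ls[i]) → qc_Typed sig n K ls
  | [], _, _ => trivial
  | l :: ls, K, h => by
    refine ⟨h 0 (by simp), qc_typed_of_app ls _ fun i hi => ?_⟩
    have := h (i + 1) (by simpa using hi)
    rwa [qc_frame_succ] at this

/-- all frames of the word are improper -/
def qc_ImpW (sig : Y → gs_Sig) (n : ℕ) : Finset ℕ → List (gs_Letter Y) → Prop
  | K, [] => ¬ gs_Proper n K
  | K, l :: ls => ¬ gs_Proper n K ∧ qc_ImpW sig n (gs_step sig K l) ls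

theorem qc_impW_of_frames {n : ℕ} : ∀ (ls : List (gs_Letter Y)) (K : Finset ℕ),
    (∀ i, i ≤ ls.length → ¬ gs_Proper n (gs_frame sig K ls i)) → qc_ImpW sig n K ls
  | [], _, h => h 0 le_rfl
  | l :: ls, K, h => by
    refine ⟨h 0 (Nat.zero_le _), qc_impW_of_frames ls _ fun i hi => ?_⟩
    have := h (i + 1) (by simpa using hi)
    rwa [qc_frame_succ] at this

theorem qc_ImpW.head {n : ℕ} {K : Finset ℕ} {ls : List (gs_Letter Y)} (h : qc_ImpW sig n K ls) :
    ¬ gs_Proper n K := by
  cases ls with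
  | nil => exact h
  | cons l ls => exact h.1

/-- the signature is sane -/
def qc_SigOK (sig : Y → gs_Sig) : Prop := ∀ y, (sig y).s ≤ (sig y).rk ∧ (sig y).t ≤ (sig y).rk

theorem qc_SigOK.tgt (h : qc_SigOK sig) (y : Y) (inv : Bool) : (sig y).tgt inv ≤ (sig y).rk := by
  cases inv
  · exact (h y).2
  · exact (h y).1

theorem qc_step_bd {n : ℕ} (hs : qc_SigOK sig) {K : Finset ℕ} (hK : ∀ c ∈ K, c ≤ n)
    {l : gs_Letter Y} (hl : gs_app sig n K l) : ∀ c ∈ gs_step sig K l, c ≤ n := by
  intro c hc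
  cases l with
  | G inv y o =>
    simp only [gs_step, gs_cutRepl, Finset.mem_insert, Finset.mem_filter] at hc
    rcases hc with rfl | hc
    · have h1 := hK _ hl.2.2.1
      have h2 := hs.tgt y inv
      omega
    · exact hK c hc.1
  | S o a b =>
    simp only [gs_step, gs_cutRepl, Finset.mem_insert, Finset.mem_filter] at hc
    rcases hc with rfl | hc
    · have h1 := hK _ hl.2.2.1
      omega
    · exact hK c hc.1
  | L lam => exact hK c hc

theorem qc_frame_bd {n : ℕ} (hs : qc_SigOK sig) : ∀ (ls : List (gs_Letter Y)) (K : Finset ℕ),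
    (∀ c ∈ K, c ≤ n) → qc_Typed sig n K ls → ∀ i, ∀ c ∈ gs_frame sig K ls i, c ≤ n
  | [], K, hK, _, i => by rw [qc_frame_nil]; exact hK
  | l :: ls, K, hK, ht, 0 => hK
  | l :: ls, K, hK, ht, i + 1 => by
    rw [qc_frame_succ]
    exact qc_frame_bd hs ls _ (qc_step_bd hs hK ht.1) ht.2 i

/-- the variables of a typed word have rank at most `n` -/
theorem qc_rk_le {n : ℕ} (hs : qc_SigOK sig) : ∀ (ls : List (gs_Letter Y)) (K : Finset ℕ),
    (∀ c ∈ K, c ≤ n) → qc_Typed sig n K ls →
    ∀ inv y o, gs_Letter.G inv y o ∈ ls → (sig y).rk ≤ n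
  | [], _, _, _, _, _, _, h => by simp at h
  | l :: ls, K, hK, ht, inv, y, o, h => by
    rcases List.mem_cons.1 h with rfl | h
    · have h1 := hK _ ht.1.2.2.1
      omega
    · exact qc_rk_le hs ls _ (qc_step_bd hs hK ht.1) ht.2 inv y o h

/-! congruence in the signature -/

theorem qc_step_congr {sig' : Y → gs_Sig} {l : gs_Letter Y}
    (h : ∀ inv y o, l = gs_Letter.G inv y o → sig y = sig' y) (K : Finset ℕ) :
    gs_step sig K l = gs_step sig' K l := by
  cases l with
  | G inv y o => simp only [gs_step, h inv y o rfl]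
  | S o a b => rfl
  | L lam => rfl

theorem qc_app_congr {sig' : Y → gs_Sig} {l : gs_Letter Y}
    (h : ∀ inv y o, l = gs_Letter.G inv y o → sig y = sig' y) (n : ℕ) (K : Finset ℕ) :
    gs_app sig n K l ↔ gs_app sig' n K l := by
  cases l with
  | G inv y o => simp only [gs_app, h inv y o rfl]
  | S o a b => rfl
  | L lam => rfl

theorem qc_frame_congr {sig' : Y → gs_Sig} : ∀ (ls : List (gs_Letter Y)) (K : Finset ℕ) (i : ℕ),
    (∀ inv y o, gs_Letter.G inv y o ∈ ls → sig y = sig' y) →
    gs_frame sig K ls i = gs_frame sig' K ls i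
  | [], K, i, _ => by rw [qc_frame_nil, qc_frame_nil]
  | l :: ls, K, 0, _ => rfl
  | l :: ls, K, i + 1, h => by
    rw [qc_frame_succ, qc_frame_succ,
      qc_step_congr (sig' := sig') (fun inv y o hl => h inv y o (hl ▸ List.mem_cons_self ..)) K]
    exact qc_frame_congr ls _ i fun inv y o hl => h inv y o (List.mem_cons_of_mem _ hl)

theorem qc_wf_congr {sig' : Y → gs_Sig} {N : ℕ} {R : Subring ℂ} {E : gs_Eqn Y}
    (hE : E.WF sig N R) (h : ∀ inv y o, gs_Letter.G inv y o ∈ E.ls → sig y = sig' y) :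
    E.WF sig' N R where
  rk_le := hE.rk_le
  zero_mem := hE.zero_mem
  rk_mem := hE.rk_mem
  le_rk := hE.le_rk
  app i hi := by
    rw [← qc_frame_congr E.ls E.K0 i h,
      ← qc_app_congr (fun inv y o hl => h inv y o (hl ▸ List.getElem_mem hi))]
    exact hE.app i hi
  closed := by
    rw [← qc_frame_congr E.ls E.K0 _ h]
    exact hE.closed
  unit := hE.unit

theorem qc_triv_wf (N : ℕ) (R : Subring ℂ) : (gs_Eqn.triv Y).WF sig N R where
  rk_le := Nat.zero_le _
  zero_mem := by simp [gs_Eqn.triv]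
  rk_mem := by simp [gs_Eqn.triv]
  le_rk := by simp [gs_Eqn.triv]
  app i hi := by simp [gs_Eqn.triv] at hi
  closed := rfl
  unit lam h := by simp [gs_Eqn.triv] at h

theorem qc_eq_mem_or (S : gs_Sys Y) (e : ℕ) : S.eq e ∈ S.eqs ∨ S.eq e = gs_Eqn.triv Y := by
  unfold gs_Sys.eq
  by_cases h : e < S.eqs.length
  · left
    rw [List.getD_eq_getElem _ _ h]
    exact List.getElem_mem h
  · right
    exact List.getD_eq_default _ _ (not_lt.1 h)

theorem qc_eq_wf {N : ℕ} {R : Subring ℂ} {S : gs_Sys Y} (hS : S.WF N R) (e : ℕ) :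
    (S.eq e).WF S.sig N R := by
  rcases qc_eq_mem_or S e with h | h
  · exact hS.eqn _ h
  · rw [h]; exact qc_triv_wf N R

theorem qc_WF.sigOK {N : ℕ} {R : Subring ℂ} {S : gs_Sys Y} (hS : S.WF N R) : qc_SigOK S.sig :=
  fun y => ⟨hS.sig_s y, hS.sig_t y⟩

theorem qc_WF.typed {N : ℕ} {R : Subring ℂ} {E : gs_Eqn Y} (hE : E.WF sig N R) :
    qc_Typed sig E.rk E.K0 E.ls := qc_typed_of_app _ _ hE.app

end frames

end Claimed.Agent.R236
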