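import Claimed.Agent.R236.ClosedSplitA

/-!
# Row 236, `ClosedSplitB` (owner helper180, prefix `qc_`): words in improper frames

The value of a word all of whose frames are improper is the corner embedding of a word in `GL_n` times a
scalar; the collapsed equation; counting of occurrences.
-/

set_option autoImplicit false

namespace Claimed.Agent.R236

open Matrix

section values

variable {Y : Type} {N : ℕ}

theorem qc_val_congr {x x' : gs_Pt Y N} (e : ℕ) (hu : ∀ i, x (.inr (e, i)) = x' (.inr (e, i))) :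
    ∀ (ls : List (gs_Letter Y)) (i : ℕ),
    (∀ inv y o, gs_Letter.G inv y o ∈ ls → x (.inl y) = x' (.inl y)) →
    gs_val x e i ls = gs_val x' e i ls
  | [], _, _ => rfl
  | l :: ls, i, h => by
    have hl : gs_lmat x l = gs_lmat x' l := by
      cases l with
      | G inv y o =>
        have := h inv y o (List.mem_cons_self ..)
        cases inv <;> simp only [gs_lmat, this]
      | S o a b => rfl
      | L lam => rfl
    simp only [gs_val]
    rw [hl, hu i, qc_val_congr e hu ls (i + 1) fun inv y o hm =>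
      h inv y o (List.mem_cons_of_mem _ hm)]

/-- a frame without interior cuts -/
def qc_Inv (n : ℕ) (K : Finset ℕ) : Prop := ∀ c ∈ K, c = 0 ∨ c = n

theorem qc_inv_of {n : ℕ} {K : Finset ℕ} (h1 : ∀ c ∈ K, c ≤ n) (h2 : ¬ gs_Proper n K) :
    qc_Inv n K := by
  intro c hc
  have := h1 c hc
  by_contra h
  exact h2 ⟨c, hc, by omega, by omega⟩

theorem qc_uni_eq_one {n m : ℕ} {K : Finset ℕ} (hK : qc_Inv n K) (hm : m ≤ n) {u : gs_Mat N}
    (hu : gs_IsUni m K u) : u = 1 := by
  ext i j
  by_contra h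
  obtain ⟨h1, c, hc, h2, h3⟩ := hu i j h
  rcases hK c hc with rfl | rfl <;> omega

theorem qc_uni_one (n : ℕ) (K : Finset ℕ) : gs_IsUni n K (1 : gs_Mat N) :=
  fun _ _ h => absurd rfl h

theorem qc_swap_eq_one {o a b : ℕ} (h : a = 0 ∨ b = 0) : (gs_swapMat o a b : gs_Mat N) = 1 := by
  ext r c
  have : gs_swapFn o a b r = r := by
    unfold gs_swapFn
    rcases h with rfl | rfl <;> split_ifs <;> omega
  rw [gs_swapMat, this, Matrix.one_apply]
  simp only [Fin.ext_iff]

end values

/-! ### Words in improper frames -/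

section improper

variable {Y : Type} {sig : Y → gs_Sig} {n : ℕ}

theorem qc_mid_imp {K : Finset ℕ} (hK : qc_Inv n K) {o m a : ℕ} (h : gs_midOK K o m a) :
    (m = 0 ∨ (o = 0 ∧ m = n)) ∧ (a = 0 ∨ a = m) := by
  obtain ⟨h1, h2, h3, h4, -⟩ := h
  have := hK _ h1
  have := hK _ h2
  have := hK _ h3
  omega

theorem qc_step_inv (hs : qc_SigOK sig) {K : Finset ℕ} (hK : qc_Inv n K) {l : gs_Letter Y}
    (hl : gs_app sig n K l) (hp : ¬ gs_Proper n (gs_step sig K l)) :
    qc_Inv n (gs_step sig K l) :=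
  qc_inv_of (qc_step_bd hs (fun c hc => by rcases hK c hc with rfl | rfl <;> omega) hl) hp

/-- the variables of a word in improper frames have rank `0` or `n` (then with offset `0`) -/
theorem qc_imp_rk (hs : qc_SigOK sig) : ∀ (ls : List (gs_Letter Y)) (K : Finset ℕ), qc_Inv n K →
    qc_Typed sig n K ls → qc_ImpW sig n K ls →
    ∀ inv y o, gs_Letter.G inv y o ∈ ls → (sig y).rk = 0 ∨ (o = 0 ∧ (sig y).rk = n)
  | [], _, _, _, _, _, _, _, h => by simp at h
  | l :: ls, K, hK, ht, hi, inv, y, o, h => by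
    rcases List.mem_cons.1 h with rfl | h
    · exact (qc_mid_imp hK ht.1).1
    · exact qc_imp_rk hs ls _ (qc_step_inv hs hK ht.1 hi.2.head) ht.2 hi.2 inv y o h

/-- the letters of rank `n` of a word -/
def qc_lw (sig : Y → gs_Sig) (n : ℕ) : gs_Letter Y → List (Y × Bool)
  | .G inv y _ => if (sig y).rk = n then [(y, !inv)] else []
  | _ => []

/-- the word in the variables of rank `n` -/
def qc_word (sig : Y → gs_Sig) (n : ℕ) (ls : List (gs_Letter Y)) : List (Y × Bool) :=
  ls.flatMap (qc_lw sig n)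

open Classical in
/-- the scalar of a letter -/
noncomputable def qc_lsc : gs_Letter Y → ℂˣ
  | .L lam => if h : lam 0 = 0 then 1 else Units.mk0 (lam 0) h
  | _ => 1

/-- the scalar of a word -/
noncomputable def qc_scal (ls : List (gs_Letter Y)) : ℂˣ := (ls.map qc_lsc).prod

theorem qc_word_cons (l : gs_Letter Y) (ls : List (gs_Letter Y)) :
    qc_word sig n (l :: ls) = qc_lw sig n l ++ qc_word sig n ls := by
  simp [qc_word]

theorem qc_scal_cons (l : gs_Letter Y) (ls : List (gs_Letter Y)) :
    qc_scal (l :: ls) = qc_lsc l * qc_scal ls := by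
  simp [qc_scal]

theorem qc_rk_of_mem_word {ls : List (gs_Letter Y)} {p : Y × Bool} (hp : p ∈ qc_word sig n ls) :
    (sig p.1).rk = n ∧ ∃ o, gs_Letter.G (!p.2) p.1 o ∈ ls := by
  obtain ⟨l, hl, hp⟩ := List.mem_flatMap.1 hp
  cases l with
  | G inv y o =>
    simp only [qc_lw] at hp
    split_ifs at hp with h
    · rw [List.mem_singleton] at hp
      subst hp
      exact ⟨h, o, by simpa using hl⟩
    · simp at hp
  | S o a b => simp [qc_lw] at hp
  | L lam => simp [qc_lw] at hp

theorem qc_ev_append {G : Type} [Group G] (g : Y → G) (w w' : List (Y × Bool)) :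
    qw_ev g (w ++ w') = qw_ev g w * qw_ev g w' := by
  simp [qw_ev]

variable {d : ℕ}

/-- the matrix of a letter in an improper frame -/
theorem qc_lmat_imp (hn : 0 < n) {K : Finset ℕ} (hK : qc_Inv n K) {g : Y → qd_G n}
    {x : gs_Pt Y (n + d)} (hxn : ∀ y, (sig y).rk = n → x (.inl y) = qc_cor n d (g y).val)
    (hx0 : ∀ y, (sig y).rk = 0 → x (.inl y) = 1) {l : gs_Letter Y} (hl : gs_app sig n K l)
    (hL : ∀ lam, l = gs_Letter.L lam → lam 0 ≠ 0) :
    gs_lmat x l = qc_cor n d (qw_ev g (qc_lw sig n l) * qd_sc n (qc_lsc l)).val := by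
  cases l with
  | G inv y o =>
    have h1 : qc_lsc (gs_Letter.G inv y o) = 1 := rfl
    rw [h1, map_one, mul_one]
    rcases (qc_mid_imp hK hl).1 with h | ⟨rfl, h⟩
    · have h2 : (sig y).rk ≠ n := by omega
      simp only [qc_lw, if_neg h2, qw_ev, List.map_nil, List.prod_nil, Units.val_one, map_one]
      cases inv <;> simp only [gs_lmat, hx0 y h, inv_one, gm_emb_one]
    · simp only [qc_lw, if_pos h, qw_ev, List.map_cons, List.map_nil, List.prod_cons,
        List.prod_nil, mul_one]
      cases inv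
      · simp only [gs_lmat, gm_emb_zero, hxn y h, Bool.not_false, cond_true]
      · simp only [gs_lmat, gm_emb_zero, hxn y h, Bool.not_true, cond_false, qc_cor_inv]
  | S o a b =>
    have h1 : qc_lsc (gs_Letter.S o a b : gs_Letter Y) = 1 := rfl
    have h2 : qc_lw sig n (gs_Letter.S o a b : gs_Letter Y) = [] := rfl
    rw [h1, h2, map_one, mul_one]
    simp only [qw_ev, List.map_nil, List.prod_nil, Units.val_one, map_one, gs_lmat]
    apply qc_swap_eq_one
    have := (qc_mid_imp hK hl).2
    omega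
  | L lam =>
    have h0 := hL lam rfl
    have h1 : qc_lsc (gs_Letter.L lam : gs_Letter Y) = Units.mk0 (lam 0) h0 := by
      simp only [qc_lsc, dif_neg h0]
    have h2 : qc_lw sig n (gs_Letter.L lam : gs_Letter Y) = [] := rfl
    rw [h1, h2]
    simp only [qw_ev, List.map_nil, List.prod_nil, one_mul, gs_lmat]
    rw [qd_sc_val, qc_cor_smul_one, Units.val_mk0]
    congr 1
    funext j
    obtain ⟨ha, hb⟩ := hl
    have hc : ∀ k, k < n → lam k = lam 0 := by
      intro k
      induction k with
      | zero => intro _; rfl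
      | succ k ih =>
        intro hk
        rw [← ih (by omega)]
        refine (ha k hk fun hmem => ?_).symm
        rcases hK _ hmem with h | h <;> omega
    split_ifs with hj
    · exact hc _ hj
    · exact hb _ (not_lt.1 hj)

/-- **the value of a word in improper frames** -/
theorem qc_val_imp (hn : 0 < n) (hs : qc_SigOK sig) {g : Y → qd_G n} {x : gs_Pt Y (n + d)}
    (hxn : ∀ y, (sig y).rk = n → x (.inl y) = qc_cor n d (g y).val)
    (hx0 : ∀ y, (sig y).rk = 0 → x (.inl y) = 1) (e : ℕ) (hu : ∀ i, x (.inr (e, i)) = 1) :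
    ∀ (ls : List (gs_Letter Y)) (K : Finset ℕ) (i : ℕ), qc_Inv n K → qc_Typed sig n K ls →
    qc_ImpW sig n K ls → (∀ lam, gs_Letter.L lam ∈ ls → lam 0 ≠ 0) →
    gs_val x e i ls = qc_cor n d (qw_ev g (qc_word sig n ls) * qd_sc n (qc_scal ls)).val
  | [], _, _, _, _, _, _ => by
    simp [gs_val, qc_word, qc_scal, qw_ev]
  | l :: ls, K, i, hK, ht, hi, hL => by
    have ih := qc_val_imp hn hs hxn hx0 e hu ls _ (i + 1) (qc_step_inv hs hK ht.1 hi.2.head) ht.2
      hi.2 fun lam hl => hL lam (List.mem_cons_of_mem _ hl)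
    simp only [gs_val]
    rw [ih, hu i, mul_one, qc_lmat_imp hn hK hxn hx0 ht.1 fun lam hl =>
      hL lam (hl ▸ List.mem_cons_self ..), ← map_mul, ← Units.val_mul, qc_word_cons, qc_scal_cons,
      qc_ev_append, map_mul]
    congr 2
    rw [mul_assoc, mul_assoc, ← mul_assoc (qd_sc n (qc_lsc l)), qd_sc_comm, mul_assoc]

end improper

end Claimed.Agent.R236
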