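import Claimed.Agent.R236.ClosedSplitB

/-!
# Row 236, `ClosedSplitC` (owner helper180, prefix `qc_`): the collapsed system and the counting

`qc_sys S n` : every equation of rank `n` is collapsed to rank `0` (same letters, all sizes `0`), every variable
of rank `n` gets the signature `(0,0,0)`.  Same variables, same occurrences.
-/

set_option autoImplicit false

namespace Claimed.Agent.R236

open Matrix

section collapse

variable {Y : Type}

/-- collapse of a letter -/
def qc_colL : gs_Letter Y → gs_Letter Y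
  | .G inv y _ => .G inv y 0
  | .S _ _ _ => .S 0 0 0
  | .L _ => .L fun _ => 1

/-- collapse of an equation -/
def qc_col (E : gs_Eqn Y) : gs_Eqn Y := ⟨0, {0}, E.ls.map qc_colL⟩

theorem qc_occL_col (inv : Bool) : ∀ ls : List (gs_Letter Y),
    gs_occL inv (ls.map qc_colL) = gs_occL inv ls
  | [] => rfl
  | .G i y o :: ls => by
    simp only [List.map_cons, qc_colL, gs_occL, qc_occL_col inv ls]
  | .S o a b :: ls => by
    simp only [List.map_cons, qc_colL, gs_occL, qc_occL_col inv ls]
  | .L lam :: ls => by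
    simp only [List.map_cons, qc_colL, gs_occL, qc_occL_col inv ls]

theorem qc_mem_occL {inv : Bool} {y : Y} : ∀ {ls : List (gs_Letter Y)}, y ∈ gs_occL inv ls →
    ∃ o, gs_Letter.G inv y o ∈ ls
  | [], h => by simp [gs_occL] at h
  | .G i y' o :: ls, h => by
    simp only [gs_occL] at h
    split_ifs at h with hi
    · rcases List.mem_cons.1 h with rfl | h
      · exact ⟨o, by rw [hi]; exact List.mem_cons_self ..⟩
      · obtain ⟨o', ho'⟩ := qc_mem_occL h
        exact ⟨o', List.mem_cons_of_mem _ ho'⟩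
    · obtain ⟨o', ho'⟩ := qc_mem_occL h
      exact ⟨o', List.mem_cons_of_mem _ ho'⟩
  | .S o a b :: ls, h => by
    simp only [gs_occL] at h
    obtain ⟨o', ho'⟩ := qc_mem_occL h
    exact ⟨o', List.mem_cons_of_mem _ ho'⟩
  | .L lam :: ls, h => by
    simp only [gs_occL] at h
    obtain ⟨o', ho'⟩ := qc_mem_occL h
    exact ⟨o', List.mem_cons_of_mem _ ho'⟩

variable {sig : Y → gs_Sig}

theorem qc_cutRepl_zero : gs_cutRepl {0} 0 0 0 = {0} := by
  ext c
  simp [gs_cutRepl]

theorem qc_SigOK.src (h : qc_SigOK sig) (y : Y) (inv : Bool) : (sig y).src inv ≤ (sig y).rk := by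
  cases inv
  · exact (h y).1
  · exact (h y).2

theorem qc_col_step (hs : qc_SigOK sig) {l : gs_Letter Y}
    (h : ∀ inv y o, l = gs_Letter.G inv y o → (sig y).rk = 0) :
    gs_step sig {0} (qc_colL l) = {0} := by
  cases l with
  | G inv y o =>
    have h0 := h inv y o rfl
    have h1 := hs.tgt y inv
    have h2 : (sig y).tgt inv = 0 := by omega
    simp only [qc_colL, gs_step, h0, h2, qc_cutRepl_zero]
  | S o a b => exact qc_cutRepl_zero
  | L lam => rfl

theorem qc_col_frame (hs : qc_SigOK sig) : ∀ (ls : List (gs_Letter Y)) (i : ℕ),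
    (∀ inv y o, gs_Letter.G inv y o ∈ ls → (sig y).rk = 0) →
    gs_frame sig {0} (ls.map qc_colL) i = {0}
  | [], i, _ => by rw [List.map_nil, qc_frame_nil]
  | l :: ls, 0, _ => rfl
  | l :: ls, i + 1, h => by
    rw [List.map_cons, qc_frame_succ,
      qc_col_step hs fun inv y o hl => h inv y o (hl ▸ List.mem_cons_self ..)]
    exact qc_col_frame hs ls i fun inv y o hl => h inv y o (List.mem_cons_of_mem _ hl)

theorem qc_col_wf (hs : qc_SigOK sig) (N : ℕ) (R : Subring ℂ) {E : gs_Eqn Y}
    (h : ∀ inv y o, gs_Letter.G inv y o ∈ E.ls → (sig y).rk = 0) : (qc_col E).WF sig N R where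
  rk_le := Nat.zero_le _
  zero_mem := by simp [qc_col]
  rk_mem := by simp [qc_col]
  le_rk := by simp [qc_col]
  app i hi := by
    have hi' : i < E.ls.length := by simpa [qc_col] using hi
    have hi'' : i < (E.ls.map qc_colL).length := hi
    change gs_app sig 0 (gs_frame sig {0} (E.ls.map qc_colL) i) ((E.ls.map qc_colL)[i]'hi'')
    rw [qc_col_frame hs E.ls i h, List.getElem_map]
    have hm : E.ls[i] ∈ E.ls := List.getElem_mem hi'
    generalize E.ls[i] = l at hm
    cases l with
    | G inv y o =>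
      have h0 := h inv y o hm
      have h1 := hs.src y inv
      have h2 : (sig y).src inv = 0 := by omega
      simp [qc_colL, gs_app, gs_midOK, h0, h2]
    | S o a b => simp [qc_colL, gs_app, gs_midOK]
    | L lam => simp [qc_colL, gs_app]
  closed := qc_col_frame hs E.ls _ h
  unit lam hl j := by
    obtain ⟨l, -, hl⟩ := List.mem_map.1 hl
    cases l with
    | G inv y o => simp [qc_colL] at hl
    | S o a b => simp [qc_colL] at hl
    | L lam' =>
      simp only [qc_colL, gs_Letter.L.injEq] at hl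
      subst hl
      simp [R.one_mem]

theorem qc_col_val {N : ℕ} {x : gs_Pt Y N} (e : ℕ) (hu : ∀ i, x (.inr (e, i)) = 1) :
    ∀ (ls : List (gs_Letter Y)) (i : ℕ),
    (∀ inv y o, gs_Letter.G inv y o ∈ ls → x (.inl y) = 1) → gs_val x e i (ls.map qc_colL) = 1
  | [], _, _ => rfl
  | l :: ls, i, h => by
    have hl : gs_lmat x (qc_colL l) = 1 := by
      cases l with
      | G inv y o =>
        have := h inv y o (List.mem_cons_self ..)
        cases inv <;> simp only [qc_colL, gs_lmat, this, inv_one, gm_emb_one]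
      | S o a b => exact qc_swap_eq_one (Or.inl rfl)
      | L lam => simp [qc_colL, gs_lmat]
    simp only [List.map_cons, gs_val]
    rw [hl, hu i, qc_col_val e hu ls (i + 1) fun inv y o hm =>
      h inv y o (List.mem_cons_of_mem _ hm)]
    simp

end collapse

/-! ### The collapsed system -/

section system

variable {Y : Type}

/-- the variables of rank `n` get rank `0` -/
def qc_sig (sig : Y → gs_Sig) (n : ℕ) : Y → gs_Sig :=
  fun y => if (sig y).rk = n then ⟨0, 0, 0⟩ else sig y

/-- the equations of rank `n` are collapsed -/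
def qc_f (n : ℕ) (E : gs_Eqn Y) : gs_Eqn Y := if E.rk = n then qc_col E else E

/-- the collapsed system -/
def qc_sys (S : gs_Sys Y) (n : ℕ) : gs_Sys Y := ⟨qc_sig S.sig n, S.eqs.map (qc_f n)⟩

theorem qc_sig_of_ne {sig : Y → gs_Sig} {n : ℕ} {y : Y} (h : (sig y).rk ≠ n) :
    qc_sig sig n y = sig y := if_neg h

theorem qc_sig_of_eq {sig : Y → gs_Sig} {n : ℕ} {y : Y} (h : (sig y).rk = n) :
    qc_sig sig n y = ⟨0, 0, 0⟩ := if_pos h

theorem qc_sys_occ (S : gs_Sys Y) (n : ℕ) (inv : Bool) : (qc_sys S n).occ inv = S.occ inv := by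
  unfold gs_Sys.occ qc_sys
  rw [List.flatMap_map]
  congr 1
  funext E
  by_cases h : E.rk = n
  · simp only [qc_f, if_pos h, qc_col, qc_occL_col]
  · simp only [qc_f, if_neg h]

theorem qc_sys_eq (S : gs_Sys Y) {n : ℕ} (hn : 0 < n) (e : ℕ) :
    (qc_sys S n).eq e = qc_f n (S.eq e) := by
  have h : qc_f n (gs_Eqn.triv Y) = gs_Eqn.triv Y := if_neg (by simp [gs_Eqn.triv]; omega)
  calc (S.eqs.map (qc_f n)).getD e (gs_Eqn.triv Y)
      = (S.eqs.map (qc_f n)).getD e (qc_f n (gs_Eqn.triv Y)) := by rw [h]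
    _ = _ := List.getD_map _ _ _

theorem qc_sigOK_sig {sig : Y → gs_Sig} (hs : qc_SigOK sig) (n : ℕ) : qc_SigOK (qc_sig sig n) := by
  intro y
  by_cases h : (sig y).rk = n
  · rw [qc_sig_of_eq h]; exact ⟨le_rfl, le_rfl⟩
  · rw [qc_sig_of_ne h]; exact hs y

/-- facts on an equation of a good system all of whose top equations are improper -/
structure qc_Hyp (N : ℕ) (R : Subring ℂ) (S : gs_Sys Y) (n : ℕ) : Prop where
  pos : 0 < n
  good : S.Good N R n
  imp : ∀ E ∈ S.eqs, E.rk = n → E.AllImp S.sig

variable {N : ℕ} {R : Subring ℂ} {S : gs_Sys Y} {n : ℕ}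

theorem qc_Hyp.sigOK (H : qc_Hyp N R S n) : qc_SigOK S.sig := qc_WF.sigOK H.good.wf

/-- variables of an equation of lower rank -/
theorem qc_Hyp.rk_lt (H : qc_Hyp N R S n) {E : gs_Eqn Y} (hE : E.WF S.sig N R) (hle : E.rk ≤ n)
    (hne : E.rk ≠ n) (inv : Bool) (y : Y) (o : ℕ) (h : gs_Letter.G inv y o ∈ E.ls) :
    (S.sig y).rk ≠ n := by
  have := qc_rk_le H.sigOK E.ls E.K0 hE.le_rk (qc_WF.typed hE) inv y o h
  omega

theorem qc_inv_K0 {sig : Y → gs_Sig} {E : gs_Eqn Y} (hE : E.WF sig N R) (hi : E.AllImp sig) :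
    qc_Inv E.rk E.K0 := qc_inv_of hE.le_rk (hi 0 (Nat.zero_le _))

/-- variables of an equation of top rank -/
theorem qc_Hyp.rk_top (H : qc_Hyp N R S n) {E : gs_Eqn Y} (hE : E.WF S.sig N R)
    (hi : E.AllImp S.sig) (inv : Bool) (y : Y) (o : ℕ) (h : gs_Letter.G inv y o ∈ E.ls) :
    (S.sig y).rk = 0 ∨ (o = 0 ∧ (S.sig y).rk = E.rk) :=
  qc_imp_rk H.sigOK E.ls E.K0 (qc_inv_K0 hE hi) (qc_WF.typed hE) (qc_impW_of_frames _ _ hi) inv y o h

theorem qc_Hyp.good' (H : qc_Hyp N R S n) : (qc_sys S n).Good N R (n - 1) where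
  wf :=
    { sig_s := fun y => (qc_sigOK_sig H.sigOK n y).1
      sig_t := fun y => (qc_sigOK_sig H.sigOK n y).2
      eqn := by
        intro E' hE'
        obtain ⟨E, hE, rfl⟩ := List.mem_map.1 hE'
        have hwf := H.good.wf.eqn E hE
        by_cases h : E.rk = n
        · rw [qc_f, if_pos h]
          refine qc_col_wf (qc_sigOK_sig H.sigOK n) N R fun inv y o hy => ?_
          by_cases hy' : (S.sig y).rk = n
          · rw [qc_sig_of_eq hy']
          · rw [qc_sig_of_ne hy']
            rcases H.rk_top hwf (H.imp E hE h) inv y o hy with h0 | h0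
            · exact h0
            · exact absurd (h0.2.trans h) hy'
        · rw [qc_f, if_neg h]
          exact qc_wf_congr hwf fun inv y o hy =>
            (qc_sig_of_ne (H.rk_lt hwf (H.good.rkLe E hE) h inv y o hy)).symm
      nodup := by rw [qc_sys_occ]; exact H.good.wf.nodup
      perm := by rw [qc_sys_occ, qc_sys_occ]; exact H.good.wf.perm
      rk0 := by
        intro y hy
        rw [qc_sys_occ] at hy
        have h0 := H.good.wf.rk0 y hy
        have hne : (S.sig y).rk ≠ n := by have := H.pos; omega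
        change (qc_sig S.sig n y).rk = 0
        rw [qc_sig_of_ne hne, h0] }
  rkLe := by
    intro E' hE'
    obtain ⟨E, hE, rfl⟩ := List.mem_map.1 hE'
    by_cases h : E.rk = n
    · rw [qc_f, if_pos h]; exact Nat.zero_le _
    · rw [qc_f, if_neg h]
      have := H.good.rkLe E hE
      omega

end system

/-! ### Counting -/

section counting

variable {Y : Type} [DecidableEq Y] {sig : Y → gs_Sig} {n : ℕ}

theorem qc_count_word (y : Y) (b : Bool) : ∀ ls : List (gs_Letter Y),
    (qc_word sig n ls).count (y, b) = if (sig y).rk = n then (gs_occL (!b) ls).count y else 0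
  | [] => by simp [qc_word, gs_occL]
  | .G i y' o :: ls => by
    rw [qc_word_cons, List.count_append, qc_count_word y b ls]
    by_cases h1 : (sig y').rk = n
    · by_cases h2 : y' = y
      · subst h2
        cases i <;> cases b <;> simp [qc_lw, gs_occL, h1, add_comm]
      · have h3 : ¬ ((y', !i) = (y, b)) := fun h => h2 (congrArg Prod.fst h)
        by_cases h4 : i = !b
        · simp [qc_lw, gs_occL, h1, h4, h2]
        · simp [qc_lw, gs_occL, h1, h4, h2]
    · by_cases h2 : (sig y).rk = n
      · have h3 : y' ≠ y := fun h => h1 (h ▸ h2)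
        by_cases h4 : i = !b
        · simp [qc_lw, gs_occL, h1, h2, h4, h3]
        · simp [qc_lw, gs_occL, h1, h2, h4]
      · simp [qc_lw, h1, h2]
  | .S o a b' :: ls => by
    rw [qc_word_cons, List.count_append, qc_count_word y b ls]
    simp [qc_lw, gs_occL]
  | .L lam :: ls => by
    rw [qc_word_cons, List.count_append, qc_count_word y b ls]
    simp [qc_lw, gs_occL]

/-- all letters of rank `n` of a system -/
def qc_letters (S : gs_Sys Y) (n : ℕ) : List (Y × Bool) :=
  S.eqs.flatMap fun E => qc_word S.sig n E.ls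

theorem qc_count_letters (S : gs_Sys Y) (n : ℕ) (y : Y) (b : Bool) :
    (qc_letters S n).count (y, b) = if (S.sig y).rk = n then (S.occ (!b)).count y else 0 := by
  unfold qc_letters gs_Sys.occ
  rw [List.count_flatMap, List.count_flatMap]
  by_cases h : (S.sig y).rk = n
  · rw [if_pos h]
    congr 1
    apply List.map_congr_left
    intro E _
    simp only [Function.comp, qc_count_word, if_pos h]
  · rw [if_neg h]
    apply List.sum_eq_zero
    intro k hk
    obtain ⟨E, -, rfl⟩ := List.mem_map.1 hk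
    simp only [Function.comp, qc_count_word, if_neg h]

theorem qc_quad {N : ℕ} {R : Subring ℂ} {S : gs_Sys Y} (hS : S.WF N R) (n : ℕ) :
    qw_Quad (qc_letters S n) := by
  have hnd : ∀ b : Bool, (S.occ b).Nodup := by
    intro b
    cases b
    · exact hS.nodup
    · exact hS.perm.nodup_iff.1 hS.nodup
  have hmem : ∀ (b : Bool) (y : Y), y ∈ S.occ b → y ∈ S.occ (!b) := by
    intro b y hy
    cases b
    · exact hS.perm.mem_iff.1 hy
    · exact hS.perm.mem_iff.2 hy
  refine ⟨List.nodup_iff_count_le_one.2 fun p => ?_, fun p hp => ?_⟩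
  · obtain ⟨y, b⟩ := p
    rw [qc_count_letters]
    split_ifs
    · exact List.nodup_iff_count_le_one.1 (hnd _) y
    · exact Nat.zero_le _
  · obtain ⟨y, b⟩ := p
    have h1 := List.count_pos_iff.2 hp
    rw [qc_count_letters] at h1
    split_ifs at h1 with h
    · refine List.count_pos_iff.1 ?_
      rw [qc_count_letters, if_pos h]
      exact List.count_pos_iff.2 (hmem _ _ (List.count_pos_iff.1 h1))
    · omega

/-- a variable of rank `n > 0` occurs -/
theorem qc_mem_letters {N : ℕ} {R : Subring ℂ} {S : gs_Sys Y} (hS : S.WF N R) {n : ℕ} (hn : 0 < n)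
    {y : Y} (hy : (S.sig y).rk = n) : (y, true) ∈ qc_letters S n := by
  refine List.count_pos_iff.1 ?_
  rw [qc_count_letters, if_pos hy]
  refine List.count_pos_iff.2 ?_
  by_contra h
  have := hS.rk0 y h
  omega

end counting

end Claimed.Agent.R236
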