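import Mathlib
import Claimed.Agent.R236.GMat

/-!
# Row 236: matrix library for Model G2, part 2: patterns and unipotents (librarian helper252)

* `gm_Sup r a` : the matrix `a` is supported on the positions satisfying `r : ℕ → ℕ → Prop`;
  closure lemmas `gm_sup_zero/add/neg/sub/smul/mul/one/transpose/mask/mono`.
* `gm_Pat r u` : `u` differs from `1` only at the positions satisfying `r`; for a transitive `r`
  with `r i j → i < j` this is a group: `gm_pat_one/mul/inv/det`.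
* `gs_IsUni n K` is `gm_Pat (gm_uniPos n K)`:
  `gm_uni_one/mul/inv/det/isUnit/mono/corner/zero_iff/emb/eq_one/list_prod`.
-/

set_option autoImplicit false

namespace Claimed.Agent.R236

open Matrix

variable {N : ℕ}

/-! ## supports -/

/-- `a` is supported on the positions satisfying `r` -/
def gm_Sup (r : ℕ → ℕ → Prop) (a : gs_Mat N) : Prop := ∀ i j : Fin N, a i j ≠ 0 → r i j

theorem gm_sup_apply {r : ℕ → ℕ → Prop} {a : gs_Mat N} (h : gm_Sup r a) {i j : Fin N}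
    (hr : ¬ r i j) : a i j = 0 := by
  by_contra h0; exact hr (h i j h0)

theorem gm_sup_zero (r : ℕ → ℕ → Prop) : gm_Sup r (0 : gs_Mat N) := fun _ _ h => absurd rfl h

theorem gm_sup_mono {r s : ℕ → ℕ → Prop} (hrs : ∀ i j, r i j → s i j) {a : gs_Mat N}
    (h : gm_Sup r a) : gm_Sup s a := fun i j h0 => hrs _ _ (h i j h0)

/-- the indices are `< N` for free -/
theorem gm_sup_bound {r : ℕ → ℕ → Prop} {a : gs_Mat N} (h : gm_Sup r a) :
    gm_Sup (fun i j => r i j ∧ i < N ∧ j < N) a := fun i j h0 => ⟨h i j h0, i.2, j.2⟩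

theorem gm_sup_add {r : ℕ → ℕ → Prop} {a b : gs_Mat N} (ha : gm_Sup r a) (hb : gm_Sup r b) :
    gm_Sup r (a + b) := by
  intro i j h
  by_contra hr
  exact h (by rw [Matrix.add_apply, gm_sup_apply ha hr, gm_sup_apply hb hr, add_zero])

theorem gm_sup_neg {r : ℕ → ℕ → Prop} {a : gs_Mat N} (ha : gm_Sup r a) : gm_Sup r (-a) := by
  intro i j h
  exact ha i j (fun h0 => h (by rw [Matrix.neg_apply, h0, neg_zero]))

theorem gm_sup_sub {r : ℕ → ℕ → Prop} {a b : gs_Mat N} (ha : gm_Sup r a) (hb : gm_Sup r b) :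
    gm_Sup r (a - b) := by
  rw [sub_eq_add_neg]; exact gm_sup_add ha (gm_sup_neg hb)

theorem gm_sup_smul {r : ℕ → ℕ → Prop} (t : ℂ) {a : gs_Mat N} (ha : gm_Sup r a) :
    gm_Sup r (t • a) := by
  intro i j h
  exact ha i j (fun h0 => h (by rw [Matrix.smul_apply, h0, smul_zero]))

/-- composition of patterns -/
theorem gm_sup_mul {r s t : ℕ → ℕ → Prop} (hrs : ∀ i j k, r i j → s j k → t i k)
    {a b : gs_Mat N} (ha : gm_Sup r a) (hb : gm_Sup s b) : gm_Sup t (a * b) := by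
  intro i k h
  rw [Matrix.mul_apply] at h
  obtain ⟨j, _, hj⟩ := Finset.exists_ne_zero_of_sum_ne_zero h
  exact hrs i j k (ha i j (left_ne_zero_of_mul hj)) (hb j k (right_ne_zero_of_mul hj))

theorem gm_sup_one {r : ℕ → ℕ → Prop} (hr : ∀ i, r i i) : gm_Sup r (1 : gs_Mat N) := by
  intro i j h
  by_cases hij : i = j
  · subst hij; exact hr _
  · exact absurd (Matrix.one_apply_ne hij) h

theorem gm_sup_diagonal {r : ℕ → ℕ → Prop} (hr : ∀ i, r i i) (d : Fin N → ℂ) :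
    gm_Sup r (Matrix.diagonal d : gs_Mat N) := by
  intro i j h
  by_cases hij : i = j
  · subst hij; exact hr _
  · exact absurd (Matrix.diagonal_apply_ne d hij) h

theorem gm_sup_transpose {r : ℕ → ℕ → Prop} {a : gs_Mat N} (ha : gm_Sup r a) :
    gm_Sup (fun i j => r j i) a.transpose := fun i j h => ha j i h

theorem gm_mask_apply (P : ℕ → ℕ → Prop) (A : gs_Mat N) (i j : Fin N) [Decidable (P i j)] :
    gr_mask P A i j = if P i j then A i j else 0 := by
  unfold gr_mask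
  split_ifs <;> simp_all

theorem gm_mask_apply_pos {P : ℕ → ℕ → Prop} (A : gs_Mat N) {i j : Fin N} (h : P i j) :
    gr_mask P A i j = A i j := by
  classical rw [gm_mask_apply, if_pos h]

theorem gm_mask_apply_neg {P : ℕ → ℕ → Prop} (A : gs_Mat N) {i j : Fin N} (h : ¬ P i j) :
    gr_mask P A i j = 0 := by
  classical rw [gm_mask_apply, if_neg h]

theorem gm_sup_mask (P : ℕ → ℕ → Prop) (A : gs_Mat N) : gm_Sup P (gr_mask P A) := by
  intro i j h
  by_contra hP
  exact h (gm_mask_apply_neg A hP)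

theorem gm_mask_of_sup {P : ℕ → ℕ → Prop} {A : gs_Mat N} (h : gm_Sup P A) : gr_mask P A = A := by
  ext i j
  by_cases hP : P i j
  · exact gm_mask_apply_pos A hP
  · rw [gm_mask_apply_neg A hP, gm_sup_apply h hP]

theorem gm_sup_iff_mask {P : ℕ → ℕ → Prop} {A : gs_Mat N} : gm_Sup P A ↔ gr_mask P A = A :=
  ⟨gm_mask_of_sup, fun h => h ▸ gm_sup_mask P A⟩

theorem gm_mask_add (P : ℕ → ℕ → Prop) (A B : gs_Mat N) :
    gr_mask P (A + B) = gr_mask P A + gr_mask P B := by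
  ext i j
  by_cases hP : P i j
  · simp [gm_mask_apply_pos _ hP]
  · simp [gm_mask_apply_neg _ hP]

theorem gm_mask_zero (P : ℕ → ℕ → Prop) : gr_mask P (0 : gs_Mat N) = 0 :=
  gm_mask_of_sup (gm_sup_zero P)

/-- a matrix is the sum of its two masked parts -/
theorem gm_mask_add_mask_not (P : ℕ → ℕ → Prop) (A : gs_Mat N) :
    gr_mask P A + gr_mask (fun i j => ¬ P i j) A = A := by
  ext i j
  by_cases hP : P i j
  · rw [Matrix.add_apply, gm_mask_apply_pos _ hP, gm_mask_apply_neg (P := fun i j => ¬ P i j) _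
      (not_not.mpr hP), add_zero]
  · rw [Matrix.add_apply, gm_mask_apply_neg _ hP, gm_mask_apply_pos (P := fun i j => ¬ P i j) _ hP,
      zero_add]

theorem gm_isUQ_iff_sup {n k : ℕ} {β : gs_Mat N} :
    gr_IsUQ n k β ↔ gm_Sup (fun i j => i < k ∧ k ≤ j ∧ j < n) β := Iff.rfl

/-! ## patterns -/

/-- `u` differs from `1` only at the positions satisfying `r` -/
def gm_Pat (r : ℕ → ℕ → Prop) (u : gs_Mat N) : Prop :=
  ∀ i j : Fin N, u i j ≠ (1 : gs_Mat N) i j → r i j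

theorem gm_pat_apply {r : ℕ → ℕ → Prop} {u : gs_Mat N} (h : gm_Pat r u) {i j : Fin N}
    (hr : ¬ r i j) : u i j = (1 : gs_Mat N) i j := by
  by_contra h0; exact hr (h i j h0)

theorem gm_pat_iff_sup {r : ℕ → ℕ → Prop} {u : gs_Mat N} : gm_Pat r u ↔ gm_Sup r (u - 1) := by
  constructor
  · intro h i j h0
    exact h i j (fun h1 => h0 (by rw [Matrix.sub_apply, h1, sub_self]))
  · intro h i j h0
    exact h i j (by rw [Matrix.sub_apply]; exact sub_ne_zero.mpr h0)

theorem gm_pat_one_add {r : ℕ → ℕ → Prop} {a : gs_Mat N} (h : gm_Sup r a) : gm_Pat r (1 + a) := by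
  rw [gm_pat_iff_sup, add_sub_cancel_left]; exact h

theorem gm_pat_one_add_mask (P : ℕ → ℕ → Prop) (A : gs_Mat N) : gm_Pat P (1 + gr_mask P A) :=
  gm_pat_one_add (gm_sup_mask P A)

/-- every pattern matrix is `1 + mask` -/
theorem gm_pat_eq_one_add_mask {P : ℕ → ℕ → Prop} {u : gs_Mat N} (h : gm_Pat P u) :
    u = 1 + gr_mask P (u - 1) := by
  rw [gm_mask_of_sup (gm_pat_iff_sup.mp h)]; abel

theorem gm_pat_one (r : ℕ → ℕ → Prop) : gm_Pat r (1 : gs_Mat N) := fun _ _ h => absurd rfl h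

theorem gm_pat_mono {r s : ℕ → ℕ → Prop} (hrs : ∀ i j, r i j → s i j) {u : gs_Mat N}
    (h : gm_Pat r u) : gm_Pat s u := fun i j h0 => hrs _ _ (h i j h0)

theorem gm_pat_mul {r : ℕ → ℕ → Prop} (ht : ∀ i j k, r i j → r j k → r i k) {u v : gs_Mat N}
    (hu : gm_Pat r u) (hv : gm_Pat r v) : gm_Pat r (u * v) := by
  rw [gm_pat_iff_sup] at *
  have : u * v - 1 = (u - 1) + (v - 1) + (u - 1) * (v - 1) := by noncomm_ring
  rw [this]
  exact gm_sup_add (gm_sup_add hu hv) (gm_sup_mul ht hu hv)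

theorem gm_pat_diag {r : ℕ → ℕ → Prop} (hlt : ∀ i j, r i j → i < j) {u : gs_Mat N}
    (hu : gm_Pat r u) (i : Fin N) : u i i = 1 := by
  rw [gm_pat_apply hu (fun h => lt_irrefl _ (hlt _ _ h)), Matrix.one_apply_eq]

theorem gm_pat_lower {r : ℕ → ℕ → Prop} (hlt : ∀ i j, r i j → i < j) {u : gs_Mat N}
    (hu : gm_Pat r u) {i j : Fin N} (h : j < i) : u i j = 0 := by
  rw [gm_pat_apply hu (fun h' => absurd (hlt _ _ h') (by have := Fin.lt_def.mp h; omega)),
    Matrix.one_apply_ne (ne_of_gt h)]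

theorem gm_pat_det {r : ℕ → ℕ → Prop} (hlt : ∀ i j, r i j → i < j) {u : gs_Mat N}
    (hu : gm_Pat r u) : u.det = 1 := by
  have h : u.IsUpperTriangular := fun i j h => gm_pat_lower hlt hu h
  rw [Matrix.det_of_isUpperTriangular h]
  exact Finset.prod_eq_one fun i _ => gm_pat_diag hlt hu i

theorem gm_pat_isUnit {r : ℕ → ℕ → Prop} (hlt : ∀ i j, r i j → i < j) {u : gs_Mat N}
    (hu : gm_Pat r u) : IsUnit u.det := by rw [gm_pat_det hlt hu]; exact isUnit_one

theorem gm_pat_inv {r : ℕ → ℕ → Prop} (hlt : ∀ i j, r i j → i < j)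
    (ht : ∀ i j k, r i j → r j k → r i k) {u : gs_Mat N} (hu : gm_Pat r u) : gm_Pat r u⁻¹ := by
  have hvu : u⁻¹ * u = 1 := Matrix.nonsing_inv_mul u (gm_pat_isUnit hlt hu)
  rw [gm_pat_iff_sup] at *
  set a := u - 1 with ha
  set b := u⁻¹ - 1 with hb
  have hrel : b = -a - b * a := by
    have h1 : (1 + b) * (1 + a) = 1 := by
      rw [ha, hb]; simpa using hvu
    have h2 : (1 + b) * (1 + a) = 1 + a + b + b * a := by noncomm_ring
    rw [h2] at h1
    have h3 : a + b + b * a = 0 := by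
      have := congrArg (fun M => M - 1) h1
      simpa [add_assoc] using this
    have h4 : b = (a + b + b * a) - a - b * a := by abel
    calc b = (a + b + b * a) - a - b * a := h4
      _ = -a - b * a := by rw [h3, zero_sub]
  have key : ∀ (m : ℕ) (i j : Fin N), (j : ℕ) = m → b i j ≠ 0 → r i j := by
    intro m
    induction m using Nat.strong_induction_on with
    | _ m ih =>
      intro i j hj h0
      rw [hrel, Matrix.sub_apply, Matrix.neg_apply, Matrix.mul_apply] at h0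
      by_cases haij : a i j = 0
      · rw [haij, neg_zero, zero_sub, neg_ne_zero] at h0
        obtain ⟨k, _, hk⟩ := Finset.exists_ne_zero_of_sum_ne_zero h0
        have hkj := hu k j (right_ne_zero_of_mul hk)
        have hlt' := hlt _ _ hkj
        exact ht _ _ _ (ih k (by omega) i k rfl (left_ne_zero_of_mul hk)) hkj
      · exact hu i j haij
  exact fun i j h => key j i j rfl h

theorem gm_pat_list_prod {r : ℕ → ℕ → Prop} (ht : ∀ i j k, r i j → r j k → r i k)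
    (l : List (gs_Mat N)) (h : ∀ u ∈ l, gm_Pat r u) : gm_Pat r l.prod := by
  induction l with
  | nil => exact gm_pat_one r
  | cons u l ih =>
    rw [List.prod_cons]
    exact gm_pat_mul ht (h u (by simp)) (ih fun v hv => h v (by simp [hv]))

/-- conjugation: `d` supported on `s`, `d⁻¹` supported on `s'`, `s ∘ r ∘ s' ⊆ r'` -/
theorem gm_pat_conj {r r' s s' : ℕ → ℕ → Prop}
    (hc : ∀ i j k l, s i j → r j k → s' k l → r' i l) {d e u : gs_Mat N}
    (hde : d * e = 1) (hd : gm_Sup s d) (he : gm_Sup s' e) (hu : gm_Pat r u) :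
    gm_Pat r' (d * u * e) := by
  rw [gm_pat_iff_sup] at *
  have : d * u * e - 1 = d * (u - 1) * e := by
    rw [mul_sub, sub_mul, mul_one, hde]
  rw [this]
  intro i l h
  rw [Matrix.mul_apply] at h
  obtain ⟨k, _, hk⟩ := Finset.exists_ne_zero_of_sum_ne_zero h
  have h1 := left_ne_zero_of_mul hk
  rw [Matrix.mul_apply] at h1
  obtain ⟨j, _, hj⟩ := Finset.exists_ne_zero_of_sum_ne_zero h1
  exact hc i j k l (hd i j (left_ne_zero_of_mul hj)) (hu j k (right_ne_zero_of_mul hj))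
    (he k l (right_ne_zero_of_mul hk))

/-! ## block upper unitriangular matrices -/

/-- the positions allowed in `U(K)` -/
def gm_uniPos (n : ℕ) (K : Finset ℕ) (i j : ℕ) : Prop := j < n ∧ ∃ c ∈ K, i < c ∧ c ≤ j

theorem gm_uni_iff_pat {n : ℕ} {K : Finset ℕ} {u : gs_Mat N} :
    gs_IsUni n K u ↔ gm_Pat (gm_uniPos n K) u := Iff.rfl

theorem gm_uniPos_lt {n : ℕ} {K : Finset ℕ} (i j : ℕ) (h : gm_uniPos n K i j) : i < j := by
  obtain ⟨_, c, _, h1, h2⟩ := h; omega

theorem gm_uniPos_trans {n : ℕ} {K : Finset ℕ} (i j k : ℕ) (h : gm_uniPos n K i j)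
    (h' : gm_uniPos n K j k) : gm_uniPos n K i k := by
  obtain ⟨_, c, hc, h1, h2⟩ := h
  obtain ⟨hk, c', _, h1', h2'⟩ := h'
  exact ⟨hk, c, hc, h1, by omega⟩

theorem gm_uni_apply {n : ℕ} {K : Finset ℕ} {u : gs_Mat N} (h : gs_IsUni n K u) {i j : Fin N}
    (hr : ¬ ((j : ℕ) < n ∧ ∃ c ∈ K, (i : ℕ) < c ∧ c ≤ (j : ℕ))) : u i j = (1 : gs_Mat N) i j :=
  gm_pat_apply (r := gm_uniPos n K) h hr

theorem gm_uni_one (n : ℕ) (K : Finset ℕ) : gs_IsUni n K (1 : gs_Mat N) :=
  gm_pat_one (gm_uniPos n K)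

theorem gm_uni_mul {n : ℕ} {K : Finset ℕ} {u v : gs_Mat N} (hu : gs_IsUni n K u)
    (hv : gs_IsUni n K v) : gs_IsUni n K (u * v) :=
  gm_pat_mul (r := gm_uniPos n K) gm_uniPos_trans hu hv

theorem gm_uni_det {n : ℕ} {K : Finset ℕ} {u : gs_Mat N} (hu : gs_IsUni n K u) : u.det = 1 :=
  gm_pat_det (r := gm_uniPos n K) gm_uniPos_lt hu

theorem gm_uni_isUnit {n : ℕ} {K : Finset ℕ} {u : gs_Mat N} (hu : gs_IsUni n K u) :
    IsUnit u.det := gm_pat_isUnit (r := gm_uniPos n K) gm_uniPos_lt hu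

theorem gm_uni_inv {n : ℕ} {K : Finset ℕ} {u : gs_Mat N} (hu : gs_IsUni n K u) :
    gs_IsUni n K u⁻¹ := gm_pat_inv (r := gm_uniPos n K) gm_uniPos_lt gm_uniPos_trans hu

theorem gm_uni_mul_inv {n : ℕ} {K : Finset ℕ} {u : gs_Mat N} (hu : gs_IsUni n K u) :
    u * u⁻¹ = 1 := Matrix.mul_nonsing_inv u (gm_uni_isUnit hu)

theorem gm_uni_inv_mul {n : ℕ} {K : Finset ℕ} {u : gs_Mat N} (hu : gs_IsUni n K u) :
    u⁻¹ * u = 1 := Matrix.nonsing_inv_mul u (gm_uni_isUnit hu)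

theorem gm_uni_list_prod {n : ℕ} {K : Finset ℕ} (l : List (gs_Mat N))
    (h : ∀ u ∈ l, gs_IsUni n K u) : gs_IsUni n K l.prod :=
  gm_pat_list_prod (r := gm_uniPos n K) gm_uniPos_trans l h

theorem gm_uni_mono {n n' : ℕ} {K K' : Finset ℕ} (hn : n ≤ n') (hK : K ⊆ K') {u : gs_Mat N}
    (hu : gs_IsUni n K u) : gs_IsUni n' K' u := by
  intro i j h
  obtain ⟨h1, c, hc, h2⟩ := hu i j h
  exact ⟨by omega, c, hK hc, h2⟩

/-- only the cuts in `(0,n)` matter -/
theorem gm_uni_congr {n : ℕ} {K K' : Finset ℕ} (hK : ∀ c, 0 < c → c < n → c ∈ K → c ∈ K')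
    {u : gs_Mat N} (hu : gs_IsUni n K u) : gs_IsUni n K' u := by
  intro i j h
  obtain ⟨h1, c, hc, h2, h3⟩ := hu i j h
  exact ⟨h1, c, hK c (by omega) (by omega) hc, h2, h3⟩

theorem gm_uni_diag {n : ℕ} {K : Finset ℕ} {u : gs_Mat N} (hu : gs_IsUni n K u) (i : Fin N) :
    u i i = 1 := gm_pat_diag (r := gm_uniPos n K) gm_uniPos_lt hu i

theorem gm_uni_lower {n : ℕ} {K : Finset ℕ} {u : gs_Mat N} (hu : gs_IsUni n K u) {i j : Fin N}
    (h : j < i) : u i j = 0 := gm_pat_lower (r := gm_uniPos n K) gm_uniPos_lt hu h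

theorem gm_uni_corner {n : ℕ} {K : Finset ℕ} {u : gs_Mat N} (hu : gs_IsUni n K u) :
    gs_IsCorner n u := by
  intro i j h
  apply gm_uni_apply hu
  rintro ⟨h1, c, _, h2, h3⟩
  omega

/-- no cut strictly inside `(0,n)`: the group is trivial -/
theorem gm_uni_eq_one {n : ℕ} {K : Finset ℕ} (hK : ∀ c ∈ K, c = 0 ∨ n ≤ c) {u : gs_Mat N}
    (hu : gs_IsUni n K u) : u = 1 := by
  ext i j
  apply gm_uni_apply hu
  rintro ⟨h1, c, hc, h2, h3⟩
  rcases hK c hc with h | h <;> omega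

theorem gm_uni_zero_iff {K : Finset ℕ} {u : gs_Mat N} : gs_IsUni 0 K u ↔ u = 1 :=
  ⟨fun h => gm_uni_eq_one (fun _ _ => Or.inr (Nat.zero_le _)) h, fun h => h ▸ gm_uni_one 0 K⟩

theorem gm_uni_pair_eq_one {n : ℕ} {u : gs_Mat N} (hu : gs_IsUni n {0, n} u) : u = 1 :=
  gm_uni_eq_one (by intro c hc; simp at hc; omega) hu

theorem gm_uni_emb {m n o : ℕ} {K K' : Finset ℕ} {u : gs_Mat N} (hu : gs_IsUni m K u)
    (hK : ∀ c ∈ K, o + c ∈ K') (h : o + m ≤ n) : gs_IsUni n K' (gs_emb o u) := by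
  intro i j hij
  by_cases hi : o ≤ (i : ℕ)
  · by_cases hj : o ≤ (j : ℕ)
    · rw [gm_emb_apply_ge o u hi hj, ← gm_one_apply_sub o hi hj] at hij
      obtain ⟨h1, c, hc, h2, h3⟩ := hu _ _ hij
      simp only at h1 h2 h3
      exact ⟨by omega, o + c, hK c hc, by omega, by omega⟩
    · exact absurd (gm_emb_apply_lt_col o u i (by omega)) hij
  · exact absurd (gm_emb_apply_lt_row o u (by omega) j) hij

/-- `1 + a` is unipotent if `a` is supported on the allowed positions -/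
theorem gm_uni_one_add {n : ℕ} {K : Finset ℕ} {a : gs_Mat N} (h : gm_Sup (gm_uniPos n K) a) :
    gs_IsUni n K (1 + a) := gm_pat_one_add h

theorem gm_uni_sub_one {n : ℕ} {K : Finset ℕ} {u : gs_Mat N} (h : gs_IsUni n K u) :
    gm_Sup (gm_uniPos n K) (u - 1) := gm_pat_iff_sup.mp h

end Claimed.Agent.R236
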