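import Mathlib
import Claimed.Agent.R236.GColor

/-!
# Row 236, REDUCE: the two local packages (pure matrix statements) (owner helper10)

Everything here happens at "mid level": the interval touched by the letter is moved to `[0,m)`,
there are no spectators, no systems, no words.  A local datum is a family of matrices indexed by a
finite type (`gr_SIdx`, `gr_GIdx`) plus free parameters.

`StLocS`, `StLocG` : there are regular maps `EL`, `ER` (left / right unipotent corrections) with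

  `letter = EL * D⁻ * [[XU, *], [0, XQ]] * (D⁺)⁻¹ * ER`      (soundness)

and every admissible left correction is attained (completeness).
-/

set_option autoImplicit false

namespace Claimed.Agent.R236

variable {N : ℕ}

/-- coordinates on (family of invertible matrices) × (family of arbitrary matrices) -/
noncomputable def gr_coord (ι κ : Type) (N : ℕ) :
    (ι × Bool × Fin N × Fin N) ⊕ (κ × Fin N × Fin N) → (ι → gs_Mat N) × (κ → gs_Mat N) → ℂ :=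
  rg_prodCoord (rg_matCoord ι (Fin N)) (fun q p => p q.1 q.2.1 q.2.2)

/-- invertible and of rank `m` -/
def gr_GL (m : ℕ) (A : gs_Mat N) : Prop := IsUnit A.det ∧ gs_IsCorner m A

/-! ## the swap -/

/-- the matrices of the swap gadget -/
inductive gr_SIdx
  | hAm | hBm | hAp | hBp | t | s | r | v
  | c0 | c1 | e0 | e1 | e2
  | wA0 | wA1 | wA2 | wA3 | wB0 | wB1 | wB2 | wB3

namespace gr_SNum
variable (ν : gr_SNum)

/-- size of the first block before the swap -/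
def A : ℕ := ν.a + ν.h + ν.x
/-- size of the second block before the swap -/
def B : ℕ := ν.b + ν.h + ν.y
/-- total size -/
def m : ℕ := ν.A + ν.B
/-- number of `U` indices -/
def km : ℕ := ν.a + ν.b + ν.h
/-- colouring before: `(a | h+x) (b+h | y)` -/
def cb : ℕ → Bool := fun j => decide (j < ν.a ∨ (ν.A ≤ j ∧ j < ν.A + ν.b + ν.h))
/-- colouring after: `(b | h+y) (a+h | x)` -/
def ca : ℕ → Bool := fun j => decide (j < ν.b ∨ (ν.B ≤ j ∧ j < ν.B + ν.a + ν.h))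

end gr_SNum

section swap
variable (ν : gr_SNum) (z : gr_SIdx → gs_Mat N)

/-- block diagonal part before -/
noncomputable def gr_S_dm : gs_Mat N := z .hAm * gs_emb ν.A (z .hBm)
/-- block diagonal part after -/
noncomputable def gr_S_dp : gs_Mat N := z .hBp * gs_emb ν.B (z .hAp)
/-- adapted basis before -/
noncomputable def gr_S_Dm : gs_Mat N := gr_S_dm ν z * gr_sh ν.cb ν.m ν.km
/-- adapted basis after -/
noncomputable def gr_S_Dp : gs_Mat N := gr_S_dp ν z * gr_sh ν.ca ν.m ν.km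
/-- value of the `eU` gadget `(a,b+h) G t (a,b,h) S (b,a,h) G' s (b,a+h)` -/
noncomputable def gr_S_XU : gs_Mat N :=
  gs_emb ν.a (z .t) * z .c0 * gs_swapMat 0 ν.a ν.b * z .c1 * gs_emb ν.b (z .s)⁻¹
/-- value of the `eQ` gadget `(h+x,y) G r (h,x,y) L(-1 on h) S (h,y,x) G' v (h+y,x)` -/
noncomputable def gr_S_XQ : gs_Mat N :=
  z .r * z .e0 * Matrix.diagonal (fun j : Fin N => if (j : ℕ) < ν.h then (-1 : ℂ) else 1) * z .e1 *
    gs_swapMat ν.h ν.x ν.y * z .e2 * (z .v)⁻¹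

/-- admissible local data of a swap -/
structure gr_SOk : Prop where
  hAm : gr_GL ν.A (z .hAm)
  hBm : gr_GL ν.B (z .hBm)
  hAp : gr_GL ν.A (z .hAp)
  hBp : gr_GL ν.B (z .hBp)
  t : gr_GL (ν.b + ν.h) (z .t)
  s : gr_GL (ν.a + ν.h) (z .s)
  r : gr_GL (ν.h + ν.x) (z .r)
  v : gr_GL (ν.h + ν.y) (z .v)
  c0 : gs_IsUni ν.km {0, ν.a, ν.a + ν.b, ν.km} (z .c0)
  c1 : gs_IsUni ν.km {0, ν.b, ν.a + ν.b, ν.km} (z .c1)
  e0 : gs_IsUni (ν.m - ν.km) {0, ν.h, ν.h + ν.x, ν.m - ν.km} (z .e0)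
  e1 : gs_IsUni (ν.m - ν.km) {0, ν.h, ν.h + ν.x, ν.m - ν.km} (z .e1)
  e2 : gs_IsUni (ν.m - ν.km) {0, ν.h, ν.h + ν.y, ν.m - ν.km} (z .e2)
  wA0 : gs_IsUni ν.A {0, ν.a + ν.h, ν.A} (z .wA0)
  wA1 : gs_IsUni ν.A {0, ν.a, ν.a + ν.h, ν.A} (z .wA1)
  wA2 : gs_IsUni ν.A {0, ν.a, ν.A} (z .wA2)
  wA3 : gs_IsUni ν.A {0, ν.A} (z .wA3)
  wB0 : gs_IsUni ν.B {0, ν.b, ν.B} (z .wB0)
  wB1 : gs_IsUni ν.B {0, ν.b, ν.b + ν.h, ν.B} (z .wB1)
  wB2 : gs_IsUni ν.B {0, ν.b + ν.h, ν.B} (z .wB2)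
  wB3 : gs_IsUni ν.B {0, ν.B} (z .wB3)
  linkA : z .hAp * z .wA0 * z .s * z .wA1 * gs_emb ν.a (z .r)⁻¹ * z .wA2 * (z .hAm)⁻¹ * z .wA3 = 1
  linkB : z .hBp * z .wB0 * gs_emb ν.b (z .v) * z .wB1 * (z .t)⁻¹ * z .wB2 * (z .hBm)⁻¹ * z .wB3 = 1

end swap

/-- the set of admissible local data (with two free parameter matrices) -/
def gr_SSet (N : ℕ) (ν : gr_SNum) : Set ((gr_SIdx → gs_Mat N) × (Fin 2 → gs_Mat N)) :=
  {z | gr_SOk ν z.1}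

/-- the properties of the corrections `EL`, `ER` of the swap with numbers `ν` -/
def gr_LocSProp (N : ℕ) (R : Subring ℂ) (ν : gr_SNum)
    (EL ER : (gr_SIdx → gs_Mat N) × (Fin 2 → gs_Mat N) → gs_Mat N) : Prop :=
      rg_MatOn R (gr_coord gr_SIdx (Fin 2) N) (gr_SSet N ν) EL ∧
      rg_MatOn R (gr_coord gr_SIdx (Fin 2) N) (gr_SSet N ν) ER ∧
      (∀ z ∈ gr_SSet N ν,
        gs_IsUni ν.m {0, ν.A, ν.m} (EL z) ∧ gs_IsUni ν.m {0, ν.B, ν.m} (ER z) ∧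
        gr_Tri ν.m ν.km (gr_S_XU ν z.1) (gr_S_XQ ν z.1)
          ((gr_S_Dm ν z.1)⁻¹ * (EL z)⁻¹ * gs_swapMat 0 ν.A ν.B * (ER z)⁻¹ * gr_S_Dp ν z.1)) ∧
      -- completeness
      (∀ (hAm hBm hAp hBp z0 g : gs_Mat N),
        gr_GL ν.A hAm → gr_GL ν.B hBm → gr_GL ν.A hAp → gr_GL ν.B hBp →
        (∀ i j : Fin N, z0 i j ≠ 0 →
          ν.a ≤ (i : ℕ) ∧ (i : ℕ) < ν.A ∧ ν.A ≤ (j : ℕ) ∧ (j : ℕ) < ν.A + ν.b + ν.h) →
        gs_IsUni ν.m {0, ν.B, ν.m} g →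
        gr_IsTri ν.m ν.km
          ((hAm * gs_emb ν.A hBm * (1 + z0) * gr_sh ν.cb ν.m ν.km)⁻¹ * gs_swapMat 0 ν.A ν.B * g *
            (hBp * gs_emb ν.B hAp * gr_sh ν.ca ν.m ν.km)) →
        ∃ z ∈ gr_SSet N ν, z.1 .hAm = hAm ∧ z.1 .hBm = hBm ∧ z.1 .hAp = hAp ∧ z.1 .hBp = hBp ∧
          EL z = (hAm * gs_emb ν.A hBm) * (1 + z0) * (hAm * gs_emb ν.A hBm)⁻¹)

/-- **Local package of the swap.** -/
def StLocS (N : ℕ) (R : Subring ℂ) : Prop :=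
  ∀ ν : gr_SNum, ν.m ≤ N → ∃ EL ER, gr_LocSProp N R ν EL ER

/-! ## the letter `G` -/

/-- the matrices of the link of a `G` letter; `m` = the matrix of the letter (`y` or `y⁻¹`) -/
inductive gr_GIdx
  | h1 | h2 | k1 | k2 | yU | yQ | m
  | w0 | w1 | w2 | w3 | w4 | w5 | w6 | w7 | w8

/-- the numbers of a `G` letter: before `(u1|q1)(u2|q2)`, after `(v1|p1)(v2|p2)` -/
structure gr_GNum where
  u1 : ℕ
  q1 : ℕ
  u2 : ℕ
  q2 : ℕ
  v1 : ℕ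
  p1 : ℕ
  v2 : ℕ
  p2 : ℕ

namespace gr_GNum
variable (ν : gr_GNum)
/-- source cut -/
def a : ℕ := ν.u1 + ν.q1
/-- target cut -/
def c : ℕ := ν.v1 + ν.p1
/-- rank -/
def m : ℕ := ν.u1 + ν.q1 + ν.u2 + ν.q2
/-- number of `U` indices -/
def km : ℕ := ν.u1 + ν.u2
/-- the numbers are consistent -/
def Ok : Prop := ν.v1 + ν.v2 = ν.u1 + ν.u2 ∧ ν.p1 + ν.p2 = ν.q1 + ν.q2
/-- colouring before -/
def cb : ℕ → Bool := fun j => decide (j < ν.u1 ∨ (ν.a ≤ j ∧ j < ν.a + ν.u2))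
/-- colouring after -/
def ca : ℕ → Bool := fun j => decide (j < ν.v1 ∨ (ν.c ≤ j ∧ j < ν.c + ν.v2))
end gr_GNum

section Gletter
variable (ν : gr_GNum) (z : gr_GIdx → gs_Mat N)

/-- block diagonal part before -/
noncomputable def gr_G_dm : gs_Mat N := z .h1 * gs_emb ν.a (z .h2)
/-- block diagonal part after -/
noncomputable def gr_G_dp : gs_Mat N := z .k1 * gs_emb ν.c (z .k2)
/-- adapted basis before -/
noncomputable def gr_G_Dm : gs_Mat N := gr_G_dm ν z * gr_sh ν.cb ν.m ν.km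
/-- adapted basis after -/
noncomputable def gr_G_Dp : gs_Mat N := gr_G_dp ν z * gr_sh ν.ca ν.m ν.km

/-- admissible local data of a `G` letter -/
structure gr_GOk : Prop where
  h1 : gr_GL ν.a (z .h1)
  h2 : gr_GL (ν.u2 + ν.q2) (z .h2)
  k1 : gr_GL ν.c (z .k1)
  k2 : gr_GL (ν.v2 + ν.p2) (z .k2)
  yU : gr_GL ν.km (z .yU)
  yQ : gr_GL (ν.m - ν.km) (z .yQ)
  m : gr_GL ν.m (z .m)
  w0 : gs_IsUni ν.m {0, ν.c, ν.m} (z .w0)
  w1 : gs_IsUni ν.m {0, ν.v1, ν.c, ν.m} (z .w1)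
  w2 : gs_IsUni ν.m {0, ν.v1, ν.c, ν.c + ν.v2, ν.m} (z .w2)
  w3 : gs_IsUni ν.m {0, ν.v1, ν.km, ν.km + ν.p1, ν.m} (z .w3)
  w4 : gs_IsUni ν.m {0, ν.u1, ν.km, ν.km + ν.p1, ν.m} (z .w4)
  w5 : gs_IsUni ν.m {0, ν.u1, ν.km, ν.km + ν.q1, ν.m} (z .w5)
  w6 : gs_IsUni ν.m {0, ν.u1, ν.a, ν.a + ν.u2, ν.m} (z .w6)
  w7 : gs_IsUni ν.m {0, ν.a, ν.a + ν.u2, ν.m} (z .w7)
  w8 : gs_IsUni ν.m {0, ν.a, ν.m} (z .w8)
  link : z .m * z .w0 * z .k1 * z .w1 * gs_emb ν.c (z .k2) * z .w2 *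
      gs_swapMat ν.v1 ν.p1 ν.v2 * z .w3 * (z .yU)⁻¹ * z .w4 * gs_emb ν.km (z .yQ)⁻¹ * z .w5 *
      gs_swapMat ν.u1 ν.u2 ν.q1 * z .w6 * (z .h1)⁻¹ * z .w7 * gs_emb ν.a (z .h2)⁻¹ * z .w8 = 1

end Gletter

/-- the set of admissible local data -/
def gr_GSet (N : ℕ) (ν : gr_GNum) : Set (gr_GIdx → gs_Mat N) := {z | gr_GOk ν z}

/-- the properties of the corrections `EL`, `ER` of a `G` letter with numbers `ν` -/
def gr_LocGProp (N : ℕ) (R : Subring ℂ) (ν : gr_GNum)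
    (EL ER : (gr_GIdx → gs_Mat N) → gs_Mat N) : Prop :=
      rg_MatOn R (rg_matCoord gr_GIdx (Fin N)) (gr_GSet N ν) EL ∧
      rg_MatOn R (rg_matCoord gr_GIdx (Fin N)) (gr_GSet N ν) ER ∧
      (∀ z ∈ gr_GSet N ν,
        gs_IsUni ν.m {0, ν.a, ν.m} (EL z) ∧ gs_IsUni ν.m {0, ν.c, ν.m} (ER z) ∧
        gr_Tri ν.m ν.km (z .yU) (z .yQ)
          ((gr_G_Dm ν z)⁻¹ * (EL z)⁻¹ * z .m * (ER z)⁻¹ * gr_G_Dp ν z)) ∧
      -- completeness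
      (∀ (h1 h2 k1 k2 m z0 g : gs_Mat N),
        gr_GL ν.a h1 → gr_GL (ν.u2 + ν.q2) h2 → gr_GL ν.c k1 → gr_GL (ν.v2 + ν.p2) k2 →
        gr_GL ν.m m →
        (∀ i j : Fin N, z0 i j ≠ 0 →
          ν.u1 ≤ (i : ℕ) ∧ (i : ℕ) < ν.a ∧ ν.a ≤ (j : ℕ) ∧ (j : ℕ) < ν.a + ν.u2) →
        gs_IsUni ν.m {0, ν.c, ν.m} g →
        gr_IsTri ν.m ν.km
          ((h1 * gs_emb ν.a h2 * (1 + z0) * gr_sh ν.cb ν.m ν.km)⁻¹ * m * g *
            (k1 * gs_emb ν.c k2 * gr_sh ν.ca ν.m ν.km)) →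
        ∃ z ∈ gr_GSet N ν, z .h1 = h1 ∧ z .h2 = h2 ∧ z .k1 = k1 ∧ z .k2 = k2 ∧ z .m = m ∧
          EL z = (h1 * gs_emb ν.a h2) * (1 + z0) * (h1 * gs_emb ν.a h2)⁻¹)

/-- **Local package of a `G` letter.** -/
def StLocG (N : ℕ) (R : Subring ℂ) : Prop :=
  ∀ ν : gr_GNum, ν.Ok → ν.m ≤ N → ∃ EL ER, gr_LocGProp N R ν EL ER

end Claimed.Agent.R236
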