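import Mathlib
import Claimed.Agent.R236.GLoc

/-!
# Row 236, REDUCE: the transfer map `Φ : Sol(reduce) × Params → Sol(S)` (owner helper10)

`Φ` is the identity on all old variables and on the unipotents of all other equations.  For the
deleted equation (letters `M_i : frame i → frame i+1`, `0 ≤ i < len`)

  `u_i = (M_i⁻¹ νrad_i M_i) * ER_i⁻¹ * F_i * (closure correction if i+1 = len) * EL_{i+1}⁻¹ * νrad_{i+1}⁻¹`

* `D_i = d_i * Sh_i`, `d_i = ∏_c emb c (H i c)`;
* `F_i = D_{i+1} [[sU_i, γ_i],[0, sQ_i]] D_{i+1}⁻¹`, `sU_i, sQ_i` = trailing unipotents of the `i`-th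
  segments of `eU`, `eQ`, `γ_i` = masked free parameter;
* `νrad_i = 1 + ` masked free parameter (entries of `U(K_i)` not inside the interval of `M_i`);
* `EL_i, ER_i` = the corrections of the local packages, moved to the offset of the letter;
* `Zlet_i = D_i⁻¹ EL_i⁻¹ M_i ER_i⁻¹ D_{i+1} = [[XUlet_i, *],[0, XQlet_i]]`.
All frame indices are cyclic (`H (i % len) c`).
-/

set_option autoImplicit false

namespace Claimed.Agent.R236

/-- new point and parameters -/
abbrev gr_Z (Y : Type) (N : ℕ) := gs_Pt (Y ⊕ gr_Var) N × (ℕ × ℕ → gs_Mat N)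

/-- the coordinates on `gr_Z` -/
noncomputable abbrev gr_Zcoord (Y : Type) (N : ℕ) :=
  gr_coord ((Y ⊕ gr_Var) ⊕ ℕ × ℕ) (ℕ × ℕ) N

/-- the corrections supplied by the local packages -/
structure gr_Corr (N : ℕ) where
  ELG : gr_GNum → (gr_GIdx → gs_Mat N) → gs_Mat N
  ERG : gr_GNum → (gr_GIdx → gs_Mat N) → gs_Mat N
  ELS : gr_SNum → (gr_SIdx → gs_Mat N) × (Fin 2 → gs_Mat N) → gs_Mat N
  ERS : gr_SNum → (gr_SIdx → gs_Mat N) × (Fin 2 → gs_Mat N) → gs_Mat N

/-- the numbers of a `G` letter with interval `[o,o+m)`, source cut `a`, target cut `c` -/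
def gr_gnum (cb ca : ℕ → Bool) (o m a c : ℕ) : gr_GNum :=
  ⟨gr_nU cb o (o + a), gr_nQ cb o (o + a), gr_nU cb (o + a) (o + m), gr_nQ cb (o + a) (o + m),
    gr_nU ca o (o + c), gr_nQ ca o (o + c), gr_nU ca (o + c) (o + m), gr_nQ ca (o + c) (o + m)⟩

section Phi

variable {Y : Type} {N : ℕ} (C : gr_Ctx Y) (e0 E0 : ℕ) (P : gr_Corr N) (z : gr_Z Y N)

/-- index of the link equation in slot `s` of the letter `i` -/
def gr_lk (N E0 i s : ℕ) : ℕ := E0 + 1 + i * (N + 2) + s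

/-- the `i`-th letter (padding letter if out of range) -/
def gr_Ctx.letter (i : ℕ) : gs_Letter Y := C.E.ls.getD i (.L fun _ => 1)

/-- the matrix of the `i`-th letter -/
noncomputable def gr_M (i : ℕ) : gs_Mat N := gs_lmat z.1 ((C.letter i).map Sum.inl)

/-- value of `H i c` (cyclic in `i`) -/
def gr_hval (i c : ℕ) : gs_Mat N := z.1 (.inl (.inr (.H (C.w i) c)))

/-- value of another new variable -/
def gr_nval (v : gr_Var) : gs_Mat N := z.1 (.inl (.inr v))

/-- block diagonal part of the adapted basis at frame `i` -/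
noncomputable def gr_d (i : ℕ) : gs_Mat N :=
  ((List.range C.n).map fun c => if c ∈ C.K i then gs_emb c (gr_hval C z i c) else 1).prod

/-- adapted basis at frame `i` -/
noncomputable def gr_D (i : ℕ) : gs_Mat N := gr_d C z i * gr_sh (C.col i) C.n C.k

/-- unipotent after the `j`-th sub-letter of the `i`-th segment of `eU` -/
def gr_uU (i j : ℕ) : gs_Mat N := z.1 (.inr (e0, 4 * i + j))

/-- unipotent after the `j`-th sub-letter of the `i`-th segment of `eQ` -/
def gr_uQ (i j : ℕ) : gs_Mat N := z.1 (.inr (E0, 4 * i + j))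

/-- trailing unipotent of the `i`-th segment of `eU` -/
noncomputable def gr_sU (i : ℕ) : gs_Mat N :=
  match C.letter i with
  | .S _ _ _ => gr_uU e0 z i 2 * gr_uU e0 z i 3
  | _ => gr_uU e0 z i 0 * gr_uU e0 z i 1 * gr_uU e0 z i 2 * gr_uU e0 z i 3

/-- trailing unipotent of the `i`-th segment of `eQ` -/
noncomputable def gr_sQ (i : ℕ) : gs_Mat N :=
  match C.letter i with
  | .S _ _ _ => gr_uQ E0 z i 3
  | _ => gr_uQ E0 z i 0 * gr_uQ E0 z i 1 * gr_uQ E0 z i 2 * gr_uQ E0 z i 3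

/-- value of the `i`-th segment of `eU` without its trailing unipotent -/
noncomputable def gr_XUlet (i : ℕ) : gs_Mat N :=
  match C.letter i with
  | .L lam =>
    Matrix.diagonal fun j : Fin N =>
      if (j : ℕ) < C.k then lam (Nat.nth (fun t => C.col i t = true) j) else 1
  | .G _ _ o => gs_emb (gr_cU (C.col i) o) (gr_nval z (.YU i))
  | .S o A B =>
    let s := gr_snum (C.col i) (C.col (i + 1)) o A B
    let oU := gr_cU (C.col i) o
    gs_emb (oU + s.a) (gr_nval z (.T i)) * gr_uU e0 z i 0 * gs_swapMat oU s.a s.b *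
      gr_uU e0 z i 1 * gs_emb (oU + s.b) (gr_nval z (.S i))⁻¹

/-- value of the `i`-th segment of `eQ` without its trailing unipotent -/
noncomputable def gr_XQlet (i : ℕ) : gs_Mat N :=
  match C.letter i with
  | .L lam =>
    Matrix.diagonal fun j : Fin N =>
      if (j : ℕ) < C.n - C.k then lam (Nat.nth (fun t => C.col i t = false) j) else 1
  | .G _ _ o => gs_emb (gr_cQ (C.col i) o) (gr_nval z (.YQ i))
  | .S o A B =>
    let s := gr_snum (C.col i) (C.col (i + 1)) o A B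
    let oQ := gr_cQ (C.col i) o
    gs_emb oQ (gr_nval z (.R i)) * gr_uQ E0 z i 0 *
      Matrix.diagonal (fun j : Fin N => if oQ ≤ (j : ℕ) ∧ (j : ℕ) < oQ + s.h then (-1 : ℂ) else 1) *
      gr_uQ E0 z i 1 * gs_swapMat (oQ + s.h) s.x s.y * gr_uQ E0 z i 2 *
      gs_emb oQ (gr_nval z (.V i))⁻¹

/-- local data of a `G` letter -/
noncomputable def gr_readG (i : ℕ) (inv : Bool) (y : Y) (o : ℕ) : gr_GIdx → gs_Mat N :=
  let m := (C.sig y).rk
  let a := (C.sig y).src inv
  let c := (C.sig y).tgt inv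
  fun
  | .h1 => if 0 < a then gr_hval C z i o else 1
  | .h2 => if a < m then gr_hval C z i (o + a) else 1
  | .k1 => if 0 < c then gr_hval C z (i + 1) o else 1
  | .k2 => if c < m then gr_hval C z (i + 1) (o + c) else 1
  | .yU => gr_nval z (.YU i)
  | .yQ => gr_nval z (.YQ i)
  | .m => if inv then (z.1 (.inl (.inl y)))⁻¹ else z.1 (.inl (.inl y))
  | .w0 => z.1 (.inr (gr_lk N E0 i 0, 0))
  | .w1 => z.1 (.inr (gr_lk N E0 i 0, 1))
  | .w2 => z.1 (.inr (gr_lk N E0 i 0, 2))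
  | .w3 => z.1 (.inr (gr_lk N E0 i 0, 3))
  | .w4 => z.1 (.inr (gr_lk N E0 i 0, 4))
  | .w5 => z.1 (.inr (gr_lk N E0 i 0, 5))
  | .w6 => z.1 (.inr (gr_lk N E0 i 0, 6))
  | .w7 => z.1 (.inr (gr_lk N E0 i 0, 7))
  | .w8 => z.1 (.inr (gr_lk N E0 i 0, 8))

/-- local data of a swap -/
noncomputable def gr_readS (i o A B : ℕ) : (gr_SIdx → gs_Mat N) × (Fin 2 → gs_Mat N) :=
  let s := gr_snum (C.col i) (C.col (i + 1)) o A B
  let oU := gr_cU (C.col i) o
  let oQ := gr_cQ (C.col i) o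
  (fun
    | .hAm => if 0 < A then gr_hval C z i o else 1
    | .hBm => if 0 < B then gr_hval C z i (o + A) else 1
    | .hAp => if 0 < A then gr_hval C z (i + 1) (o + B) else 1
    | .hBp => if 0 < B then gr_hval C z (i + 1) o else 1
    | .t => gr_nval z (.T i)
    | .s => gr_nval z (.S i)
    | .r => gr_nval z (.R i)
    | .v => gr_nval z (.V i)
    | .c0 => gr_midBlock oU s.km (gr_uU e0 z i 0)
    | .c1 => gr_midBlock oU s.km (gr_uU e0 z i 1)
    | .e0 => gr_midBlock oQ (s.m - s.km) (gr_uQ E0 z i 0)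
    | .e1 => gr_midBlock oQ (s.m - s.km) (gr_uQ E0 z i 1)
    | .e2 => gr_midBlock oQ (s.m - s.km) (gr_uQ E0 z i 2)
    | .wA0 => z.1 (.inr (gr_lk N E0 i 0, 0))
    | .wA1 => z.1 (.inr (gr_lk N E0 i 0, 1))
    | .wA2 => z.1 (.inr (gr_lk N E0 i 0, 2))
    | .wA3 => z.1 (.inr (gr_lk N E0 i 0, 3))
    | .wB0 => z.1 (.inr (gr_lk N E0 i 1, 0))
    | .wB1 => z.1 (.inr (gr_lk N E0 i 1, 1))
    | .wB2 => z.1 (.inr (gr_lk N E0 i 1, 2))
    | .wB3 => z.1 (.inr (gr_lk N E0 i 1, 3)),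
   fun j => z.2 (i, 2 + (j : ℕ)))

/-- left correction of the `i`-th letter, in `U(K_i)` -/
noncomputable def gr_EL (i : ℕ) : gs_Mat N :=
  match C.letter i with
  | .L _ => 1
  | .G inv y o =>
    gs_emb o (P.ELG (gr_gnum (C.col i) (C.col (i + 1)) o (C.sig y).rk ((C.sig y).src inv)
      ((C.sig y).tgt inv)) (gr_readG C E0 z i inv y o))
  | .S o A B =>
    gs_emb o (P.ELS (gr_snum (C.col i) (C.col (i + 1)) o A B) (gr_readS C e0 E0 z i o A B))

/-- right correction of the `i`-th letter, in `U(K_{i+1})` -/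
noncomputable def gr_ER (i : ℕ) : gs_Mat N :=
  match C.letter i with
  | .L _ => 1
  | .G inv y o =>
    gs_emb o (P.ERG (gr_gnum (C.col i) (C.col (i + 1)) o (C.sig y).rk ((C.sig y).src inv)
      ((C.sig y).tgt inv)) (gr_readG C E0 z i inv y o))
  | .S o A B =>
    let s := gr_snum (C.col i) (C.col (i + 1)) o A B
    let dat := gr_readS C e0 E0 z i o A B
    let ρU := (gs_emb (gr_cU (C.col i) o) (gr_S_XU s dat.1))⁻¹ * gr_XUlet C e0 z i
    let ρQ := (gs_emb (gr_cQ (C.col i) o) (gr_S_XQ s dat.1))⁻¹ * gr_XQlet C E0 z i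
    gr_D C z (i + 1) * (gr_asm C.k ρU ρQ 0)⁻¹ * (gr_D C z (i + 1))⁻¹ * gs_emb o (P.ERS s dat)

/-- the free part of the left unipotent at frame `i` (cyclic in `i`) -/
noncomputable def gr_nuRad (i : ℕ) : gs_Mat N :=
  1 + gr_mask (gr_radPos (C.K (C.w i)) C.n (gs_mid C.sig (C.letter (C.w i))).1
    (gs_mid C.sig (C.letter (C.w i))).2) (z.2 (C.w i, 1))

/-- the frame part in standard coordinates -/
noncomputable def gr_Zfr (i : ℕ) : gs_Mat N :=
  gr_asm C.k (gr_sU C e0 z i) (gr_sQ C E0 z i)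
    (gr_mask (gr_good (C.col (i + 1)) (C.K (i + 1)) C.n C.k) (z.2 (i, 0)))

/-- the letter part in standard coordinates -/
noncomputable def gr_Zlet (i : ℕ) : gs_Mat N :=
  (gr_D C z i)⁻¹ * (gr_EL C e0 E0 P z i)⁻¹ * gr_M C z i * (gr_ER C e0 E0 P z i)⁻¹ *
    gr_D C z (i + 1)

/-- the total product `= [[1, B],[0, 1]]` -/
noncomputable def gr_Ztot : gs_Mat N :=
  ((List.range C.len).map fun i => gr_Zlet C e0 E0 P z i * gr_Zfr C e0 E0 z i).prod

/-- the unipotents of the deleted equation -/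
noncomputable def gr_u (i : ℕ) : gs_Mat N :=
  (gr_M C z i)⁻¹ * gr_nuRad C z i * gr_M C z i * (gr_ER C e0 E0 P z i)⁻¹ *
    (gr_D C z (i + 1) * gr_Zfr C e0 E0 z i * (gr_D C z (i + 1))⁻¹) *
    (if i + 1 = C.len then gr_D C z 0 * (2 - gr_Ztot C e0 E0 P z) * (gr_D C z 0)⁻¹ else 1) *
    (gr_EL C e0 E0 P z (C.w (i + 1)))⁻¹ * (gr_nuRad C z (i + 1))⁻¹

/-- **the transfer map** -/
noncomputable def gr_Phi : gs_Pt Y N
  | .inl y => z.1 (.inl (.inl y))
  | .inr (e, j) =>
    if e = e0 then (if j < C.len then gr_u C e0 E0 P z j else 1)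
    else if e < E0 then z.1 (.inr (e, j)) else 1

end Phi

end Claimed.Agent.R236
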