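import Mathlib
import Claimed.Agent.R236.GPhi

/-!
# Row 236, REDUCE: the statement chain (owner helper10)

`gr_reduce_dense` (the exported theorem) follows from `rg_Dense.transfer` and
`StRedSound`, `StRedReg`, `StRedComplete`, the density of the parameter space, and the two local
packages `StLocS`, `StLocG`.
-/

set_option autoImplicit false

namespace Claimed.Agent.R236

/-- the corrections have the properties of the local packages -/
structure gr_Corr.OK {N : ℕ} (R : Subring ℂ) (P : gr_Corr N) : Prop where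
  G : ∀ ν : gr_GNum, ν.Ok → ν.m ≤ N → gr_LocGProp N R ν (P.ELG ν) (P.ERG ν)
  S : ∀ ν : gr_SNum, ν.m ≤ N → gr_LocSProp N R ν (P.ELS ν) (P.ERS ν)

/-- the hypotheses of a reduction: the `e0`-th equation has letters and its base frame has the
cut `0 < k < rank` -/
structure gr_Hyp {Y : Type} (N : ℕ) (R : Subring ℂ) (S : gs_Sys Y) (e0 k : ℕ) : Prop where
  wf : S.WF N R
  lt : e0 < S.eqs.length
  ne : (S.eq e0).ls ≠ []
  mem : k ∈ (S.eq e0).K0
  pos : 0 < k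
  ltn : k < (S.eq e0).rk

/-- domain of the transfer map -/
def gr_Dom {Y : Type} (N : ℕ) (S : gs_Sys Y) (e0 k : ℕ) (col : ℕ → ℕ → Bool) : Set (gr_Z Y N) :=
  {z | z.1 ∈ gs_Sol N (gr_reduce N S e0 k col)}

/-- the transfer map of the reduction of the `e0`-th equation of `S` -/
noncomputable def gr_PhiS {Y : Type} {N : ℕ} (P : gr_Corr N) (S : gs_Sys Y) (e0 k : ℕ)
    (col : ℕ → ℕ → Bool) (z : gr_Z Y N) : gs_Pt Y N :=
  gr_Phi (gr_ctx S e0 k col) e0 S.eqs.length P z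

/-- SOUNDNESS -/
def StRedSound (N : ℕ) (R : Subring ℂ) : Prop :=
  ∀ (P : gr_Corr N), P.OK R → ∀ (Y : Type) (S : gs_Sys Y) (e0 k : ℕ), gr_Hyp N R S e0 k →
    ∀ col, (gr_ctx S e0 k col).WF → ∀ z ∈ gr_Dom N S e0 k col, gr_PhiS P S e0 k col z ∈ gs_Sol N S

/-- REGULARITY -/
def StRedReg (N : ℕ) (R : Subring ℂ) : Prop :=
  ∀ (P : gr_Corr N), P.OK R → ∀ (Y : Type) (S : gs_Sys Y) (e0 k : ℕ), gr_Hyp N R S e0 k →
    ∀ col, (gr_ctx S e0 k col).WF → ∀ q,
      rg_RegOn R (gr_Zcoord Y N) (gr_Dom N S e0 k col)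
        (fun z => rg_matCoord (Y ⊕ ℕ × ℕ) (Fin N) q (gr_PhiS P S e0 k col z))

/-- COMPLETENESS -/
def StRedComplete (N : ℕ) (R : Subring ℂ) : Prop :=
  ∀ (P : gr_Corr N), P.OK R → ∀ (Y : Type) (S : gs_Sys Y) (e0 k : ℕ), gr_Hyp N R S e0 k →
    ∀ x ∈ gs_Sol N S, ∃ col, (gr_ctx S e0 k col).WF ∧
      ∃ z ∈ gr_Dom N S e0 k col, gr_PhiS P S e0 k col z = x

/-- the parameter space is dense (`R` infinite) -/
def StParDense (N : ℕ) (R : Subring ℂ) : Prop :=
  rg_Dense R (fun (q : (ℕ × ℕ) × Fin N × Fin N) (p : ℕ × ℕ → gs_Mat N) => p q.1 q.2.1 q.2.2)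
    Set.univ

/-- **REDUCE, exported statement**: density of all reductions implies density. -/
def StReduceDense (N : ℕ) (R : Subring ℂ) : Prop :=
  ∀ (Y : Type) (S : gs_Sys Y) (e0 k : ℕ), gr_Hyp N R S e0 k →
    (∀ col, (gr_ctx S e0 k col).WF → gs_Dense N R (gr_reduce N S e0 k col)) → gs_Dense N R S

/-- **REDUCE, exported statement**: the reduced system is well formed and balanced. -/
def StReduceWF (N : ℕ) (R : Subring ℂ) : Prop :=
  ∀ (Y : Type) (S : gs_Sys Y) (e0 k : ℕ), gr_Hyp N R S e0 k →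
    ∀ col, (gr_ctx S e0 k col).WF → (gr_reduce N S e0 k col).WF N R

/-- assembly of the exported statement -/
theorem gr_reduce_dense (N : ℕ) (R : Subring ℂ) (hS : StLocS N R) (hG : StLocG N R)
    (h1 : StRedSound N R) (h2 : StRedReg N R) (h3 : StRedComplete N R) (h4 : StParDense N R) :
    StReduceDense N R := by
  classical
  intro Y S e0 k hyp hD
  -- the corrections
  have hS' : ∀ ν : gr_SNum, ∃ EL ER, ν.m ≤ N → gr_LocSProp N R ν EL ER := fun ν => by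
    by_cases h : ν.m ≤ N
    · obtain ⟨EL, ER, hE⟩ := hS ν h
      exact ⟨EL, ER, fun _ => hE⟩
    · exact ⟨fun _ => 1, fun _ => 1, fun h' => absurd h' h⟩
  have hG' : ∀ ν : gr_GNum, ∃ EL ER, ν.Ok → ν.m ≤ N → gr_LocGProp N R ν EL ER := fun ν => by
    by_cases h : ν.Ok ∧ ν.m ≤ N
    · obtain ⟨EL, ER, hE⟩ := hG ν h.1 h.2
      exact ⟨EL, ER, fun _ _ => hE⟩
    · exact ⟨fun _ => 1, fun _ => 1, fun h1 h2 => absurd ⟨h1, h2⟩ h⟩
  choose ELS ERS hSS using hS'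
  choose ELG ERG hGG using hG'
  let P : gr_Corr N := ⟨ELG, ERG, ELS, ERS⟩
  have hP : P.OK R := ⟨hGG, hSS⟩
  refine rg_Dense.transfer (T := {col : ℕ → ℕ → Bool // (gr_ctx S e0 k col).WF})
    (fun _ => gr_Zcoord Y N) (fun τ => gr_Dom N S e0 k τ.1) (fun τ => gr_PhiS P S e0 k τ.1)
    (fun τ q => h2 P hP Y S e0 k hyp τ.1 τ.2 q)
    (fun τ z hz => h1 P hP Y S e0 k hyp τ.1 τ.2 z hz)
    (fun x hx => ?_) (fun τ => ?_)
  · obtain ⟨col, hc, z, hz, hzx⟩ := h3 P hP Y S e0 k hyp x hx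
    exact ⟨⟨col, hc⟩, z, hz, hzx⟩
  · have := rg_Dense.prod (hD τ.1 τ.2) h4
    have he : gr_Dom N S e0 k τ.1 = gs_Sol N (gr_reduce N S e0 k τ.1) ×ˢ Set.univ := by
      ext z; simp [gr_Dom]
    rw [he]
    exact this

end Claimed.Agent.R236
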