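import Mathlib
import Claimed.Agent.R236.GInduct
import Claimed.Agent.R236.GReduceSt

/-!
# Row 236, Model G2: the progress statements P1, P2 from the operations (owner helper95, prefix gt_)

Second layer of interfaces.  All statements are existential ("there is a smaller system `S'` with
`Dense S' → Dense S`"), the owner of a package chooses the construction.

* `StMergeStep`  MERGE: a variable of top rank whose two letters lie in different equations is eliminated.
* `StPattern`    ROTATE + search: a mixed equation contains  `pre ++ X₁ :: J ++ X₂ :: post`.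
* `StCancel`     `X₂ = X₁⁻¹`.
* `StSlide`      `X₂` is a letter of another variable.
* `StDropEmpty`  an equation without letters is replaced by the trivial equation.
* `StReduceMu`   measure and occurrences of `gr_reduce`.

PROVED here: `gt_mixed : … → StMixed`, `gt_reduceStep : … → StReduceStep`.
-/

set_option autoImplicit false

namespace Claimed.Agent.R236

section defs
variable {Y : Type}

/-- the letter at position `i` of the `e`-th equation -/
def gs_Sys.At (S : gs_Sys Y) (e i : ℕ) (l : gs_Letter Y) : Prop := (S.eq e).ls[i]? = some l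

/-- both letters of every variable of rank `n` lie in the same equation -/
def gs_Sys.Self (S : gs_Sys Y) (n : ℕ) : Prop :=
  ∀ (y : Y) (inv : Bool) (e1 i1 e2 i2 o1 o2 : ℕ), (S.sig y).rk = n →
    S.At e1 i1 (.G inv y o1) → S.At e2 i2 (.G (!inv) y o2) → e1 = e2

/-- not a letter of a variable of rank `n` -/
def gt_Junk (sig : Y → gs_Sig) (n : ℕ) : gs_Letter Y → Prop
  | .G _ y _ => (sig y).rk ≠ n
  | _ => True

/-- the pattern: `X₁ = G i1 y1 0` leads from a proper frame to an improper one, `J` contains no letter of a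
variable of rank `n`, `X₂ = G i2 y2 0` is the next letter of a variable of rank `n`. -/
structure gt_Pat (S : gs_Sys Y) (n e0 : ℕ) (i1 i2 : Bool) (y1 y2 : Y)
    (pre J post : List (gs_Letter Y)) : Prop where
  lt : e0 < S.eqs.length
  ls_eq : (S.eq e0).ls = pre ++ .G i1 y1 0 :: (J ++ .G i2 y2 0 :: post)
  rk : (S.eq e0).rk = n
  rk1 : (S.sig y1).rk = n
  rk2 : (S.sig y2).rk = n
  proper : gs_Proper n (S.frame e0 pre.length)
  imp : ¬ gs_Proper n (S.frame e0 (pre.length + 1))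
  junk : ∀ l ∈ J, gt_Junk S.sig n l
  edge : pre ≠ [] ∨ post = []

end defs

/-- the conclusion of a progress step with one new system -/
def gt_Prog (N : ℕ) (R : Subring ℂ) {Y : Type} (S : gs_Sys Y) (n : ℕ) : Prop :=
  ∃ (Y' : Type) (S' : gs_Sys Y'), S'.Good N R n ∧ S'.mu n < S.mu n ∧
    (S.NoImp n → S'.NoImp n) ∧ (gs_Dense N R S' → gs_Dense N R S)

/-- MERGE -/
def StMergeStep (N : ℕ) (R : Subring ℂ) : Prop :=
  ∀ (Y : Type) (S : gs_Sys Y) (n : ℕ), 0 < n → S.Good N R n →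
    ∀ (y : Y) (inv : Bool) (e1 i1 e2 i2 o1 o2 : ℕ), (S.sig y).rk = n → e1 ≠ e2 →
      S.At e1 i1 (.G inv y o1) → S.At e2 i2 (.G (!inv) y o2) →
      ∃ (Y' : Type) (S' : gs_Sys Y'), S'.Good N R n ∧ S'.vn n < S.vn n ∧
        (S.NoImp n → S'.NoImp n) ∧ (gs_Dense N R S' → gs_Dense N R S)

/-- ROTATE + search of the pattern -/
def StPattern (N : ℕ) (R : Subring ℂ) : Prop :=
  ∀ (Y : Type) (S : gs_Sys Y) (n : ℕ), S.Good N R n →
    ∀ E ∈ S.eqs, E.rk = n → ¬ E.AllImp S.sig → ¬ E.AllProp S.sig →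
      ∃ S₁ : gs_Sys Y, S₁.Good N R n ∧ S₁.mu n = S.mu n ∧ (S.NoImp n → S₁.NoImp n) ∧
        (S.Self n → S₁.Self n) ∧ (gs_Dense N R S₁ → gs_Dense N R S) ∧
        ∃ e0 i1 i2 y1 y2 pre J post, gt_Pat S₁ n e0 i1 i2 y1 y2 pre J post

/-- CANCEL -/
def StCancel (N : ℕ) (R : Subring ℂ) : Prop :=
  ∀ (Y : Type) (S : gs_Sys Y) (n : ℕ), S.Good N R n →
    ∀ e0 i1 i2 y1 pre J post, gt_Pat S n e0 i1 i2 y1 y1 pre J post → gt_Prog N R S n

/-- SLIDE -/
def StSlide (N : ℕ) (R : Subring ℂ) : Prop :=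
  ∀ (Y : Type) (S : gs_Sys Y) (n : ℕ), S.Good N R n → S.Self n →
    ∀ e0 i1 i2 y1 y2 pre J post, y1 ≠ y2 → gt_Pat S n e0 i1 i2 y1 y2 pre J post → gt_Prog N R S n

/-- a proper frame forces positive rank -/
theorem gt_pos_of_proper {n : ℕ} {K : Finset ℕ} (h : gs_Proper n K) : 0 < n := by
  obtain ⟨c, _, h1, h2⟩ := h
  omega

/-- **P1** from the operations -/
theorem gt_mixed {N : ℕ} {R : Subring ℂ} (hM : StMergeStep N R) (hP : StPattern N R)
    (hC : StCancel N R) (hS : StSlide N R) : StMixed N R := by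
  classical
  intro Y S n hG E hE he hi hp
  have hn : 0 < n := by
    unfold gs_Eqn.AllImp at hi
    push Not at hi
    obtain ⟨i, _, h⟩ := hi
    rw [he] at h
    exact gt_pos_of_proper h
  by_cases hself : S.Self n
  · obtain ⟨S₁, hG₁, hmu, hno, hs, hd, e0, i1, i2, y1, y2, pre, J, post, hpat⟩ :=
      hP Y S n hG E hE he hi hp
    have key : gt_Prog N R S₁ n := by
      by_cases hy : y1 = y2
      · subst hy
        exact hC Y S₁ n hG₁ e0 i1 i2 y1 pre J post hpat
      · exact hS Y S₁ n hG₁ (hs hself) e0 i1 i2 y1 y2 pre J post hy hpat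
    obtain ⟨Y', S', hG', hlt, hno', hd'⟩ := key
    exact ⟨Y', S', hG', hmu ▸ hlt, fun h => hno' (hno h), fun h => hd (hd' h)⟩
  · unfold gs_Sys.Self at hself
    push Not at hself
    obtain ⟨y, inv, e1, i1, e2, i2, o1, o2, hr, h1, h2, hne⟩ := hself
    obtain ⟨Y', S', hG', hlt, hno, hd⟩ := hM Y S n hn hG y inv e1 i1 e2 i2 o1 o2 hr hne h1 h2
    refine ⟨Y', S', hG', ?_, hno, hd⟩
    exact Prod.Lex.toLex_lt_toLex.mpr (Or.inl hlt)

/-! ### P2 -/

/-- an equation of rank `n > 0` without letters is replaced by the trivial equation -/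
def StDropEmpty (N : ℕ) (R : Subring ℂ) : Prop :=
  ∀ (Y : Type) (S : gs_Sys Y) (n : ℕ), 0 < n → S.Good N R n →
    ∀ E ∈ S.eqs, E.rk = n → E.ls = [] → gt_Prog N R S n

/-- measure and occurrences of `gr_reduce` for an entirely proper equation of top rank -/
def StReduceMu (N : ℕ) (R : Subring ℂ) : Prop :=
  ∀ (Y : Type) (S : gs_Sys Y) (n e0 k : ℕ), S.Good N R n → gr_Hyp N R S e0 k →
    (S.eq e0).rk = n → (S.eq e0).AllProp S.sig →
    ∀ col, (gr_ctx S e0 k col).WF →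
      (gr_reduce N S e0 k col).RkLe n ∧
      (gr_reduce N S e0 k col).vn n = S.vn n ∧
      (S.NoImp n → (gr_reduce N S e0 k col).NoImp n) ∧
      ((∀ l ∈ (S.eq e0).ls, gt_Junk S.sig n l) → (gr_reduce N S e0 k col).en n < S.en n) ∧
      (∀ l ∈ (S.eq e0).ls, ¬ gt_Junk S.sig n l →
        ∃ (y : Y ⊕ gr_Var) (inv : Bool) (e1 i1 e2 i2 o1 o2 : ℕ),
          ((gr_reduce N S e0 k col).sig y).rk = n ∧ e1 ≠ e2 ∧
          (gr_reduce N S e0 k col).At e1 i1 (.G inv y o1) ∧
          (gr_reduce N S e0 k col).At e2 i2 (.G (!inv) y o2))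

/-- **P2** from the operations -/
theorem gt_reduceStep {N : ℕ} {R : Subring ℂ} (hD : StReduceDense N R) (hW : StReduceWF N R)
    (hMu : StReduceMu N R) (hM : StMergeStep N R) (hE : StDropEmpty N R) : StReduceStep N R := by
  classical
  intro Y S n hG E hEm he hp
  have hn : 0 < n := by
    have := hp 0 (Nat.zero_le _)
    rw [he] at this
    exact gt_pos_of_proper this
  by_cases hls : E.ls = []
  · obtain ⟨Y', S', h1, h2, h3, h4⟩ := hE Y S n hn hG E hEm he hls
    exact ⟨Unit, fun _ => Y', fun _ => S', fun _ => ⟨h1, h2, h3⟩, fun h => h4 (h ())⟩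
  -- index of the equation
  obtain ⟨e0, he0, hEe⟩ : ∃ e0, e0 < S.eqs.length ∧ S.eq e0 = E := by
    obtain ⟨e0, h0, h1⟩ := List.getElem_of_mem hEm
    refine ⟨e0, h0, ?_⟩
    unfold gs_Sys.eq
    rw [List.getD_eq_getElem _ _ h0, h1]
  subst hEe
  -- the cut
  obtain ⟨k, hk, hk0, hkn⟩ : ∃ k ∈ (S.eq e0).K0, 0 < k ∧ k < (S.eq e0).rk := by
    have := hp 0 (Nat.zero_le _)
    simpa [gs_Proper, gs_frame] using this
  have hyp : gr_Hyp N R S e0 k := ⟨hG.wf, he0, hls, hk, hk0, hkn⟩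
  -- one step for every colouring
  have step : ∀ τ : {col : ℕ → ℕ → Bool // (gr_ctx S e0 k col).WF},
      ∃ (Y' : Type) (S' : gs_Sys Y'), (S'.Good N R n ∧ S'.mu n < S.mu n ∧
        (S.NoImp n → S'.NoImp n)) ∧ (gs_Dense N R S' → gs_Dense N R (gr_reduce N S e0 k τ.1)) := by
    intro τ
    obtain ⟨h1, h2, h3, h4, h5⟩ := hMu Y S n e0 k hG hyp he hp τ.1 τ.2
    have hG' : (gr_reduce N S e0 k τ.1).Good N R n := ⟨hW Y S e0 k hyp τ.1 τ.2, h1⟩
    by_cases hj : ∀ l ∈ (S.eq e0).ls, gt_Junk S.sig n l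
    · refine ⟨_, gr_reduce N S e0 k τ.1, ⟨hG', ?_, h3⟩, id⟩
      refine Prod.Lex.toLex_lt_toLex.mpr (Or.inr ⟨h2, ?_⟩)
      exact Prod.Lex.toLex_lt_toLex.mpr (Or.inl (h4 hj))
    · push Not at hj
      obtain ⟨l, hl, hlj⟩ := hj
      obtain ⟨y, inv, e1, i1, e2, i2, o1, o2, hr, hne, ha1, ha2⟩ := h5 l hl hlj
      obtain ⟨Y', S', hg, hlt, hno, hd⟩ :=
        hM _ (gr_reduce N S e0 k τ.1) n hn hG' y inv e1 i1 e2 i2 o1 o2 hr hne ha1 ha2
      refine ⟨Y', S', ⟨hg, ?_, fun h => hno (h3 h)⟩, hd⟩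
      exact Prod.Lex.toLex_lt_toLex.mpr (Or.inl (h2 ▸ hlt))
  choose Y' S' h1 h2 using step
  refine ⟨_, Y', S', h1, fun h => ?_⟩
  exact hD Y S e0 k hyp fun col hc => h2 ⟨col, hc⟩ (h ⟨col, hc⟩)

end Claimed.Agent.R236
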