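import Mathlib
import Claimed.Agent.R236.GInduct

/-!
# Row 236, Model G2: the word library (owner helper120, prefix `gw_`).  No sorry.

Everything about words (lists of letters) that does not depend on a particular operation.

* `gw_end sig K ls` : the frame after the word `ls` started at the frame `K`  (`nil`, `cons`, `append`);
  `gs_frame` in terms of it: `gw_frame_eq`, `gw_frame_zero`, `gw_frame_succ`, `gw_frame_of_le`,
  `gw_frame_append_left`, `gw_frame_append_right`, `gw_frame_cons_succ`;
* `gw_All sig P i K ls` : `P (index) (frame before the letter) (letter)` holds along the word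
  (`gw_all_append`, index form `gw_all_iff`, `gw_all_congr`, `gw_all_mono`);
* `gw_Fr n K` : `0, n ∈ K ⊆ [0,n]`;  `gw_SigOK sig` : `s, t ≤ rk`;  `gw_fr_step`;
* `gw_Typed sig n K ls K'` : the word is applicable at `K` and ends at `K'` (`nil`, `cons`, `append`, `gw_typed_fr`);
  `gw_wf_iff` : `E.WF` in terms of `gw_Fr`, `gw_Typed`;
* `gw_full` : a frame `K` with `gs_midOK K 0 n a` is `{0, a, n}`; `gw_cutRepl_full`; `gw_midOK_offset`;
* values: `gw_val_nil/cons/append`, `gw_val_congr` (other point, shifted indices), `gw_val_map` (other letters),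
  `gw_lmat_congr`, `gw_lmat_map`, `gw_lmat_one`;
* occurrences: `gw_occL_append`, `gw_occL_cons_*`, `gw_mem_occL`, `gw_occL_map`; `gw_Free y ls`, `gw_free_iff`, `gw_free_append`;
  dependence on the signature: `gw_step_congr`, `gw_app_congr`, `gw_end_congr`, `gw_frame_congr`, `gw_typed_congr`, `gw_Free.agree`;
* systems: `gw_eq_of_lt`, `gw_eq_of_le`, `gw_eq_mem`, `gw_mem_eqs_iff`, `gw_lt_of_at`, `gw_split_of_at`, `gw_eq_set`,
  `gw_sum_set` (sum of `f` over `L.set e a`), `gw_add_le_sum`, `gw_count_occ`, `gw_mem_occ`;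
  `gs_Sys.WF.sigOK`, `.eq_wf` (every `S.eq e` is WF), `.nodup'`, `.at_unique` (a letter `G inv y` occurs at one place),
  `.exists_partner`, `.app_at`, `.offset_zero`; `gw_allImp_iff`, `gw_allProp_iff` (recursive forms).
Matrix part (recursive form of `gs_Sol`, regularity and corner property of `gs_val`): `GWordMat.lean`.
-/

set_option autoImplicit false

namespace Claimed.Agent.R236

section frames
variable {Y : Type}

/-- the frame after the word `ls` started at `K` -/
def gw_end (sig : Y → gs_Sig) (K : Finset ℕ) (ls : List (gs_Letter Y)) : Finset ℕ :=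
  ls.foldl (gs_step sig) K

variable (sig : Y → gs_Sig)

@[simp] theorem gw_end_nil (K : Finset ℕ) : gw_end sig K [] = K := rfl

@[simp] theorem gw_end_cons (K : Finset ℕ) (l : gs_Letter Y) (ls : List (gs_Letter Y)) :
    gw_end sig K (l :: ls) = gw_end sig (gs_step sig K l) ls := rfl

@[simp] theorem gw_end_append (K : Finset ℕ) (A B : List (gs_Letter Y)) :
    gw_end sig K (A ++ B) = gw_end sig (gw_end sig K A) B := by
  simp [gw_end, List.foldl_append]

theorem gw_frame_eq (K : Finset ℕ) (ls : List (gs_Letter Y)) (i : ℕ) :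
    gs_frame sig K ls i = gw_end sig K (ls.take i) := rfl

@[simp] theorem gw_frame_zero (K : Finset ℕ) (ls : List (gs_Letter Y)) : gs_frame sig K ls 0 = K := by
  simp [gw_frame_eq]

@[simp] theorem gw_frame_nil (K : Finset ℕ) (i : ℕ) : gs_frame sig K [] i = K := by
  simp [gw_frame_eq]

@[simp] theorem gw_frame_cons_succ (K : Finset ℕ) (l : gs_Letter Y) (ls : List (gs_Letter Y)) (i : ℕ) :
    gs_frame sig K (l :: ls) (i + 1) = gs_frame sig (gs_step sig K l) ls i := by
  simp [gw_frame_eq]

theorem gw_frame_of_le (K : Finset ℕ) {ls : List (gs_Letter Y)} {i : ℕ} (h : ls.length ≤ i) :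
    gs_frame sig K ls i = gw_end sig K ls := by
  rw [gw_frame_eq, List.take_of_length_le h]

theorem gw_frame_length (K : Finset ℕ) (ls : List (gs_Letter Y)) :
    gs_frame sig K ls ls.length = gw_end sig K ls := gw_frame_of_le sig K le_rfl

theorem gw_frame_append_left (K : Finset ℕ) {A : List (gs_Letter Y)} (B : List (gs_Letter Y)) {i : ℕ}
    (h : i ≤ A.length) : gs_frame sig K (A ++ B) i = gs_frame sig K A i := by
  rw [gw_frame_eq, gw_frame_eq, List.take_append_of_le_length h]

theorem gw_frame_append_right (K : Finset ℕ) (A B : List (gs_Letter Y)) (i : ℕ) :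
    gs_frame sig K (A ++ B) (A.length + i) = gs_frame sig (gw_end sig K A) B i := by
  rw [gw_frame_eq, gw_frame_eq, List.take_length_add_append, gw_end_append]

theorem gw_frame_succ (K : Finset ℕ) {ls : List (gs_Letter Y)} {i : ℕ} (h : i < ls.length) :
    gs_frame sig K ls (i + 1) = gs_step sig (gs_frame sig K ls i) ls[i] := by
  rw [gw_frame_eq, gw_frame_eq, List.take_succ_eq_append_getElem h, gw_end_append]
  rfl

/-- `gs_frame` of `take`/`drop` -/
theorem gw_frame_add (K : Finset ℕ) (ls : List (gs_Letter Y)) (i j : ℕ) :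
    gs_frame sig K ls (i + j) = gs_frame sig (gs_frame sig K ls i) (ls.drop i) j := by
  rw [gw_frame_eq, gw_frame_eq, gw_frame_eq, List.take_add, gw_end_append]

theorem gw_end_drop (K : Finset ℕ) (ls : List (gs_Letter Y)) (i : ℕ) :
    gw_end sig (gs_frame sig K ls i) (ls.drop i) = gw_end sig K ls := by
  rw [gw_frame_eq, ← gw_end_append, List.take_append_drop]

/-! ### the general recursor -/

/-- `P (index) (frame before the letter) (letter)` holds along the word; `i` = index of the first letter, `K` = frame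
before the first letter. -/
def gw_All (sig : Y → gs_Sig) (P : ℕ → Finset ℕ → gs_Letter Y → Prop) :
    ℕ → Finset ℕ → List (gs_Letter Y) → Prop
  | _, _, [] => True
  | i, K, l :: ls => P i K l ∧ gw_All sig P (i + 1) (gs_step sig K l) ls

variable {sig}
variable {P : ℕ → Finset ℕ → gs_Letter Y → Prop}

@[simp] theorem gw_all_nil (i : ℕ) (K : Finset ℕ) : gw_All sig P i K [] := trivial

@[simp] theorem gw_all_cons (i : ℕ) (K : Finset ℕ) (l : gs_Letter Y) (ls : List (gs_Letter Y)) :
    gw_All sig P i K (l :: ls) ↔ P i K l ∧ gw_All sig P (i + 1) (gs_step sig K l) ls := Iff.rfl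

theorem gw_all_append (i : ℕ) (K : Finset ℕ) (A B : List (gs_Letter Y)) :
    gw_All sig P i K (A ++ B) ↔
      gw_All sig P i K A ∧ gw_All sig P (i + A.length) (gw_end sig K A) B := by
  induction A generalizing i K with
  | nil => simp
  | cons l A ih =>
    simp only [List.cons_append, gw_all_cons, ih, List.length_cons, gw_end_cons, and_assoc]
    have : i + 1 + A.length = i + (A.length + 1) := by omega
    rw [this]

/-- index form -/
theorem gw_all_iff (i : ℕ) (K : Finset ℕ) (ls : List (gs_Letter Y)) :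
    gw_All sig P i K ls ↔ ∀ (r : ℕ) (h : r < ls.length), P (i + r) (gs_frame sig K ls r) ls[r] := by
  induction ls generalizing i K with
  | nil => simp
  | cons l ls ih =>
    rw [gw_all_cons, ih]
    constructor
    · rintro ⟨h0, h1⟩ r hr
      cases r with
      | zero => simpa using h0
      | succ r =>
        have := h1 r (by simpa using hr)
        simp only [gw_frame_cons_succ, List.getElem_cons_succ]
        have e : i + (r + 1) = i + 1 + r := by omega
        rw [e]
        exact this
    · intro h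
      refine ⟨by
        have := h 0 (by simp)
        simp only [add_zero, gw_frame_zero, List.getElem_cons_zero] at this
        exact this, fun r hr => ?_⟩
      have := h (r + 1) (by simpa using hr)
      simp only [gw_frame_cons_succ, List.getElem_cons_succ] at this
      have e : i + (r + 1) = i + 1 + r := by omega
      rw [e] at this
      exact this

/-- change of the signature, of the predicate and of the first index -/
theorem gw_all_congr {sig' : Y → gs_Sig} {P' : ℕ → Finset ℕ → gs_Letter Y → Prop} (i i' : ℕ)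
    (K : Finset ℕ) (ls : List (gs_Letter Y))
    (hs : ∀ l ∈ ls, ∀ K, gs_step sig' K l = gs_step sig K l)
    (hP : ∀ r, r < ls.length → ∀ K, ∀ l ∈ ls, (P' (i' + r) K l ↔ P (i + r) K l)) :
    gw_All sig' P' i' K ls ↔ gw_All sig P i K ls := by
  induction ls generalizing i i' K with
  | nil => simp
  | cons l ls ih =>
    rw [gw_all_cons, gw_all_cons, hs l (List.mem_cons_self ..),
      ih (i + 1) (i' + 1) _ (fun l' hl' => hs l' (List.mem_cons_of_mem _ hl')) (fun r hr K l' hl' => by
        have := hP (r + 1) (by simpa using hr) K l' (List.mem_cons_of_mem _ hl')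
        have e : i + (r + 1) = i + 1 + r := by omega
        have e' : i' + (r + 1) = i' + 1 + r := by omega
        rwa [e, e'] at this)]
    have := hP 0 (by simp) K l (List.mem_cons_self ..)
    simp only [add_zero] at this
    rw [this]

theorem gw_all_mono {P' : ℕ → Finset ℕ → gs_Letter Y → Prop} (i : ℕ) (K : Finset ℕ)
    (ls : List (gs_Letter Y)) (hP : ∀ r K, ∀ l ∈ ls, P r K l → P' r K l) (h : gw_All sig P i K ls) :
    gw_All sig P' i K ls := by
  induction ls generalizing i K with
  | nil => simp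
  | cons l ls ih =>
    rw [gw_all_cons] at h ⊢
    exact ⟨hP _ _ _ (List.mem_cons_self ..) h.1,
      ih _ _ (fun r K l' hl' => hP r K l' (List.mem_cons_of_mem _ hl')) h.2⟩

theorem gw_all_and {P' : ℕ → Finset ℕ → gs_Letter Y → Prop} (i : ℕ) (K : Finset ℕ)
    (ls : List (gs_Letter Y)) :
    gw_All sig (fun r K l => P r K l ∧ P' r K l) i K ls ↔ gw_All sig P i K ls ∧ gw_All sig P' i K ls := by
  induction ls generalizing i K with
  | nil => simp
  | cons l ls ih =>
    simp only [gw_all_cons, ih]
    tauto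

/-! ### frames of rank `n` -/

/-- `0, n ∈ K ⊆ [0,n]` -/
def gw_Fr (n : ℕ) (K : Finset ℕ) : Prop := 0 ∈ K ∧ n ∈ K ∧ ∀ d ∈ K, d ≤ n

/-- the cuts of the signatures are at most the rank -/
def gw_SigOK (sig : Y → gs_Sig) : Prop := ∀ y, (sig y).s ≤ (sig y).rk ∧ (sig y).t ≤ (sig y).rk

theorem gw_SigOK.src_le (h : gw_SigOK sig) (y : Y) (inv : Bool) : (sig y).src inv ≤ (sig y).rk := by
  cases inv
  · exact (h y).1
  · exact (h y).2

theorem gw_SigOK.tgt_le (h : gw_SigOK sig) (y : Y) (inv : Bool) : (sig y).tgt inv ≤ (sig y).rk := by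
  cases inv
  · exact (h y).2
  · exact (h y).1

theorem gw_fr_cutRepl {n : ℕ} {K : Finset ℕ} (hK : gw_Fr n K) {o m a c : ℕ} (h : gs_midOK K o m a)
    (hc : c ≤ m) : gw_Fr n (gs_cutRepl K o m c) := by
  obtain ⟨h0, hn, hle⟩ := hK
  obtain ⟨-, -, hm, -, -⟩ := h
  have hom := hle _ hm
  refine ⟨?_, ?_, ?_⟩
  · simp [gs_cutRepl, h0]
  · simp only [gs_cutRepl, Finset.mem_insert, Finset.mem_filter]
    exact Or.inr ⟨hn, Or.inr hom⟩
  · intro d hd
    simp only [gs_cutRepl, Finset.mem_insert, Finset.mem_filter] at hd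
    rcases hd with rfl | ⟨hd, -⟩
    · omega
    · exact hle d hd

theorem gw_fr_step (hs : gw_SigOK sig) {n : ℕ} {K : Finset ℕ} (hK : gw_Fr n K) {l : gs_Letter Y}
    (h : gs_app sig n K l) : gw_Fr n (gs_step sig K l) := by
  cases l with
  | G inv y o => exact gw_fr_cutRepl hK h (hs.tgt_le y inv)
  | S o a b => exact gw_fr_cutRepl hK h (by omega)
  | L lam => exact hK

/-- a letter of full rank sits at offset `0` -/
theorem gw_midOK_offset {n : ℕ} {K : Finset ℕ} (hK : gw_Fr n K) {o a : ℕ} (h : gs_midOK K o n a) :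
    o = 0 := by
  have := hK.2.2 _ h.2.2.1
  omega

/-- the frame before a letter of full rank -/
theorem gw_full {n : ℕ} {K : Finset ℕ} (hK : gw_Fr n K) {a : ℕ} (h : gs_midOK K 0 n a) :
    K = {0, a, n} := by
  obtain ⟨h0, ha, hn, -, hd⟩ := h
  ext d
  simp only [Finset.mem_insert, Finset.mem_singleton]
  constructor
  · intro hdK
    have h1 := hK.2.2 d hdK
    by_cases h2 : d = 0
    · exact Or.inl h2
    by_cases h3 : d = n
    · exact Or.inr (Or.inr h3)
    · have := hd d hdK (by omega) (by omega)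
      exact Or.inr (Or.inl (by omega))
  · rintro (rfl | rfl | rfl)
    · exact h0
    · simpa using ha
    · simpa using hn

/-- the frame after a letter of full rank -/
theorem gw_cutRepl_full {n : ℕ} {K : Finset ℕ} (hK : gw_Fr n K) (c : ℕ) :
    gs_cutRepl K 0 n c = {0, c, n} := by
  ext d
  simp only [gs_cutRepl, Finset.mem_insert, Finset.mem_filter, Finset.mem_singleton, zero_add,
    Nat.le_zero_eq]
  constructor
  · rintro (rfl | ⟨hd, rfl | h⟩)
    · exact Or.inr (Or.inl rfl)
    · exact Or.inl rfl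
    · exact Or.inr (Or.inr (le_antisymm (hK.2.2 d hd) h))
  · rintro (rfl | rfl | rfl)
    · exact Or.inr ⟨hK.1, Or.inl rfl⟩
    · exact Or.inl rfl
    · exact Or.inr ⟨hK.2.1, Or.inr le_rfl⟩

/-! ### typing -/

/-- the word `ls` is applicable at the frame `K` (rank `n`) and ends at `K'` -/
def gw_Typed (sig : Y → gs_Sig) (n : ℕ) (K : Finset ℕ) (ls : List (gs_Letter Y)) (K' : Finset ℕ) : Prop :=
  gw_All sig (fun _ K l => gs_app sig n K l) 0 K ls ∧ gw_end sig K ls = K'

theorem gw_all_app_index (n i j : ℕ) (K : Finset ℕ) (ls : List (gs_Letter Y)) :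
    gw_All sig (fun _ K l => gs_app sig n K l) i K ls ↔
      gw_All sig (fun _ K l => gs_app sig n K l) j K ls :=
  gw_all_congr j i K ls (fun _ _ _ => rfl) (fun _ _ _ _ _ => Iff.rfl)

@[simp] theorem gw_typed_nil (n : ℕ) (K K' : Finset ℕ) : gw_Typed sig n K [] K' ↔ K = K' := by
  simp [gw_Typed]

theorem gw_typed_cons (n : ℕ) (K K' : Finset ℕ) (l : gs_Letter Y) (ls : List (gs_Letter Y)) :
    gw_Typed sig n K (l :: ls) K' ↔ gs_app sig n K l ∧ gw_Typed sig n (gs_step sig K l) ls K' := by
  simp only [gw_Typed, gw_all_cons, gw_end_cons, and_assoc]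
  rw [gw_all_app_index n (0 + 1) 0]

theorem gw_typed_append (n : ℕ) (K K' : Finset ℕ) (A B : List (gs_Letter Y)) :
    gw_Typed sig n K (A ++ B) K' ↔
      gw_Typed sig n K A (gw_end sig K A) ∧ gw_Typed sig n (gw_end sig K A) B K' := by
  simp only [gw_Typed, gw_all_append, gw_end_append, and_assoc, true_and]
  rw [gw_all_app_index n (0 + A.length) 0]

theorem gw_Typed.append {n : ℕ} {K K' K'' : Finset ℕ} {A B : List (gs_Letter Y)}
    (hA : gw_Typed sig n K A K') (hB : gw_Typed sig n K' B K'') : gw_Typed sig n K (A ++ B) K'' := by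
  rw [gw_typed_append, hA.2]
  exact ⟨hA, hB⟩

theorem gw_Typed.end_eq {n : ℕ} {K K' : Finset ℕ} {ls : List (gs_Letter Y)}
    (h : gw_Typed sig n K ls K') : gw_end sig K ls = K' := h.2

theorem gw_Typed.fr (hs : gw_SigOK sig) {n : ℕ} {K K' : Finset ℕ} {ls : List (gs_Letter Y)}
    (h : gw_Typed sig n K ls K') (hK : gw_Fr n K) : gw_Fr n K' := by
  induction ls generalizing K with
  | nil =>
    rw [gw_typed_nil] at h
    exact h ▸ hK
  | cons l ls ih =>
    rw [gw_typed_cons] at h
    exact ih h.2 (gw_fr_step hs hK h.1)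

/-- the padding letter `L 1` is typed at every frame -/
theorem gw_typed_one (n : ℕ) (K : Finset ℕ) : gw_Typed sig n K [gs_Letter.L fun _ => 1] K := by
  rw [gw_typed_cons]
  exact ⟨⟨fun _ _ _ => rfl, fun _ _ => rfl⟩, by simp [gs_step]⟩

/-- typing in index form -/
theorem gw_typed_iff (n : ℕ) (K K' : Finset ℕ) (ls : List (gs_Letter Y)) :
    gw_Typed sig n K ls K' ↔
      (∀ (i : ℕ) (h : i < ls.length), gs_app sig n (gs_frame sig K ls i) ls[i]) ∧
        gs_frame sig K ls ls.length = K' := by
  rw [gw_Typed, gw_all_iff, gw_frame_length]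

/-- a prefix of a typed word is typed -/
theorem gw_Typed.take {n : ℕ} {K K' : Finset ℕ} {ls : List (gs_Letter Y)}
    (h : gw_Typed sig n K ls K') (i : ℕ) : gw_Typed sig n K (ls.take i) (gs_frame sig K ls i) := by
  rw [← List.take_append_drop i ls, gw_typed_append] at h
  exact h.1

/-- a suffix of a typed word is typed -/
theorem gw_Typed.drop {n : ℕ} {K K' : Finset ℕ} {ls : List (gs_Letter Y)}
    (h : gw_Typed sig n K ls K') (i : ℕ) : gw_Typed sig n (gs_frame sig K ls i) (ls.drop i) K' := by
  rw [← List.take_append_drop i ls, gw_typed_append] at h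
  exact h.2

/-- well-formedness of an equation in terms of typing -/
theorem gw_wf_iff (N : ℕ) (R : Subring ℂ) (E : gs_Eqn Y) :
    E.WF sig N R ↔ E.rk ≤ N ∧ gw_Fr E.rk E.K0 ∧ gw_Typed sig E.rk E.K0 E.ls E.K0 ∧
      ∀ lam, gs_Letter.L lam ∈ E.ls → ∀ j, lam j ≠ 0 ∧ lam j ∈ R ∧ (lam j)⁻¹ ∈ R := by
  rw [gw_typed_iff]
  constructor
  · intro h
    exact ⟨h.rk_le, ⟨h.zero_mem, h.rk_mem, h.le_rk⟩, ⟨h.app, h.closed⟩, h.unit⟩
  · rintro ⟨h1, ⟨h2, h3, h4⟩, ⟨h5, h6⟩, h7⟩
    exact ⟨h1, h2, h3, h4, h5, h6, h7⟩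

theorem gs_Eqn.WF.typed {N : ℕ} {R : Subring ℂ} {E : gs_Eqn Y} (h : E.WF sig N R) :
    gw_Typed sig E.rk E.K0 E.ls E.K0 := ((gw_wf_iff N R E).1 h).2.2.1

theorem gs_Eqn.WF.fr0 {N : ℕ} {R : Subring ℂ} {E : gs_Eqn Y} (h : E.WF sig N R) :
    gw_Fr E.rk E.K0 := ((gw_wf_iff N R E).1 h).2.1

/-- all frames of a well-formed equation are frames of its rank -/
theorem gs_Eqn.WF.fr (hs : gw_SigOK sig) {N : ℕ} {R : Subring ℂ} {E : gs_Eqn Y} (h : E.WF sig N R)
    (i : ℕ) : gw_Fr E.rk (gs_frame sig E.K0 E.ls i) :=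
  (h.typed.take i).fr hs h.fr0

theorem gw_triv_wf (N : ℕ) (R : Subring ℂ) : (gs_Eqn.triv Y).WF sig N R := by
  rw [gw_wf_iff]
  refine ⟨Nat.zero_le _, ⟨by simp [gs_Eqn.triv], by simp [gs_Eqn.triv], by simp [gs_Eqn.triv]⟩, ?_, ?_⟩
  · simp [gs_Eqn.triv]
  · simp [gs_Eqn.triv]

end frames

/-! ## values -/

section values
variable {Y : Type} {N : ℕ}

@[simp] theorem gw_val_nil (x : gs_Pt Y N) (e i : ℕ) : gs_val x e i [] = 1 := rfl

theorem gw_val_cons (x : gs_Pt Y N) (e i : ℕ) (l : gs_Letter Y) (ls : List (gs_Letter Y)) :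
    gs_val x e i (l :: ls) = gs_lmat x l * x (.inr (e, i)) * gs_val x e (i + 1) ls := rfl

theorem gw_val_append (x : gs_Pt Y N) (e i : ℕ) (A B : List (gs_Letter Y)) :
    gs_val x e i (A ++ B) = gs_val x e i A * gs_val x e (i + A.length) B := by
  induction A generalizing i with
  | nil => simp
  | cons l A ih =>
    have : i + 1 + A.length = i + (A.length + 1) := by omega
    rw [List.cons_append, gw_val_cons, gw_val_cons, ih, List.length_cons, this]
    simp only [mul_assoc]

/-- change of the point, of the letters and of the indices -/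
theorem gw_val_map {Y' : Type} {x : gs_Pt Y N} {x' : gs_Pt Y' N} (φ : gs_Letter Y → gs_Letter Y')
    (e e' i i' : ℕ) (ls : List (gs_Letter Y)) (hl : ∀ l ∈ ls, gs_lmat x' (φ l) = gs_lmat x l)
    (hu : ∀ r, r < ls.length → x' (.inr (e', i' + r)) = x (.inr (e, i + r))) :
    gs_val x' e' i' (ls.map φ) = gs_val x e i ls := by
  induction ls generalizing i i' with
  | nil => simp
  | cons l ls ih =>
    rw [List.map_cons, gw_val_cons, gw_val_cons, hl l (List.mem_cons_self ..),
      ih (i + 1) (i' + 1) (fun l' hl' => hl l' (List.mem_cons_of_mem _ hl')) (fun r hr => by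
        have := hu (r + 1) (by simpa using hr)
        have e1 : i + (r + 1) = i + 1 + r := by omega
        have e2 : i' + (r + 1) = i' + 1 + r := by omega
        rwa [e1, e2] at this)]
    have := hu 0 (by simp)
    simp only [add_zero] at this
    rw [this]

/-- change of the point and of the indices -/
theorem gw_val_congr {x x' : gs_Pt Y N} (e e' i i' : ℕ) (ls : List (gs_Letter Y))
    (hl : ∀ l ∈ ls, gs_lmat x' l = gs_lmat x l)
    (hu : ∀ r, r < ls.length → x' (.inr (e', i' + r)) = x (.inr (e, i + r))) :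
    gs_val x' e' i' ls = gs_val x e i ls := by
  have := gw_val_map (x := x) (x' := x') id e e' i i' ls hl hu
  rwa [List.map_id] at this

/-- the matrix of a letter depends only on the value of its variable -/
theorem gw_lmat_congr {x x' : gs_Pt Y N} {l : gs_Letter Y}
    (h : ∀ inv z o, l = .G inv z o → x' (.inl z) = x (.inl z)) : gs_lmat x' l = gs_lmat x l := by
  cases l with
  | G inv z o =>
    cases inv
    · simp only [gs_lmat, h false z o rfl]
    · simp only [gs_lmat, h true z o rfl]
  | S o a b => rfl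
  | L lam => rfl

@[simp] theorem gw_lmat_one (x : gs_Pt Y N) : gs_lmat x (.L fun _ => 1) = 1 := by
  simp [gs_lmat]

theorem gw_lmat_map {Y' : Type} (f : Y → Y') (x : gs_Pt Y N) (x' : gs_Pt Y' N) (l : gs_Letter Y)
    (h : ∀ inv z o, l = .G inv z o → x' (.inl (f z)) = x (.inl z)) :
    gs_lmat x' (l.map f) = gs_lmat x l := by
  cases l with
  | G inv z o =>
    cases inv
    · simp only [gs_lmat, gs_Letter.map, h false z o rfl]
    · simp only [gs_lmat, gs_Letter.map, h true z o rfl]
  | S o a b => rfl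
  | L lam => rfl

end values

/-! ## occurrences; dependence on the signature -/

section occ
variable {Y : Type}

@[simp] theorem gw_occL_nil (inv : Bool) : gs_occL inv ([] : List (gs_Letter Y)) = [] := rfl

theorem gw_occL_cons_G (inv i : Bool) (y : Y) (o : ℕ) (ls : List (gs_Letter Y)) :
    gs_occL inv (.G i y o :: ls) = if i = inv then y :: gs_occL inv ls else gs_occL inv ls := rfl

@[simp] theorem gw_occL_cons_self (inv : Bool) (y : Y) (o : ℕ) (ls : List (gs_Letter Y)) :
    gs_occL inv (.G inv y o :: ls) = y :: gs_occL inv ls := by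
  simp [gw_occL_cons_G]

@[simp] theorem gw_occL_cons_not (inv : Bool) (y : Y) (o : ℕ) (ls : List (gs_Letter Y)) :
    gs_occL inv (.G (!inv) y o :: ls) = gs_occL inv ls := by
  simp [gw_occL_cons_G]

@[simp] theorem gw_occL_cons_S (inv : Bool) (o a b : ℕ) (ls : List (gs_Letter Y)) :
    gs_occL inv (.S o a b :: ls) = gs_occL inv ls := rfl

@[simp] theorem gw_occL_cons_L (inv : Bool) (lam : ℕ → ℂ) (ls : List (gs_Letter Y)) :
    gs_occL inv (.L lam :: ls) = gs_occL inv ls := rfl

@[simp] theorem gw_occL_append (inv : Bool) (A B : List (gs_Letter Y)) :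
    gs_occL inv (A ++ B) = gs_occL inv A ++ gs_occL inv B := by
  induction A with
  | nil => rfl
  | cons l A ih =>
    cases l with
    | G i y o =>
      by_cases h : i = inv
      · simp [h, ih]
      · simp [gw_occL_cons_G, h, ih]
    | S o a b => simpa using ih
    | L lam => simpa using ih

theorem gw_mem_occL {inv : Bool} {y : Y} {ls : List (gs_Letter Y)} :
    y ∈ gs_occL inv ls ↔ ∃ o, gs_Letter.G inv y o ∈ ls := by
  induction ls with
  | nil => simp
  | cons l ls ih =>
    cases l with
    | G i z o =>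
      by_cases h : i = inv
      · subst h
        simp only [gw_occL_cons_self, List.mem_cons, ih, gs_Letter.G.injEq, true_and]
        constructor
        · rintro (rfl | ⟨o', h⟩)
          · exact ⟨o, Or.inl ⟨rfl, rfl⟩⟩
          · exact ⟨o', Or.inr h⟩
        · rintro ⟨o', ⟨rfl, -⟩ | h⟩
          · exact Or.inl rfl
          · exact Or.inr ⟨o', h⟩
      · simp only [gw_occL_cons_G, h, if_false, ih, List.mem_cons, gs_Letter.G.injEq]
        constructor
        · rintro ⟨o', h'⟩
          exact ⟨o', Or.inr h'⟩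
        · rintro ⟨o', ⟨h1, -, -⟩ | h'⟩
          · exact absurd h1.symm h
          · exact ⟨o', h'⟩
    | S o a b => simp [ih]
    | L lam => simp [ih]

theorem gw_occL_map {Y' : Type} (f : Y → Y') (inv : Bool) (ls : List (gs_Letter Y)) :
    gs_occL inv (ls.map (gs_Letter.map f)) = (gs_occL inv ls).map f := by
  induction ls with
  | nil => rfl
  | cons l ls ih =>
    cases l with
    | G i z o =>
      by_cases h : i = inv
      · simp [gs_Letter.map, h, ih]
      · simp [gs_Letter.map, gw_occL_cons_G, h, ih]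
    | S o a b => simpa [gs_Letter.map] using ih
    | L lam => simpa [gs_Letter.map] using ih

/-- the variable `y` does not occur in the word -/
def gw_Free (y : Y) (ls : List (gs_Letter Y)) : Prop := ∀ inv o, gs_Letter.G inv y o ∉ ls

theorem gw_free_iff {y : Y} {ls : List (gs_Letter Y)} :
    gw_Free y ls ↔ y ∉ gs_occL false ls ∧ y ∉ gs_occL true ls := by
  simp only [gw_mem_occL, not_exists, gw_Free]
  constructor
  · intro h
    exact ⟨h false, h true⟩
  · rintro ⟨h1, h2⟩ inv o
    cases inv
    · exact h1 o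
    · exact h2 o

theorem gw_free_append {y : Y} {A B : List (gs_Letter Y)} :
    gw_Free y (A ++ B) ↔ gw_Free y A ∧ gw_Free y B := by
  simp only [gw_Free, List.mem_append, not_or]
  constructor
  · intro h
    exact ⟨fun i o => (h i o).1, fun i o => (h i o).2⟩
  · rintro ⟨h1, h2⟩ i o
    exact ⟨h1 i o, h2 i o⟩

variable {sig sig' : Y → gs_Sig}

theorem gw_step_congr {l : gs_Letter Y} (h : ∀ inv z o, l = .G inv z o → sig' z = sig z)
    (K : Finset ℕ) : gs_step sig' K l = gs_step sig K l := by
  cases l with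
  | G inv z o => simp only [gs_step, h inv z o rfl]
  | S o a b => rfl
  | L lam => rfl

theorem gw_app_congr {l : gs_Letter Y} (h : ∀ inv z o, l = .G inv z o → sig' z = sig z) (n : ℕ)
    (K : Finset ℕ) : gs_app sig' n K l ↔ gs_app sig n K l := by
  cases l with
  | G inv z o => simp only [gs_app, h inv z o rfl]
  | S o a b => exact Iff.rfl
  | L lam => exact Iff.rfl

theorem gw_end_congr {ls : List (gs_Letter Y)} (h : ∀ inv z o, .G inv z o ∈ ls → sig' z = sig z)
    (K : Finset ℕ) : gw_end sig' K ls = gw_end sig K ls := by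
  induction ls generalizing K with
  | nil => rfl
  | cons l ls ih =>
    rw [gw_end_cons, gw_end_cons, gw_step_congr (fun inv z o hl => h inv z o (hl ▸ List.mem_cons_self ..)),
      ih fun inv z o hl => h inv z o (List.mem_cons_of_mem _ hl)]

theorem gw_frame_congr {ls : List (gs_Letter Y)} (h : ∀ inv z o, .G inv z o ∈ ls → sig' z = sig z)
    (K : Finset ℕ) (i : ℕ) : gs_frame sig' K ls i = gs_frame sig K ls i := by
  rw [gw_frame_eq, gw_frame_eq]
  exact gw_end_congr (fun inv z o hl => h inv z o (List.mem_of_mem_take hl)) K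

theorem gw_typed_congr {ls : List (gs_Letter Y)} (h : ∀ inv z o, .G inv z o ∈ ls → sig' z = sig z)
    (n : ℕ) (K K' : Finset ℕ) : gw_Typed sig' n K ls K' ↔ gw_Typed sig n K ls K' := by
  rw [gw_Typed, gw_Typed, gw_end_congr h]
  rw [gw_all_congr (P := fun _ K l => gs_app sig n K l) 0 0 K ls
    (fun l hl K => gw_step_congr (fun inv z o e => h inv z o (e ▸ hl)) K)
    (fun r _ K l hl => gw_app_congr (fun inv z o e => h inv z o (e ▸ hl)) n K)]

/-- signatures which differ only at `y` agree on the words in which `y` does not occur -/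
theorem gw_Free.agree [DecidableEq Y] {y : Y} {ls : List (gs_Letter Y)} (h : gw_Free y ls) (σ : gs_Sig) :
    ∀ inv z o, .G inv z o ∈ ls → Function.update sig y σ z = sig z := by
  intro inv z o hz
  rw [Function.update_of_ne]
  rintro rfl
  exact h inv o hz

end occ

/-! ## systems -/

section sys
variable {Y : Type}

theorem gw_eq_of_lt {S : gs_Sys Y} {e : ℕ} (h : e < S.eqs.length) : S.eq e = S.eqs[e] := by
  unfold gs_Sys.eq
  rw [List.getD_eq_getElem _ _ h]

theorem gw_eq_of_le {S : gs_Sys Y} {e : ℕ} (h : S.eqs.length ≤ e) : S.eq e = gs_Eqn.triv Y := by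
  unfold gs_Sys.eq
  rw [List.getD_eq_default _ _ h]

theorem gw_eq_mem {S : gs_Sys Y} {e : ℕ} (h : e < S.eqs.length) : S.eq e ∈ S.eqs := by
  rw [gw_eq_of_lt h]
  exact List.getElem_mem h

theorem gw_mem_eqs_iff {S : gs_Sys Y} {E : gs_Eqn Y} :
    E ∈ S.eqs ↔ ∃ e, e < S.eqs.length ∧ S.eq e = E := by
  constructor
  · intro h
    obtain ⟨e, h0, h1⟩ := List.getElem_of_mem h
    exact ⟨e, h0, by rw [gw_eq_of_lt h0, h1]⟩
  · rintro ⟨e, h0, rfl⟩
    exact gw_eq_mem h0

/-- a position with a letter is in range -/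
theorem gw_lt_of_at {S : gs_Sys Y} {e i : ℕ} {l : gs_Letter Y} (h : (S.eq e).ls[i]? = some l) :
    e < S.eqs.length ∧ i < (S.eq e).ls.length := by
  have hi : i < (S.eq e).ls.length := by
    by_contra hc
    rw [List.getElem?_eq_none (by omega)] at h
    cases h
  refine ⟨?_, hi⟩
  by_contra hc
  rw [gw_eq_of_le (by omega)] at hi
  simp [gs_Eqn.triv] at hi

theorem gw_split_of_at {α : Type*} {ls : List α} {i : ℕ} {l : α} (h : ls[i]? = some l) :
    ls = ls.take i ++ l :: ls.drop (i + 1) := by
  obtain ⟨hi, rfl⟩ := List.getElem?_eq_some_iff.1 h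
  rw [List.getElem_cons_drop, List.take_append_drop]

theorem gw_eq_set (sig : Y → gs_Sig) (L : List (gs_Eqn Y)) (e e' : ℕ) (E : gs_Eqn Y) :
    (⟨sig, L.set e E⟩ : gs_Sys Y).eq e' =
      if e' = e ∧ e < L.length then E else (⟨sig, L⟩ : gs_Sys Y).eq e' := by
  unfold gs_Sys.eq
  simp only [List.getD_eq_getElem?_getD, List.getElem?_set]
  by_cases h : e = e'
  · subst h
    by_cases h2 : e < L.length
    · simp [h2]
    · simp [h2]
  · have h' : ¬ e' = e := fun h'' => h h''.symm
    simp [h, h']

/-- the equations do not depend on the signature -/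
theorem gw_eq_sig (sig sig' : Y → gs_Sig) (L : List (gs_Eqn Y)) (e : ℕ) :
    (⟨sig, L⟩ : gs_Sys Y).eq e = (⟨sig', L⟩ : gs_Sys Y).eq e := rfl

/-- sums over `List.set` -/
theorem gw_sum_set {α M : Type*} [AddCommMonoid M] (f : α → M) (L : List α) {e : ℕ} (h : e < L.length)
    (a : α) : ((L.set e a).map f).sum + f L[e] = (L.map f).sum + f a := by
  induction L generalizing e with
  | nil => simp at h
  | cons b L ih =>
    cases e with
    | zero =>
      simp only [List.set_cons_zero, List.map_cons, List.sum_cons, List.getElem_cons_zero]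
      abel
    | succ e =>
      have := ih (e := e) (by simpa using h)
      simp only [List.set_cons_succ, List.map_cons, List.sum_cons, List.getElem_cons_succ]
      rw [add_assoc, this, add_assoc]

theorem gw_count_occ [DecidableEq Y] (S : gs_Sys Y) (inv : Bool) (z : Y) :
    (S.occ inv).count z = (S.eqs.map fun E => (gs_occL inv E.ls).count z).sum := by
  unfold gs_Sys.occ
  rw [List.count_flatMap]
  rfl

theorem gw_mem_occ {S : gs_Sys Y} {inv : Bool} {y : Y} :
    y ∈ S.occ inv ↔ ∃ e i o : ℕ, (S.eq e).ls[i]? = some (gs_Letter.G inv y o) := by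
  unfold gs_Sys.occ
  simp only [List.mem_flatMap, gw_mem_occL]
  constructor
  · rintro ⟨E, hE, o, ho⟩
    obtain ⟨e, -, rfl⟩ := gw_mem_eqs_iff.1 hE
    obtain ⟨i, hi, h⟩ := List.getElem_of_mem ho
    exact ⟨e, i, o, by rw [List.getElem?_eq_getElem hi, h]⟩
  · rintro ⟨e, i, o, h⟩
    exact ⟨S.eq e, gw_eq_mem (gw_lt_of_at h).1, o, List.mem_of_getElem? h⟩

theorem gs_Sys.WF.sigOK {N : ℕ} {R : Subring ℂ} {S : gs_Sys Y} (h : S.WF N R) : gw_SigOK S.sig :=
  fun y => ⟨h.sig_s y, h.sig_t y⟩

/-- every equation (also out of range) of a well-formed system is well formed -/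
theorem gs_Sys.WF.eq_wf {N : ℕ} {R : Subring ℂ} {S : gs_Sys Y} (h : S.WF N R) (e : ℕ) :
    (S.eq e).WF S.sig N R := by
  by_cases he : e < S.eqs.length
  · exact h.eqn _ (gw_eq_mem he)
  · rw [gw_eq_of_le (by omega)]
    exact gw_triv_wf N R

theorem gs_Sys.WF.nodup' {N : ℕ} {R : Subring ℂ} {S : gs_Sys Y} (h : S.WF N R) (inv : Bool) :
    (S.occ inv).Nodup := by
  cases inv
  · exact h.nodup
  · exact h.perm.nodup_iff.1 h.nodup

/-- two values of a list of naturals at different places are bounded by the sum -/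
theorem gw_add_le_sum {α : Type*} (f : α → ℕ) (L : List α) {e e' : ℕ} (h : e < L.length)
    (h' : e' < L.length) (hne : e ≠ e') : f L[e] + f L[e'] ≤ (L.map f).sum := by
  induction L generalizing e e' with
  | nil => simp at h
  | cons b L ih =>
    have single : ∀ {k : ℕ} (hk : k < L.length), f L[k] ≤ (L.map f).sum := fun {k} hk =>
      List.single_le_sum (by simp) _ (List.mem_map_of_mem (List.getElem_mem hk))
    cases e with
    | zero =>
      cases e' with
      | zero => exact absurd rfl hne
      | succ e' =>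
        simp only [List.getElem_cons_zero, List.getElem_cons_succ, List.map_cons, List.sum_cons]
        exact Nat.add_le_add_left (single _) _
    | succ e =>
      cases e' with
      | zero =>
        simp only [List.getElem_cons_zero, List.getElem_cons_succ, List.map_cons, List.sum_cons]
        rw [add_comm]
        exact Nat.add_le_add_left (single _) _
      | succ e' =>
        simp only [List.getElem_cons_succ, List.map_cons, List.sum_cons]
        exact (ih (by simpa using h) (by simpa using h') (by omega)).trans (Nat.le_add_left _ _)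

/-- a letter `G inv y` occurs at one place only -/
theorem gs_Sys.WF.at_unique {N : ℕ} {R : Subring ℂ} {S : gs_Sys Y} (h : S.WF N R) {inv : Bool} {y : Y}
    {e i o e' i' o' : ℕ} (h1 : (S.eq e).ls[i]? = some (.G inv y o))
    (h2 : (S.eq e').ls[i']? = some (.G inv y o')) : e = e' ∧ i = i' ∧ o = o' := by
  classical
  have hcount : (S.occ inv).count y ≤ 1 := List.nodup_iff_count_le_one.1 (h.nodup' inv) y
  rw [gw_count_occ] at hcount
  have hpos : ∀ {e i o : ℕ}, (S.eq e).ls[i]? = some (.G inv y o) →
      1 ≤ (gs_occL inv (S.eq e).ls).count y := fun {e i o} h =>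
    List.count_pos_iff.2 (gw_mem_occL.2 ⟨o, List.mem_of_getElem? h⟩)
  have he : e = e' := by
    by_contra hne
    have := gw_add_le_sum (fun E : gs_Eqn Y => (gs_occL inv E.ls).count y) S.eqs (gw_lt_of_at h1).1
      (gw_lt_of_at h2).1 hne
    have a1 := hpos h1
    have a2 := hpos h2
    rw [gw_eq_of_lt (gw_lt_of_at h1).1] at a1
    rw [gw_eq_of_lt (gw_lt_of_at h2).1] at a2
    omega
  subst he
  have hle : (gs_occL inv (S.eq e).ls).count y ≤ 1 := by
    refine le_trans ?_ hcount
    exact List.single_le_sum (by simp) _ (List.mem_map_of_mem (f := fun E : gs_Eqn Y =>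
      (gs_occL inv E.ls).count y) (gw_eq_mem (gw_lt_of_at h1).1))
  have key : ∀ {i i' o o' : ℕ}, (S.eq e).ls[i]? = some (.G inv y o) →
      (S.eq e).ls[i']? = some (.G inv y o') → ¬ i < i' := by
    intro i i' o o' h1 h2 hlt
    have hs := gw_split_of_at h1
    have hmem : gs_Letter.G inv y o' ∈ (S.eq e).ls.drop (i + 1) := by
      apply List.mem_of_getElem? (i := i' - (i + 1))
      rw [List.getElem?_drop]
      have : i + 1 + (i' - (i + 1)) = i' := by omega
      rw [this, h2]
    rw [hs, gw_occL_append, gw_occL_cons_self, List.count_append, List.count_cons_self] at hle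
    have : 1 ≤ (gs_occL inv ((S.eq e).ls.drop (i + 1))).count y :=
      List.count_pos_iff.2 (gw_mem_occL.2 ⟨o', hmem⟩)
    omega
  have hi : i = i' := by
    have a := key h1 h2
    have b := key h2 h1
    omega
  subst hi
  rw [h1] at h2
  simp only [Option.some.injEq, gs_Letter.G.injEq, true_and] at h2
  exact ⟨rfl, rfl, h2⟩

/-- the partner of a letter -/
theorem gs_Sys.WF.exists_partner {N : ℕ} {R : Subring ℂ} {S : gs_Sys Y} (h : S.WF N R) {inv : Bool}
    {y : Y} {e i o : ℕ} (h1 : (S.eq e).ls[i]? = some (.G inv y o)) :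
    ∃ e' i' o' : ℕ, (S.eq e').ls[i']? = some (gs_Letter.G (!inv) y o') := by
  have hm : y ∈ S.occ inv := gw_mem_occ.2 ⟨e, i, o, h1⟩
  apply gw_mem_occ.1
  cases inv
  · exact h.perm.mem_iff.1 hm
  · exact h.perm.mem_iff.2 hm

/-- typing of the letter at a position -/
theorem gs_Sys.WF.app_at {N : ℕ} {R : Subring ℂ} {S : gs_Sys Y} (h : S.WF N R) {e i : ℕ}
    {l : gs_Letter Y} (h1 : (S.eq e).ls[i]? = some l) :
    gs_app S.sig (S.eq e).rk (S.frame e i) l := by
  obtain ⟨hi, rfl⟩ := List.getElem?_eq_some_iff.1 h1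
  exact (h.eq_wf e).app i hi

/-- a letter of the rank of its equation sits at offset `0` -/
theorem gs_Sys.WF.offset_zero {N : ℕ} {R : Subring ℂ} {S : gs_Sys Y} (h : S.WF N R) {inv : Bool}
    {y : Y} {e i o : ℕ} (h1 : (S.eq e).ls[i]? = some (.G inv y o)) (hr : (S.eq e).rk ≤ (S.sig y).rk) :
    o = 0 ∧ (S.eq e).rk = (S.sig y).rk := by
  have h2 : gs_midOK (S.frame e i) o (S.sig y).rk ((S.sig y).src inv) := h.app_at h1
  have h3 := ((h.eq_wf e).fr h.sigOK i).2.2 _ h2.2.2.1
  omega

/-- `AllImp` in recursive form -/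
theorem gw_allImp_iff (sig : Y → gs_Sig) (E : gs_Eqn Y) :
    E.AllImp sig ↔ ¬ gs_Proper E.rk E.K0 ∧
      gw_All sig (fun _ K l => ¬ gs_Proper E.rk (gs_step sig K l)) 0 E.K0 E.ls := by
  rw [gw_all_iff]
  constructor
  · intro h
    refine ⟨by simpa using h 0 (Nat.zero_le _), fun r hr => ?_⟩
    rw [← gw_frame_succ _ _ hr]
    exact h (r + 1) hr
  · rintro ⟨h0, h1⟩ i hi
    cases i with
    | zero => simpa using h0
    | succ r =>
      rw [gw_frame_succ _ _ hi]
      exact h1 r hi

/-- `AllProp` in recursive form -/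
theorem gw_allProp_iff (sig : Y → gs_Sig) (E : gs_Eqn Y) :
    E.AllProp sig ↔ gs_Proper E.rk E.K0 ∧
      gw_All sig (fun _ K l => gs_Proper E.rk (gs_step sig K l)) 0 E.K0 E.ls := by
  rw [gw_all_iff]
  constructor
  · intro h
    refine ⟨by simpa using h 0 (Nat.zero_le _), fun r hr => ?_⟩
    rw [← gw_frame_succ _ _ hr]
    exact h (r + 1) hr
  · rintro ⟨h0, h1⟩ i hi
    cases i with
    | zero => simpa using h0
    | succ r =>
      rw [gw_frame_succ _ _ hi]
      exact h1 r hi

end sys

end Claimed.Agent.R236
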