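import Mathlib
import Claimed.Agent.R236.GSteps
import Claimed.Agent.R236.GWord
import Claimed.Agent.R236.GMatUni

/-!
# Row 236, Model G2: improper frames (owner helper95, prefix gim_)

At the improper frame `{0,n}` the only typed letters which are not letters of a variable of rank `n`
("junk") are: variables of rank `0`, swaps with an empty block, scalars.  They do not change the frame,
their matrices are scalar on the `n`-corner (`gim_D`), hence central among the corner matrices; after
`gim_clean` (swaps are replaced by the pad `L 1`) they are typed at EVERY frame of rank `n`.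
-/

set_option autoImplicit false

namespace Claimed.Agent.R236

section frames
variable {Y : Type} {sig : Y → gs_Sig}

theorem gim_eq {n : ℕ} {K : Finset ℕ} (hK : gw_Fr n K) (h : ¬ gs_Proper n K) : K = {0, n} := by
  obtain ⟨h0, hn, hle⟩ := hK
  ext d
  simp only [Finset.mem_insert, Finset.mem_singleton]
  constructor
  · intro hd
    by_contra hc
    push Not at hc
    exact h ⟨d, hd, by omega, by have := hle d hd; omega⟩
  · rintro (rfl | rfl) <;> assumption

theorem gim_not_proper (n : ℕ) : ¬ gs_Proper n {0, n} := by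
  rintro ⟨c, hc, h1, h2⟩
  simp at hc
  omega

theorem gim_fr (n : ℕ) : gw_Fr n {0, n} := by
  refine ⟨by simp, by simp, ?_⟩
  intro d hd
  simp at hd
  omega

theorem gim_cutRepl {n o m c : ℕ} (ho : o = 0 ∨ o = n) (hm : o + m = 0 ∨ o + m = n)
    (hc : o + c = 0 ∨ o + c = n) : gs_cutRepl {0, n} o m c = {0, n} := by
  ext d
  simp only [gs_cutRepl, Finset.mem_insert, Finset.mem_filter, Finset.mem_singleton]
  omega

theorem gim_cutRepl_zero {K : Finset ℕ} {o : ℕ} (ho : o ∈ K) : gs_cutRepl K o 0 0 = K := by
  ext d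
  simp only [gs_cutRepl, Finset.mem_insert, Finset.mem_filter, add_zero]
  constructor
  · rintro (rfl | h)
    · exact ho
    · exact h.1
  · intro h
    exact Or.inr ⟨h, by omega⟩

/-- the pad -/
def gim_pad (Y : Type) : gs_Letter Y := .L fun _ => 1

/-- swaps are replaced by pads -/
def gim_clean : gs_Letter Y → gs_Letter Y
  | .S _ _ _ => gim_pad Y
  | l => l

/-- a junk variable at the improper frame has rank `0` and sits at `0` or `n` -/
theorem gim_junk_rk {n : ℕ} {inv : Bool} {z : Y} {o : ℕ} (hl : gs_app sig n {0, n} (.G inv z o))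
    (hj : gt_Junk sig n (.G inv z o)) : (sig z).rk = 0 ∧ (o = 0 ∨ o = n) := by
  obtain ⟨h1, _, h3, _, _⟩ := hl
  simp only [Finset.mem_insert, Finset.mem_singleton] at h1 h3
  have : (sig z).rk ≠ n := hj
  omega

theorem gim_junk_step (hs : gw_SigOK sig) {n : ℕ} {l : gs_Letter Y} (hl : gs_app sig n {0, n} l)
    (hj : gt_Junk sig n l) : gs_step sig {0, n} l = {0, n} := by
  cases l with
  | G inv z o =>
    obtain ⟨h1, h2⟩ := gim_junk_rk hl hj
    have h3 := hs.tgt_le z inv
    exact gim_cutRepl h2 (by omega) (by omega)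
  | S o a b =>
    obtain ⟨h1, h2, h3, _, _⟩ := hl
    simp only [Finset.mem_insert, Finset.mem_singleton] at h1 h2 h3
    exact gim_cutRepl h1 (by omega) (by omega)
  | L lam => rfl

theorem gim_pad_app (n : ℕ) (K : Finset ℕ) : gs_app sig n K (gim_pad Y) :=
  ⟨fun _ _ _ => rfl, fun _ _ => rfl⟩

theorem gim_pad_step (K : Finset ℕ) : gs_step sig K (gim_pad Y) = K := rfl

theorem gim_clean_app (hs : gw_SigOK sig) {n : ℕ} {l : gs_Letter Y} (hl : gs_app sig n {0, n} l)
    (hj : gt_Junk sig n l) {K' : Finset ℕ} (hK' : gw_Fr n K') :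
    gs_app sig n K' (gim_clean l) ∧ gs_step sig K' (gim_clean l) = K' := by
  cases l with
  | G inv z o =>
    obtain ⟨h1, h2⟩ := gim_junk_rk hl hj
    have h3 := hs.tgt_le z inv
    have h4 := hs.src_le z inv
    have ho : o ∈ K' := by
      rcases h2 with rfl | rfl
      · exact hK'.1
      · exact hK'.2.1
    have h5 : (sig z).tgt inv = 0 := by omega
    have h6 : (sig z).src inv = 0 := by omega
    constructor
    · simp only [gim_clean, gs_app, h1, h6]
      exact ⟨ho, ho, ho, le_rfl, fun d _ _ _ => by omega⟩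
    · simp only [gim_clean, gs_step, h1, h5]
      exact gim_cutRepl_zero ho
  | S o a b => exact ⟨gim_pad_app n K', rfl⟩
  | L lam =>
    refine ⟨⟨fun j h1 _ => hl.1 j h1 ?_, hl.2⟩, rfl⟩
    simp only [Finset.mem_insert, Finset.mem_singleton]
    omega

/-- junk words do not change the improper frame -/
theorem gim_junk_typed (hs : gw_SigOK sig) {n : ℕ} {J : List (gs_Letter Y)} {K : Finset ℕ}
    (hJ : gw_Typed sig n {0, n} J K) (hj : ∀ l ∈ J, gt_Junk sig n l) : K = {0, n} := by
  induction J with
  | nil => exact hJ.2.symm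
  | cons l J ih =>
    rw [gw_typed_cons] at hJ
    rw [gim_junk_step hs hJ.1 (hj l (by simp))] at hJ
    exact ih hJ.2 fun l' hl' => hj l' (by simp [hl'])

theorem gim_junk_frame (hs : gw_SigOK sig) {n : ℕ} {J : List (gs_Letter Y)} {K : Finset ℕ}
    (hJ : gw_Typed sig n {0, n} J K) (hj : ∀ l ∈ J, gt_Junk sig n l) (i : ℕ) :
    gs_frame sig {0, n} J i = {0, n} :=
  gim_junk_typed hs (hJ.take i) fun l hl => hj l (List.mem_of_mem_take hl)

/-- every letter of a junk word is typed at the improper frame -/
theorem gim_junk_app (hs : gw_SigOK sig) {n : ℕ} {J : List (gs_Letter Y)} {K : Finset ℕ}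
    (hJ : gw_Typed sig n {0, n} J K) (hj : ∀ l ∈ J, gt_Junk sig n l) :
    ∀ l ∈ J, gs_app sig n {0, n} l := by
  intro l hl
  obtain ⟨i, hi, rfl⟩ := List.getElem_of_mem hl
  have := ((gw_typed_iff n _ _ J).1 hJ).1 i hi
  rwa [gim_junk_frame hs hJ hj] at this

/-- cleaned junk words are typed at every frame and do not change it -/
theorem gim_clean_typed (hs : gw_SigOK sig) {n : ℕ} {J : List (gs_Letter Y)}
    (hJ : ∀ l ∈ J, gs_app sig n {0, n} l) (hj : ∀ l ∈ J, gt_Junk sig n l) {K' : Finset ℕ}
    (hK' : gw_Fr n K') : gw_Typed sig n K' (J.map gim_clean) K' := by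
  induction J with
  | nil => exact ⟨trivial, rfl⟩
  | cons l J ih =>
    rw [List.map_cons, gw_typed_cons]
    obtain ⟨h1, h2⟩ := gim_clean_app hs (hJ l (by simp)) (hj l (by simp)) hK'
    rw [h2]
    exact ⟨h1, ih (fun l' hl' => hJ l' (by simp [hl'])) fun l' hl' => hj l' (by simp [hl'])⟩

theorem gim_clean_frame (hs : gw_SigOK sig) {n : ℕ} {J : List (gs_Letter Y)}
    (hJ : ∀ l ∈ J, gs_app sig n {0, n} l) (hj : ∀ l ∈ J, gt_Junk sig n l) {K' : Finset ℕ}
    (hK' : gw_Fr n K') (i : ℕ) : gs_frame sig K' (J.map gim_clean) i = K' := by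
  rw [gw_frame_eq, ← List.map_take]
  exact (gim_clean_typed hs (fun l hl => hJ l (List.mem_of_mem_take hl))
    (fun l hl => hj l (List.mem_of_mem_take hl)) hK').2

theorem gim_occL_clean (inv : Bool) (J : List (gs_Letter Y)) :
    gs_occL inv (J.map gim_clean) = gs_occL inv J := by
  induction J with
  | nil => rfl
  | cons l J ih =>
    cases l with
    | G i z o =>
      simp only [List.map_cons, gim_clean, gs_occL, ih]
    | S o a b => simpa [gim_clean, gim_pad, gs_occL] using ih
    | L lam => simpa [gim_clean, gs_occL] using ih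

/-- the scalars of a cleaned word -/
theorem gim_mem_clean {lam : ℕ → ℂ} {J : List (gs_Letter Y)}
    (h : gs_Letter.L lam ∈ J.map gim_clean) : gs_Letter.L lam ∈ J ∨ lam = fun _ => 1 := by
  obtain ⟨l, hl, h1⟩ := List.mem_map.1 h
  cases l with
  | G i z o => simp [gim_clean] at h1
  | S o a b =>
    simp only [gim_clean, gim_pad, gs_Letter.L.injEq] at h1
    exact Or.inr h1.symm
  | L lam' =>
    simp only [gim_clean, gs_Letter.L.injEq] at h1
    subst h1
    exact Or.inl hl

theorem gim_mem_clean_G {inv : Bool} {z : Y} {o : ℕ} {J : List (gs_Letter Y)}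
    (h : gs_Letter.G inv z o ∈ J.map gim_clean) : gs_Letter.G inv z o ∈ J := by
  obtain ⟨l, hl, h1⟩ := List.mem_map.1 h
  cases l with
  | G i z' o' =>
    simp only [gim_clean] at h1
    rw [← h1]
    exact hl
  | S o a b => simp [gim_clean, gim_pad] at h1
  | L lam' => simp [gim_clean] at h1

end frames

section matrices
variable {Y : Type} {sig : Y → gs_Sig} {N : ℕ}

/-- scalar on the `n`-corner -/
def gim_D (N n : ℕ) (c : ℂ) : gs_Mat N := Matrix.diagonal fun j => if (j : ℕ) < n then c else 1

theorem gim_D_one (n : ℕ) : gim_D N n 1 = 1 := by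
  simp [gim_D]

theorem gim_D_commute {n : ℕ} (c : ℂ) {M : gs_Mat N} (hM : gs_IsCorner n M) :
    Commute (gim_D N n c) M := by
  unfold Commute SemiconjBy
  ext i j
  rw [gim_D, Matrix.diagonal_mul, Matrix.mul_diagonal]
  by_cases hi : (i : ℕ) < n <;> by_cases hj : (j : ℕ) < n
  · simp [hi, hj, mul_comm]
  · rw [hM i j (Or.inr (by omega))]
    have : i ≠ j := by rintro rfl; exact hj hi
    simp [this]
  · rw [hM i j (Or.inl (by omega))]
    have : i ≠ j := by rintro rfl; exact hi hj
    simp [this]
  · simp [hi, hj]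

theorem gim_pad_lmat (x : gs_Pt Y N) : gs_lmat x (gim_pad Y) = 1 := by
  simp [gim_pad, gs_lmat]

theorem gim_swapMat_one {o a b : ℕ} (h : a = 0 ∨ b = 0) : (gs_swapMat o a b : gs_Mat N) = 1 := by
  ext r c
  have : gs_swapFn o a b r = r := by
    unfold gs_swapFn
    split_ifs <;> omega
  simp only [gs_swapMat, this, Matrix.one_apply, Fin.ext_iff]

/-- the matrix of a junk letter at the improper frame is scalar on the corner -/
theorem gim_junk_lmat {x : gs_Pt Y N} {n : ℕ} {l : gs_Letter Y}
    (hx : ∀ inv z o, l = .G inv z o → gs_IsCorner (sig z).rk (x (.inl z)))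
    (hl : gs_app sig n {0, n} l) (hj : gt_Junk sig n l) : ∃ c, gs_lmat x l = gim_D N n c := by
  cases l with
  | G inv z o =>
    obtain ⟨h1, _⟩ := gim_junk_rk hl hj
    have h2 := hx inv z o rfl
    rw [h1, gm_corner_zero_iff] at h2
    refine ⟨1, ?_⟩
    rw [gim_D_one]
    cases inv <;> simp [gs_lmat, h2, gm_emb_one]
  | S o a b =>
    obtain ⟨h1, h2, h3, _, _⟩ := hl
    simp only [Finset.mem_insert, Finset.mem_singleton] at h1 h2 h3
    refine ⟨1, ?_⟩
    rw [gim_D_one]
    exact gim_swapMat_one (by omega)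
  | L lam =>
    refine ⟨lam 0, ?_⟩
    have hc : ∀ j, j < n → lam j = lam 0 := by
      intro j
      induction j with
      | zero => intro _; rfl
      | succ j ih =>
        intro hj'
        rw [← ih (by omega)]
        refine (hl.1 j hj' ?_).symm
        simp only [Finset.mem_insert, Finset.mem_singleton]
        omega
    simp only [gs_lmat, gim_D]
    congr 1
    funext j
    split_ifs with h
    · exact hc _ h
    · exact hl.2 _ (by omega)

theorem gim_clean_lmat {x : gs_Pt Y N} {n : ℕ} {l : gs_Letter Y}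
    (hl : gs_app sig n {0, n} l) : gs_lmat x (gim_clean l) = gs_lmat x l := by
  cases l with
  | G inv z o => rfl
  | S o a b =>
    obtain ⟨h1, h2, h3, _, _⟩ := hl
    simp only [Finset.mem_insert, Finset.mem_singleton] at h1 h2 h3
    rw [gim_clean, gim_pad_lmat]
    exact (gim_swapMat_one (by omega)).symm
  | L lam => rfl

/-- product of the unipotents with the indices `i, …, i + len - 1` of the equation `e` -/
noncomputable def gim_U (x : gs_Pt Y N) (e : ℕ) : ℕ → ℕ → gs_Mat N
  | _, 0 => 1
  | i, len + 1 => x (.inr (e, i)) * gim_U x e (i + 1) len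

/-- product of the matrices of the letters -/
noncomputable def gim_C (x : gs_Pt Y N) (W : List (gs_Letter Y)) : gs_Mat N :=
  (W.map (gs_lmat x)).prod

theorem gim_C_nil (x : gs_Pt Y N) : gim_C x [] = 1 := rfl

theorem gim_C_cons (x : gs_Pt Y N) (l : gs_Letter Y) (W : List (gs_Letter Y)) :
    gim_C x (l :: W) = gs_lmat x l * gim_C x W := by
  simp [gim_C]

theorem gim_C_append (x : gs_Pt Y N) (W W' : List (gs_Letter Y)) :
    gim_C x (W ++ W') = gim_C x W * gim_C x W' := by
  simp [gim_C]

theorem gim_C_congr {x x' : gs_Pt Y N} {W : List (gs_Letter Y)}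
    (h : ∀ l ∈ W, gs_lmat x' l = gs_lmat x l) : gim_C x' W = gim_C x W := by
  unfold gim_C
  rw [List.map_congr_left h]

theorem gim_val_triv (x : gs_Pt Y N) (e i : ℕ) (W : List (gs_Letter Y))
    (hu : ∀ r, r < W.length → x (.inr (e, i + r)) = 1) : gs_val x e i W = gim_C x W := by
  induction W generalizing i with
  | nil => rfl
  | cons l W ih =>
    rw [gw_val_cons, gim_C_cons, ih (i + 1)]
    · have := hu 0 (by simp)
      rw [Nat.add_zero] at this
      rw [this, mul_one]
    · intro r hr
      have := hu (r + 1) (by simpa using hr)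
      rwa [show i + (r + 1) = i + 1 + r by omega] at this

theorem gim_C_central {x : gs_Pt Y N} {n : ℕ} {W : List (gs_Letter Y)}
    (hc : ∀ l ∈ W, ∃ c, gs_lmat x l = gim_D N n c) {M : gs_Mat N} (hM : gs_IsCorner n M) :
    Commute (gim_C x W) M := by
  induction W with
  | nil => exact Commute.one_left M
  | cons l W ih =>
    rw [gim_C_cons]
    obtain ⟨c, h⟩ := hc l (by simp)
    rw [h]
    exact (gim_D_commute c hM).mul_left (ih fun l' hl' => hc l' (by simp [hl']))

theorem gim_val_central {x : gs_Pt Y N} (e i n : ℕ) {W : List (gs_Letter Y)}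
    (hc : ∀ l ∈ W, ∃ c, gs_lmat x l = gim_D N n c)
    (hu : ∀ r, r < W.length → gs_IsCorner n (x (.inr (e, i + r)))) :
    gs_val x e i W = gim_C x W * gim_U x e i W.length := by
  induction W generalizing i with
  | nil => simp [gs_val, gim_C, gim_U]
  | cons l W ih =>
    have h0 := hu 0 (by simp)
    rw [Nat.add_zero] at h0
    have hc' : ∀ l' ∈ W, ∃ c, gs_lmat x l' = gim_D N n c := fun l' hl' => hc l' (by simp [hl'])
    rw [gw_val_cons, gim_C_cons, List.length_cons, gim_U, ih (i + 1) hc']
    · have := (gim_C_central hc' h0).eq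
      simp only [mul_assoc]
      rw [← mul_assoc (x _) (gim_C x W), ← this]
      simp only [mul_assoc]
    · intro r hr
      have := hu (r + 1) (by simpa using hr)
      rwa [show i + (r + 1) = i + 1 + r by omega] at this

theorem gim_U_uni {x : gs_Pt Y N} {e n : ℕ} {K : Finset ℕ} (i len : ℕ)
    (h : ∀ r, r < len → gs_IsUni n K (x (.inr (e, i + r)))) : gs_IsUni n K (gim_U x e i len) := by
  induction len generalizing i with
  | zero => exact gm_uni_one n K
  | succ len ih =>
    rw [gim_U]
    refine gm_uni_mul ?_ (ih (i + 1) fun r hr => ?_)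
    · simpa using h 0 (by omega)
    · have := h (r + 1) (by omega)
      rwa [show i + (r + 1) = i + 1 + r by omega] at this

theorem gim_U_last {x : gs_Pt Y N} {e : ℕ} (i len : ℕ)
    (h : ∀ r, r < len → x (.inr (e, i + r)) = 1) :
    gim_U x e i (len + 1) = x (.inr (e, i + len)) := by
  induction len generalizing i with
  | zero => simp [gim_U]
  | succ len ih =>
    rw [gim_U, ih (i + 1)]
    · have := h 0 (by omega)
      rw [Nat.add_zero] at this
      rw [this, one_mul, show i + 1 + len = i + (len + 1) by omega]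
    · intro r hr
      have := h (r + 1) (by omega)
      rwa [show i + (r + 1) = i + 1 + r by omega] at this

theorem gim_U_congr {x x' : gs_Pt Y N} {e : ℕ} (i len : ℕ)
    (h : ∀ r, r < len → x' (.inr (e, i + r)) = x (.inr (e, i + r))) :
    gim_U x' e i len = gim_U x e i len := by
  induction len generalizing i with
  | zero => rfl
  | succ len ih =>
    rw [gim_U, gim_U, ih (i + 1)]
    · have := h 0 (by omega)
      rw [Nat.add_zero] at this
      rw [this]
    · intro r hr
      have := h (r + 1) (by omega)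
      rwa [show i + (r + 1) = i + 1 + r by omega] at this

/-- regularity of the product of unipotents -/
theorem gim_U_reg {P : Type} {κ : Type} {R : Subring ℂ} {c : κ → P → ℂ} {T : Set P}
    {π : P → gs_Pt Y N} (e : ℕ) (h : ∀ i, rg_MatOn R c T fun w => π w (.inr (e, i))) (i len : ℕ) :
    rg_MatOn R c T fun w => gim_U (π w) e i len := by
  induction len generalizing i with
  | zero => exact rg_MatOn.one
  | succ len ih => exact (h i).mul (ih (i + 1))

end matrices

end Claimed.Agent.R236
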