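import Mathlib
import Claimed.Agent.R236.GSteps
import Claimed.Agent.R236.GWord

/-!
# Row 236, Model G2: replacing one equation and the signature of one variable (owner helper95, prefix gx_)

Generic layer for the operations which change ONE equation `e0` and the signature of ONE variable `y`
both of whose letters lie in `e0` (CANCEL, SLIDE, pads, empty equations).

* `gx_Rel S S' e0 y` : the two systems agree outside of `e0` and `y` (symmetric);
  `gx_sol_of` : transport of solutions: only the conditions on `y` and on `e0` have to be checked.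
* `gx_repl S e0 E' y σ` : the concrete replacement; `gx_repl_wf`, `gx_repl_noImp`, `gx_repl_rkLe`,
  `gx_repl_en`, `gx_repl_sum_drop`, `gx_repl_sum_keep` (measures).
-/

set_option autoImplicit false

namespace Claimed.Agent.R236

section rel
variable {Y : Type}

/-- the two systems agree outside of the equation `e0` and the variable `y` -/
structure gx_Rel (S S' : gs_Sys Y) (e0 : ℕ) (y : Y) : Prop where
  sig : ∀ z, z ≠ y → S'.sig z = S.sig z
  eq : ∀ e, e ≠ e0 → S'.eq e = S.eq e
  free : ∀ e, e ≠ e0 → gw_Free y (S.eq e).ls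

variable {S S' : gs_Sys Y} {e0 : ℕ} {y : Y}

theorem gx_Rel.symm (h : gx_Rel S S' e0 y) : gx_Rel S' S e0 y :=
  ⟨fun z hz => (h.sig z hz).symm, fun e he => (h.eq e he).symm,
    fun e he => by rw [h.eq e he]; exact h.free e he⟩

theorem gx_Rel.agree (h : gx_Rel S S' e0 y) {e : ℕ} (he : e ≠ e0) :
    ∀ inv z o, gs_Letter.G inv z o ∈ (S.eq e).ls → S'.sig z = S.sig z := by
  intro inv z o hz
  apply h.sig
  rintro rfl
  exact h.free e he _ _ hz

theorem gx_Rel.frame (h : gx_Rel S S' e0 y) {e : ℕ} (he : e ≠ e0) (i : ℕ) :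
    S'.frame e i = S.frame e i := by
  unfold gs_Sys.frame
  rw [h.eq e he]
  exact gw_frame_congr (h.agree he) _ _

theorem gx_Rel.urk (h : gx_Rel S S' e0 y) {e : ℕ} (he : e ≠ e0) (i : ℕ) :
    S'.urk e i = S.urk e i := by
  unfold gs_Sys.urk
  rw [h.eq e he]

/-- transport of solutions: only `y` and `e0` have to be checked -/
theorem gx_sol_of {N : ℕ} (h : gx_Rel S S' e0 y) {x x' : gs_Pt Y N} (hx' : x' ∈ gs_Sol N S')
    (hv : ∀ z, z ≠ y → x (.inl z) = x' (.inl z))
    (hu : ∀ e, e ≠ e0 → ∀ i, x (.inr (e, i)) = x' (.inr (e, i)))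
    (h1 : IsUnit (x (.inl y)).det ∧ gs_IsCorner (S.sig y).rk (x (.inl y)))
    (h2 : ∀ i, gs_IsUni (S.urk e0 i) (S.frame e0 (i + 1)) (x (.inr (e0, i))))
    (h3 : gs_val x e0 0 (S.eq e0).ls = 1) : x ∈ gs_Sol N S := by
  obtain ⟨a1, a2, a3⟩ := hx'
  refine ⟨?_, ?_, ?_⟩
  · intro z
    by_cases hz : z = y
    · subst hz; exact h1
    · rw [hv z hz, ← h.sig z hz]
      exact a1 z
  · intro e i
    by_cases he : e = e0
    · subst he; exact h2 i
    · rw [hu e he, ← h.urk he, ← h.frame he]
      exact a2 e i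
  · intro e
    by_cases he : e = e0
    · subst he; exact h3
    · rw [← a3 e, h.eq e he]
      refine gw_val_congr e e 0 0 _ (fun l hl => gw_lmat_congr fun inv z o hz => ?_)
        (fun r _ => hu e he _)
      apply hv
      rintro rfl
      subst hz
      exact h.free e he _ _ hl

end rel

section wfcongr
variable {Y : Type} {sig sig' : Y → gs_Sig}

theorem gx_wf_congr {N : ℕ} {R : Subring ℂ} {E : gs_Eqn Y}
    (h : ∀ inv z o, gs_Letter.G inv z o ∈ E.ls → sig' z = sig z) :
    E.WF sig' N R ↔ E.WF sig N R := by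
  rw [gw_wf_iff, gw_wf_iff, gw_typed_congr h]

theorem gx_allImp_congr {E : gs_Eqn Y}
    (h : ∀ inv z o, gs_Letter.G inv z o ∈ E.ls → sig' z = sig z) :
    E.AllImp sig' ↔ E.AllImp sig := by
  unfold gs_Eqn.AllImp
  simp only [gw_frame_congr h]

end wfcongr

section repl
variable {Y : Type}

open Classical in
/-- replace the equation `e0` by `E'` and the signature of `y` by `σ` -/
noncomputable def gx_repl (S : gs_Sys Y) (e0 : ℕ) (E' : gs_Eqn Y) (y : Y) (σ : gs_Sig) : gs_Sys Y :=
  ⟨Function.update S.sig y σ, S.eqs.set e0 E'⟩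

variable {S : gs_Sys Y} {e0 : ℕ} {E' : gs_Eqn Y} {y : Y} {σ : gs_Sig}

theorem gx_repl_sig_self : (gx_repl S e0 E' y σ).sig y = σ := by
  simp [gx_repl]

theorem gx_repl_sig_ne {z : Y} (h : z ≠ y) : (gx_repl S e0 E' y σ).sig z = S.sig z := by
  classical
  simp only [gx_repl]
  exact Function.update_of_ne h _ _

theorem gx_repl_length : (gx_repl S e0 E' y σ).eqs.length = S.eqs.length := by
  simp [gx_repl]

theorem gx_repl_eq_self (h0 : e0 < S.eqs.length) : (gx_repl S e0 E' y σ).eq e0 = E' := by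
  simp [gs_Sys.eq, gx_repl, List.getD_eq_getElem?_getD, h0]

theorem gx_repl_eq_ne {e : ℕ} (h : e ≠ e0) : (gx_repl S e0 E' y σ).eq e = S.eq e := by
  simp [gs_Sys.eq, gx_repl, List.getD_eq_getElem?_getD, List.getElem?_set_ne (Ne.symm h)]

theorem gx_repl_rel (hfree : ∀ e, e ≠ e0 → gw_Free y (S.eq e).ls) :
    gx_Rel S (gx_repl S e0 E' y σ) e0 y :=
  ⟨fun _ hz => gx_repl_sig_ne hz, fun _ he => gx_repl_eq_ne he, hfree⟩

theorem gx_split (S : gs_Sys Y) (h0 : e0 < S.eqs.length) :
    S.eqs = S.eqs.take e0 ++ S.eq e0 :: S.eqs.drop (e0 + 1) := by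
  rw [gw_eq_of_lt h0]
  simp

theorem gx_repl_split (h0 : e0 < S.eqs.length) :
    (gx_repl S e0 E' y σ).eqs = S.eqs.take e0 ++ E' :: S.eqs.drop (e0 + 1) := by
  simp only [gx_repl]
  rw [List.set_eq_take_append_cons_drop, if_pos h0]

/-- occurrences: `D` = the dropped letters -/
theorem gx_repl_occ_perm (h0 : e0 < S.eqs.length) (inv : Bool) (D : List Y)
    (h : (gs_occL inv (S.eq e0).ls).Perm (D ++ gs_occL inv E'.ls)) :
    (S.occ inv).Perm (D ++ (gx_repl S e0 E' y σ).occ inv) := by
  unfold gs_Sys.occ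
  rw [gx_repl_split h0]
  conv_lhs => rw [gx_split S h0]
  simp only [List.flatMap_append, List.flatMap_cons]
  refine (List.Perm.append_left _ (List.Perm.append_right _ h)).trans ?_
  simp only [List.append_assoc]
  rw [← List.append_assoc, ← List.append_assoc D]
  exact List.Perm.append_right _ List.perm_append_comm

/-- an equation of the new system is `E'` or an old equation with another index -/
theorem gx_repl_mem {E : gs_Eqn Y} (hE : E ∈ (gx_repl S e0 E' y σ).eqs) :
    E = E' ∨ ∃ e, e ≠ e0 ∧ e < S.eqs.length ∧ S.eq e = E := by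
  obtain ⟨e, he, rfl⟩ := gw_mem_eqs_iff.1 hE
  rw [gx_repl_length] at he
  by_cases h : e = e0
  · subst h
    exact Or.inl (gx_repl_eq_self he)
  · exact Or.inr ⟨e, h, he, (gx_repl_eq_ne h).symm⟩

theorem gx_repl_wf {N : ℕ} {R : Subring ℂ} (hS : S.WF N R) (h0 : e0 < S.eqs.length)
    (hfree : ∀ e, e ≠ e0 → gw_Free y (S.eq e).ls) (hσ : σ.s ≤ σ.rk ∧ σ.t ≤ σ.rk)
    (hE' : E'.WF (gx_repl S e0 E' y σ).sig N R) (D : List Y)
    (hD : ∀ inv, (gs_occL inv (S.eq e0).ls).Perm (D ++ gs_occL inv E'.ls))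
    (hDy : ∀ z ∈ D, z = y) (hrk : y ∈ D → σ.rk = 0) (hy : y ∈ S.occ false) :
    (gx_repl S e0 E' y σ).WF N R := by
  have hrel := gx_repl_rel (E' := E') (σ := σ) hfree
  have hp := fun inv => gx_repl_occ_perm (y := y) (σ := σ) h0 inv D (hD inv)
  refine ⟨?_, ?_, ?_, ?_, ?_, ?_⟩
  · intro z
    by_cases hz : z = y
    · subst hz; rw [gx_repl_sig_self]; exact hσ.1
    · rw [gx_repl_sig_ne hz]; exact hS.sig_s z
  · intro z
    by_cases hz : z = y
    · subst hz; rw [gx_repl_sig_self]; exact hσ.2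
    · rw [gx_repl_sig_ne hz]; exact hS.sig_t z
  · intro E hE
    rcases gx_repl_mem hE with rfl | ⟨e, he, hlt, rfl⟩
    · exact hE'
    · rw [gx_wf_congr (hrel.agree he)]
      exact hS.eqn _ (gw_eq_mem hlt)
  · have := (hp false).nodup_iff.mp hS.nodup
    exact (List.nodup_append.mp this).2.1
  · have h1 : (D ++ (gx_repl S e0 E' y σ).occ false).Perm (D ++ (gx_repl S e0 E' y σ).occ true) :=
      (hp false).symm.trans (hS.perm.trans (hp true))
    exact (List.perm_append_left_iff D).mp h1
  · intro z hz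
    by_cases hzy : z = y
    · subst hzy
      rw [gx_repl_sig_self]
      apply hrk
      have := (hp false).mem_iff.mp hy
      rcases List.mem_append.mp this with h | h
      · exact h
      · exact absurd h hz
    · rw [gx_repl_sig_ne hzy]
      apply hS.rk0
      intro h
      rcases List.mem_append.mp ((hp false).mem_iff.mp h) with h | h
      · exact hzy (hDy z h)
      · exact hz h

theorem gx_repl_rkLe {n : ℕ} (hS : S.RkLe n) (hE' : E'.rk ≤ n) : (gx_repl S e0 E' y σ).RkLe n := by
  intro E hE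
  rcases gx_repl_mem hE with rfl | ⟨e, _, hlt, rfl⟩
  · exact hE'
  · exact hS _ (gw_eq_mem hlt)

theorem gx_repl_noImp {n : ℕ} (hfree : ∀ e, e ≠ e0 → gw_Free y (S.eq e).ls) (hS : S.NoImp n)
    (hE' : E'.rk = n → ¬ E'.AllImp (gx_repl S e0 E' y σ).sig) : (gx_repl S e0 E' y σ).NoImp n := by
  have hrel := gx_repl_rel (E' := E') (σ := σ) hfree
  intro E hE hn
  rcases gx_repl_mem hE with rfl | ⟨e, he, hlt, rfl⟩
  · exact hE' hn
  · rw [gx_allImp_congr (hrel.agree he)]
    exact hS _ (gw_eq_mem hlt) hn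

theorem gx_repl_en (h0 : e0 < S.eqs.length) (n : ℕ) :
    (gx_repl S e0 E' y σ).en n + (if (S.eq e0).rk = n then 1 else 0) =
      S.en n + (if E'.rk = n then 1 else 0) := by
  unfold gs_Sys.en
  rw [gw_eq_of_lt h0]
  exact gw_sum_set (fun E : gs_Eqn Y => if E.rk = n then 1 else 0) S.eqs h0 E'

/-- measures when the two letters of `y` are dropped -/
theorem gx_repl_sum_drop {N : ℕ} {R : Subring ℂ} (hS : S.WF N R) (h0 : e0 < S.eqs.length)
    (hD : (gs_occL false (S.eq e0).ls).Perm ([y] ++ gs_occL false E'.ls)) (f : gs_Sig → ℕ) :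
    ((S.occ false).map fun z => f (S.sig z)).sum =
      f (S.sig y) + (((gx_repl S e0 E' y σ).occ false).map fun z =>
        f ((gx_repl S e0 E' y σ).sig z)).sum := by
  have hp := gx_repl_occ_perm (y := y) (σ := σ) h0 false [y] hD
  have hnd := hp.nodup_iff.mp hS.nodup
  have hy : y ∉ (gx_repl S e0 E' y σ).occ false := by
    simpa using (List.nodup_cons.mp hnd).1
  rw [(hp.map _).sum_eq]
  simp only [List.singleton_append, List.map_cons, List.sum_cons]
  congr 2
  apply List.map_congr_left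
  intro z hz
  rw [gx_repl_sig_ne (by rintro rfl; exact hy hz)]

/-- measures when the letters are only permuted -/
theorem gx_repl_sum_keep {N : ℕ} {R : Subring ℂ} (hS : S.WF N R) (h0 : e0 < S.eqs.length)
    (hD : (gs_occL false (S.eq e0).ls).Perm (gs_occL false E'.ls)) (hy : y ∈ S.occ false)
    (f : gs_Sig → ℕ) :
    ((S.occ false).map fun z => f (S.sig z)).sum + f σ =
      f (S.sig y) + (((gx_repl S e0 E' y σ).occ false).map fun z =>
        f ((gx_repl S e0 E' y σ).sig z)).sum := by
  classical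
  have hp := gx_repl_occ_perm (y := y) (σ := σ) h0 false [] (by simpa using hD)
  simp only [List.nil_append] at hp
  have h1 := List.perm_cons_erase hy
  have hnd : y ∉ (S.occ false).erase y := by
    have := h1.nodup_iff.mp hS.nodup
    exact (List.nodup_cons.mp this).1
  rw [← ((hp.map fun z => f ((gx_repl S e0 E' y σ).sig z))).sum_eq, (h1.map _).sum_eq,
    (h1.map _).sum_eq]
  simp only [List.map_cons, List.sum_cons, gx_repl_sig_self]
  have : (((S.occ false).erase y).map fun z => f ((gx_repl S e0 E' y σ).sig z)) =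
      (((S.occ false).erase y).map fun z => f (S.sig z)) := by
    apply List.map_congr_left
    intro z hz
    rw [gx_repl_sig_ne (by rintro rfl; exact hnd hz)]
  rw [this]
  omega

end repl

end Claimed.Agent.R236
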