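import Mathlib
import Claimed.Agent.R236.GRepl
import Claimed.Agent.R236.GImp
import Claimed.Agent.R236.RegBasic

/-!
# Row 236, Model G2: CANCEL (owner helper135, prefix gcn_)

`gcn_cancel : StCancel N R`.  The pattern is `pre ++ X₁ :: (J ++ X₂ :: post)` with `X₁ = G i1 y 0`,
`X₂ = G (!i1) y 0`, `J` junk at the improper frame.  The two letters of `y` are replaced by pads, the swaps
of `J` by pads; the variable `y` becomes a variable of rank `0`.
-/

set_option autoImplicit false

namespace Claimed.Agent.R236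

section comb
variable {Y : Type} {N : ℕ} {R : Subring ℂ} {S : gs_Sys Y}

/-- the two letters of a variable are its only letters -/
theorem gcn_only (hS : S.WF N R) {e0 p q o1 o2 : ℕ} {i1 : Bool} {y : Y}
    (h1 : (S.eq e0).ls[p]? = some (.G i1 y o1)) (h2 : (S.eq e0).ls[q]? = some (.G (!i1) y o2))
    {e i o : ℕ} {inv : Bool} (h : (S.eq e).ls[i]? = some (.G inv y o)) :
    e = e0 ∧ (i = p ∨ i = q) := by
  by_cases hi : inv = i1
  · subst hi
    obtain ⟨a, b, _⟩ := hS.at_unique h h1
    exact ⟨a, Or.inl b⟩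
  · have : inv = !i1 := by cases inv <;> cases i1 <;> simp_all
    subst this
    obtain ⟨a, b, _⟩ := hS.at_unique h h2
    exact ⟨a, Or.inr b⟩

/-- the data of CANCEL -/
structure gcn_Data (N : ℕ) (R : Subring ℂ) (S : gs_Sys Y) (n e0 : ℕ) (i1 : Bool) (y : Y)
    (pre J post : List (gs_Letter Y)) (Ka : Finset ℕ) : Prop where
  wf : S.WF N R
  lt : e0 < S.eqs.length
  ls_eq : (S.eq e0).ls = pre ++ ((.G i1 y 0 :: (J ++ [.G (!i1) y 0])) ++ post)
  rk : (S.eq e0).rk = n
  rky : (S.sig y).rk = n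
  fpre : gw_Free y pre
  fJ : gw_Free y J
  fpost : gw_Free y post
  fother : ∀ e, e ≠ e0 → gw_Free y (S.eq e).ls
  tpre : gw_Typed S.sig n (S.eq e0).K0 pre Ka
  frKa : gw_Fr n Ka
  proper : gs_Proper n Ka
  step1 : gs_step S.sig Ka (.G i1 y 0) = {0, n}
  tJ : gw_Typed S.sig n {0, n} J {0, n}
  junk : ∀ l ∈ J, gt_Junk S.sig n l
  step2 : gs_step S.sig {0, n} (.G (!i1) y 0) = Ka
  tpost : gw_Typed S.sig n Ka post (S.eq e0).K0

theorem gcn_tgt_not (σ : gs_Sig) (i : Bool) : σ.tgt (!i) = σ.src i := by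
  cases i <;> rfl

theorem gcn_data_of_pat (hS : S.WF N R) {n e0 : ℕ} {i1 i2 : Bool} {y : Y}
    {pre J post : List (gs_Letter Y)} (hp : gt_Pat S n e0 i1 i2 y y pre J post) :
    gcn_Data N R S n e0 i1 y pre J post (gw_end S.sig (S.eq e0).K0 pre) := by
  have hls := hp.ls_eq
  have a1 : (S.eq e0).ls[pre.length]? = some (.G i1 y 0) := by
    rw [hls]; simp
  have a2 : (S.eq e0).ls[pre.length + 1 + J.length]? = some (.G i2 y 0) := by
    rw [hls, add_assoc, List.getElem?_append_right (by omega)]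
    simp only [Nat.add_sub_cancel_left]
    rw [add_comm 1, List.getElem?_cons_succ]
    simp
  have hi : i2 = !i1 := by
    by_contra hc
    have : i2 = i1 := by cases i2 <;> cases i1 <;> simp_all
    subst this
    have := (hS.at_unique a1 a2).2.1
    omega
  subst hi
  have only := fun {e i o : ℕ} {inv : Bool} => gcn_only hS a1 a2 (e := e) (i := i) (o := o) (inv := inv)
  have fpre : gw_Free y pre := by
    intro inv o hm
    obtain ⟨i, hi, h⟩ := List.getElem_of_mem hm
    have : (S.eq e0).ls[i]? = some (.G inv y o) := by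
      rw [hls, List.getElem?_append_left hi, List.getElem?_eq_getElem hi, h]
    have := (only this).2
    omega
  have fJ : gw_Free y J := by
    intro inv o hm
    obtain ⟨i, hi, h⟩ := List.getElem_of_mem hm
    have : (S.eq e0).ls[pre.length + (1 + i)]? = some (.G inv y o) := by
      rw [hls, List.getElem?_append_right (by omega)]
      simp only [Nat.add_sub_cancel_left]
      rw [add_comm 1 i, List.getElem?_cons_succ, List.getElem?_append_left hi,
        List.getElem?_eq_getElem hi, h]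
    have := (only this).2
    omega
  have fpost : gw_Free y post := by
    intro inv o hm
    obtain ⟨i, hi, h⟩ := List.getElem_of_mem hm
    have : (S.eq e0).ls[pre.length + ((J.length + (i + 1)) + 1)]? = some (.G inv y o) := by
      rw [hls, List.getElem?_append_right (by omega)]
      simp only [Nat.add_sub_cancel_left]
      rw [List.getElem?_cons_succ, List.getElem?_append_right (by omega)]
      simp only [Nat.add_sub_cancel_left]
      rw [List.getElem?_cons_succ, List.getElem?_eq_getElem hi, h]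
    have := (only this).2
    omega
  have fother : ∀ e, e ≠ e0 → gw_Free y (S.eq e).ls := by
    intro e he inv o hm
    obtain ⟨i, hi, h⟩ := List.getElem_of_mem hm
    have : (S.eq e).ls[i]? = some (.G inv y o) := by
      rw [List.getElem?_eq_getElem hi, h]
    exact he (only this).1
  -- typing
  have hs := hS.sigOK
  have hE := hS.eq_wf e0
  have ht := hE.typed
  have hK0 := hE.fr0
  rw [hp.rk] at ht hK0
  rw [hls, gw_typed_append, gw_typed_cons, gw_typed_append, gw_typed_cons] at ht
  obtain ⟨h1, h2, h3, h4, h5⟩ := ht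
  have hKa : gw_Fr n (gw_end S.sig (S.eq e0).K0 pre) := h1.fr hs hK0
  have hfr : S.frame e0 pre.length = gw_end S.sig (S.eq e0).K0 pre := by
    unfold gs_Sys.frame
    rw [hls, gw_frame_append_left _ _ _ le_rfl, gw_frame_length]
  have hfr1 : S.frame e0 (pre.length + 1) =
      gs_step S.sig (gw_end S.sig (S.eq e0).K0 pre) (.G i1 y 0) := by
    unfold gs_Sys.frame
    rw [hls, gw_frame_append_right]
    simp
  have hst1 : gs_step S.sig (gw_end S.sig (S.eq e0).K0 pre) (.G i1 y 0) = {0, n} := by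
    apply gim_eq (gw_fr_step hs hKa h2)
    rw [← hfr1]
    exact hp.imp
  rw [hst1] at h3 h4 h5
  have hJ := gim_junk_typed hs h3 hp.junk
  rw [hJ] at h3 h4 h5
  have hst2 : gs_step S.sig {0, n} (.G (!i1) y 0) = gw_end S.sig (S.eq e0).K0 pre := by
    have h2' : gs_midOK (gw_end S.sig (S.eq e0).K0 pre) 0 n ((S.sig y).src i1) := by
      have := h2
      simp only [gs_app, hp.rk1] at this
      exact this
    rw [gw_full hKa h2']
    simp only [gs_step, hp.rk1, gcn_tgt_not]
    exact gw_cutRepl_full (gim_fr n) _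
  rw [hst2] at h5
  exact
    { wf := hS
      lt := hp.lt
      ls_eq := by rw [hls]; simp
      rk := hp.rk
      rky := hp.rk1
      fpre := fpre
      fJ := fJ
      fpost := fpost
      fother := fother
      tpre := h1
      frKa := hKa
      proper := hfr ▸ hp.proper
      step1 := hst1
      tJ := h3
      junk := hp.junk
      step2 := hst2
      tpost := h5 }

end comb

section newsys
variable {Y : Type}

/-- the old middle part -/
def gcn_mid (i1 : Bool) (y : Y) (J : List (gs_Letter Y)) : List (gs_Letter Y) :=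
  .G i1 y 0 :: (J ++ [.G (!i1) y 0])

/-- the new middle part -/
def gcn_mid' (J : List (gs_Letter Y)) : List (gs_Letter Y) :=
  gim_pad Y :: (J.map gim_clean ++ [gim_pad Y])

/-- the new equation -/
def gcn_E (S : gs_Sys Y) (e0 : ℕ) (pre J post : List (gs_Letter Y)) : gs_Eqn Y :=
  ⟨(S.eq e0).rk, (S.eq e0).K0, pre ++ (gcn_mid' J ++ post)⟩

/-- the new system -/
noncomputable def gcn_S (S : gs_Sys Y) (e0 : ℕ) (y : Y) (pre J post : List (gs_Letter Y)) :
    gs_Sys Y :=
  gx_repl S e0 (gcn_E S e0 pre J post) y ⟨0, 0, 0⟩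

theorem gcn_mid_length (i1 : Bool) (y : Y) (J : List (gs_Letter Y)) :
    (gcn_mid i1 y J).length = J.length + 2 := by
  simp [gcn_mid]

theorem gcn_mid'_length (J : List (gs_Letter Y)) : (gcn_mid' J).length = J.length + 2 := by
  simp [gcn_mid']

variable {N : ℕ} {R : Subring ℂ} {S : gs_Sys Y} {n e0 : ℕ} {i1 : Bool} {y : Y}
  {pre J post : List (gs_Letter Y)} {Ka : Finset ℕ}

theorem gcn_Data.ls_eq' (d : gcn_Data N R S n e0 i1 y pre J post Ka) :
    (S.eq e0).ls = pre ++ (gcn_mid i1 y J ++ post) := d.ls_eq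

theorem gcn_Data.appJ (d : gcn_Data N R S n e0 i1 y pre J post Ka) :
    ∀ l ∈ J, gs_app S.sig n {0, n} l := gim_junk_app d.wf.sigOK d.tJ d.junk

theorem gcn_free_mid' (h : gw_Free y J) : gw_Free y (gcn_mid' J) := by
  intro inv o hm
  simp only [gcn_mid', List.mem_cons, List.mem_append, List.not_mem_nil, or_false] at hm
  rcases hm with hm | hm | hm
  · simp [gim_pad] at hm
  · exact h inv o (gim_mem_clean_G hm)
  · simp [gim_pad] at hm

theorem gcn_Data.free' (d : gcn_Data N R S n e0 i1 y pre J post Ka) :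
    gw_Free y (pre ++ (gcn_mid' J ++ post)) :=
  gw_free_append.2 ⟨d.fpre, gw_free_append.2 ⟨gcn_free_mid' d.fJ, d.fpost⟩⟩

theorem gcn_Data.rel (d : gcn_Data N R S n e0 i1 y pre J post Ka) :
    gx_Rel S (gcn_S S e0 y pre J post) e0 y := gx_repl_rel d.fother

theorem gcn_Data.eq_self (d : gcn_Data N R S n e0 i1 y pre J post Ka) :
    (gcn_S S e0 y pre J post).eq e0 = gcn_E S e0 pre J post := gx_repl_eq_self d.lt

theorem gcn_sig_self : ((gcn_S S e0 y pre J post).sig y) = ⟨0, 0, 0⟩ := gx_repl_sig_self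

theorem gcn_sig_ne {z : Y} (h : z ≠ y) : (gcn_S S e0 y pre J post).sig z = S.sig z :=
  gx_repl_sig_ne h

/-- the new signature agrees with the old one on words without `y` -/
theorem gcn_agree {W : List (gs_Letter Y)} (h : gw_Free y W) :
    ∀ inv z o, gs_Letter.G inv z o ∈ W → (gcn_S S e0 y pre J post).sig z = S.sig z := by
  intro inv z o hz
  apply gcn_sig_ne
  rintro rfl
  exact h inv o hz

/-- the new middle part is typed at `Ka` -/
theorem gcn_Data.tmid' (d : gcn_Data N R S n e0 i1 y pre J post Ka) :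
    gw_Typed S.sig n Ka (gcn_mid' J) Ka := by
  unfold gcn_mid'
  rw [gw_typed_cons]
  refine ⟨gim_pad_app n Ka, ?_⟩
  rw [gim_pad_step]
  refine (gim_clean_typed d.wf.sigOK d.appJ d.junk d.frKa).append ?_
  exact gw_typed_one n Ka

theorem gcn_Data.typed' (d : gcn_Data N R S n e0 i1 y pre J post Ka) :
    gw_Typed S.sig n (S.eq e0).K0 (pre ++ (gcn_mid' J ++ post)) (S.eq e0).K0 :=
  d.tpre.append (d.tmid'.append d.tpost)

theorem gcn_Data.wfE (d : gcn_Data N R S n e0 i1 y pre J post Ka) :
    (gcn_E S e0 pre J post).WF (gcn_S S e0 y pre J post).sig N R := by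
  have hE := d.wf.eq_wf e0
  rw [gw_wf_iff]
  refine ⟨hE.rk_le, hE.fr0, ?_, ?_⟩
  · have := d.typed'
    rw [← gw_typed_congr (gcn_agree (S := S) (e0 := e0) (pre := pre) (J := J) (post := post)
      d.free')] at this
    simp only [gcn_E, d.rk]
    exact this
  · intro lam hl
    have hone : ∀ j : ℕ, (1 : ℂ) ≠ 0 ∧ (1 : ℂ) ∈ R ∧ (1 : ℂ)⁻¹ ∈ R := fun _ =>
      ⟨one_ne_zero, R.one_mem, by rw [inv_one]; exact R.one_mem⟩
    simp only [gcn_E, gcn_mid', List.mem_cons, List.mem_append, List.not_mem_nil, or_false] at hl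
    rcases hl with hl | (hl | hl | hl) | hl
    · exact hE.unit lam (by rw [d.ls_eq]; simp [hl])
    · simp only [gim_pad, gs_Letter.L.injEq] at hl
      subst hl
      exact hone
    · rcases gim_mem_clean hl with h | h
      · exact hE.unit lam (by rw [d.ls_eq]; simp [h])
      · subst h
        exact hone
    · simp only [gim_pad, gs_Letter.L.injEq] at hl
      subst hl
      exact hone
    · exact hE.unit lam (by rw [d.ls_eq]; simp [hl])

theorem gcn_Data.perm (d : gcn_Data N R S n e0 i1 y pre J post Ka) (inv : Bool) :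
    (gs_occL inv (S.eq e0).ls).Perm ([y] ++ gs_occL inv (gcn_E S e0 pre J post).ls) := by
  rw [d.ls_eq]
  simp only [gcn_E, gcn_mid', gim_pad, gw_occL_append, gw_occL_cons_L, gim_occL_clean, gw_occL_nil,
    List.append_nil, List.cons_append, List.nil_append]
  by_cases h : inv = i1
  · subst h
    simp only [gw_occL_cons_self, gw_occL_append, gw_occL_cons_not, gw_occL_nil, List.append_nil]
    exact List.perm_middle
  · have : i1 = !inv := by cases inv <;> cases i1 <;> simp_all
    subst this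
    simp only [gw_occL_cons_not, Bool.not_not, gw_occL_append, gw_occL_cons_self, gw_occL_nil]
    refine (List.Perm.append_left _ ?_).trans List.perm_middle
    simp only [List.append_assoc, List.cons_append, List.nil_append]
    exact List.perm_middle

theorem gcn_Data.mem_occ (d : gcn_Data N R S n e0 i1 y pre J post Ka) : y ∈ S.occ false := by
  have h : ∀ inv, y ∈ S.occ inv := by
    intro inv
    unfold gs_Sys.occ
    rw [List.mem_flatMap]
    exact ⟨S.eq e0, gw_eq_mem d.lt, (d.perm inv).mem_iff.2 (by simp)⟩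
  exact h false

theorem gcn_Data.wf' (d : gcn_Data N R S n e0 i1 y pre J post Ka) :
    (gcn_S S e0 y pre J post).WF N R :=
  gx_repl_wf d.wf d.lt d.fother ⟨le_rfl, le_rfl⟩ d.wfE [y] d.perm (by simp) (fun _ => rfl) d.mem_occ

theorem gcn_Data.vn (d : gcn_Data N R S n e0 i1 y pre J post Ka) :
    S.vn n = 1 + (gcn_S S e0 y pre J post).vn n := by
  have := gx_repl_sum_drop (σ := ⟨0, 0, 0⟩) d.wf d.lt (d.perm false)
    (fun σ => if σ.rk = n then 1 else 0)
  simp only [d.rky, if_true] at this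
  exact this

theorem gcn_Data.noImp (d : gcn_Data N R S n e0 i1 y pre J post Ka) (h : S.NoImp n) :
    (gcn_S S e0 y pre J post).NoImp n := by
  refine gx_repl_noImp d.fother h fun _ hall => ?_
  have := hall pre.length (by simp [gcn_E])
  apply this
  have e1 : gs_frame (gx_repl S e0 (gcn_E S e0 pre J post) y ⟨0, 0, 0⟩).sig (gcn_E S e0 pre J post).K0
      (gcn_E S e0 pre J post).ls pre.length = Ka := by
    have := gw_frame_congr (gcn_agree (S := S) (e0 := e0) (pre := pre) (J := J) (post := post)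
      d.free') (S.eq e0).K0 pre.length
    refine this.trans ?_
    rw [gw_frame_append_left _ _ _ le_rfl, gw_frame_length]
    exact d.tpre.2
  rw [e1]
  simp only [gcn_E, d.rk]
  exact d.proper

/-! ### frames -/

theorem gcn_frame_left (sig : Y → gs_Sig) (K0 : Finset ℕ) (A B C : List (gs_Letter Y)) {i : ℕ}
    (h : i ≤ A.length) : gs_frame sig K0 (A ++ (B ++ C)) i = gs_frame sig K0 A i :=
  gw_frame_append_left _ _ _ h

theorem gcn_frame_middle (sig : Y → gs_Sig) (K0 : Finset ℕ) (A B C : List (gs_Letter Y)) {j : ℕ}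
    (h : j ≤ B.length) :
    gs_frame sig K0 (A ++ (B ++ C)) (A.length + j) = gs_frame sig (gw_end sig K0 A) B j := by
  rw [gw_frame_append_right, gw_frame_append_left _ _ _ h]

theorem gcn_frame_right (sig : Y → gs_Sig) (K0 : Finset ℕ) (A B C : List (gs_Letter Y)) (j : ℕ) :
    gs_frame sig K0 (A ++ (B ++ C)) (A.length + B.length + j) =
      gs_frame sig (gw_end sig (gw_end sig K0 A) B) C j := by
  rw [add_assoc, gw_frame_append_right, gw_frame_append_right]

theorem gcn_Data.end_mid (d : gcn_Data N R S n e0 i1 y pre J post Ka) :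
    gw_end S.sig Ka (gcn_mid i1 y J) = Ka := by
  simp only [gcn_mid, gw_end_cons, gw_end_append, d.step1, d.tJ.2, d.step2, gw_end_nil]

theorem gcn_Data.frame_pre (d : gcn_Data N R S n e0 i1 y pre J post Ka) {i : ℕ}
    (h : i ≤ pre.length) : S.frame e0 i = gs_frame S.sig (S.eq e0).K0 pre i := by
  unfold gs_Sys.frame
  rw [d.ls_eq']
  exact gcn_frame_left _ _ _ _ _ h

theorem gcn_Data.frame_mid (d : gcn_Data N R S n e0 i1 y pre J post Ka) {j : ℕ}
    (h : j ≤ J.length) : S.frame e0 (pre.length + (j + 1)) = {0, n} := by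
  unfold gs_Sys.frame
  rw [d.ls_eq', gcn_frame_middle _ _ _ _ _ (by rw [gcn_mid_length]; omega), d.tpre.2]
  simp only [gcn_mid, gw_frame_cons_succ, d.step1]
  rw [gw_frame_append_left _ _ _ h]
  exact gim_junk_frame d.wf.sigOK d.tJ d.junk j

theorem gcn_Data.frame_post (d : gcn_Data N R S n e0 i1 y pre J post Ka) (j : ℕ) :
    S.frame e0 (pre.length + (J.length + 2) + j) = gs_frame S.sig Ka post j := by
  unfold gs_Sys.frame
  rw [d.ls_eq', ← gcn_mid_length i1 y J, gcn_frame_right, d.tpre.2, d.end_mid]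

theorem gcn_Data.frame'_eq (d : gcn_Data N R S n e0 i1 y pre J post Ka) (i : ℕ) :
    (gcn_S S e0 y pre J post).frame e0 i =
      gs_frame S.sig (S.eq e0).K0 (pre ++ (gcn_mid' J ++ post)) i := by
  unfold gs_Sys.frame
  rw [d.eq_self]
  exact gw_frame_congr (gcn_agree d.free') _ _

theorem gcn_Data.frame'_pre (d : gcn_Data N R S n e0 i1 y pre J post Ka) {i : ℕ}
    (h : i ≤ pre.length) :
    (gcn_S S e0 y pre J post).frame e0 i = gs_frame S.sig (S.eq e0).K0 pre i := by
  rw [d.frame'_eq]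
  exact gcn_frame_left _ _ _ _ _ h

theorem gcn_Data.frame'_mid (d : gcn_Data N R S n e0 i1 y pre J post Ka) {j : ℕ}
    (h : j ≤ J.length + 2) : (gcn_S S e0 y pre J post).frame e0 (pre.length + j) = Ka := by
  rw [d.frame'_eq, gcn_frame_middle _ _ _ _ _ (by rw [gcn_mid'_length]; omega), d.tpre.2]
  have hcl := gim_clean_typed d.wf.sigOK d.appJ d.junk d.frKa
  cases j with
  | zero => simp
  | succ j =>
    simp only [gcn_mid', gw_frame_cons_succ, gim_pad_step]
    by_cases hj : j ≤ J.length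
    · rw [gw_frame_append_left _ _ _ (by simpa using hj)]
      exact gim_clean_frame d.wf.sigOK d.appJ d.junk d.frKa j
    · rw [gw_frame_of_le _ _ (by simp; omega), gw_end_append, hcl.2]
      rfl

theorem gcn_Data.frame'_post (d : gcn_Data N R S n e0 i1 y pre J post Ka) (j : ℕ) :
    (gcn_S S e0 y pre J post).frame e0 (pre.length + (J.length + 2) + j) =
      gs_frame S.sig Ka post j := by
  rw [d.frame'_eq, ← gcn_mid'_length J, gcn_frame_right, d.tpre.2, d.tmid'.2]

theorem gcn_Data.frame_same (d : gcn_Data N R S n e0 i1 y pre J post Ka) {i : ℕ}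
    (h : i ≤ pre.length ∨ pre.length + (J.length + 2) ≤ i) :
    (gcn_S S e0 y pre J post).frame e0 i = S.frame e0 i := by
  rcases h with h | h
  · rw [d.frame_pre h, d.frame'_pre h]
  · obtain ⟨j, rfl⟩ := Nat.exists_eq_add_of_le h
    rw [d.frame_post, d.frame'_post]

theorem gcn_Data.frame_last (d : gcn_Data N R S n e0 i1 y pre J post Ka) :
    S.frame e0 (pre.length + (J.length + 2)) = Ka := by
  rw [← d.frame_same (Or.inr le_rfl), d.frame'_mid le_rfl]

theorem gcn_Data.length_eq (d : gcn_Data N R S n e0 i1 y pre J post Ka) :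
    (S.eq e0).ls.length = pre.length + (J.length + 2) + post.length := by
  rw [d.ls_eq']
  simp only [List.length_append, gcn_mid_length]
  omega

theorem gcn_Data.urk_same (d : gcn_Data N R S n e0 i1 y pre J post Ka) (i : ℕ) :
    (gcn_S S e0 y pre J post).urk e0 i = S.urk e0 i := by
  unfold gs_Sys.urk
  rw [d.eq_self, d.length_eq]
  simp only [gcn_E, List.length_append, gcn_mid'_length, add_assoc]

theorem gcn_Data.urk_lt (d : gcn_Data N R S n e0 i1 y pre J post Ka) {i : ℕ}
    (h : i < pre.length + (J.length + 2)) : S.urk e0 i = n := by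
  unfold gs_Sys.urk
  rw [d.length_eq, if_pos (by omega), d.rk]

end newsys

section phi
variable {Y : Type} {N : ℕ}

open Classical in
/-- the parametrisation: `y := g`, the unipotents of the run are collected after `X₂` -/
noncomputable def gcn_Phi (e0 p k : ℕ) (y : Y) (w : gs_Pt Y N × gs_Mat N) : gs_Pt Y N
  | .inl z => if z = y then w.2 else w.1 (.inl z)
  | .inr (e, i) =>
    if e = e0 ∧ p ≤ i ∧ i ≤ p + k then 1
    else if e = e0 ∧ i = p + k + 1 then gim_U w.1 e0 p (k + 2)
    else w.1 (.inr (e, i))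

variable {e0 p k : ℕ} {y : Y} {w : gs_Pt Y N × gs_Mat N}

theorem gcn_Phi_self : gcn_Phi e0 p k y w (.inl y) = w.2 := by
  simp [gcn_Phi]

theorem gcn_Phi_var {z : Y} (h : z ≠ y) : gcn_Phi e0 p k y w (.inl z) = w.1 (.inl z) := by
  simp [gcn_Phi, h]

theorem gcn_Phi_one {i : ℕ} (h1 : p ≤ i) (h2 : i ≤ p + k) :
    gcn_Phi e0 p k y w (.inr (e0, i)) = 1 := by
  simp [gcn_Phi, h1, h2]

theorem gcn_Phi_last : gcn_Phi e0 p k y w (.inr (e0, p + k + 1)) = gim_U w.1 e0 p (k + 2) := by
  simp [gcn_Phi]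

theorem gcn_Phi_out {e i : ℕ} (h : e ≠ e0 ∨ i < p ∨ p + k + 1 < i) :
    gcn_Phi e0 p k y w (.inr (e, i)) = w.1 (.inr (e, i)) := by
  simp only [gcn_Phi]
  rw [if_neg (by omega), if_neg (by omega)]

theorem gcn_lmat_free {W : List (gs_Letter Y)} (h : gw_Free y W) :
    ∀ l ∈ W, gs_lmat (gcn_Phi e0 p k y w) l = gs_lmat w.1 l := by
  intro l hl
  refine gw_lmat_congr fun inv z o hz => gcn_Phi_var ?_
  rintro rfl
  subst hz
  exact h _ _ hl

theorem gcn_C_clean {sig : Y → gs_Sig} {n : ℕ} (x : gs_Pt Y N) {J : List (gs_Letter Y)}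
    (hJ : ∀ l ∈ J, gs_app sig n {0, n} l) : gim_C x (J.map gim_clean) = gim_C x J := by
  unfold gim_C
  rw [List.map_map]
  congr 1
  exact List.map_congr_left fun l hl => gim_clean_lmat (hJ l hl)

variable {R : Subring ℂ} {S : gs_Sys Y} {n : ℕ} {i1 : Bool} {pre J post : List (gs_Letter Y)}
  {Ka : Finset ℕ}

/-- the matrices of the junk letters are scalar on the corner -/
theorem gcn_Data.scalar (d : gcn_Data N R S n e0 i1 y pre J post Ka) {x' : gs_Pt Y N}
    (hx : ∀ z, z ≠ y → gs_IsCorner (S.sig z).rk (x' (.inl z))) :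
    ∀ l ∈ J, ∃ c, gs_lmat x' l = gim_D N n c := by
  intro l hl
  refine gim_junk_lmat (sig := S.sig) (fun inv z o h => hx z ?_) (d.appJ l hl) (d.junk l hl)
  rintro rfl
  subst h
  exact d.fJ _ _ hl

/-- the value of the new middle part -/
theorem gcn_Data.val_mid' (d : gcn_Data N R S n e0 i1 y pre J post Ka) {x' : gs_Pt Y N}
    (hx : ∀ z, z ≠ y → gs_IsCorner (S.sig z).rk (x' (.inl z)))
    (hu : ∀ r, r < J.length + 2 → gs_IsCorner n (x' (.inr (e0, pre.length + r)))) :
    gs_val x' e0 pre.length (gcn_mid' J) = gim_C x' J * gim_U x' e0 pre.length (J.length + 2) := by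
  have hpad : ∃ c, gs_lmat x' (gim_pad Y) = gim_D N n c := ⟨1, by rw [gim_pad_lmat, gim_D_one]⟩
  have hc : ∀ l ∈ gcn_mid' J, ∃ c, gs_lmat x' l = gim_D N n c := by
    intro l hl
    simp only [gcn_mid', List.mem_cons, List.mem_append, List.not_mem_nil, or_false,
      List.mem_map] at hl
    rcases hl with rfl | ⟨l', hl', rfl⟩ | rfl
    · exact hpad
    · rw [gim_clean_lmat (d.appJ l' hl')]
      exact d.scalar hx l' hl'
    · exact hpad
  rw [gim_val_central e0 pre.length n hc (by rw [gcn_mid'_length]; exact hu), gcn_mid'_length]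
  congr 1
  rw [gcn_mid', gim_C_cons, gim_C_append, gim_C_cons, gim_C_nil, gim_pad_lmat, gcn_C_clean x' d.appJ]
  simp

/-- the value of the old middle part -/
theorem gcn_Data.val_mid (d : gcn_Data N R S n e0 i1 y pre J post Ka) {x' : gs_Pt Y N}
    {g : gs_Mat N} (hx : ∀ z, z ≠ y → gs_IsCorner (S.sig z).rk (x' (.inl z)))
    (hg : IsUnit g.det) (hgc : gs_IsCorner n g) :
    gs_val (gcn_Phi e0 pre.length J.length y (x', g)) e0 pre.length (gcn_mid i1 y J) =
      gim_C x' J * gim_U x' e0 pre.length (J.length + 2) := by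
  rw [gcn_mid, gw_val_cons, gw_val_append, gw_val_cons, gw_val_nil, gcn_Phi_one le_rfl (by omega),
    gim_val_triv _ _ _ _ (fun r hr => gcn_Phi_one (by omega) (by omega)),
    show pre.length + 1 + J.length = pre.length + J.length + 1 by omega, gcn_Phi_last,
    gim_C_congr (gcn_lmat_free d.fJ)]
  simp only [mul_one]
  have h12 : gs_lmat (gcn_Phi e0 pre.length J.length y (x', g)) (.G i1 y 0) *
      gs_lmat (gcn_Phi e0 pre.length J.length y (x', g)) (.G (!i1) y 0) = 1 := by
    cases i1
    · simp only [Bool.not_false, gs_lmat, gcn_Phi_self, gm_emb_zero]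
      exact Matrix.mul_nonsing_inv g hg
    · simp only [Bool.not_true, gs_lmat, gcn_Phi_self, gm_emb_zero]
      exact Matrix.nonsing_inv_mul g hg
  have hc2 : gs_IsCorner n (gs_lmat (gcn_Phi e0 pre.length J.length y (x', g)) (.G (!i1) y 0)) := by
    cases i1
    · simp only [Bool.not_false, gs_lmat, gcn_Phi_self, gm_emb_zero]
      exact gm_corner_inv hgc hg
    · simp only [Bool.not_true, gs_lmat, gcn_Phi_self, gm_emb_zero]
      exact hgc
  have hcomm := (gim_C_central (d.scalar hx) hc2).eq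
  rw [← mul_assoc (gim_C x' J), hcomm, mul_assoc, ← mul_assoc, h12, one_mul]

/-- **the value identity** -/
theorem gcn_Data.val_eq (d : gcn_Data N R S n e0 i1 y pre J post Ka) {x' : gs_Pt Y N}
    {g : gs_Mat N} (hx : ∀ z, z ≠ y → gs_IsCorner (S.sig z).rk (x' (.inl z)))
    (hu : ∀ r, r < J.length + 2 → gs_IsCorner n (x' (.inr (e0, pre.length + r))))
    (hg : IsUnit g.det) (hgc : gs_IsCorner n g) :
    gs_val (gcn_Phi e0 pre.length J.length y (x', g)) e0 0 (S.eq e0).ls =
      gs_val x' e0 0 (pre ++ (gcn_mid' J ++ post)) := by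
  rw [d.ls_eq', gw_val_append, gw_val_append, gw_val_append, gw_val_append, Nat.zero_add,
    d.val_mid hx hg hgc, d.val_mid' hx hu, gcn_mid_length, gcn_mid'_length]
  congr 1
  · exact gw_val_congr _ _ _ _ _ (gcn_lmat_free d.fpre) fun r hr =>
      gcn_Phi_out (Or.inr (Or.inl (by omega)))
  · congr 1
    exact gw_val_congr _ _ _ _ _ (gcn_lmat_free d.fpost) fun r hr =>
      gcn_Phi_out (Or.inr (Or.inr (by omega)))

/-- the corner group -/
def gcn_G (N n : ℕ) : Set (gs_Mat N) :=
  {x | IsUnit x.det ∧ ∀ a b : Fin N, ¬ ((a : ℕ) < n ∧ (b : ℕ) < n) → x a b = (1 : gs_Mat N) a b}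

/-- the unipotents of the run of a solution of the new system -/
theorem gcn_Data.uni_run (d : gcn_Data N R S n e0 i1 y pre J post Ka) {x' : gs_Pt Y N}
    (hx' : x' ∈ gs_Sol N (gcn_S S e0 y pre J post)) :
    ∀ r, r < J.length + 2 → gs_IsUni n Ka (x' (.inr (e0, pre.length + r))) := by
  intro r hr
  have := hx'.2.1 e0 (pre.length + r)
  rwa [d.urk_same, d.urk_lt (by omega), add_assoc, d.frame'_mid (by omega)] at this

theorem gcn_Data.maps (d : gcn_Data N R S n e0 i1 y pre J post Ka) {w : gs_Pt Y N × gs_Mat N}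
    (hw : w ∈ gs_Sol N (gcn_S S e0 y pre J post) ×ˢ gcn_G N n) :
    gcn_Phi e0 pre.length J.length y w ∈ gs_Sol N S := by
  obtain ⟨x', g⟩ := w
  obtain ⟨hx', hg, hgc'⟩ := hw
  simp only at hx' hg hgc'
  have hgc : gs_IsCorner n g := fun i j h => hgc' i j (by omega)
  have hx : ∀ z, z ≠ y → gs_IsCorner (S.sig z).rk (x' (.inl z)) := fun z hz => by
    rw [← gcn_sig_ne (S := S) (e0 := e0) (pre := pre) (J := J) (post := post) hz]
    exact (hx'.1 z).2
  have huni := d.uni_run hx'
  refine gx_sol_of d.rel hx' (fun z hz => gcn_Phi_var hz) (fun e he i => gcn_Phi_out (Or.inl he))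
    ?_ ?_ ?_
  · rw [gcn_Phi_self, d.rky]
    exact ⟨hg, hgc⟩
  · intro i
    by_cases h1 : i < pre.length
    · rw [gcn_Phi_out (Or.inr (Or.inl h1)), ← d.urk_same, ← d.frame_same (Or.inl (by omega))]
      exact hx'.2.1 e0 i
    by_cases h2 : i ≤ pre.length + J.length
    · rw [gcn_Phi_one (by omega) h2]
      exact gm_uni_one _ _
    by_cases h3 : i = pre.length + J.length + 1
    · subst h3
      rw [gcn_Phi_last, d.urk_lt (by omega),
        show pre.length + J.length + 1 + 1 = pre.length + (J.length + 2) by omega, d.frame_last]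
      exact gim_U_uni _ _ huni
    · rw [gcn_Phi_out (Or.inr (Or.inr (by omega))), ← d.urk_same, ← d.frame_same (Or.inr (by omega))]
      exact hx'.2.1 e0 i
  · rw [d.val_eq hx (fun r hr => gm_uni_corner (huni r hr)) hg hgc]
    have := hx'.2.2 e0
    rwa [d.eq_self] at this

open Classical in
/-- the section: `y := 1` -/
noncomputable def gcn_Psi (y : Y) (x : gs_Pt Y N) : gs_Pt Y N
  | .inl z => if z = y then 1 else x (.inl z)
  | .inr q => x (.inr q)

/-- the unipotents at the improper frames are trivial -/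
theorem gcn_Data.one_of_sol (d : gcn_Data N R S n e0 i1 y pre J post Ka) {x : gs_Pt Y N}
    (hx : x ∈ gs_Sol N S) : ∀ r, r ≤ J.length → x (.inr (e0, pre.length + r)) = 1 := by
  intro r hr
  have := hx.2.1 e0 (pre.length + r)
  rw [d.urk_lt (by omega), add_assoc, d.frame_mid hr] at this
  exact gm_uni_pair_eq_one this

theorem gcn_Data.phi_psi (d : gcn_Data N R S n e0 i1 y pre J post Ka) {x : gs_Pt Y N}
    (hx : x ∈ gs_Sol N S) :
    gcn_Phi e0 pre.length J.length y (gcn_Psi y x, x (.inl y)) = x := by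
  have hone := d.one_of_sol hx
  funext q
  rcases q with z | ⟨e, i⟩
  · by_cases hz : z = y
    · subst hz
      rw [gcn_Phi_self]
    · rw [gcn_Phi_var hz]
      simp [gcn_Psi, hz]
  · by_cases he : e = e0
    swap
    · rw [gcn_Phi_out (Or.inl he)]
      rfl
    subst he
    by_cases h1 : i < pre.length
    · rw [gcn_Phi_out (Or.inr (Or.inl h1))]
      rfl
    by_cases h2 : i ≤ pre.length + J.length
    · rw [gcn_Phi_one (by omega) h2]
      obtain ⟨r, rfl⟩ := Nat.exists_eq_add_of_le (not_lt.1 h1)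
      exact (hone r (by omega)).symm
    by_cases h3 : i = pre.length + J.length + 1
    · subst h3
      rw [gcn_Phi_last]
      exact gim_U_last (x := gcn_Psi y x) pre.length (J.length + 1) (fun r hr => hone r (by omega))
    · rw [gcn_Phi_out (Or.inr (Or.inr (by omega)))]
      rfl

theorem gcn_Data.psi_sol (d : gcn_Data N R S n e0 i1 y pre J post Ka) {x : gs_Pt Y N}
    (hx : x ∈ gs_Sol N S) : gcn_Psi y x ∈ gs_Sol N (gcn_S S e0 y pre J post) := by
  have hone := d.one_of_sol hx
  refine gx_sol_of d.rel.symm hx (fun z hz => by simp [gcn_Psi, hz]) (fun e he i => rfl) ?_ ?_ ?_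
  · rw [gcn_sig_self]
    simp only [gcn_Psi, if_true, Matrix.det_one, isUnit_one, true_and]
    exact gm_corner_one 0
  · intro i
    show gs_IsUni _ _ (x (.inr (e0, i)))
    rw [d.urk_same]
    by_cases h : i + 1 ≤ pre.length ∨ pre.length + (J.length + 2) ≤ i + 1
    · rw [d.frame_same h]
      exact hx.2.1 e0 i
    · obtain ⟨r, rfl⟩ : ∃ r, i = pre.length + r := ⟨i - pre.length, by omega⟩
      rw [hone r (by omega)]
      exact gm_uni_one _ _
  · rw [d.eq_self]
    show gs_val (gcn_Psi y x) e0 0 (pre ++ (gcn_mid' J ++ post)) = 1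
    rw [← d.val_eq (g := x (.inl y)) ?_ ?_ (hx.1 y).1 (d.rky ▸ (hx.1 y).2), d.phi_psi hx]
    · exact hx.2.2 e0
    · intro z hz
      simp only [gcn_Psi, hz, if_false]
      exact (hx.1 z).2
    · intro r hr
      have := gm_uni_corner (hx.2.1 e0 (pre.length + r))
      rwa [d.urk_lt (by omega)] at this

theorem gcn_Data.onto (d : gcn_Data N R S n e0 i1 y pre J post Ka) {x : gs_Pt Y N}
    (hx : x ∈ gs_Sol N S) : ∃ w ∈ gs_Sol N (gcn_S S e0 y pre J post) ×ˢ gcn_G N n,
      gcn_Phi e0 pre.length J.length y w = x := by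
  refine ⟨(gcn_Psi y x, x (.inl y)), ⟨d.psi_sol hx, (hx.1 y).1, fun a b hab => ?_⟩, d.phi_psi hx⟩
  have := (hx.1 y).2
  rw [d.rky] at this
  exact this a b (by omega)

/-- the four kinds of coordinates of the parametrisation -/
theorem gcn_Phi_cases (e0 p k : ℕ) (y : Y) (q : Y ⊕ ℕ × ℕ) :
    (∀ w : gs_Pt Y N × gs_Mat N, gcn_Phi e0 p k y w q = w.2) ∨
    (∀ w : gs_Pt Y N × gs_Mat N, gcn_Phi e0 p k y w q = w.1 q) ∨
    (∀ w : gs_Pt Y N × gs_Mat N, gcn_Phi e0 p k y w q = 1) ∨
    (∀ w : gs_Pt Y N × gs_Mat N, gcn_Phi e0 p k y w q = gim_U w.1 e0 p (k + 2)) := by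
  rcases q with z | ⟨e, i⟩
  · by_cases hz : z = y
    · subst hz
      exact Or.inl fun w => gcn_Phi_self
    · exact Or.inr (Or.inl fun w => gcn_Phi_var hz)
  · by_cases he : e = e0
    swap
    · exact Or.inr (Or.inl fun w => gcn_Phi_out (Or.inl he))
    subst he
    by_cases h1 : i < p
    · exact Or.inr (Or.inl fun w => gcn_Phi_out (Or.inr (Or.inl h1)))
    by_cases h2 : i ≤ p + k
    · exact Or.inr (Or.inr (Or.inl fun w => gcn_Phi_one (by omega) h2))
    by_cases h3 : i = p + k + 1
    · subst h3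
      exact Or.inr (Or.inr (Or.inr fun w => gcn_Phi_last))
    · exact Or.inr (Or.inl fun w => gcn_Phi_out (Or.inr (Or.inr (by omega))))

theorem gcn_Data.reg (d : gcn_Data N R S n e0 i1 y pre J post Ka)
    (κ : (Y ⊕ ℕ × ℕ) × Bool × Fin N × Fin N) :
    rg_RegOn R (rg_prodCoord (rg_matCoord (Y ⊕ ℕ × ℕ) (Fin N)) (rg_glCoord (Fin N)))
      (gs_Sol N (gcn_S S e0 y pre J post) ×ˢ gcn_G N n)
      (fun w => rg_matCoord (Y ⊕ ℕ × ℕ) (Fin N) κ (gcn_Phi e0 pre.length J.length y w)) := by
  set c' := rg_prodCoord (rg_matCoord (Y ⊕ ℕ × ℕ) (Fin N)) (rg_glCoord (Fin N)) with hc'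
  set T := gs_Sol N (gcn_S S e0 y pre J post) ×ˢ gcn_G N n with hT
  have A : ∀ q, rg_MatOn R c' T (fun w => w.1 q) := fun q a b =>
    rg_RegOn.coord (c := c') (Sum.inl (q, false, a, b))
  have A' : ∀ q, rg_MatOn R c' T (fun w => (w.1 q)⁻¹) := fun q a b =>
    rg_RegOn.coord (c := c') (Sum.inl (q, true, a, b))
  have B : rg_MatOn R c' T (fun w => w.2) := fun a b =>
    rg_RegOn.coord (c := c') (Sum.inr (false, a, b))
  have B' : rg_MatOn R c' T (fun w => (w.2)⁻¹) := fun a b =>
    rg_RegOn.coord (c := c') (Sum.inr (true, a, b))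
  have U : rg_MatOn R c' T (fun w => gim_U w.1 e0 pre.length (J.length + 2)) :=
    gim_U_reg (π := fun w : gs_Pt Y N × gs_Mat N => w.1) e0 (fun i => A _) _ _
  have U' : rg_MatOn R c' T (fun w => (gim_U w.1 e0 pre.length (J.length + 2))⁻¹) :=
    U.inv_of_det_eq_one fun w hw => gm_uni_det (gim_U_uni _ _ (d.uni_run hw.1))
  refine rg_matCoord_regOn ?_ ?_ κ
  · intro q
    rcases gcn_Phi_cases (N := N) e0 pre.length J.length y q with h | h | h | h
    · exact B.congr fun w _ => h w
    · exact (A q).congr fun w _ => h w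
    · exact rg_MatOn.one.congr fun w _ => h w
    · exact U.congr fun w _ => h w
  · intro q
    rcases gcn_Phi_cases (N := N) e0 pre.length J.length y q with h | h | h | h
    · exact B'.congr fun w _ => by rw [h w]
    · exact (A' q).congr fun w _ => by rw [h w]
    · exact rg_MatOn.one.congr fun w _ => by rw [h w, inv_one]
    · exact U'.congr fun w _ => by rw [h w]

end phi

/-- **CANCEL** -/
theorem gcn_cancel {N : ℕ} {R : Subring ℂ} (hU : {z : ℂ | z ∈ R ∧ z⁻¹ ∈ R}.Infinite) :
    StCancel N R := by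
  intro Y S n hG e0 i1 i2 y pre J post hp
  have d := gcn_data_of_pat hG.wf hp
  refine ⟨Y, gcn_S S e0 y pre J post,
    ⟨d.wf', gx_repl_rkLe hG.rkLe (by simp [gcn_E, d.rk])⟩, ?_, d.noImp, ?_⟩
  · exact Prod.Lex.toLex_lt_toLex.mpr (Or.inl (by rw [d.vn]; omega))
  · intro hD
    exact rg_Dense.transfer₁ (gcn_Phi e0 pre.length J.length y) d.reg (fun w hw => d.maps hw)
      (fun x hx => d.onto hx) (hD.prod (rg_dense_corner hU (fun a : Fin N => (a : ℕ) < n)))

end Claimed.Agent.R236
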