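import Mathlib
import Claimed.Agent.R236.GReduceSt

/-!
# Row 236, REDUCE: interfaces between the sub-packages of P2 (owner helper10)

* SB1 (UNPACK)  : what membership in `gs_Sol (gr_reduce ..)` means        -> `StUnpack*`
* SB2 (COLOUR)  : colour calculus                                          -> `StSh*`, `StTri*`, `StGap`, ..
* SB3 (LIFT)    : the local packages at frame level                        -> `StLoc`
* SB4 (SOUND)   : `StRedSound` from SB1-SB3
* SB5 (REG)     : `StRedReg`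
* SB6 (PRES)    : presentation of a subspace relative to a frame           -> `StPres*`
* SB7 (COMPL)   : `StRedComplete` from everything
All statements are `def St.. : Prop`; the owner of a package proves `theorem .. : St..`.
-/

set_option autoImplicit false

namespace Claimed.Agent.R236

/-! ## SB1: unpacking -/

/-- the equation `E`, placed at index `e`, is satisfied at the point `x` -/
def gs_EqnSat {Y : Type} {N : ℕ} (sig : Y → gs_Sig) (x : gs_Pt Y N) (e : ℕ) (E : gs_Eqn Y) : Prop :=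
  (∀ j, gs_IsUni (if j < E.ls.length then E.rk else 0) (gs_frame sig E.K0 E.ls (j + 1))
    (x (.inr (e, j)))) ∧ gs_val x e 0 E.ls = 1

/-- the equations of the reduced system, by index -/
def StUnpackEq : Prop :=
  ∀ (N : ℕ) (Y : Type) (S : gs_Sys Y) (e0 k : ℕ) (col : ℕ → ℕ → Bool), e0 < S.eqs.length →
    let C := gr_ctx S e0 k col
    let S' := gr_reduce N S e0 k col
    S'.eq e0 = C.eU ∧ S'.eq S.eqs.length = C.eQ ∧
    (∀ e, e < S.eqs.length → e ≠ e0 → S'.eq e = (S.eq e).map Sum.inl) ∧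
    (∀ i s, i < C.len → s < N + 2 → S'.eq (gr_lk N S.eqs.length i s) = C.link i s) ∧
    (∀ e, S.eqs.length + 1 + C.len * (N + 2) ≤ e → S'.eq e = gs_Eqn.triv _)

namespace gr_Ctx
variable {Y : Type} (C : gr_Ctx Y)

/-- the frame of `eU` after the sub-letter `j` of the segment `i` -/
def frU (i j : ℕ) : Finset ℕ :=
  match C.letter i with
  | .S o A B =>
    let s := gr_snum (C.col i) (C.col (i + 1)) o A B
    let oU := gr_cU (C.col i) o
    let f0 := gs_cutRepl (C.KU i) (oU + s.a) (s.b + s.h) s.b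
    match j with
    | 0 => f0
    | 1 => gs_cutRepl f0 oU (s.a + s.b) s.b
    | _ => C.KU (i + 1)
  | _ => C.KU (i + 1)

/-- the frame of `eQ` after the sub-letter `j` of the segment `i` -/
def frQ (i j : ℕ) : Finset ℕ :=
  match C.letter i with
  | .S o A B =>
    let s := gr_snum (C.col i) (C.col (i + 1)) o A B
    let oQ := gr_cQ (C.col i) o
    let f0 := gs_cutRepl (C.KQ i) oQ (s.h + s.x) s.h
    match j with
    | 0 => f0
    | 1 => f0
    | 2 => gs_cutRepl f0 (oQ + s.h) (s.x + s.y) s.y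
    | _ => C.KQ (i + 1)
  | _ => C.KQ (i + 1)

/-- signatures of the reduced system -/
noncomputable def sig' : Y ⊕ gr_Var → gs_Sig := Sum.elim C.sig C.nsig

end gr_Ctx

/-- `eU`, `eQ` are satisfied iff the unipotents lie in the right groups, the unipotents out of range
are `1`, and the products of the segment values are `1`. -/
def StUnpackUQ (N : ℕ) (R : Subring ℂ) : Prop :=
  ∀ (Y : Type) (S : gs_Sys Y) (e0 k : ℕ), gr_Hyp N R S e0 k →
    ∀ col, (gr_ctx S e0 k col).WF → ∀ (e1 e2 : ℕ) (z : gr_Z Y N),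
      let C := gr_ctx S e0 k col
      (gs_EqnSat C.sig' z.1 e1 C.eU ↔
        (∀ i j, i < C.len → j < 4 → gs_IsUni C.k (C.frU i j) (gr_uU e1 z i j)) ∧
        (∀ t, 4 * C.len ≤ t → z.1 (.inr (e1, t)) = 1) ∧
        ((List.range C.len).map fun i => gr_XUlet C e1 z i * gr_sU C e1 z i).prod = 1) ∧
      (gs_EqnSat C.sig' z.1 e2 C.eQ ↔
        (∀ i j, i < C.len → j < 4 → gs_IsUni (C.n - C.k) (C.frQ i j) (gr_uQ e2 z i j)) ∧
        (∀ t, 4 * C.len ≤ t → z.1 (.inr (e2, t)) = 1) ∧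
        ((List.range C.len).map fun i => gr_XQlet C e2 z i * gr_sQ C e2 z i).prod = 1)

/-- the block of the frame `K` starting at `c` does not meet `[o, o+m)` -/
def gr_Spect (K : Finset ℕ) (n o m c : ℕ) : Prop := c ∈ K ∧ c < n ∧ (c < o ∨ o + m ≤ c)

/-- the link of an untouched block is satisfied iff `h_i = h_{i+1} * w`, `w ∈ U(u,q)`. -/
def StUnpackUn (N : ℕ) (R : Subring ℂ) : Prop :=
  ∀ (Y : Type) (S : gs_Sys Y) (e0 k : ℕ), gr_Hyp N R S e0 k →
    ∀ col, (gr_ctx S e0 k col).WF → ∀ (e : ℕ) (z : gr_Z Y N),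
      let C := gr_ctx S e0 k col
      (∀ v, gr_GL (C.nsig v).rk (gr_nval z v)) →
      ∀ i c, i < C.len → c ∈ C.K i → c < C.n →
        (c < (gs_mid C.sig (C.letter i)).1 ∨
          (gs_mid C.sig (C.letter i)).1 + (gs_mid C.sig (C.letter i)).2 ≤ c) →
        (gs_EqnSat C.sig' z.1 e (C.linkUn i c) ↔
          gs_IsUni (gr_nxt (C.K i) c - c)
            {0, gr_nU (C.col i) c (gr_nxt (C.K i) c), gr_nxt (C.K i) c - c} (z.1 (.inr (e, 0))) ∧
          (∀ j, 1 ≤ j → z.1 (.inr (e, j)) = 1) ∧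
          gr_hval C z i c = gr_hval C z (i + 1) c * z.1 (.inr (e, 0)))

/-! ## SB2: colour calculus -/

/-- a frame of rank `n ≤ N` with an adapted colouring with `k` indices of colour `U` -/
structure gr_CF (N n k : ℕ) (K : Finset ℕ) (c : ℕ → Bool) : Prop where
  nN : n ≤ N
  zero : 0 ∈ K
  top : n ∈ K
  le : ∀ d ∈ K, d ≤ n
  ad : gr_Adapted n K c
  cnt : gr_cU c n = k

/-- the shuffle matrix is a permutation matrix -/
def StShInv (N : ℕ) : Prop :=
  ∀ (c : ℕ → Bool) (n k : ℕ), n ≤ N → (∀ j, n ≤ j → c j = false) → gr_cU c n = k →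
    (gr_sh c n k : gs_Mat N) * (gr_sh c n k : gs_Mat N).transpose = 1 ∧
      (gr_sh c n k : gs_Mat N).transpose * gr_sh c n k = 1 ∧
      gs_IsCorner n (gr_sh c n k : gs_Mat N)

/-- products of block triangular matrices -/
def StTriMul (N : ℕ) : Prop :=
  ∀ (n k : ℕ) (XU XQ Z XU' XQ' Z' : gs_Mat N), k ≤ n → n ≤ N →
    gs_IsCorner k XU → gs_IsCorner (n - k) XQ → gs_IsCorner k XU' → gs_IsCorner (n - k) XQ' →
    gr_Tri n k XU XQ Z → gr_Tri n k XU' XQ' Z' → gr_Tri n k (XU * XU') (XQ * XQ') (Z * Z')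

/-- inverses of block triangular matrices -/
def StTriInv (N : ℕ) : Prop :=
  ∀ (n k : ℕ) (XU XQ Z : gs_Mat N), k ≤ n → n ≤ N → gr_GL k XU → gr_GL (n - k) XQ →
    gr_Tri n k XU XQ Z → IsUnit Z.det ∧ gr_Tri n k XU⁻¹ XQ⁻¹ Z⁻¹

/-- the diagonal parts exist and are unique -/
def StTriParts (N : ℕ) : Prop :=
  ∀ (n k : ℕ) (Z : gs_Mat N), k ≤ n → n ≤ N →
    (gr_IsTri n k Z ↔ ∃ XU XQ, gs_IsCorner k XU ∧ gs_IsCorner (n - k) XQ ∧ gr_Tri n k XU XQ Z) ∧
    (∀ XU XQ XU' XQ', gs_IsCorner k XU → gs_IsCorner (n - k) XQ → gs_IsCorner k XU' →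
      gs_IsCorner (n - k) XQ' → gr_Tri n k XU XQ Z → gr_Tri n k XU' XQ' Z → XU = XU' ∧ XQ = XQ') ∧
    (∀ XU XQ, gs_IsCorner k XU → gs_IsCorner (n - k) XQ → gr_Tri n k XU XQ Z → IsUnit Z.det →
      IsUnit XU.det ∧ IsUnit XQ.det)

/-- **GapNone**: which block triangular matrices conjugate into `U(K)` -/
def StGap (N : ℕ) : Prop :=
  ∀ (n k : ℕ) (K : Finset ℕ) (c : ℕ → Bool), gr_CF N n k K c →
    ∀ (sU sQ β : gs_Mat N), gs_IsCorner k sU → gs_IsCorner (n - k) sQ → gr_IsUQ n k β →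
      (gs_IsUni n K (gr_sh c n k * gr_asm k sU sQ β * (gr_sh c n k : gs_Mat N).transpose) ↔
        gs_IsUni k (K.image (gr_cU c)) sU ∧ gs_IsUni (n - k) (K.image (gr_cQ c)) sQ ∧
          ∀ i j : Fin N, β i j ≠ 0 → gr_good c K n k i j)

/-- `U(K)` is normalised by the block diagonal matrices -/
def StBDConj (N : ℕ) : Prop :=
  ∀ (n : ℕ) (K : Finset ℕ) (d u : gs_Mat N), n ≤ N → gr_IsBD n K d → IsUnit d.det →
    (gs_IsUni n K (d * u * d⁻¹) ↔ gs_IsUni n K u)

/-- **LOCALITY**: a block triangular matrix at mid level, moved to the offset `o`, is block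
triangular at frame level, with the diagonal parts moved to the offsets `cU o`, `cQ o`. -/
def StLocality (N : ℕ) : Prop :=
  ∀ (n k o m : ℕ) (cb ca : ℕ → Bool), n ≤ N → o + m ≤ n →
    (∀ j, n ≤ j → cb j = false) → (∀ j, n ≤ j → ca j = false) → gr_cU cb n = k →
    (∀ j, j < o ∨ o + m ≤ j → ca j = cb j) → gr_nU ca o (o + m) = gr_nU cb o (o + m) →
    ∀ (XU XQ Zm : gs_Mat N), gs_IsCorner (gr_nU cb o (o + m)) XU →
      gs_IsCorner (m - gr_nU cb o (o + m)) XQ → gr_Tri m (gr_nU cb o (o + m)) XU XQ Zm →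
      gr_Tri n k (gs_emb (gr_cU cb o) XU) (gs_emb (gr_cQ cb o) XQ)
        ((gr_sh cb n k : gs_Mat N).transpose *
          gs_emb o (gr_sh (gr_colMid cb o m) m (gr_nU cb o (o + m)) * Zm *
            (gr_sh (gr_colMid ca o m) m (gr_nU cb o (o + m)) : gs_Mat N).transpose) *
          gr_sh ca n k)

/-- the radical of the parabolic of the merged frame is normalised by the letters -/
def StRadConj (N : ℕ) : Prop :=
  ∀ (n o m : ℕ) (K K' : Finset ℕ) (x p : gs_Mat N), n ≤ N → o + m ≤ n → o ∈ K → o + m ∈ K →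
    (∀ d, d ≤ o ∨ o + m ≤ d → (d ∈ K ↔ d ∈ K')) → gr_GL m x →
    gs_IsUni n K' ((gs_emb o x)⁻¹ * (1 + gr_mask (gr_radPos K n o m) p) * gs_emb o x)

/-- every element of `U(K)` is (radical part) * (mid part) -/
def StRadSplit (N : ℕ) : Prop :=
  ∀ (n o m : ℕ) (K : Finset ℕ) (u : gs_Mat N), n ≤ N → o + m ≤ n → o ∈ K → o + m ∈ K →
    gs_IsUni n K u →
    gs_IsUni m ((K.filter fun d => o ≤ d ∧ d ≤ o + m).image fun d => d - o) (gr_midBlock o m u) ∧
    ∃ p, u = (1 + gr_mask (gr_radPos K n o m) p) * gs_emb o (gr_midBlock o m u)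

/-! ## SB3: the local packages at frame level -/

/-- local admissibility of a point at the letter `i`: all variables have the right shape, the links
of the letter `i` are satisfied, the unipotents in the slots `0,1,2` of the `i`-th segments of `eU`,
`eQ` lie in the right groups.  (NOT the slot `3`, NOT the closing of `eU`, `eQ`: the completeness
proof uses `StLoc` before these are known.) -/
structure gr_LocAdm {Y : Type} {N : ℕ} (C : gr_Ctx Y) (e0 E0 : ℕ) (z : gr_Z Y N) (i : ℕ) : Prop where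
  old : ∀ y, gr_GL (C.sig y).rk (z.1 (.inl (.inl y)))
  new : ∀ v, gr_GL (C.nsig v).rk (gr_nval z v)
  link : ∀ s, s < N + 2 → gs_EqnSat C.sig' z.1 (gr_lk N E0 i s) (C.link i s)
  uU : ∀ j, j < 3 → gs_IsUni C.k (C.frU i j) (gr_uU e0 z i j)
  uQ : ∀ j, j < 3 → gs_IsUni (C.n - C.k) (C.frQ i j) (gr_uQ E0 z i j)

/-- **LOC**: for every letter, `EL_i ∈ U(K_i)`, `ER_i ∈ U(K_{i+1})`,
`Zlet_i = [[XUlet_i, *],[0, XQlet_i]]`. -/
def StLoc (N : ℕ) (R : Subring ℂ) : Prop :=
  ∀ (P : gr_Corr N), P.OK R → ∀ (Y : Type) (S : gs_Sys Y) (e0 k : ℕ), gr_Hyp N R S e0 k →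
    ∀ col, (gr_ctx S e0 k col).WF → ∀ z : gr_Z Y N,
      let C := gr_ctx S e0 k col
      ∀ i, i < C.len → gr_LocAdm C e0 S.eqs.length z i →
        gs_IsUni C.n (C.K i) (gr_EL C e0 S.eqs.length P z i) ∧
        gs_IsUni C.n (C.K (i + 1)) (gr_ER C e0 S.eqs.length P z i) ∧
        gr_Tri C.n C.k (gr_XUlet C e0 z i) (gr_XQlet C S.eqs.length z i)
          (gr_Zlet C e0 S.eqs.length P z i)

/-- points of the domain are locally admissible -/
def StLocAdm (N : ℕ) (R : Subring ℂ) : Prop :=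
  ∀ (Y : Type) (S : gs_Sys Y) (e0 k : ℕ), gr_Hyp N R S e0 k →
    ∀ col, (gr_ctx S e0 k col).WF → ∀ z ∈ gr_Dom N S e0 k col,
      ∀ i, i < (gr_ctx S e0 k col).len → gr_LocAdm (gr_ctx S e0 k col) e0 S.eqs.length z i

/-! ## SB6: presentation of the subspace spanned by the first `k` columns of `g`, relative to a frame -/

/-- a frame of rank `n ≤ N` -/
structure gp_Frame (N n : ℕ) (K : Finset ℕ) : Prop where
  nN : n ≤ N
  zero : 0 ∈ K
  top : n ∈ K
  le : ∀ d ∈ K, d ≤ n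

/-- the block diagonal matrix with the block `h c` at the block starting at `c` -/
noncomputable def gp_dmat {N : ℕ} (K : Finset ℕ) (n : ℕ) (h : ℕ → gs_Mat N) : gs_Mat N :=
  ((List.range n).map fun c => if c ∈ K then gs_emb c (h c) else 1).prod

/-- positions (refined coordinates): row of colour `Q`, column of colour `U` in a later block -/
def gp_zPos (K : Finset ℕ) (n : ℕ) (c : ℕ → Bool) (r s : ℕ) : Prop :=
  s < n ∧ c r = false ∧ c s = true ∧ ∃ d ∈ K, r < d ∧ d ≤ s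

/-- a choice of presentations: arguments `K n k g` -/
structure gp_Pres (N : ℕ) where
  col : Finset ℕ → ℕ → ℕ → gs_Mat N → ℕ → Bool
  h : Finset ℕ → ℕ → ℕ → gs_Mat N → ℕ → gs_Mat N
  z : Finset ℕ → ℕ → ℕ → gs_Mat N → gs_Mat N

/-- `g = d (1+z) Sh T` with `T` block triangular; `d` and the colouring of a block depend only on the
graded piece of the subspace in that block. -/
structure gp_Pres.OK {N : ℕ} (p : gp_Pres N) : Prop where
  cf : ∀ K n k g, gp_Frame N n K → k ≤ n → gr_GL n g → gr_CF N n k K (p.col K n k g)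
  gl : ∀ K n k g, gp_Frame N n K → k ≤ n → gr_GL n g → ∀ c ∈ K, c < n →
    gr_GL (gr_nxt K c - c) (p.h K n k g c)
  triv : ∀ K n k g, gp_Frame N n K → k ≤ n → gr_GL n g → ∀ c ∈ K, c < n →
    (gr_nU (p.col K n k g) c (gr_nxt K c) = 0 ∨
      gr_nU (p.col K n k g) c (gr_nxt K c) = gr_nxt K c - c) → p.h K n k g c = 1
  zsupp : ∀ K n k g, gp_Frame N n K → k ≤ n → gr_GL n g → ∀ r s : Fin N,
    p.z K n k g r s ≠ 0 → gp_zPos K n (p.col K n k g) r s
  tri : ∀ K n k g, gp_Frame N n K → k ≤ n → gr_GL n g →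
    gr_IsTri n k ((gp_dmat K n (p.h K n k g) * (1 + p.z K n k g) * gr_sh (p.col K n k g) n k)⁻¹ * g)
  base : ∀ K n k, gp_Frame N n K → k ∈ K → ∀ j, p.col K n k 1 j = decide (j < k)
  spect : ∀ K K' n k g' b lo hi (lam : ℂ), gp_Frame N n K → gp_Frame N n K' → k ≤ n → gr_GL n g' →
    gr_GL n b → lo ∈ K → lo ∈ K' → lo < n → gr_nxt K lo = hi → gr_nxt K' lo = hi → lam ≠ 0 →
    (∀ r s : Fin N, hi ≤ (r : ℕ) → (s : ℕ) < hi → b r s = 0) →
    (∀ r s : Fin N, lo ≤ (r : ℕ) → (r : ℕ) < hi → (s : ℕ) < hi → b r s = if r = s then lam else 0) →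
    (∀ j, lo ≤ j → j < hi → p.col K n k (b * g') j = p.col K' n k g' j) ∧
      p.h K n k (b * g') lo = p.h K' n k g' lo
  count : ∀ K K' n k g' b c, gp_Frame N n K → gp_Frame N n K' → k ≤ n → gr_GL n g' → gr_GL n b →
    c ∈ K → c ∈ K' → (∀ r s : Fin N, c ≤ (r : ℕ) → (s : ℕ) < c → b r s = 0) →
    gr_cU (p.col K n k (b * g')) c = gr_cU (p.col K' n k g') c

/-- **Presentations exist.** -/
def StPres (N : ℕ) : Prop := ∃ p : gp_Pres N, p.OK

/-- the numbers of a swap: `a ≤ a + h` -/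
def StSwapNum (N : ℕ) : Prop :=
  ∀ (A B a1 b1 b2 a2 : ℕ) (hAm hBm hAp hBp z0 g : gs_Mat N), A + B ≤ N → a1 ≤ A → b1 ≤ B → b2 ≤ B →
    a2 ≤ A → a1 + b1 = b2 + a2 →
    gr_GL A hAm → gr_GL B hBm → gr_GL A hAp → gr_GL B hBp →
    (∀ i j : Fin N, z0 i j ≠ 0 → a1 ≤ (i : ℕ) ∧ (i : ℕ) < A ∧ A ≤ (j : ℕ) ∧ (j : ℕ) < A + b1) →
    gs_IsUni (A + B) {0, B, A + B} g →
    gr_IsTri (A + B) (a1 + b1)
      ((hAm * gs_emb A hBm * (1 + z0) *
          gr_sh (fun j => decide (j < a1 ∨ (A ≤ j ∧ j < A + b1))) (A + B) (a1 + b1))⁻¹ *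
        gs_swapMat 0 A B * g *
        (hBp * gs_emb B hAp *
          gr_sh (fun j => decide (j < b2 ∨ (B ≤ j ∧ j < B + a2))) (A + B) (a1 + b1))) →
    a1 ≤ a2

end Claimed.Agent.R236
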