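import Mathlib
import Claimed.Agent.R236.GReduce

/-!
# Row 236, REDUCE: counting library for colourings (owner helper188, prefix gct_)

Elementary facts on `gr_cU`, `gr_cQ`, `gr_nU`, `gr_nQ`.
-/

set_option autoImplicit false

namespace Claimed.Agent.R236

theorem gct_cU_succ (c : ℕ → Bool) (j : ℕ) :
    gr_cU c (j + 1) = gr_cU c j + if c j = true then 1 else 0 := Nat.count_succ _ _

theorem gct_cQ_succ (c : ℕ → Bool) (j : ℕ) :
    gr_cQ c (j + 1) = gr_cQ c j + if c j = false then 1 else 0 := Nat.count_succ _ _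

@[simp] theorem gct_cU_zero (c : ℕ → Bool) : gr_cU c 0 = 0 := Nat.count_zero _

@[simp] theorem gct_cQ_zero (c : ℕ → Bool) : gr_cQ c 0 = 0 := Nat.count_zero _

theorem gct_cU_mono (c : ℕ → Bool) {a b : ℕ} (h : a ≤ b) : gr_cU c a ≤ gr_cU c b :=
  Nat.count_monotone _ h

theorem gct_cQ_mono (c : ℕ → Bool) {a b : ℕ} (h : a ≤ b) : gr_cQ c a ≤ gr_cQ c b :=
  Nat.count_monotone _ h

theorem gct_cU_add_cQ (c : ℕ → Bool) (j : ℕ) : gr_cU c j + gr_cQ c j = j := by
  induction j with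
  | zero => simp
  | succ j ih =>
    rw [gct_cU_succ, gct_cQ_succ]
    cases c j <;> simp <;> omega

theorem gct_cU_le (c : ℕ → Bool) (j : ℕ) : gr_cU c j ≤ j := Nat.count_le _

theorem gct_cQ_le (c : ℕ → Bool) (j : ℕ) : gr_cQ c j ≤ j := Nat.count_le _

theorem gct_cU_eq_add (c : ℕ → Bool) {lo hi : ℕ} (h : lo ≤ hi) :
    gr_cU c hi = gr_cU c lo + gr_nU c lo hi := by
  have := gct_cU_mono c h
  unfold gr_nU
  omega

theorem gct_cQ_eq_add (c : ℕ → Bool) {lo hi : ℕ} (h : lo ≤ hi) :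
    gr_cQ c hi = gr_cQ c lo + gr_nQ c lo hi := by
  have := gct_cQ_mono c h
  unfold gr_nQ
  omega

theorem gct_nU_add (c : ℕ → Bool) {lo mid hi : ℕ} (h1 : lo ≤ mid) (h2 : mid ≤ hi) :
    gr_nU c lo mid + gr_nU c mid hi = gr_nU c lo hi := by
  have := gct_cU_mono c h1
  have := gct_cU_mono c h2
  unfold gr_nU
  omega

theorem gct_nQ_add (c : ℕ → Bool) {lo mid hi : ℕ} (h1 : lo ≤ mid) (h2 : mid ≤ hi) :
    gr_nQ c lo mid + gr_nQ c mid hi = gr_nQ c lo hi := by
  have := gct_cQ_mono c h1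
  have := gct_cQ_mono c h2
  unfold gr_nQ
  omega

theorem gct_nU_add_nQ (c : ℕ → Bool) {lo hi : ℕ} (h : lo ≤ hi) :
    gr_nU c lo hi + gr_nQ c lo hi = hi - lo := by
  have := gct_cU_mono c h
  have := gct_cQ_mono c h
  have := gct_cU_add_cQ c lo
  have := gct_cU_add_cQ c hi
  unfold gr_nU gr_nQ
  omega

@[simp] theorem gct_nU_self (c : ℕ → Bool) (lo : ℕ) : gr_nU c lo lo = 0 := by simp [gr_nU]

@[simp] theorem gct_nQ_self (c : ℕ → Bool) (lo : ℕ) : gr_nQ c lo lo = 0 := by simp [gr_nQ]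

theorem gct_nU_le (c : ℕ → Bool) {lo hi : ℕ} (h : lo ≤ hi) : gr_nU c lo hi ≤ hi - lo := by
  have := gct_nU_add_nQ c h
  omega

theorem gct_nQ_le (c : ℕ → Bool) {lo hi : ℕ} (h : lo ≤ hi) : gr_nQ c lo hi ≤ hi - lo := by
  have := gct_nU_add_nQ c h
  omega

theorem gct_nU_zero_left (c : ℕ → Bool) (hi : ℕ) : gr_nU c 0 hi = gr_cU c hi := by simp [gr_nU]

theorem gct_nQ_zero_left (c : ℕ → Bool) (hi : ℕ) : gr_nQ c 0 hi = gr_cQ c hi := by simp [gr_nQ]

/-- `nU` on `[lo, lo+d)` as a count of the shifted colouring -/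
theorem gct_nU_eq_count (c : ℕ → Bool) (lo d : ℕ) :
    gr_nU c lo (lo + d) = gr_cU (fun j => c (lo + j)) d := by
  unfold gr_nU gr_cU
  rw [Nat.count_add]
  exact Nat.add_sub_cancel_left _ _

theorem gct_nQ_eq_count (c : ℕ → Bool) (lo d : ℕ) :
    gr_nQ c lo (lo + d) = gr_cQ (fun j => c (lo + j)) d := by
  unfold gr_nQ gr_cQ
  rw [Nat.count_add]
  exact Nat.add_sub_cancel_left _ _

theorem gct_cU_congr {c c' : ℕ → Bool} {hi : ℕ} (h : ∀ j, j < hi → c j = c' j) :
    gr_cU c hi = gr_cU c' hi := by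
  induction hi with
  | zero => simp
  | succ m ih =>
    rw [gct_cU_succ, gct_cU_succ, ih fun j hj => h j (by omega), h m (by omega)]

theorem gct_cQ_congr {c c' : ℕ → Bool} {hi : ℕ} (h : ∀ j, j < hi → c j = c' j) :
    gr_cQ c hi = gr_cQ c' hi := by
  induction hi with
  | zero => simp
  | succ m ih =>
    rw [gct_cQ_succ, gct_cQ_succ, ih fun j hj => h j (by omega), h m (by omega)]

theorem gct_nU_congr {c c' : ℕ → Bool} {lo hi : ℕ} (h : ∀ j, lo ≤ j → j < hi → c j = c' j) :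
    gr_nU c lo hi = gr_nU c' lo hi := by
  rcases le_total lo hi with hle | hle
  · obtain ⟨d, rfl⟩ := Nat.exists_eq_add_of_le hle
    rw [gct_nU_eq_count, gct_nU_eq_count]
    exact gct_cU_congr fun j hj => h _ (by omega) (by omega)
  · have h1 := gct_cU_mono c hle
    have h2 := gct_cU_mono c' hle
    unfold gr_nU
    omega

theorem gct_nQ_congr {c c' : ℕ → Bool} {lo hi : ℕ} (h : ∀ j, lo ≤ j → j < hi → c j = c' j) :
    gr_nQ c lo hi = gr_nQ c' lo hi := by
  rcases le_total lo hi with hle | hle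
  · obtain ⟨d, rfl⟩ := Nat.exists_eq_add_of_le hle
    rw [gct_nQ_eq_count, gct_nQ_eq_count]
    exact gct_cQ_congr fun j hj => h _ (by omega) (by omega)
  · have h1 := gct_cQ_mono c hle
    have h2 := gct_cQ_mono c' hle
    unfold gr_nQ
    omega

/-- all indices of `[lo,hi)` have colour `U` -/
theorem gct_nU_of_forall {c : ℕ → Bool} {lo hi : ℕ} (hle : lo ≤ hi)
    (h : ∀ j, lo ≤ j → j < hi → c j = true) : gr_nU c lo hi = hi - lo := by
  obtain ⟨d, rfl⟩ := Nat.exists_eq_add_of_le hle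
  rw [gct_nU_eq_count]
  have : gr_cU (fun j => c (lo + j)) d = d :=
    Nat.count_iff_forall.2 fun j hj => h _ (by omega) (by omega)
  omega

/-- no index of `[lo,hi)` has colour `U` -/
theorem gct_nU_of_forall_not {c : ℕ → Bool} {lo hi : ℕ}
    (h : ∀ j, lo ≤ j → j < hi → c j = false) : gr_nU c lo hi = 0 := by
  rcases le_total lo hi with hle | hle
  · obtain ⟨d, rfl⟩ := Nat.exists_eq_add_of_le hle
    rw [gct_nU_eq_count]
    exact Nat.count_iff_forall_not.2 fun j hj => by simp [h (lo + j) (by omega) (by omega)]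
  · have h1 := gct_cU_mono c hle
    unfold gr_nU
    omega

/-- the prefix colouring -/
theorem gct_cU_prefix (k n : ℕ) : gr_cU (fun j => decide (j < k)) n = min k n := by
  induction n with
  | zero => simp
  | succ n ih =>
    rw [gct_cU_succ, ih]
    by_cases h : n < k
    · simp [h]; omega
    · simp [h]; omega

/-- colourings which vanish beyond `n` -/
theorem gct_cU_beyond {c : ℕ → Bool} {n : ℕ} (h : ∀ j, n ≤ j → c j = false) {m : ℕ} (hm : n ≤ m) :
    gr_cU c m = gr_cU c n := by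
  rw [gct_cU_eq_add c hm, gct_nU_of_forall_not fun j hj _ => h j hj, add_zero]

/-- two colourings which agree outside of `[lo,hi)` and have the same number of `U` inside have the
same counting function outside -/
theorem gct_cU_eq_of_agree {c c' : ℕ → Bool} {lo hi : ℕ} (hle : lo ≤ hi)
    (h : ∀ j, j < lo ∨ hi ≤ j → c' j = c j) (hn : gr_nU c' lo hi = gr_nU c lo hi) (j : ℕ)
    (hj : j ≤ lo ∨ hi ≤ j) : gr_cU c' j = gr_cU c j := by
  rcases hj with hj | hj
  · exact gct_cU_congr fun t ht => h t (Or.inl (by omega))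
  · rw [gct_cU_eq_add c' (hle.trans hj), gct_cU_eq_add c (hle.trans hj),
      ← gct_nU_add c' hle hj, ← gct_nU_add c hle hj, hn,
      gct_cU_congr (c := c') (c' := c) fun t ht => h t (Or.inl ht),
      gct_nU_congr (c := c') (c' := c) fun t ht _ => h t (Or.inr ht)]

theorem gct_cQ_eq_of_agree {c c' : ℕ → Bool} {lo hi : ℕ} (hle : lo ≤ hi)
    (h : ∀ j, j < lo ∨ hi ≤ j → c' j = c j) (hn : gr_nU c' lo hi = gr_nU c lo hi) (j : ℕ)
    (hj : j ≤ lo ∨ hi ≤ j) : gr_cQ c' j = gr_cQ c j := by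
  have h1 := gct_cU_eq_of_agree hle h hn j hj
  have h2 := gct_cU_add_cQ c j
  have h3 := gct_cU_add_cQ c' j
  omega

end Claimed.Agent.R236
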