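import Mathlib
import Claimed.Agent.R236.GChain
import Claimed.Agent.R236.GMatUni
import Claimed.Agent.R236.GCount
import Claimed.Agent.R236.GWord

/-!
# Row 236, REDUCE, SB3 (LIFT), part A: block diagonal calculus (owner helper58, prefix `gl_`)

`gl_bd n K h = ∏_{c ∈ K, c < n} emb c (h c)` (so `gr_d C z i = gl_bd C.n (C.K i) (gr_hval C z i)`).
* next cut: `gl_nxt_spec`, `gl_nxt_le`, `gl_nxt_cutRepl`, `gl_nxt_mid_left/right`;
* `gl_bd_mul`, `gl_bd_one`, `gl_bd_congr`, `gl_bd_isUnit`, `gl_bd_commute_emb`, `gl_bd_mid`,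
  `gl_bd_split`.
-/

set_option autoImplicit false

namespace Claimed.Agent.R236

open Matrix

variable {N : ℕ}

/-! ## the next cut -/

theorem gl_nxt_spec {n : ℕ} {K : Finset ℕ} (hn : n ∈ K) {c : ℕ} (hc : c < n) :
    gr_nxt K c ∈ K ∧ c < gr_nxt K c ∧ gr_nxt K c ≤ n ∧ ∀ d ∈ K, c < d → gr_nxt K c ≤ d := by
  have hne : {d | d ∈ K ∧ c < d}.Nonempty := ⟨n, hn, hc⟩
  have hmem := Nat.sInf_mem hne
  exact ⟨hmem.1, hmem.2, Nat.sInf_le ⟨hn, hc⟩, fun d hd hcd => Nat.sInf_le ⟨hd, hcd⟩⟩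

/-- characterisation of the next cut -/
theorem gl_nxt_eq {K : Finset ℕ} {c e : ℕ} (he : e ∈ K) (hce : c < e)
    (hmin : ∀ d ∈ K, c < d → e ≤ d) : gr_nxt K c = e := by
  have hne : {d | d ∈ K ∧ c < d}.Nonempty := ⟨e, he, hce⟩
  have hmem := Nat.sInf_mem hne
  exact le_antisymm (Nat.sInf_le ⟨he, hce⟩) (hmin _ hmem.1 hmem.2)

theorem gl_mem_cutRepl {K : Finset ℕ} {o m c d : ℕ} :
    d ∈ gs_cutRepl K o m c ↔ d = o + c ∨ (d ∈ K ∧ (d ≤ o ∨ o + m ≤ d)) := by
  simp [gs_cutRepl]

/-- the frame after a letter is cut at `o + c` inside `[o, o+m)` -/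
theorem gl_midOK_cutRepl {K : Finset ℕ} {o m a c : ℕ} (h : gs_midOK K o m a) (hc : c ≤ m) :
    gs_midOK (gs_cutRepl K o m c) o m c := by
  obtain ⟨h1, _, h3, _, _⟩ := h
  refine ⟨gl_mem_cutRepl.2 (Or.inr ⟨h1, Or.inl le_rfl⟩), gl_mem_cutRepl.2 (Or.inl rfl),
    gl_mem_cutRepl.2 (Or.inr ⟨h3, Or.inr le_rfl⟩), hc, ?_⟩
  intro d hd h5 h6
  rcases gl_mem_cutRepl.1 hd with h | ⟨_, h⟩
  · exact h
  · omega

/-- spectator cuts are not changed by a letter -/
theorem gl_spect_mem_iff {K : Finset ℕ} {o m a c : ℕ} (h : gs_midOK K o m a) (hc : c ≤ m) {d : ℕ}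
    (hd : d ≤ o ∨ o + m ≤ d) : d ∈ gs_cutRepl K o m c ↔ d ∈ K := by
  obtain ⟨h1, _, h3, _, _⟩ := h
  rw [gl_mem_cutRepl]
  constructor
  · rintro (h | h)
    · rcases hd with hd | hd
      · have : d = o := by omega
        rw [this]; exact h1
      · have : d = o + m := by omega
        rw [this]; exact h3
    · exact h.1
  · exact fun h => Or.inr ⟨h, hd⟩

/-- the next cut after a spectator cut is not changed by a letter -/
theorem gl_nxt_cutRepl {n : ℕ} {K : Finset ℕ} (hn : n ∈ K) {o m a c : ℕ} (h : gs_midOK K o m a)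
    (hc : c ≤ m) {s : ℕ} (hsn : s < n) (hs : s < o ∨ o + m ≤ s) :
    gr_nxt (gs_cutRepl K o m c) s = gr_nxt K s := by
  obtain ⟨g1, g2, g3, g4⟩ := gl_nxt_spec hn hsn
  have ho : o ∈ K := h.1
  have hle : gr_nxt K s ≤ o ∨ o + m ≤ gr_nxt K s := by
    rcases hs with hs | hs
    · exact Or.inl (g4 o ho hs)
    · exact Or.inr (by omega)
  refine gl_nxt_eq ((gl_spect_mem_iff h hc hle).2 g1) g2 ?_
  intro d hd hsd
  by_cases hd' : d ≤ o ∨ o + m ≤ d
  · exact g4 d ((gl_spect_mem_iff h hc hd').1 hd) hsd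
  · rcases hs with hs | hs
    · have := g4 o ho hs
      omega
    · omega

theorem gl_nxt_mid_left {K : Finset ℕ} {o m a : ℕ} (h : gs_midOK K o m a) (ha : 0 < a) :
    gr_nxt K o = o + a := by
  obtain ⟨_, h2, _, h4, h5⟩ := h
  refine gl_nxt_eq h2 (by omega) ?_
  intro d hd hod
  by_cases hdm : d < o + m
  · exact (h5 d hd hod hdm).ge
  · omega

theorem gl_nxt_mid_right {K : Finset ℕ} {o m a : ℕ} (h : gs_midOK K o m a) (ha : a < m) :
    gr_nxt K (o + a) = o + m := by
  obtain ⟨_, _, h3, _, h5⟩ := h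
  refine gl_nxt_eq h3 (by omega) ?_
  intro d hd hod
  by_contra hdm
  have := h5 d hd (by omega) (by omega)
  omega

/-! ## products of commuting families -/

theorem gl_list_prod_mul {M : Type*} [Monoid M] (l : List ℕ) (hl : l.Nodup) (f g : ℕ → M)
    (hc : ∀ x ∈ l, ∀ y ∈ l, x ≠ y → Commute (g x) (f y)) :
    (l.map fun c => f c * g c).prod = (l.map f).prod * (l.map g).prod := by
  induction l with
  | nil => simp
  | cons a l ih =>
    have hnd := List.nodup_cons.mp hl
    simp only [List.map_cons, List.prod_cons]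
    rw [ih hnd.2 (fun x hx y hy => hc x (List.mem_cons_of_mem _ hx) y (List.mem_cons_of_mem _ hy))]
    have hcomm : Commute (g a) (l.map f).prod := by
      apply Commute.list_prod_right
      intro y hy
      obtain ⟨b, hb, rfl⟩ := List.mem_map.mp hy
      exact hc a List.mem_cons_self b (List.mem_cons_of_mem _ hb) (by rintro rfl; exact hnd.1 hb)
    calc f a * g a * ((l.map f).prod * (l.map g).prod)
        = f a * (g a * (l.map f).prod) * (l.map g).prod := by simp only [mul_assoc]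
      _ = f a * ((l.map f).prod * g a) * (l.map g).prod := by rw [hcomm.eq]
      _ = _ := by simp only [mul_assoc]

theorem gl_prod_two {M : Type*} [Monoid M] (n p q : ℕ) (hpq : p ≤ q) (f : ℕ → M)
    (hf : ∀ c, c ≠ p → c ≠ q → f c = 1) :
    ((List.range n).map f).prod = (if p < n then f p else 1) * (if p < q ∧ q < n then f q else 1) := by
  induction n with
  | zero => simp
  | succ n ih =>
    rw [List.range_succ, List.map_append, List.prod_append, ih]
    simp only [List.map_cons, List.map_nil, List.prod_cons, List.prod_nil, mul_one]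
    by_cases h1 : n = p
    · subst h1
      have e1 : ¬ (n < q ∧ q < n) := by omega
      have e2 : ¬ (n < q ∧ q < n + 1) := by omega
      simp [e1]
    · by_cases h2 : n = q
      · subst h2
        have e1 : p < n := by omega
        have e2 : p < n + 1 := by omega
        simp [e1, e2]
      · rw [hf n h1 h2, mul_one]
        have e1 : (p < n + 1) = (p < n) := by
          apply propext; omega
        have e2 : (p < q ∧ q < n + 1) = (p < q ∧ q < n) := by
          apply propext; omega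
        simp only [e1, e2]

/-! ## block diagonal matrices -/

/-- the block diagonal matrix with the blocks `h c`, `c ∈ K`, `c < n` -/
noncomputable def gl_bd (n : ℕ) (K : Finset ℕ) (h : ℕ → gs_Mat N) : gs_Mat N :=
  ((List.range n).map fun c => if c ∈ K then gs_emb c (h c) else 1).prod

/-- every `h c` has the rank of the block starting at `c` -/
def gl_Cor (n : ℕ) (K : Finset ℕ) (h : ℕ → gs_Mat N) : Prop :=
  ∀ c ∈ K, c < n → gs_IsCorner (gr_nxt K c - c) (h c)

/-- every `h c` is invertible of the rank of the block starting at `c` -/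
def gl_Fam (n : ℕ) (K : Finset ℕ) (h : ℕ → gs_Mat N) : Prop :=
  ∀ c ∈ K, c < n → gr_GL (gr_nxt K c - c) (h c)

theorem gl_Fam.cor {n : ℕ} {K : Finset ℕ} {h : ℕ → gs_Mat N} (hh : gl_Fam n K h) : gl_Cor n K h :=
  fun c hc hcn => (hh c hc hcn).2

theorem gl_d_eq {Y : Type} (C : gr_Ctx Y) (z : gr_Z Y N) (i : ℕ) :
    gr_d C z i = gl_bd C.n (C.K i) (gr_hval C z i) := rfl

theorem gl_bd_congr {n : ℕ} {K K' : Finset ℕ} {h h' : ℕ → gs_Mat N}
    (hh : ∀ c, c < n → (if c ∈ K then gs_emb c (h c) else 1) =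
      (if c ∈ K' then gs_emb c (h' c) else (1 : gs_Mat N))) :
    gl_bd n K h = gl_bd n K' h' := by
  unfold gl_bd
  congr 1
  exact List.map_congr_left fun c hc => hh c (List.mem_range.mp hc)

theorem gl_bd_congr' {n : ℕ} {K : Finset ℕ} {h h' : ℕ → gs_Mat N}
    (hh : ∀ c ∈ K, c < n → h c = h' c) : gl_bd n K h = gl_bd n K h' := by
  refine gl_bd_congr fun c hcn => ?_
  by_cases hc : c ∈ K
  · rw [if_pos hc, if_pos hc, hh c hc hcn]
  · rw [if_neg hc, if_neg hc]

theorem gl_bd_one (n : ℕ) (K : Finset ℕ) : gl_bd n K (fun _ => (1 : gs_Mat N)) = 1 := by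
  unfold gl_bd
  apply List.prod_eq_one
  intro x hx
  obtain ⟨c, _, rfl⟩ := List.mem_map.mp hx
  split_ifs
  · exact gm_emb_one c
  · rfl

theorem gl_emb_commute {n : ℕ} {K : Finset ℕ} (hn : n ∈ K) {c c' : ℕ} (hc : c ∈ K) (hc' : c' ∈ K)
    (hcn : c < n) (hcn' : c' < n) (hne : c ≠ c') {A B : gs_Mat N}
    (hA : gs_IsCorner (gr_nxt K c - c) A) (hB : gs_IsCorner (gr_nxt K c' - c') B) :
    Commute (gs_emb c A) (gs_emb c' B) := by
  rcases lt_or_gt_of_ne hne with h | h
  · obtain ⟨_, g2, _, g4⟩ := gl_nxt_spec hn hcn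
    have h1 : gs_IsCorner (c + (gr_nxt K c - c)) (gs_emb c A) := gm_emb_corner c hA
    exact gm_emb_commute h1 (by have := g4 c' hc' h; omega) B
  · obtain ⟨_, g2, _, g4⟩ := gl_nxt_spec hn hcn'
    have h1 : gs_IsCorner (c' + (gr_nxt K c' - c')) (gs_emb c' B) := gm_emb_corner c' hB
    exact (gm_emb_commute h1 (by have := g4 c hc h; omega) A).symm

theorem gl_bd_mul {n : ℕ} {K : Finset ℕ} (hnN : n ≤ N) (hn : n ∈ K) {h h' : ℕ → gs_Mat N}
    (hh : gl_Cor n K h) (hh' : gl_Cor n K h') :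
    gl_bd n K (fun c => h c * h' c) = gl_bd n K h * gl_bd n K h' := by
  unfold gl_bd
  rw [← gl_list_prod_mul (List.range n) List.nodup_range]
  · congr 1
    refine List.map_congr_left fun c hc => ?_
    have hcn := List.mem_range.mp hc
    by_cases hcK : c ∈ K
    · simp only [if_pos hcK]
      obtain ⟨_, g2, g3, _⟩ := gl_nxt_spec hn hcn
      exact gm_emb_mul (hh c hcK hcn) (hh' c hcK hcn) (by omega)
    · simp only [if_neg hcK, mul_one]
  · intro x hx y hy hxy
    have hxn := List.mem_range.mp hx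
    have hyn := List.mem_range.mp hy
    by_cases hxK : x ∈ K
    · by_cases hyK : y ∈ K
      · simp only [if_pos hxK, if_pos hyK]
        exact gl_emb_commute hn hxK hyK hxn hyn hxy (hh' x hxK hxn) (hh y hyK hyn)
      · simp only [if_neg hyK]; exact Commute.one_right _
    · simp only [if_neg hxK]; exact Commute.one_left _

theorem gl_Fam.inv {n : ℕ} {K : Finset ℕ} {h : ℕ → gs_Mat N} (hh : gl_Fam n K h) :
    gl_Fam n K (fun c => (h c)⁻¹) := fun c hc hcn =>
  ⟨by rw [Matrix.det_nonsing_inv]; exact (hh c hc hcn).1.ringInverse,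
    gm_corner_inv (hh c hc hcn).2 (hh c hc hcn).1⟩

theorem gl_bd_mul_inv {n : ℕ} {K : Finset ℕ} (hnN : n ≤ N) (hn : n ∈ K) {h : ℕ → gs_Mat N}
    (hh : gl_Fam n K h) : gl_bd n K h * gl_bd n K (fun c => (h c)⁻¹) = 1 := by
  rw [← gl_bd_mul hnN hn hh.cor hh.inv.cor, ← gl_bd_one n K]
  exact gl_bd_congr' fun c hc hcn => Matrix.mul_nonsing_inv _ (hh c hc hcn).1

theorem gl_bd_isUnit {n : ℕ} {K : Finset ℕ} (hnN : n ≤ N) (hn : n ∈ K) {h : ℕ → gs_Mat N}
    (hh : gl_Fam n K h) : IsUnit (gl_bd n K h).det :=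
  Matrix.isUnit_det_of_right_inverse (gl_bd_mul_inv hnN hn hh)

theorem gl_bd_inv {n : ℕ} {K : Finset ℕ} (hnN : n ≤ N) (hn : n ∈ K) {h : ℕ → gs_Mat N}
    (hh : gl_Fam n K h) : (gl_bd n K h)⁻¹ = gl_bd n K (fun c => (h c)⁻¹) :=
  Matrix.inv_eq_right_inv (gl_bd_mul_inv hnN hn hh)

/-- a block diagonal matrix which is trivial on `[o,o+m)` commutes with everything living there -/
theorem gl_bd_commute_emb {n : ℕ} {K : Finset ℕ} (hn : n ∈ K) {o m : ℕ} (ho : o ∈ K)
    {h : ℕ → gs_Mat N} (hh : gl_Cor n K h) (hsp : ∀ c, o ≤ c → c < o + m → h c = 1)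
    {X : gs_Mat N} (hX : gs_IsCorner m X) : Commute (gl_bd n K h) (gs_emb o X) := by
  unfold gl_bd
  apply Commute.list_prod_left
  intro x hx
  obtain ⟨c, hc, rfl⟩ := List.mem_map.mp hx
  have hcn := List.mem_range.mp hc
  by_cases hcK : c ∈ K
  · rw [if_pos hcK]
    by_cases h1 : c < o
    · obtain ⟨_, g2, _, g4⟩ := gl_nxt_spec hn hcn
      have h2 : gs_IsCorner (c + (gr_nxt K c - c)) (gs_emb c (h c)) :=
        gm_emb_corner c (hh c hcK hcn)
      exact gm_emb_commute h2 (by have := g4 o ho h1; omega) X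
    · by_cases h2 : c < o + m
      · rw [hsp c (by omega) h2, gm_emb_one]; exact Commute.one_left _
      · exact (gm_emb_commute (gm_emb_corner o hX) (by omega) (h c)).symm
  · rw [if_neg hcK]; exact Commute.one_left _

/-- a block diagonal matrix which is trivial outside of `[o,o+m)` -/
theorem gl_bd_mid {n : ℕ} {K : Finset ℕ} (hnN : n ≤ N) (hle : ∀ d ∈ K, d ≤ n) {o m a : ℕ}
    (hmid : gs_midOK K o m a) {h : ℕ → gs_Mat N} (hh : gl_Cor n K h)
    (hsp : ∀ c, (c < o ∨ o + m ≤ c) → h c = 1) :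
    gl_bd n K h =
      gs_emb o ((if 0 < a then h o else 1) * gs_emb a (if a < m then h (o + a) else 1)) := by
  have hmid' := hmid
  obtain ⟨h1, h2, h3, h4, h5⟩ := hmid
  have homn : o + m ≤ n := hle _ h3
  unfold gl_bd
  rw [gl_prod_two n o (o + a) (by omega)]
  · by_cases ha : 0 < a
    · have e1 : o < n := by omega
      rw [if_pos e1, if_pos h1, if_pos ha]
      have hco : gs_IsCorner a (h o) := by
        have := hh o h1 e1
        rwa [gl_nxt_mid_left hmid' ha, Nat.add_sub_cancel_left] at this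
      by_cases ham : a < m
      · have e2 : o < o + a ∧ o + a < n := by omega
        rw [if_pos e2, if_pos h2, if_pos ham]
        have hca : gs_IsCorner (m - a) (h (o + a)) := by
          have := hh (o + a) h2 e2.2
          rwa [gl_nxt_mid_right hmid' ham, Nat.add_sub_add_left] at this
        have hca' : gs_IsCorner m (gs_emb a (h (o + a))) := by
          have := gm_emb_corner a hca
          rwa [Nat.add_sub_cancel' h4] at this
        rw [gm_emb_mul (gm_corner_mono h4 hco) hca' (by omega), gm_emb_emb]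
      · rw [if_neg ham, gm_emb_one, mul_one]
        have e3 : h (o + a) = 1 := hsp _ (Or.inr (by omega))
        rw [e3, gm_emb_one]
        simp
    · have ha0 : a = 0 := by omega
      subst ha0
      have e2 : ¬ (o < o + 0 ∧ o + 0 < n) := by omega
      rw [if_neg e2, mul_one, if_neg ha, one_mul, gm_emb_zero, if_pos h1, Nat.add_zero]
      by_cases hm : 0 < m
      · rw [if_pos (by omega : o < n), if_pos hm]
      · rw [if_neg hm, hsp o (Or.inr (by omega)), gm_emb_one]
        simp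
  · intro c hc1 hc2
    by_cases hcK : c ∈ K
    · rw [if_pos hcK]
      by_cases hc3 : c < o ∨ o + m ≤ c
      · rw [hsp c hc3, gm_emb_one]
      · exact absurd (h5 c hcK (by omega) (by omega)) hc2
    · rw [if_neg hcK]

/-- the spectator part of a family -/
noncomputable def gl_sp (o m : ℕ) (h : ℕ → gs_Mat N) : ℕ → gs_Mat N :=
  fun c => if c < o ∨ o + m ≤ c then h c else 1

/-- the part of a family inside `[o,o+m)` -/
noncomputable def gl_md (o m : ℕ) (h : ℕ → gs_Mat N) : ℕ → gs_Mat N :=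
  fun c => if c < o ∨ o + m ≤ c then 1 else h c

theorem gl_Cor.sp {n : ℕ} {K : Finset ℕ} {h : ℕ → gs_Mat N} (hh : gl_Cor n K h) (o m : ℕ) :
    gl_Cor n K (gl_sp o m h) := fun c hc hcn => by
  unfold gl_sp; split_ifs
  · exact hh c hc hcn
  · exact gm_corner_one _

theorem gl_Cor.md {n : ℕ} {K : Finset ℕ} {h : ℕ → gs_Mat N} (hh : gl_Cor n K h) (o m : ℕ) :
    gl_Cor n K (gl_md o m h) := fun c hc hcn => by
  unfold gl_md; split_ifs
  · exact gm_corner_one _
  · exact hh c hc hcn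

theorem gl_Fam.sp {n : ℕ} {K : Finset ℕ} {h : ℕ → gs_Mat N} (hh : gl_Fam n K h) (o m : ℕ) :
    gl_Fam n K (gl_sp o m h) := fun c hc hcn => by
  unfold gl_sp; split_ifs
  · exact hh c hc hcn
  · exact ⟨by simp, gm_corner_one _⟩

/-- the mid part of the block diagonal matrix, moved to the corner -/
noncomputable def gl_dmid (o m a : ℕ) (h : ℕ → gs_Mat N) : gs_Mat N :=
  (if 0 < a then h o else 1) * gs_emb a (if a < m then h (o + a) else 1)

/-- **splitting**: `d = dspec * emb o dmid` -/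
theorem gl_bd_split {n : ℕ} {K : Finset ℕ} (hnN : n ≤ N) (hn : n ∈ K) (hle : ∀ d ∈ K, d ≤ n)
    {o m a : ℕ} (hmid : gs_midOK K o m a) {h : ℕ → gs_Mat N} (hh : gl_Cor n K h) :
    gl_bd n K h = gl_bd n K (gl_sp o m h) * gs_emb o (gl_dmid o m a h) := by
  have e1 : gl_bd n K h = gl_bd n K (fun c => gl_sp o m h c * gl_md o m h c) := by
    refine gl_bd_congr' fun c _ _ => ?_
    unfold gl_sp gl_md
    split_ifs <;> simp
  rw [e1, gl_bd_mul hnN hn (hh.sp o m) (hh.md o m),
    gl_bd_mid hnN hle hmid (hh.md o m) (fun c hc => by unfold gl_md; rw [if_pos hc])]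
  congr 2
  unfold gl_dmid gl_md
  obtain ⟨_, _, _, h4, _⟩ := hmid
  congr 1
  · by_cases ha : 0 < a
    · rw [if_pos ha, if_pos ha, if_neg (by omega)]
    · rw [if_neg ha, if_neg ha]
  · by_cases ha : a < m
    · rw [if_pos ha, if_pos ha, if_neg (by omega)]
    · rw [if_neg ha, if_neg ha]

/-- the mid part is invertible of rank `m` -/
theorem gl_dmid_GL {n : ℕ} {K : Finset ℕ} (hnN : n ≤ N) (hle : ∀ d ∈ K, d ≤ n)
    {o m a : ℕ} (hmid : gs_midOK K o m a) {h : ℕ → gs_Mat N} (hh : gl_Fam n K h) :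
    gr_GL m (gl_dmid o m a h) := by
  have hmid' := hmid
  obtain ⟨h1, h2, h3, h4, h5⟩ := hmid
  have homn : o + m ≤ n := hle _ h3
  have hA : gr_GL a (if 0 < a then h o else 1) := by
    by_cases ha : 0 < a
    · rw [if_pos ha]
      have := hh o h1 (by omega)
      rwa [gl_nxt_mid_left hmid' ha, Nat.add_sub_cancel_left] at this
    · rw [if_neg ha]; exact ⟨by simp, gm_corner_one _⟩
  have hB : gr_GL (m - a) (if a < m then h (o + a) else 1) := by
    by_cases ha : a < m
    · rw [if_pos ha]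
      have := hh (o + a) h2 (by omega)
      rwa [gl_nxt_mid_right hmid' ha, Nat.add_sub_add_left] at this
    · rw [if_neg ha]; exact ⟨by simp, gm_corner_one _⟩
  have hB' : gs_IsCorner m (gs_emb a (if a < m then h (o + a) else 1)) := by
    have := gm_emb_corner a hB.2
    rwa [Nat.add_sub_cancel' h4] at this
  refine ⟨?_, gm_corner_mul (gm_corner_mono h4 hA.2) hB'⟩
  unfold gl_dmid
  rw [Matrix.det_mul]
  exact hA.1.mul (gm_emb_isUnit hB.2 hB.1 (by omega))

end Claimed.Agent.R236
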