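import Mathlib
import Claimed.Agent.R236.GChain
import Claimed.Agent.R236.GLiftA

/-!
# Row 236, REDUCE: more interfaces (owner helper10)

* SB1: the links of the letters, unpacked (`StUnpackG`, `StUnpackA`, `StUnpackB`), the reduced system
  as a conjunction of equations (`StUnpackSol`);
* SB7: passing from frame level to mid level (`StMidTri`, `StMidNu`).
-/

set_option autoImplicit false

namespace Claimed.Agent.R236

/-! ## SB1 -/

/-- a point solves the reduced system iff all variables have the right shape and every equation is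
satisfied -/
def StUnpackSol : Prop :=
  ∀ (N : ℕ) (Y : Type) (S : gs_Sys Y) (x : gs_Pt Y N),
    x ∈ gs_Sol N S ↔ (∀ y, gr_GL (S.sig y).rk (x (.inl y))) ∧ ∀ e, gs_EqnSat S.sig x e (S.eq e)

/-- the link of a `G` letter is satisfied iff the local data are admissible -/
def StUnpackG (N : ℕ) (R : Subring ℂ) : Prop :=
  ∀ (Y : Type) (S : gs_Sys Y) (e0 k : ℕ), gr_Hyp N R S e0 k →
    ∀ col, (gr_ctx S e0 k col).WF → ∀ (E0 : ℕ) (z : gr_Z Y N),
      let C := gr_ctx S e0 k col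
      (∀ y, gr_GL (C.sig y).rk (z.1 (.inl (.inl y)))) →
      (∀ v, gr_GL (C.nsig v).rk (gr_nval z v)) →
      ∀ i inv y o, i < C.len → C.letter i = .G inv y o →
        (gs_EqnSat C.sig' z.1 (gr_lk N E0 i 0) (C.linkG i inv y o) ↔
          gr_readG C E0 z i inv y o ∈
            gr_GSet N (gr_gnum (C.col i) (C.col (i + 1)) o (C.sig y).rk ((C.sig y).src inv)
              ((C.sig y).tgt inv)) ∧
          ∀ j, 9 ≤ j → z.1 (.inr (gr_lk N E0 i 0, j)) = 1)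

/-- the link of the strand `A` of a swap -/
def StUnpackA (N : ℕ) (R : Subring ℂ) : Prop :=
  ∀ (Y : Type) (S : gs_Sys Y) (e0 k : ℕ), gr_Hyp N R S e0 k →
    ∀ col, (gr_ctx S e0 k col).WF → ∀ (e1 E0 : ℕ) (z : gr_Z Y N),
      let C := gr_ctx S e0 k col
      (∀ v, gr_GL (C.nsig v).rk (gr_nval z v)) →
      ∀ i o A B, i < C.len → C.letter i = .S o A B →
        let ν := gr_snum (C.col i) (C.col (i + 1)) o A B
        let w := (gr_readS C e1 E0 z i o A B).1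
        (gs_EqnSat C.sig' z.1 (gr_lk N E0 i 0) (C.linkA i o A B) ↔
          gs_IsUni ν.A {0, ν.a + ν.h, ν.A} (w .wA0) ∧ gs_IsUni ν.A {0, ν.a, ν.a + ν.h, ν.A} (w .wA1) ∧
          gs_IsUni ν.A {0, ν.a, ν.A} (w .wA2) ∧ gs_IsUni ν.A {0, ν.A} (w .wA3) ∧
          (∀ j, 4 ≤ j → z.1 (.inr (gr_lk N E0 i 0, j)) = 1) ∧
          w .hAp * w .wA0 * w .s * w .wA1 * gs_emb ν.a (w .r)⁻¹ * w .wA2 * (w .hAm)⁻¹ * w .wA3 = 1)

/-- the link of the strand `B` of a swap -/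
def StUnpackB (N : ℕ) (R : Subring ℂ) : Prop :=
  ∀ (Y : Type) (S : gs_Sys Y) (e0 k : ℕ), gr_Hyp N R S e0 k →
    ∀ col, (gr_ctx S e0 k col).WF → ∀ (e1 E0 : ℕ) (z : gr_Z Y N),
      let C := gr_ctx S e0 k col
      (∀ v, gr_GL (C.nsig v).rk (gr_nval z v)) →
      ∀ i o A B, i < C.len → C.letter i = .S o A B →
        let ν := gr_snum (C.col i) (C.col (i + 1)) o A B
        let w := (gr_readS C e1 E0 z i o A B).1
        (gs_EqnSat C.sig' z.1 (gr_lk N E0 i 1) (C.linkB i o A B) ↔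
          gs_IsUni ν.B {0, ν.b, ν.B} (w .wB0) ∧ gs_IsUni ν.B {0, ν.b, ν.b + ν.h, ν.B} (w .wB1) ∧
          gs_IsUni ν.B {0, ν.b + ν.h, ν.B} (w .wB2) ∧ gs_IsUni ν.B {0, ν.B} (w .wB3) ∧
          (∀ j, 4 ≤ j → z.1 (.inr (gr_lk N E0 i 1, j)) = 1) ∧
          w .hBp * w .wB0 * gs_emb ν.b (w .v) * w .wB1 * (w .t)⁻¹ * w .wB2 * (w .hBm)⁻¹ * w .wB3 = 1)

/-- the numbers of a swap for an admissible colouring; the frames of the segments contain the cuts of
the mid level groups -/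
def StSwapFrames (N : ℕ) (R : Subring ℂ) : Prop :=
  ∀ (Y : Type) (S : gs_Sys Y) (e0 k : ℕ), gr_Hyp N R S e0 k →
    ∀ col, (gr_ctx S e0 k col).WF →
      let C := gr_ctx S e0 k col
      ∀ i o A B, i < C.len → C.letter i = .S o A B →
        let ν := gr_snum (C.col i) (C.col (i + 1)) o A B
        let oU := gr_cU (C.col i) o
        let oQ := gr_cQ (C.col i) o
        ν.A = A ∧ ν.B = B ∧ oU + ν.km ≤ C.k ∧ oQ + (ν.m - ν.km) ≤ C.n - C.k ∧
        gr_colMid (C.col i) o (A + B) = ν.cb ∧ gr_colMid (C.col (i + 1)) o (A + B) = ν.ca ∧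
        gr_nU (C.col i) o (o + (A + B)) = ν.km ∧
        (∀ d ∈ ({0, ν.a, ν.a + ν.b, ν.km} : Finset ℕ), oU + d ∈ C.frU i 0) ∧
        (∀ d ∈ ({0, ν.b, ν.a + ν.b, ν.km} : Finset ℕ), oU + d ∈ C.frU i 1) ∧
        (∀ d ∈ ({0, ν.h, ν.h + ν.x, ν.m - ν.km} : Finset ℕ), oQ + d ∈ C.frQ i 0) ∧
        (∀ d ∈ ({0, ν.h, ν.h + ν.x, ν.m - ν.km} : Finset ℕ), oQ + d ∈ C.frQ i 1) ∧
        (∀ d ∈ ({0, ν.h, ν.h + ν.y, ν.m - ν.km} : Finset ℕ), oQ + d ∈ C.frQ i 2)

/-- the numbers of a `G` letter for an admissible colouring -/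
def StGNum (N : ℕ) (R : Subring ℂ) : Prop :=
  ∀ (Y : Type) (S : gs_Sys Y) (e0 k : ℕ), gr_Hyp N R S e0 k →
    ∀ col, (gr_ctx S e0 k col).WF →
      let C := gr_ctx S e0 k col
      ∀ i inv y o, i < C.len → C.letter i = .G inv y o →
        let m := (C.sig y).rk
        let a := (C.sig y).src inv
        let c := (C.sig y).tgt inv
        let ν := gr_gnum (C.col i) (C.col (i + 1)) o m a c
        ν.Ok ∧ ν.m = m ∧ ν.a = a ∧ ν.c = c ∧ ν.u2 + ν.q2 = m - a ∧ ν.v2 + ν.p2 = m - c ∧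
        ν.km = gr_nU (C.col i) o (o + m) ∧
        gr_colMid (C.col i) o m = ν.cb ∧ gr_colMid (C.col (i + 1)) o m = ν.ca

/-! ## SB7: from frame level to mid level -/

/-- a block triangular identity at frame level gives one at mid level -/
def StMidTri (N : ℕ) : Prop :=
  ∀ (n k o m a c : ℕ) (K : Finset ℕ) (cb ca : ℕ → Bool) (h h' : ℕ → gs_Mat N) (z z' X u : gs_Mat N),
    gr_CF N n k K cb → gr_CF N n k (gs_cutRepl K o m c) ca → gs_midOK K o m a → c ≤ m →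
    gr_nU ca o (o + m) = gr_nU cb o (o + m) →
    gl_Fam n K h → gl_Fam n (gs_cutRepl K o m c) h' →
    (∀ r s : Fin N, z r s ≠ 0 → gp_zPos K n cb r s) →
    (∀ r s : Fin N, z' r s ≠ 0 → gp_zPos (gs_cutRepl K o m c) n ca r s) →
    gr_GL m X → gs_IsUni n (gs_cutRepl K o m c) u →
    gr_IsTri n k ((gl_bd n K h * (1 + z) * gr_sh cb n k)⁻¹ * gs_emb o X * u *
      (gl_bd n (gs_cutRepl K o m c) h' * (1 + z') * gr_sh ca n k)) →
    gr_IsTri m (gr_nU cb o (o + m))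
      ((gl_dmid o m a h * gr_midBlock o m (1 + z) *
          gr_sh (gr_colMid cb o m) m (gr_nU cb o (o + m)))⁻¹ * X *
        (gr_midBlock o m u *
          gr_midBlock o m (gl_bd n (gs_cutRepl K o m c) h' * (1 + z') *
            (gl_bd n (gs_cutRepl K o m c) h')⁻¹)) *
        (gl_dmid o m c h' * gr_sh (gr_colMid ca o m) m (gr_nU cb o (o + m))))

/-- the mid block of `ν = d (1+z) d⁻¹` -/
def StMidNu (N : ℕ) : Prop :=
  ∀ (n k o m a : ℕ) (K : Finset ℕ) (cb : ℕ → Bool) (h : ℕ → gs_Mat N) (z : gs_Mat N),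
    gr_CF N n k K cb → gs_midOK K o m a → gl_Fam n K h →
    (∀ r s : Fin N, z r s ≠ 0 → gp_zPos K n cb r s) →
    gs_IsUni n K (gl_bd n K h * (1 + z) * (gl_bd n K h)⁻¹) ∧
    gr_midBlock o m (gl_bd n K h * (1 + z) * (gl_bd n K h)⁻¹) =
      gl_dmid o m a h * gr_midBlock o m (1 + z) * (gl_dmid o m a h)⁻¹ ∧
    gs_IsUni m {0, a, m} (gr_midBlock o m (gl_bd n K h * (1 + z) * (gl_bd n K h)⁻¹)) ∧
    ∀ r s : Fin N, (gr_midBlock o m (1 + z) - 1) r s ≠ 0 →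
      gr_nU cb o (o + a) ≤ (r : ℕ) ∧ (r : ℕ) < a ∧ a ≤ (s : ℕ) ∧
        (s : ℕ) < a + gr_nU cb (o + a) (o + m)

end Claimed.Agent.R236
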