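import Mathlib
import Claimed.Agent.R236.GChain
import Claimed.Agent.R236.GMat

/-!
# Row 236, REDUCE, SB2 (colour calculus), part A  (prover helper227; prefix `gc_`)

Base library (counting, the shuffle function, function matrices, support calculus, block triangular
matrices entrywise) and the statements `StShInv`, `StTriMul`, `StTriInv`, `StTriParts`, `StBDConj`
of `GChain.lean`.
-/

set_option autoImplicit false

namespace Claimed.Agent.R236

open Matrix

variable {N : ℕ}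

/-! ## counting -/

theorem gc_cU_succ (c : ℕ → Bool) (j : ℕ) :
    gr_cU c (j + 1) = gr_cU c j + (if c j = true then 1 else 0) := by
  unfold gr_cU
  rw [Nat.count_succ]

theorem gc_cQ_succ (c : ℕ → Bool) (j : ℕ) :
    gr_cQ c (j + 1) = gr_cQ c j + (if c j = false then 1 else 0) := by
  unfold gr_cQ
  rw [Nat.count_succ]

theorem gc_cU_zero (c : ℕ → Bool) : gr_cU c 0 = 0 := by
  unfold gr_cU
  rw [Nat.count_zero]

theorem gc_cQ_zero (c : ℕ → Bool) : gr_cQ c 0 = 0 := by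
  unfold gr_cQ
  rw [Nat.count_zero]

theorem gc_cU_add_cQ (c : ℕ → Bool) (j : ℕ) : gr_cU c j + gr_cQ c j = j := by
  induction j with
  | zero => rw [gc_cU_zero, gc_cQ_zero]
  | succ j ih =>
    rw [gc_cU_succ, gc_cQ_succ]
    cases c j <;> simp <;> omega

theorem gc_cU_mono (c : ℕ → Bool) {a b : ℕ} (h : a ≤ b) : gr_cU c a ≤ gr_cU c b :=
  Nat.count_monotone _ h

theorem gc_cQ_mono (c : ℕ → Bool) {a b : ℕ} (h : a ≤ b) : gr_cQ c a ≤ gr_cQ c b :=
  Nat.count_monotone _ h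

theorem gc_cU_lt {c : ℕ → Bool} {r d : ℕ} (hr : c r = true) (h : r < d) :
    gr_cU c r < gr_cU c d := Nat.count_strict_mono (p := fun t => c t = true) hr h

theorem gc_cQ_lt {c : ℕ → Bool} {r d : ℕ} (hr : c r = false) (h : r < d) :
    gr_cQ c r < gr_cQ c d := Nat.count_strict_mono (p := fun t => c t = false) hr h

theorem gc_cU_le (c : ℕ → Bool) (j : ℕ) : gr_cU c j ≤ j := by
  have := gc_cU_add_cQ c j
  omega

theorem gc_nth_cU {c : ℕ → Bool} {r : ℕ} (hr : c r = true) :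
    Nat.nth (fun t => c t = true) (gr_cU c r) = r := Nat.nth_count (p := fun t => c t = true) hr

theorem gc_nth_cQ {c : ℕ → Bool} {r : ℕ} (hr : c r = false) :
    Nat.nth (fun t => c t = false) (gr_cQ c r) = r := Nat.nth_count (p := fun t => c t = false) hr

/-- the counts depend only on the colours below -/
theorem gc_cU_congr {c c' : ℕ → Bool} {j : ℕ} (h : ∀ t, t < j → c t = c' t) :
    gr_cU c j = gr_cU c' j := by
  induction j with
  | zero => rw [gc_cU_zero, gc_cU_zero]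
  | succ j ih =>
    rw [gc_cU_succ, gc_cU_succ, ih fun t ht => h t (by omega), h j (by omega)]

theorem gc_cQ_congr {c c' : ℕ → Bool} {j : ℕ} (h : ∀ t, t < j → c t = c' t) :
    gr_cQ c j = gr_cQ c' j := by
  have h1 := gc_cU_add_cQ c j
  have h2 := gc_cU_add_cQ c' j
  have h3 := gc_cU_congr h
  omega

/-! ## the shuffle function -/

theorem gc_shFn_ge (c : ℕ → Bool) (k : ℕ) {n r : ℕ} (h : n ≤ r) : gr_shFn c n k r = r := by
  unfold gr_shFn
  rw [if_neg (by omega)]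

theorem gc_shFn_U {c : ℕ → Bool} (k : ℕ) {n r : ℕ} (h : r < n) (hc : c r = true) :
    gr_shFn c n k r = gr_cU c r := by
  unfold gr_shFn
  rw [if_pos h, if_pos hc]

theorem gc_shFn_Q {c : ℕ → Bool} (k : ℕ) {n r : ℕ} (h : r < n) (hc : c r = false) :
    gr_shFn c n k r = k + gr_cQ c r := by
  unfold gr_shFn
  rw [if_pos h, if_neg (by simp [hc])]

theorem gc_shFn_U_lt {c : ℕ → Bool} {n k r : ℕ} (hk : gr_cU c n = k) (h : r < n)
    (hc : c r = true) : gr_shFn c n k r < k := by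
  rw [gc_shFn_U k h hc, ← hk]
  exact gc_cU_lt hc h

theorem gc_shFn_Q_lt {c : ℕ → Bool} {n k r : ℕ} (hk : gr_cU c n = k) (h : r < n)
    (hc : c r = false) : gr_shFn c n k r < n := by
  rw [gc_shFn_Q k h hc]
  have h1 := gc_cQ_lt hc h
  have h2 := gc_cU_add_cQ c n
  omega

theorem gc_shFn_Q_ge {c : ℕ → Bool} {n k r : ℕ} (h : r < n) (hc : c r = false) :
    k ≤ gr_shFn c n k r := by
  rw [gc_shFn_Q k h hc]
  omega

theorem gc_k_le {c : ℕ → Bool} {n k : ℕ} (hk : gr_cU c n = k) : k ≤ n := hk ▸ gc_cU_le c n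

theorem gc_shFn_lt {c : ℕ → Bool} {n k r : ℕ} (hk : gr_cU c n = k) (h : r < n) :
    gr_shFn c n k r < n := by
  cases hc : c r
  · exact gc_shFn_Q_lt hk h hc
  · exact lt_of_lt_of_le (gc_shFn_U_lt hk h hc) (gc_k_le hk)

theorem gc_shFn_ltN {c : ℕ → Bool} {n k r : ℕ} (hk : gr_cU c n = k) (hn : n ≤ N) (h : r < N) :
    gr_shFn c n k r < N := by
  by_cases hr : r < n
  · exact lt_of_lt_of_le (gc_shFn_lt hk hr) hn
  · rw [gc_shFn_ge c k (by omega)]
    exact h

theorem gc_shFn_inj {c : ℕ → Bool} {n k : ℕ} (hk : gr_cU c n = k) :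
    Function.Injective (gr_shFn c n k) := by
  intro r s h
  by_cases hr : r < n
  · by_cases hs : s < n
    · cases hcr : c r
      · cases hcs : c s
        · rw [gc_shFn_Q k hr hcr, gc_shFn_Q k hs hcs] at h
          exact Nat.count_injective (p := fun t => c t = false) hcr hcs (by
            unfold gr_cQ at h; omega)
        · have h1 := gc_shFn_Q_ge (k := k) hr hcr
          have h2 := gc_shFn_U_lt hk hs hcs
          omega
      · cases hcs : c s
        · have h1 := gc_shFn_Q_ge (k := k) hs hcs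
          have h2 := gc_shFn_U_lt hk hr hcr
          omega
        · rw [gc_shFn_U k hr hcr, gc_shFn_U k hs hcs] at h
          exact Nat.count_injective (p := fun t => c t = true) hcr hcs h
    · have h1 := gc_shFn_lt hk hr
      rw [gc_shFn_ge c k (by omega : n ≤ s)] at h
      omega
  · by_cases hs : s < n
    · have h1 := gc_shFn_lt hk hs
      rw [gc_shFn_ge c k (by omega : n ≤ r)] at h
      omega
    · rwa [gc_shFn_ge c k (by omega : n ≤ r), gc_shFn_ge c k (by omega : n ≤ s)] at h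

/-- the shuffle function on `Fin N` -/
def gc_f (c : ℕ → Bool) {n k : ℕ} (hk : gr_cU c n = k) (hn : n ≤ N) (r : Fin N) : Fin N :=
  ⟨gr_shFn c n k r, gc_shFn_ltN hk hn r.2⟩

theorem gc_f_inj (c : ℕ → Bool) {n k : ℕ} (hk : gr_cU c n = k) (hn : n ≤ N) :
    Function.Injective (gc_f (N := N) c hk hn) := by
  intro r s h
  exact Fin.ext (gc_shFn_inj hk (congrArg Fin.val h))

theorem gc_f_surj (c : ℕ → Bool) {n k : ℕ} (hk : gr_cU c n = k) (hn : n ≤ N) :
    Function.Surjective (gc_f (N := N) c hk hn) :=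
  Finite.injective_iff_surjective.1 (gc_f_inj c hk hn)

/-- every standard index `< k` comes from a `U`-coloured refined index -/
theorem gc_exists_U {c : ℕ → Bool} {n k : ℕ} (hk : gr_cU c n = k) (hn : n ≤ N) {i : ℕ}
    (hi : i < k) : ∃ r, r < n ∧ c r = true ∧ gr_cU c r = i := by
  have hkn := gc_k_le hk
  obtain ⟨r, hr⟩ := gc_f_surj (N := N) c hk hn ⟨i, by omega⟩
  have hr' : gr_shFn c n k r = i := congrArg Fin.val hr
  by_cases h : (r : ℕ) < n
  · cases hc : c r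
    · have := gc_shFn_Q_ge (k := k) h hc
      omega
    · exact ⟨r, h, hc, by rw [← gc_shFn_U k h hc]; exact hr'⟩
  · rw [gc_shFn_ge c k (by omega)] at hr'
    omega

/-- every standard index in `[k,n)` comes from a `Q`-coloured refined index -/
theorem gc_exists_Q {c : ℕ → Bool} {n k : ℕ} (hk : gr_cU c n = k) (hn : n ≤ N) {i : ℕ}
    (hi : k ≤ i) (hi' : i < n) : ∃ r, r < n ∧ c r = false ∧ k + gr_cQ c r = i := by
  obtain ⟨r, hr⟩ := gc_f_surj (N := N) c hk hn ⟨i, by omega⟩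
  have hr' : gr_shFn c n k r = i := congrArg Fin.val hr
  by_cases h : (r : ℕ) < n
  · cases hc : c r
    · exact ⟨r, h, hc, by rw [← gc_shFn_Q k h hc]; exact hr'⟩
    · have := gc_shFn_U_lt hk h hc
      omega
  · rw [gc_shFn_ge c k (by omega)] at hr'
    omega

/-! ## the shuffle matrix -/

theorem gc_sh_mul_apply (c : ℕ → Bool) {n k : ℕ} (hk : gr_cU c n = k) (hn : n ≤ N) (Z : gs_Mat N)
    (r s : Fin N) : ((gr_sh c n k : gs_Mat N) * Z) r s = Z (gc_f c hk hn r) s := by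
  rw [Matrix.mul_apply, Finset.sum_eq_single (gc_f c hk hn r)]
  · have : gr_sh c n k r (gc_f c hk hn r) = (1 : ℂ) := by
      unfold gr_sh gc_f
      rw [if_pos rfl]
    rw [this, one_mul]
  · intro b _ hb
    have : gr_sh c n k r b = (0 : ℂ) := by
      unfold gr_sh
      rw [if_neg]
      intro h
      exact hb (Fin.ext h.symm)
    rw [this, zero_mul]
  · intro h
    exact absurd (Finset.mem_univ _) h

theorem gc_mul_shT_apply (c : ℕ → Bool) {n k : ℕ} (hk : gr_cU c n = k) (hn : n ≤ N) (Z : gs_Mat N)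
    (r s : Fin N) : (Z * (gr_sh c n k : gs_Mat N).transpose) r s = Z r (gc_f c hk hn s) := by
  rw [Matrix.mul_apply, Finset.sum_eq_single (gc_f c hk hn s)]
  · have : (gr_sh c n k : gs_Mat N).transpose (gc_f c hk hn s) s = (1 : ℂ) := by
      rw [Matrix.transpose_apply]
      unfold gr_sh gc_f
      rw [if_pos rfl]
    rw [this, mul_one]
  · intro b _ hb
    have : (gr_sh c n k : gs_Mat N).transpose b s = (0 : ℂ) := by
      rw [Matrix.transpose_apply]
      unfold gr_sh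
      rw [if_neg]
      intro h
      exact hb (Fin.ext h.symm)
    rw [this, mul_zero]
  · intro h
    exact absurd (Finset.mem_univ _) h

/-- conjugation by the shuffle matrix, entrywise -/
theorem gc_conj_apply (c c' : ℕ → Bool) {n k : ℕ} (hk : gr_cU c n = k) (hk' : gr_cU c' n = k)
    (hn : n ≤ N) (Z : gs_Mat N) (r s : Fin N) :
    ((gr_sh c n k : gs_Mat N) * Z * (gr_sh c' n k : gs_Mat N).transpose) r s
      = Z (gc_f c hk hn r) (gc_f c' hk' hn s) := by
  rw [gc_mul_shT_apply c' hk' hn, gc_sh_mul_apply c hk hn]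

theorem gc_sh_mul_shT (c : ℕ → Bool) {n k : ℕ} (hk : gr_cU c n = k) (hn : n ≤ N) :
    (gr_sh c n k : gs_Mat N) * (gr_sh c n k : gs_Mat N).transpose = 1 := by
  ext r s
  have := gc_conj_apply c c hk hk hn (1 : gs_Mat N) r s
  rw [Matrix.mul_one] at this
  rw [this, Matrix.one_apply, Matrix.one_apply]
  congr 1
  rw [eq_iff_iff]
  exact (gc_f_inj c hk hn).eq_iff

theorem gc_shT_mul_sh (c : ℕ → Bool) {n k : ℕ} (hk : gr_cU c n = k) (hn : n ≤ N) :
    (gr_sh c n k : gs_Mat N).transpose * (gr_sh c n k : gs_Mat N) = 1 :=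
  mul_eq_one_comm.1 (gc_sh_mul_shT c hk hn)

theorem gc_sh_corner (c : ℕ → Bool) {n k : ℕ} (hk : gr_cU c n = k) :
    gs_IsCorner n (gr_sh c n k : gs_Mat N) := by
  intro i j hij
  unfold gr_sh
  rw [Matrix.one_apply]
  congr 1
  rw [eq_iff_iff, Fin.ext_iff]
  by_cases hi : n ≤ (i : ℕ)
  · rw [gc_shFn_ge c k hi]
  · have h1 := gc_shFn_lt hk (by omega : (i : ℕ) < n)
    omega

theorem gc_StShInv (N : ℕ) : StShInv N := by
  intro c n k hn _ hk
  exact ⟨gc_sh_mul_shT c hk hn, gc_shT_mul_sh c hk hn, gc_sh_corner c hk⟩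

/-! ## supports -/

/-- the nonzero entries of `x` are at positions satisfying `r` -/
def gc_Sup (r : ℕ → ℕ → Prop) (x : gs_Mat N) : Prop := ∀ i j : Fin N, x i j ≠ 0 → r i j

theorem gc_Sup.mono {r s : ℕ → ℕ → Prop} {x : gs_Mat N} (h : gc_Sup r x)
    (hrs : ∀ i j, r i j → s i j) : gc_Sup s x := fun i j hij => hrs _ _ (h i j hij)

theorem gc_Sup.zero (r : ℕ → ℕ → Prop) : gc_Sup r (0 : gs_Mat N) := fun _ _ h => absurd rfl h

theorem gc_Sup.add {r : ℕ → ℕ → Prop} {x y : gs_Mat N} (hx : gc_Sup r x) (hy : gc_Sup r y) :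
    gc_Sup r (x + y) := by
  intro i j h
  by_cases h1 : x i j = 0
  · by_cases h2 : y i j = 0
    · exact absurd (by rw [Matrix.add_apply, h1, h2, add_zero]) h
    · exact hy i j h2
  · exact hx i j h1

theorem gc_Sup.neg {r : ℕ → ℕ → Prop} {x : gs_Mat N} (hx : gc_Sup r x) : gc_Sup r (-x) := by
  intro i j h
  exact hx i j fun h0 => h (by rw [Matrix.neg_apply, h0, neg_zero])

theorem gc_Sup.sub {r : ℕ → ℕ → Prop} {x y : gs_Mat N} (hx : gc_Sup r x) (hy : gc_Sup r y) :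
    gc_Sup r (x - y) := by
  rw [sub_eq_add_neg]
  exact hx.add hy.neg

theorem gc_Sup.mul {r s t : ℕ → ℕ → Prop} {x y : gs_Mat N} (hx : gc_Sup r x) (hy : gc_Sup s y)
    (h : ∀ i l j, r i l → s l j → t i j) : gc_Sup t (x * y) := by
  intro i j hij
  rw [Matrix.mul_apply] at hij
  obtain ⟨l, -, hl⟩ := Finset.exists_ne_zero_of_sum_ne_zero hij
  exact h _ _ _ (hx i l (left_ne_zero_of_mul hl)) (hy l j (right_ne_zero_of_mul hl))

theorem gc_Sup.eq_zero {x : gs_Mat N} (hx : gc_Sup (fun _ _ => False) x) : x = 0 := by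
  ext i j
  by_contra h
  exact hx i j h

theorem gc_Sup.mul_eq_zero {r s : ℕ → ℕ → Prop} {x y : gs_Mat N} (hx : gc_Sup r x)
    (hy : gc_Sup s y) (h : ∀ i l j, r i l → s l j → False) : x * y = 0 :=
  (hx.mul hy h).eq_zero

/-- positions of the block `U × Q` -/
def gc_relUQ (n k i j : ℕ) : Prop := i < k ∧ k ≤ j ∧ j < n

theorem gc_isUQ_iff {n k : ℕ} {β : gs_Mat N} : gr_IsUQ n k β ↔ gc_Sup (gc_relUQ n k) β := Iff.rfl

/-- positions of the unipotent group `U(K)` -/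
def gc_relU (n : ℕ) (K : Finset ℕ) (i j : ℕ) : Prop := j < n ∧ ∃ c ∈ K, i < c ∧ c ≤ j

theorem gc_uni_iff {n : ℕ} {K : Finset ℕ} {u : gs_Mat N} :
    gs_IsUni n K u ↔ gc_Sup (gc_relU n K) (u - 1) := by
  unfold gs_IsUni gc_Sup
  refine forall_congr' fun i => forall_congr' fun j => ?_
  rw [Matrix.sub_apply, sub_ne_zero]
  rfl

/-- positions of a corner matrix minus one -/
theorem gc_corner_sup {m : ℕ} {A : gs_Mat N} (hA : gs_IsCorner m A) :
    gc_Sup (fun i j => i < m ∧ j < m) (A - 1) := by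
  intro i j h
  rw [Matrix.sub_apply, sub_ne_zero] at h
  by_contra hc
  exact h (hA i j (by omega))

/-- positions of a moved matrix minus one -/
theorem gc_emb_sup (o : ℕ) (A : gs_Mat N) : gc_Sup (fun i j => o ≤ i ∧ o ≤ j) (gs_emb o A - 1) := by
  intro i j h
  rw [Matrix.sub_apply, sub_ne_zero] at h
  by_contra hc
  exact h (by rw [gs_emb, dif_neg hc])

/-! ## block triangular matrices, entrywise -/

/-- the entries of `diag(XU, XQ)` -/
theorem gc_diag_apply {k : ℕ} {XU : gs_Mat N} (hU : gs_IsCorner k XU) (XQ : gs_Mat N) (i j : Fin N) :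
    (XU * gs_emb k XQ) i j = if (i : ℕ) < k then XU i j else gs_emb k XQ i j := by
  split_ifs with h
  · rw [gm_emb_commute hU le_rfl, gm_emb_mul_apply_row k XQ XU h]
  · rw [gm_corner_mul_apply_row hU _ (by omega)]

/-- positions of `diag(XU, XQ)` -/
def gc_relD (n k i j : ℕ) : Prop := (i < k ∧ j < k) ∨ (k ≤ i ∧ i < n ∧ k ≤ j ∧ j < n) ∨ i = j

theorem gc_one_ne_zero {i j : Fin N} (h : (1 : gs_Mat N) i j ≠ 0) : (i : ℕ) = j := by
  by_contra hc
  exact h (Matrix.one_apply_ne fun hh => hc (congrArg Fin.val hh))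

theorem gc_diag_sup {n k : ℕ} {XU XQ : gs_Mat N} (hU : gs_IsCorner k XU)
    (hQ : gs_IsCorner (n - k) XQ) : gc_Sup (gc_relD n k) (XU * gs_emb k XQ) := by
  intro i j h
  rw [gc_diag_apply hU] at h
  split_ifs at h with hi
  · by_cases hj : (j : ℕ) < k
    · exact Or.inl ⟨hi, hj⟩
    · rw [hU i j (Or.inr (by omega))] at h
      exact Or.inr (Or.inr (gc_one_ne_zero h))
  · by_cases hj : (j : ℕ) < k
    · rw [gm_emb_apply_lt_col k XQ i hj] at h
      exact Or.inr (Or.inr (gc_one_ne_zero h))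
    · by_cases hn : (i : ℕ) < n ∧ (j : ℕ) < n
      · exact Or.inr (Or.inl ⟨by omega, hn.1, by omega, hn.2⟩)
      · rw [gm_emb_apply_ge k XQ (by omega) (by omega),
          hQ _ _ (by change n - k ≤ (i : ℕ) - k ∨ n - k ≤ (j : ℕ) - k; omega)] at h
        have := gc_one_ne_zero h
        have h' : (i : ℕ) - k = (j : ℕ) - k := this
        exact Or.inr (Or.inr (by omega))

/-- `gr_Tri`, entrywise -/
theorem gc_tri_iff {n k : ℕ} {XU XQ Z : gs_Mat N} :
    gr_Tri n k XU XQ Z ↔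
      ∀ i j : Fin N, ¬ gc_relUQ n k i j → Z i j = (XU * gs_emb k XQ) i j := by
  constructor
  · rintro ⟨β, hβ, rfl⟩ i j hij
    have : β i j = 0 := by
      by_contra h
      exact hij (hβ i j h)
    rw [gr_asm, Matrix.add_apply, this, add_zero]
  · intro h
    refine ⟨Z - XU * gs_emb k XQ, ?_, by rw [gr_asm]; abel⟩
    intro i j hij
    by_contra hc
    exact hij (by rw [Matrix.sub_apply, h i j hc, sub_self])

theorem gc_tri_corner {n k : ℕ} {XU XQ Z : gs_Mat N} (hkn : k ≤ n) (hU : gs_IsCorner k XU)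
    (hQ : gs_IsCorner (n - k) XQ) (h : gr_Tri n k XU XQ Z) : gs_IsCorner n Z := by
  intro i j hij
  rw [gc_tri_iff.1 h i j (by unfold gc_relUQ; omega), gc_diag_apply hU]
  split_ifs with hi
  · exact hU i j (by omega)
  · have := gm_emb_corner k hQ i j (by omega)
    exact this

/-! ## `StTriMul` -/

theorem gc_diag_mul {n k : ℕ} {XU XQ XU' XQ' : gs_Mat N} (hkn : k ≤ n) (hn : n ≤ N)
    (hQ : gs_IsCorner (n - k) XQ) (hU' : gs_IsCorner k XU')
    (hQ' : gs_IsCorner (n - k) XQ') :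
    (XU * gs_emb k XQ) * (XU' * gs_emb k XQ') = (XU * XU') * gs_emb k (XQ * XQ') := by
  rw [gm_emb_mul hQ hQ' (by omega), Matrix.mul_assoc, ← Matrix.mul_assoc (gs_emb k XQ),
    ← gm_emb_commute hU' le_rfl XQ]
  simp only [Matrix.mul_assoc]

theorem gc_diag_mul_UQ {n k : ℕ} {XU XQ β : gs_Mat N} (hU : gs_IsCorner k XU)
    (hQ : gs_IsCorner (n - k) XQ) (hβ : gr_IsUQ n k β) : gr_IsUQ n k ((XU * gs_emb k XQ) * β) := by
  refine gc_isUQ_iff.2 ((gc_diag_sup hU hQ).mul (gc_isUQ_iff.1 hβ) ?_)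
  intro i l j h1 h2
  unfold gc_relD at h1
  unfold gc_relUQ at h2 ⊢
  omega

theorem gc_UQ_mul_diag {n k : ℕ} {XU XQ β : gs_Mat N} (hU : gs_IsCorner k XU)
    (hQ : gs_IsCorner (n - k) XQ) (hβ : gr_IsUQ n k β) : gr_IsUQ n k (β * (XU * gs_emb k XQ)) := by
  refine gc_isUQ_iff.2 (gc_Sup.mul (gc_isUQ_iff.1 hβ) (gc_diag_sup hU hQ) ?_)
  intro i l j h1 h2
  unfold gc_relD at h2
  unfold gc_relUQ at h1 ⊢
  omega

theorem gc_UQ_mul_UQ {n k : ℕ} {β β' : gs_Mat N} (hβ : gr_IsUQ n k β) (hβ' : gr_IsUQ n k β') :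
    β * β' = 0 := by
  refine gc_Sup.mul_eq_zero (gc_isUQ_iff.1 hβ) (gc_isUQ_iff.1 hβ') ?_
  intro i l j h1 h2
  unfold gc_relUQ at h1 h2
  omega

theorem gc_StTriMul (N : ℕ) : StTriMul N := by
  rintro n k XU XQ Z XU' XQ' Z' hkn hn hU hQ hU' hQ' ⟨β, hβ, rfl⟩ ⟨β', hβ', rfl⟩
  refine ⟨(XU * gs_emb k XQ) * β' + β * (XU' * gs_emb k XQ'), ?_, ?_⟩
  · exact gc_isUQ_iff.2 (gc_Sup.add (gc_isUQ_iff.1 (gc_diag_mul_UQ hU hQ hβ'))
      (gc_isUQ_iff.1 (gc_UQ_mul_diag hU' hQ' hβ)))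
  · unfold gr_asm
    rw [← gc_diag_mul hkn hn hQ hU' hQ', Matrix.add_mul, Matrix.mul_add, Matrix.mul_add,
      gc_UQ_mul_UQ hβ hβ']
    abel

/-! ## `StTriInv` -/

theorem gc_inv_aux {D D' β : gs_Mat N} (h1 : D * D' = 1) (h3 : β * (D' * (β * D')) = 0) :
    (D + β) * (D' - D' * (β * D')) = 1 := by
  rw [Matrix.add_mul, Matrix.mul_sub, Matrix.mul_sub, h3, ← Matrix.mul_assoc D, h1,
    Matrix.one_mul]
  abel

theorem gc_StTriInv (N : ℕ) : StTriInv N := by
  rintro n k XU XQ Z hkn hn ⟨hUu, hU⟩ ⟨hQu, hQ⟩ ⟨β, hβ, rfl⟩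
  have hUi := gm_corner_inv hU hUu
  have hQi := gm_corner_inv hQ hQu
  have hDD' : (XU * gs_emb k XQ) * (XU⁻¹ * gs_emb k XQ⁻¹) = 1 := by
    rw [gc_diag_mul hkn hn hQ hUi hQi, Matrix.mul_nonsing_inv _ hUu,
      Matrix.mul_nonsing_inv _ hQu, gm_emb_one, Matrix.one_mul]
  have h1 : gr_IsUQ n k (β * (XU⁻¹ * gs_emb k XQ⁻¹)) := gc_UQ_mul_diag hUi hQi hβ
  have h2 : gr_IsUQ n k ((XU⁻¹ * gs_emb k XQ⁻¹) * (β * (XU⁻¹ * gs_emb k XQ⁻¹))) :=
    gc_diag_mul_UQ hUi hQi h1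
  have h3 : β * ((XU⁻¹ * gs_emb k XQ⁻¹) * (β * (XU⁻¹ * gs_emb k XQ⁻¹))) = 0 :=
    gc_UQ_mul_UQ hβ h2
  have hinv := gc_inv_aux hDD' h3
  have hu : IsUnit (gr_asm k XU XQ β).det := by
    have := congrArg Matrix.det hinv
    rw [Matrix.det_mul, Matrix.det_one] at this
    exact IsUnit.of_mul_eq_one _ this
  refine ⟨hu, -((XU⁻¹ * gs_emb k XQ⁻¹) * (β * (XU⁻¹ * gs_emb k XQ⁻¹))),
    gc_isUQ_iff.2 (gc_Sup.neg (gc_isUQ_iff.1 h2)), ?_⟩
  have e : (gr_asm k XU XQ β)⁻¹ = _ := Matrix.inv_eq_right_inv hinv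
  rw [e]
  unfold gr_asm
  rw [sub_eq_add_neg]

/-! ## `StTriParts` -/

theorem gc_tri_isTri {n k : ℕ} {XU XQ Z : gs_Mat N} (hkn : k ≤ n) (hU : gs_IsCorner k XU)
    (hQ : gs_IsCorner (n - k) XQ) (h : gr_Tri n k XU XQ Z) : gr_IsTri n k Z := by
  refine ⟨gc_tri_corner hkn hU hQ h, ?_⟩
  intro i j hi hj
  rw [gc_tri_iff.1 h i j (by unfold gc_relUQ; omega), gc_diag_apply hU, if_neg (by omega),
    gm_emb_apply_lt_col k XQ i hj, Matrix.one_apply_ne]
  intro hh
  rw [hh] at hi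
  omega

/-- the `U`-part of a block triangular matrix -/
def gc_partU (k : ℕ) (Z : gs_Mat N) : gs_Mat N := fun i j =>
  if (i : ℕ) < k ∧ (j : ℕ) < k then Z i j else (1 : gs_Mat N) i j

/-- the `Q`-part of a block triangular matrix -/
def gc_partQ (n k : ℕ) (Z : gs_Mat N) : gs_Mat N := fun i j =>
  if h : (i : ℕ) + k < n ∧ (j : ℕ) + k < n ∧ n ≤ N then Z ⟨i + k, by omega⟩ ⟨j + k, by omega⟩
  else (1 : gs_Mat N) i j

theorem gc_partU_corner (k : ℕ) (Z : gs_Mat N) : gs_IsCorner k (gc_partU k Z) := by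
  intro i j hij
  unfold gc_partU
  rw [if_neg (by omega)]

theorem gc_partQ_corner (n k : ℕ) (Z : gs_Mat N) : gs_IsCorner (n - k) (gc_partQ n k Z) := by
  intro i j hij
  unfold gc_partQ
  rw [dif_neg (by omega)]

theorem gc_isTri_tri {n k : ℕ} {Z : gs_Mat N} (hn : n ≤ N) (h : gr_IsTri n k Z) :
    gr_Tri n k (gc_partU k Z) (gc_partQ n k Z) Z := by
  rw [gc_tri_iff]
  intro i j hij
  rw [gc_diag_apply (gc_partU_corner k Z)]
  unfold gc_relUQ at hij
  split_ifs with hi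
  · unfold gc_partU
    by_cases hj : (j : ℕ) < k
    · rw [if_pos ⟨hi, hj⟩]
    · rw [if_neg (by omega)]
      exact h.1 i j (by omega)
  · by_cases hj : (j : ℕ) < k
    · rw [gm_emb_apply_lt_col k _ i hj, h.2 i j (by omega) hj, Matrix.one_apply_ne]
      intro hh
      rw [hh] at hi
      omega
    · rw [gm_emb_apply_ge k _ (by omega) (by omega)]
      unfold gc_partQ
      by_cases hc : (i : ℕ) < n ∧ (j : ℕ) < n
      · rw [dif_pos ⟨by change (i : ℕ) - k + k < n; omega, by change (j : ℕ) - k + k < n; omega, hn⟩]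
        congr 1 <;> (apply Fin.ext; change _ = (_ : ℕ) - k + k; omega)
      · rw [dif_neg (by change ¬ ((i : ℕ) - k + k < n ∧ (j : ℕ) - k + k < n ∧ n ≤ N); omega),
          gm_one_apply_sub k (by omega) (by omega)]
        exact h.1 i j (by omega)

theorem gc_tri_unique {n k : ℕ} {XU XQ XU' XQ' Z : gs_Mat N} (hn : n ≤ N)
    (hU : gs_IsCorner k XU) (hQ : gs_IsCorner (n - k) XQ) (hU' : gs_IsCorner k XU')
    (hQ' : gs_IsCorner (n - k) XQ') (h : gr_Tri n k XU XQ Z) (h' : gr_Tri n k XU' XQ' Z) :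
    XU = XU' ∧ XQ = XQ' := by
  rw [gc_tri_iff] at h h'
  constructor
  · ext i j
    by_cases hij : (i : ℕ) < k ∧ (j : ℕ) < k
    · have h1 := h i j (by unfold gc_relUQ; omega)
      have h2 := h' i j (by unfold gc_relUQ; omega)
      rw [gc_diag_apply hU, if_pos hij.1] at h1
      rw [gc_diag_apply hU', if_pos hij.1] at h2
      rw [← h1, ← h2]
    · rw [hU i j (by omega), hU' i j (by omega)]
  · ext a b
    by_cases hab : (a : ℕ) < n - k ∧ (b : ℕ) < n - k
    · have ha : (a : ℕ) + k < N := by omega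
      have hb : (b : ℕ) + k < N := by omega
      have h1 := h ⟨a + k, ha⟩ ⟨b + k, hb⟩ (by unfold gc_relUQ; simp)
      have h2 := h' ⟨a + k, ha⟩ ⟨b + k, hb⟩ (by unfold gc_relUQ; simp)
      rw [gc_diag_apply hU, if_neg (by simp),
        gm_emb_apply_ge k _ (by simp) (by simp)] at h1
      rw [gc_diag_apply hU', if_neg (by simp),
        gm_emb_apply_ge k _ (by simp) (by simp)] at h2
      have e1 : (⟨(⟨(a : ℕ) + k, ha⟩ : Fin N) - k, by simp⟩ : Fin N) = a := by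
        apply Fin.ext; simp
      have e2 : (⟨(⟨(b : ℕ) + k, hb⟩ : Fin N) - k, by simp⟩ : Fin N) = b := by
        apply Fin.ext; simp
      rw [e1, e2] at h1 h2
      rw [← h1, ← h2]
    · rw [hQ a b (by omega), hQ' a b (by omega)]

theorem gc_UQ_mul_corner {n k : ℕ} {XU β : gs_Mat N} (hU : gs_IsCorner k XU) (hβ : gr_IsUQ n k β) :
    β * XU = β := by
  have h0 : β * (XU - 1) = 0 := by
    refine gc_Sup.mul_eq_zero (gc_isUQ_iff.1 hβ) (gc_corner_sup hU) ?_
    intro i l j h1 h2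
    unfold gc_relUQ at h1
    omega
  rw [Matrix.mul_sub, Matrix.mul_one, sub_eq_zero] at h0
  exact h0

theorem gc_emb_mul_UQ {n k : ℕ} (XQ : gs_Mat N) {β : gs_Mat N} (hβ : gr_IsUQ n k β) :
    gs_emb k XQ * β = β := by
  have h0 : (gs_emb k XQ - 1) * β = 0 := by
    refine gc_Sup.mul_eq_zero (gc_emb_sup k XQ) (gc_isUQ_iff.1 hβ) ?_
    intro i l j h1 h2
    unfold gc_relUQ at h2
    omega
  rw [Matrix.sub_mul, Matrix.one_mul, sub_eq_zero] at h0
  exact h0

theorem gc_tri_units {n k : ℕ} {XU XQ Z : gs_Mat N} (hkn : k ≤ n) (hn : n ≤ N)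
    (hU : gs_IsCorner k XU) (hQ : gs_IsCorner (n - k) XQ) (h : gr_Tri n k XU XQ Z)
    (hZ : IsUnit Z.det) : IsUnit XU.det ∧ IsUnit XQ.det := by
  obtain ⟨β, hβ, rfl⟩ := h
  constructor
  · have e : gr_asm k XU XQ β = (gs_emb k XQ + β) * XU := by
      unfold gr_asm
      rw [Matrix.add_mul, gc_UQ_mul_corner hU hβ, gm_emb_commute hU le_rfl]
    rw [e, Matrix.det_mul] at hZ
    exact isUnit_of_mul_isUnit_right hZ
  · have e : gr_asm k XU XQ β = gs_emb k XQ * (XU + β) := by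
      unfold gr_asm
      rw [Matrix.mul_add, gc_emb_mul_UQ XQ hβ, gm_emb_commute hU le_rfl]
    rw [e, Matrix.det_mul, gm_emb_det hQ (by omega)] at hZ
    exact isUnit_of_mul_isUnit_left hZ

theorem gc_StTriParts (N : ℕ) : StTriParts N := by
  intro n k Z hkn hn
  refine ⟨⟨fun h => ⟨_, _, gc_partU_corner k Z, gc_partQ_corner n k Z, gc_isTri_tri hn h⟩, ?_⟩,
    ?_, ?_⟩
  · rintro ⟨XU, XQ, hU, hQ, h⟩
    exact gc_tri_isTri hkn hU hQ h
  · intro XU XQ XU' XQ' hU hQ hU' hQ' h h'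
    exact gc_tri_unique hn hU hQ hU' hQ' h h'
  · intro XU XQ hU hQ h hZ
    exact gc_tri_units hkn hn hU hQ h hZ

/-! ## `StBDConj` -/

/-- positions of a block diagonal matrix -/
def gc_relBD (n : ℕ) (K : Finset ℕ) (i j : ℕ) : Prop := (∀ c ∈ K, (i < c ↔ j < c)) ∧ (i < n ↔ j < n)

theorem gc_BD_sup {n : ℕ} {K : Finset ℕ} {d : gs_Mat N} (hd : gr_IsBD n K d) :
    gc_Sup (gc_relBD n K) d := by
  intro i j h
  refine ⟨hd.2 i j h, ?_⟩
  by_cases hc : n ≤ (i : ℕ) ∨ n ≤ (j : ℕ)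
  · rw [hd.1 i j hc] at h
    have := gc_one_ne_zero h
    omega
  · omega

/-- the projection to the indices `< c` -/
def gc_proj (c : ℕ) : gs_Mat N := Matrix.diagonal fun i => if (i : ℕ) < c then 1 else 0

theorem gc_commute_proj_iff (c : ℕ) (d : gs_Mat N) :
    gc_proj c * d = d * gc_proj c ↔ ∀ i j : Fin N, d i j ≠ 0 → ((i : ℕ) < c ↔ (j : ℕ) < c) := by
  unfold gc_proj
  constructor
  · intro h i j hij
    have := congrFun (congrFun h i) j
    rw [Matrix.diagonal_mul, Matrix.mul_diagonal] at this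
    by_cases hi : (i : ℕ) < c <;> by_cases hj : (j : ℕ) < c <;> simp [hi, hj] at this ⊢
    · exact hij this
    · exact hij this.symm
  · intro h
    ext i j
    rw [Matrix.diagonal_mul, Matrix.mul_diagonal]
    by_cases hij : d i j = 0
    · rw [hij, mul_zero, zero_mul]
    · have := h i j hij
      by_cases hi : (i : ℕ) < c
      · rw [if_pos hi, if_pos (this.1 hi), one_mul, mul_one]
      · rw [if_neg hi, if_neg (fun hj => hi (this.2 hj)), zero_mul, mul_zero]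

theorem gc_BD_inv {n : ℕ} {K : Finset ℕ} {d : gs_Mat N} (hd : gr_IsBD n K d) (hu : IsUnit d.det) :
    gr_IsBD n K d⁻¹ := by
  refine ⟨gm_corner_inv hd.1 hu, ?_⟩
  intro i j hij c hc
  have h1 : gc_proj c * d = d * gc_proj c :=
    (gc_commute_proj_iff c d).2 fun i j h => hd.2 i j h c hc
  have h2 : gc_proj c * d⁻¹ = d⁻¹ * gc_proj c := by
    calc gc_proj c * d⁻¹ = d⁻¹ * (d * gc_proj c) * d⁻¹ := by
          rw [← Matrix.mul_assoc, Matrix.nonsing_inv_mul _ hu, Matrix.one_mul]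
      _ = d⁻¹ * gc_proj c * (d * d⁻¹) := by
          rw [← h1]
          simp only [Matrix.mul_assoc]
      _ = d⁻¹ * gc_proj c := by rw [Matrix.mul_nonsing_inv _ hu, Matrix.mul_one]
  exact (gc_commute_proj_iff c d⁻¹).1 h2 i j hij

theorem gc_BD_conj {n : ℕ} {K : Finset ℕ} {d d' u : gs_Mat N} (hd : gr_IsBD n K d)
    (hd' : gr_IsBD n K d') (hdd : d * d' = 1) (hu : gs_IsUni n K u) :
    gs_IsUni n K (d * u * d') := by
  rw [gc_uni_iff] at hu ⊢
  have e : d * u * d' - 1 = d * ((u - 1) * d') := by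
    rw [Matrix.sub_mul, Matrix.one_mul, Matrix.mul_sub, hdd, Matrix.mul_assoc]
  rw [e]
  refine (gc_BD_sup hd).mul (t := gc_relU n K) (s := gc_relU n K)
    (hu.mul (gc_BD_sup hd') ?_) ?_
  · rintro i l j ⟨h1, c, hc, h2, h3⟩ ⟨h4, h5⟩
    refine ⟨h5.1 h1, c, hc, h2, ?_⟩
    have := h4 c hc
    omega
  · rintro i l j ⟨h4, _⟩ ⟨h1, c, hc, h2, h3⟩
    exact ⟨h1, c, hc, (h4 c hc).2 h2, h3⟩

theorem gc_StBDConj (N : ℕ) : StBDConj N := by
  intro n K d u _ hd hu
  have hd' := gc_BD_inv hd hu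
  constructor
  · intro h
    have := gc_BD_conj hd' hd (Matrix.nonsing_inv_mul _ hu) h
    have e : d⁻¹ * (d * u * d⁻¹) * d = u := by
      rw [Matrix.mul_assoc, Matrix.mul_assoc, Matrix.nonsing_inv_mul _ hu, Matrix.mul_one,
        ← Matrix.mul_assoc, Matrix.nonsing_inv_mul _ hu, Matrix.one_mul]
    rwa [e] at this
  · intro h
    exact gc_BD_conj hd hd' (Matrix.mul_nonsing_inv _ hu) h

theorem gc_colorA_eqns : True := by
  have := @gc_f.eq_1
  have := @gc_Sup.eq_1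
  have := @gc_relUQ.eq_1
  have := @gc_relU.eq_1
  have := @gc_relD.eq_1
  have := @gc_partU.eq_1
  have := @gc_partQ.eq_1
  have := @gc_relBD.eq_1
  have := @gc_proj.eq_1
  trivial

end Claimed.Agent.R236
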