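import Mathlib
import Claimed.Agent.R236.GColorA

/-!
# Row 236, REDUCE, SB2 (colour calculus), part B: `StGap`  (prover helper227; prefix `gc_`)
-/

set_option autoImplicit false

namespace Claimed.Agent.R236

open Matrix

variable {N : ℕ}

/-! ## entries of `gr_asm` -/

theorem gc_UQ_apply_eq_zero {n k : ℕ} {β : gs_Mat N} (hβ : gr_IsUQ n k β) {i j : Fin N}
    (h : ¬ ((i : ℕ) < k ∧ k ≤ (j : ℕ) ∧ (j : ℕ) < n)) : β i j = 0 := by
  by_contra h0
  exact h (hβ i j h0)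

theorem gc_asm_UU {n k : ℕ} {sU sQ β : gs_Mat N} (hU : gs_IsCorner k sU) (hβ : gr_IsUQ n k β)
    {i j : Fin N} (hi : (i : ℕ) < k) (hj : (j : ℕ) < k) : gr_asm k sU sQ β i j = sU i j := by
  rw [gr_asm, Matrix.add_apply, gc_diag_apply hU, if_pos hi, gc_UQ_apply_eq_zero hβ (by omega),
    add_zero]

theorem gc_asm_UQ {k : ℕ} {sU sQ β : gs_Mat N} (hU : gs_IsCorner k sU)
    {i j : Fin N} (hi : (i : ℕ) < k) (hj : k ≤ (j : ℕ)) : gr_asm k sU sQ β i j = β i j := by
  rw [gr_asm, Matrix.add_apply, gc_diag_apply hU, if_pos hi, hU i j (Or.inr hj),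
    Matrix.one_apply_ne, zero_add]
  intro h
  rw [h] at hi
  omega

theorem gc_asm_Q {n k : ℕ} {sU sQ β : gs_Mat N} (hU : gs_IsCorner k sU) (hβ : gr_IsUQ n k β)
    {i : Fin N} (j : Fin N) (hi : k ≤ (i : ℕ)) : gr_asm k sU sQ β i j = gs_emb k sQ i j := by
  rw [gr_asm, Matrix.add_apply, gc_diag_apply hU, if_neg (by omega),
    gc_UQ_apply_eq_zero hβ (by omega), add_zero]

theorem gc_one_f (c : ℕ → Bool) {n k : ℕ} (hk : gr_cU c n = k) (hn : n ≤ N) (r s : Fin N) :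
    (1 : gs_Mat N) (gc_f c hk hn r) (gc_f c hk hn s) = (1 : gs_Mat N) r s := by
  rw [Matrix.one_apply, Matrix.one_apply]
  congr 1
  rw [eq_iff_iff]
  exact (gc_f_inj c hk hn).eq_iff

theorem gc_f_val (c : ℕ → Bool) {n k : ℕ} (hk : gr_cU c n = k) (hn : n ≤ N) (r : Fin N) :
    ((gc_f c hk hn r : Fin N) : ℕ) = gr_shFn c n k r := rfl

/-! ## `StGap` -/

theorem gc_gap_mp {n k : ℕ} {K : Finset ℕ} {c : ℕ → Bool} (hn : n ≤ N) (hk : gr_cU c n = k)
    {sU sQ β : gs_Mat N} (hU : gs_IsCorner k sU) (hQ : gs_IsCorner (n - k) sQ)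
    (hβ : gr_IsUQ n k β)
    (hW : gs_IsUni n K (gr_sh c n k * gr_asm k sU sQ β * (gr_sh c n k : gs_Mat N).transpose)) :
    gs_IsUni k (K.image (gr_cU c)) sU ∧ gs_IsUni (n - k) (K.image (gr_cQ c)) sQ ∧
      ∀ i j : Fin N, β i j ≠ 0 → gr_good c K n k i j := by
  have hkn := gc_k_le hk
  have key : ∀ r s : Fin N, gr_asm k sU sQ β (gc_f c hk hn r) (gc_f c hk hn s)
      ≠ (1 : gs_Mat N) (gc_f c hk hn r) (gc_f c hk hn s) →
      (s : ℕ) < n ∧ ∃ d ∈ K, (r : ℕ) < d ∧ d ≤ (s : ℕ) := by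
    intro r s h
    apply hW r s
    rw [gc_conj_apply c c hk hk hn, ← gc_one_f c hk hn r s]
    exact h
  refine ⟨?_, ?_, ?_⟩
  · intro i j hij
    have hi : (i : ℕ) < k := by
      by_contra h
      exact hij (hU i j (by omega))
    have hj : (j : ℕ) < k := by
      by_contra h
      exact hij (hU i j (by omega))
    obtain ⟨r, hr, hcr, hri⟩ := gc_exists_U (N := N) hk hn hi
    obtain ⟨s, hs, hcs, hsj⟩ := gc_exists_U (N := N) hk hn hj
    have er : gc_f c hk hn ⟨r, by omega⟩ = i := Fin.ext (by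
      rw [gc_f_val]; change gr_shFn c n k r = i; rw [gc_shFn_U k hr hcr, hri])
    have es : gc_f c hk hn ⟨s, by omega⟩ = j := Fin.ext (by
      rw [gc_f_val]; change gr_shFn c n k s = j; rw [gc_shFn_U k hs hcs, hsj])
    obtain ⟨-, d, hd, h1, h2⟩ := key ⟨r, by omega⟩ ⟨s, by omega⟩ (by
      rw [er, es, gc_asm_UU hU hβ hi hj]; exact hij)
    refine ⟨hj, gr_cU c d, Finset.mem_image_of_mem _ hd, ?_, ?_⟩
    · rw [← hri]; exact gc_cU_lt hcr h1
    · rw [← hsj]; exact gc_cU_mono c h2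
  · intro a b hab
    have ha : (a : ℕ) < n - k := by
      by_contra h
      exact hab (hQ a b (by omega))
    have hb : (b : ℕ) < n - k := by
      by_contra h
      exact hab (hQ a b (by omega))
    obtain ⟨r, hr, hcr, hri⟩ := gc_exists_Q (N := N) hk hn (i := k + a) (by omega) (by omega)
    obtain ⟨s, hs, hcs, hsj⟩ := gc_exists_Q (N := N) hk hn (i := k + b) (by omega) (by omega)
    have er : ((gc_f c hk hn ⟨r, by omega⟩ : Fin N) : ℕ) = k + a := by
      rw [gc_f_val]; change gr_shFn c n k r = _; rw [gc_shFn_Q k hr hcr, hri]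
    have es : ((gc_f c hk hn ⟨s, by omega⟩ : Fin N) : ℕ) = k + b := by
      rw [gc_f_val]; change gr_shFn c n k s = _; rw [gc_shFn_Q k hs hcs, hsj]
    obtain ⟨-, d, hd, h1, h2⟩ := key ⟨r, by omega⟩ ⟨s, by omega⟩ (by
      rw [gc_asm_Q hU hβ _ (by omega), gm_emb_apply_ge k sQ (by omega) (by omega),
        ← gm_one_apply_sub k (by omega : k ≤ ((gc_f c hk hn ⟨r, by omega⟩ : Fin N) : ℕ))
          (by omega : k ≤ ((gc_f c hk hn ⟨s, by omega⟩ : Fin N) : ℕ))]
      have e1 : (⟨((gc_f c hk hn ⟨r, by omega⟩ : Fin N) : ℕ) - k, by omega⟩ : Fin N) = a :=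
        Fin.ext (by change ((gc_f c hk hn ⟨r, by omega⟩ : Fin N) : ℕ) - k = a; omega)
      have e2 : (⟨((gc_f c hk hn ⟨s, by omega⟩ : Fin N) : ℕ) - k, by omega⟩ : Fin N) = b :=
        Fin.ext (by change ((gc_f c hk hn ⟨s, by omega⟩ : Fin N) : ℕ) - k = b; omega)
      rw [e1, e2]
      exact hab)
    have h1' : r < d := h1
    have h2' : d ≤ s := h2
    refine ⟨hb, gr_cQ c d, Finset.mem_image_of_mem _ hd, ?_, ?_⟩
    · have := gc_cQ_lt hcr h1'
      omega
    · have := gc_cQ_mono c h2'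
      omega
  · intro i j hij
    obtain ⟨hi, hj, hj'⟩ := hβ i j hij
    obtain ⟨r, hr, hcr, hri⟩ := gc_exists_U (N := N) hk hn hi
    obtain ⟨s, hs, hcs, hsj⟩ := gc_exists_Q (N := N) hk hn hj hj'
    have er : gc_f c hk hn ⟨r, by omega⟩ = i := Fin.ext (by
      rw [gc_f_val]; change gr_shFn c n k r = i; rw [gc_shFn_U k hr hcr, hri])
    have es : gc_f c hk hn ⟨s, by omega⟩ = j := Fin.ext (by
      rw [gc_f_val]; change gr_shFn c n k s = j; rw [gc_shFn_Q k hs hcs, hsj])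
    obtain ⟨-, d, hd, h1, h2⟩ := key ⟨r, by omega⟩ ⟨s, by omega⟩ (by
      rw [er, es, gc_asm_UQ hU hi hj, Matrix.one_apply_ne]
      · exact hij
      · intro h
        rw [h] at hi
        omega)
    refine ⟨hi, hj, hj', d, hd, ?_, ?_⟩
    · rw [← hri, gc_nth_cU hcr]; exact h1
    · have e : (j : ℕ) - k = gr_cQ c s := by omega
      rw [e, gc_nth_cQ hcs]; exact h2

theorem gc_gap_mpr {n k : ℕ} {K : Finset ℕ} {c : ℕ → Bool} (hn : n ≤ N) (hk : gr_cU c n = k)
    {sU sQ β : gs_Mat N} (hU : gs_IsCorner k sU) (hQ : gs_IsCorner (n - k) sQ)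
    (hβ : gr_IsUQ n k β) (h1 : gs_IsUni k (K.image (gr_cU c)) sU)
    (h2 : gs_IsUni (n - k) (K.image (gr_cQ c)) sQ)
    (h3 : ∀ i j : Fin N, β i j ≠ 0 → gr_good c K n k i j) :
    gs_IsUni n K (gr_sh c n k * gr_asm k sU sQ β * (gr_sh c n k : gs_Mat N).transpose) := by
  have hkn := gc_k_le hk
  intro r s hrs
  rw [gc_conj_apply c c hk hk hn, ← gc_one_f c hk hn r s] at hrs
  have hcor : gs_IsCorner n (gr_asm k sU sQ β) := gc_tri_corner hkn hU hQ ⟨β, hβ, rfl⟩
  have hr : (r : ℕ) < n := by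
    by_contra h
    exact hrs (hcor _ _ (Or.inl (by rw [gc_f_val, gc_shFn_ge c k (by omega)]; omega)))
  have hs : (s : ℕ) < n := by
    by_contra h
    exact hrs (hcor _ _ (Or.inr (by rw [gc_f_val, gc_shFn_ge c k (by omega)]; omega)))
  refine ⟨hs, ?_⟩
  cases hcr : c r
  · -- `r` has colour `Q`
    have er : ((gc_f c hk hn r : Fin N) : ℕ) = k + gr_cQ c r := by
      rw [gc_f_val, gc_shFn_Q k hr hcr]
    rw [gc_asm_Q hU hβ _ (by omega)] at hrs
    cases hcs : c s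
    · have es : ((gc_f c hk hn s : Fin N) : ℕ) = k + gr_cQ c s := by
        rw [gc_f_val, gc_shFn_Q k hs hcs]
      rw [gm_emb_apply_ge k sQ (by omega) (by omega),
        ← gm_one_apply_sub k (by omega : k ≤ ((gc_f c hk hn r : Fin N) : ℕ))
          (by omega : k ≤ ((gc_f c hk hn s : Fin N) : ℕ))] at hrs
      obtain ⟨-, e, he, h4, h5⟩ := h2 _ _ hrs
      obtain ⟨d, hd, rfl⟩ := Finset.mem_image.1 he
      have h4' : ((gc_f c hk hn r : Fin N) : ℕ) - k < gr_cQ c d := h4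
      have h5' : gr_cQ c d ≤ ((gc_f c hk hn s : Fin N) : ℕ) - k := h5
      refine ⟨d, hd, ?_, ?_⟩
      · by_contra h
        have := gc_cQ_mono c (by omega : d ≤ (r : ℕ))
        omega
      · by_contra h
        have := gc_cQ_lt hcs (by omega : (s : ℕ) < d)
        omega
    · have es : ((gc_f c hk hn s : Fin N) : ℕ) < k := by
        rw [gc_f_val]; exact gc_shFn_U_lt hk hs hcs
      exact absurd (gm_emb_apply_lt_col k sQ _ es) hrs
  · -- `r` has colour `U`
    have er : ((gc_f c hk hn r : Fin N) : ℕ) = gr_cU c r := by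
      rw [gc_f_val, gc_shFn_U k hr hcr]
    have er' : ((gc_f c hk hn r : Fin N) : ℕ) < k := by
      rw [gc_f_val]; exact gc_shFn_U_lt hk hr hcr
    cases hcs : c s
    · have es : ((gc_f c hk hn s : Fin N) : ℕ) = k + gr_cQ c s := by
        rw [gc_f_val, gc_shFn_Q k hs hcs]
      rw [gc_asm_UQ hU er' (by omega), Matrix.one_apply_ne (by
        intro h
        have := congrArg Fin.val h
        omega)] at hrs
      obtain ⟨-, -, -, d, hd, h4, h5⟩ := h3 _ _ hrs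
      rw [er, gc_nth_cU hcr] at h4
      have e : ((gc_f c hk hn s : Fin N) : ℕ) - k = gr_cQ c s := by omega
      rw [e, gc_nth_cQ hcs] at h5
      exact ⟨d, hd, h4, h5⟩
    · have es : ((gc_f c hk hn s : Fin N) : ℕ) = gr_cU c s := by
        rw [gc_f_val, gc_shFn_U k hs hcs]
      have es' : ((gc_f c hk hn s : Fin N) : ℕ) < k := by
        rw [gc_f_val]; exact gc_shFn_U_lt hk hs hcs
      rw [gc_asm_UU hU hβ er' es'] at hrs
      obtain ⟨-, e, he, h4, h5⟩ := h1 _ _ hrs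
      obtain ⟨d, hd, rfl⟩ := Finset.mem_image.1 he
      refine ⟨d, hd, ?_, ?_⟩
      · by_contra h
        have := gc_cU_mono c (by omega : d ≤ (r : ℕ))
        omega
      · by_contra h
        have := gc_cU_lt hcs (by omega : (s : ℕ) < d)
        omega

theorem gc_StGap (N : ℕ) : StGap N := by
  intro n k K c hCF sU sQ β hU hQ hβ
  constructor
  · exact gc_gap_mp hCF.nN hCF.cnt hU hQ hβ
  · rintro ⟨h1, h2, h3⟩
    exact gc_gap_mpr hCF.nN hCF.cnt hU hQ hβ h1 h2 h3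

end Claimed.Agent.R236
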