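import Mathlib
import Claimed.Agent.R236.GColorA
import Claimed.Agent.R236.GCount

/-!
# Row 236, REDUCE, SB2 (colour calculus), part C: `StLocality`  (prover helper227; prefix `gc_`)

Entries are read with natural indices (`gc_at`).  In standard coordinates the mid block `[o,o+m)`
becomes the union `gc_Im` of the two windows `[oU, oU+km)` and `[k+oQ, k+oQ+(m-km))`; `gc_io` is the
index map (standard coordinates at mid level) `→` (standard coordinates at frame level).
-/

set_option autoImplicit false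

namespace Claimed.Agent.R236

open Matrix

variable {N : ℕ}

/-! ## entries with natural indices -/

/-- Kronecker delta -/
def gc_dl (i j : ℕ) : ℂ := if i = j then 1 else 0

theorem gc_dl_congr {i j i' j' : ℕ} (h : i = j ↔ i' = j') : gc_dl i j = gc_dl i' j' := by
  unfold gc_dl
  by_cases hij : i = j
  · rw [if_pos hij, if_pos (h.1 hij)]
  · rw [if_neg hij, if_neg fun h' => hij (h.2 h')]

theorem gc_dl_ne {i j : ℕ} (h : i ≠ j) : gc_dl i j = 0 := by
  unfold gc_dl
  rw [if_neg h]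

/-- entries with natural indices (identity outside) -/
def gc_at (A : gs_Mat N) (i j : ℕ) : ℂ :=
  if h : i < N ∧ j < N then A ⟨i, h.1⟩ ⟨j, h.2⟩ else gc_dl i j

theorem gc_at_lt (A : gs_Mat N) {i j : ℕ} (hi : i < N) (hj : j < N) :
    gc_at A i j = A ⟨i, hi⟩ ⟨j, hj⟩ := by
  unfold gc_at
  rw [dif_pos ⟨hi, hj⟩]

theorem gc_at_fin (A : gs_Mat N) (i j : Fin N) : gc_at A i j = A i j := gc_at_lt A i.2 j.2

theorem gc_one_eq_dl (i j : Fin N) : (1 : gs_Mat N) i j = gc_dl i j := by
  unfold gc_dl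
  rw [Matrix.one_apply]
  congr 1
  rw [eq_iff_iff, Fin.ext_iff]

theorem gc_at_corner {m : ℕ} {A : gs_Mat N} (hA : gs_IsCorner m A) {i j : ℕ}
    (h : m ≤ i ∨ m ≤ j) : gc_at A i j = gc_dl i j := by
  unfold gc_at
  split_ifs with hij
  · rw [hA _ _ h, gc_one_eq_dl]
  · rfl

theorem gc_at_emb (o : ℕ) (A : gs_Mat N) {i j : ℕ} (hi : i < N) (hj : j < N) :
    gc_at (gs_emb o A) i j = if o ≤ i ∧ o ≤ j then gc_at A (i - o) (j - o) else gc_dl i j := by
  rw [gc_at_lt _ hi hj]
  split_ifs with h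
  · rw [gm_emb_apply_ge o A h.1 h.2, gc_at_lt A (by omega) (by omega)]
  · rw [gs_emb, dif_neg h, gc_one_eq_dl]

theorem gc_at_diag {k : ℕ} {XU : gs_Mat N} (hU : gs_IsCorner k XU) (XQ : gs_Mat N) {i j : ℕ}
    (hi : i < N) (hj : j < N) :
    gc_at (XU * gs_emb k XQ) i j = if i < k then gc_at XU i j else gc_at (gs_emb k XQ) i j := by
  rw [gc_at_lt _ hi hj, gc_diag_apply hU, gc_at_lt _ hi hj, gc_at_lt _ hi hj]

theorem gc_at_conj (c c' : ℕ → Bool) {n k : ℕ} (hk : gr_cU c n = k) (hk' : gr_cU c' n = k)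
    (hn : n ≤ N) (Z : gs_Mat N) {r s : ℕ} (hr : r < N) (hs : s < N) :
    gc_at ((gr_sh c n k : gs_Mat N) * Z * (gr_sh c' n k : gs_Mat N).transpose) r s
      = gc_at Z (gr_shFn c n k r) (gr_shFn c' n k s) := by
  rw [gc_at_lt _ hr hs, gc_conj_apply c c' hk hk' hn,
    gc_at_lt Z (gc_shFn_ltN hk hn hr) (gc_shFn_ltN hk' hn hs)]
  rfl

/-- a corner matrix moved to the offset `o` is the identity outside of the window -/
theorem gc_at_emb_out {m o : ℕ} {Y : gs_Mat N} (hY : gs_IsCorner m Y) {r s : ℕ} (hr : r < N)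
    (hs : s < N) (h : ¬ ((o ≤ r ∧ r < o + m) ∧ (o ≤ s ∧ s < o + m))) :
    gc_at (gs_emb o Y) r s = gc_dl r s := by
  rw [gc_at_emb o Y hr hs]
  split_ifs with h1
  · rw [gc_at_corner hY (by omega)]
    exact gc_dl_congr (by omega)
  · rfl

/-! ## the two windows -/

/-- the image of the mid block in standard coordinates -/
def gc_Im (k oU oQ m km i : ℕ) : Prop :=
  (oU ≤ i ∧ i < oU + km) ∨ (k + oQ ≤ i ∧ i < k + oQ + (m - km))

/-- standard coordinates at mid level `→` standard coordinates at frame level -/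
def gc_io (k oU oQ km t : ℕ) : ℕ := if t < km then oU + t else k + oQ + (t - km)

theorem gc_at_big {k oU oQ km : ℕ} {XU : gs_Mat N} (XQ : gs_Mat N) (hU : gs_IsCorner km XU)
    (h1 : oU + km ≤ k) {i j : ℕ} (hi : i < N) (hj : j < N) :
    gc_at (gs_emb oU XU * gs_emb k (gs_emb oQ XQ)) i j =
      if i < k then (if oU ≤ i ∧ oU ≤ j then gc_at XU (i - oU) (j - oU) else gc_dl i j)
      else (if k ≤ i ∧ k ≤ j then
        (if oQ ≤ i - k ∧ oQ ≤ j - k then gc_at XQ (i - k - oQ) (j - k - oQ)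
          else gc_dl (i - k) (j - k)) else gc_dl i j) := by
  rw [gc_at_diag (gm_corner_mono h1 (gm_emb_corner oU hU)) _ hi hj, gc_at_emb oU XU hi hj,
    gc_at_emb k _ hi hj]
  by_cases hik : i < k
  · rw [if_pos hik, if_pos hik]
  · rw [if_neg hik, if_neg hik]
    by_cases hkk : k ≤ i ∧ k ≤ j
    · rw [if_pos hkk, if_pos hkk, gc_at_emb oQ XQ (by omega) (by omega)]
    · rw [if_neg hkk, if_neg hkk]

/-- inside of the windows -/
theorem gc_at_big_in {k oU oQ km m : ℕ} {XU XQ : gs_Mat N} (hU : gs_IsCorner km XU)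
    (h1 : oU + km ≤ k) (h2 : k + oQ + (m - km) ≤ N) (h3 : km ≤ m) {t t' : ℕ} (ht : t < m)
    (ht' : t' < m) :
    gc_at (gs_emb oU XU * gs_emb k (gs_emb oQ XQ)) (gc_io k oU oQ km t) (gc_io k oU oQ km t')
      = gc_at (XU * gs_emb km XQ) t t' := by
  have hi : gc_io k oU oQ km t < N := by unfold gc_io; split_ifs <;> omega
  have hj : gc_io k oU oQ km t' < N := by unfold gc_io; split_ifs <;> omega
  rw [gc_at_big XQ hU h1 hi hj, gc_at_diag hU XQ (by omega) (by omega),
    gc_at_emb km XQ (by omega) (by omega)]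
  unfold gc_io
  by_cases h : t < km
  · by_cases h' : t' < km
    · rw [if_pos h, if_pos h', if_pos (by omega), if_pos (by omega), if_pos h]
      congr 1 <;> omega
    · rw [if_pos h, if_neg h', if_pos (by omega), if_pos (by omega), if_pos h,
        gc_at_corner hU (by omega), gc_at_corner hU (by omega), gc_dl_ne (by omega),
        gc_dl_ne (by omega)]
  · by_cases h' : t' < km
    · rw [if_neg h, if_pos h', if_neg (by omega), if_neg (by omega), if_neg h,
        if_neg (by omega), gc_dl_ne (by omega), gc_dl_ne (by omega)]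
    · rw [if_neg h, if_neg h', if_neg (by omega), if_pos (by omega), if_pos (by omega),
        if_neg h, if_pos (by omega)]
      congr 1 <;> omega

/-- outside of the windows -/
theorem gc_at_big_out {k oU oQ km m : ℕ} {XU XQ : gs_Mat N} (hU : gs_IsCorner km XU)
    (hQ : gs_IsCorner (m - km) XQ) (h1 : oU + km ≤ k) {i j : ℕ} (hi : i < N) (hj : j < N)
    (h : ¬ gc_Im k oU oQ m km i ∨ ¬ gc_Im k oU oQ m km j) :
    gc_at (gs_emb oU XU * gs_emb k (gs_emb oQ XQ)) i j = gc_dl i j := by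
  rw [gc_at_big XQ hU h1 hi hj]
  unfold gc_Im at h
  by_cases hik : i < k
  · rw [if_pos hik]
    by_cases ho : oU ≤ i ∧ oU ≤ j
    · rw [if_pos ho]
      by_cases hc : km ≤ i - oU ∨ km ≤ j - oU
      · rw [gc_at_corner hU hc]
        exact gc_dl_congr (by omega)
      · omega
    · rw [if_neg ho]
  · rw [if_neg hik]
    by_cases hkk : k ≤ i ∧ k ≤ j
    · rw [if_pos hkk]
      by_cases ho : oQ ≤ i - k ∧ oQ ≤ j - k
      · rw [if_pos ho]
        by_cases hc : m - km ≤ i - k - oQ ∨ m - km ≤ j - k - oQ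
        · rw [gc_at_corner hQ hc]
          exact gc_dl_congr (by omega)
        · omega
      · rw [if_neg ho]
        exact gc_dl_congr (by omega)
    · rw [if_neg hkk]

/-! ## colourings -/

theorem gc_colMid_apply (c : ℕ → Bool) (o : ℕ) {m t : ℕ} (ht : t < m) :
    gr_colMid c o m t = c (o + t) := by
  unfold gr_colMid
  simp [ht]

theorem gc_cU_colMid (c : ℕ → Bool) (o : ℕ) {m t : ℕ} (ht : t ≤ m) :
    gr_cU (gr_colMid c o m) t + gr_cU c o = gr_cU c (o + t) := by
  induction t with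
  | zero => rw [gc_cU_zero, zero_add, add_zero]
  | succ t ih =>
    rw [gc_cU_succ, gc_colMid_apply c o (by omega : t < m), ← add_assoc o t 1, gc_cU_succ,
      ← ih (by omega)]
    omega

theorem gc_cQ_colMid (c : ℕ → Bool) (o : ℕ) {m t : ℕ} (ht : t ≤ m) :
    gr_cQ (gr_colMid c o m) t + gr_cQ c o = gr_cQ c (o + t) := by
  have h1 := gc_cU_colMid c o ht
  have h2 := gc_cU_add_cQ (gr_colMid c o m) t
  have h3 := gc_cU_add_cQ c o
  have h4 := gc_cU_add_cQ c (o + t)
  omega

theorem gc_cU_colMid_top (c : ℕ → Bool) (o m : ℕ) :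
    gr_cU (gr_colMid c o m) m = gr_nU c o (o + m) := by
  have := gc_cU_colMid c o (le_refl m)
  unfold gr_nU
  omega

/-- the shuffle function inside of the mid block -/
theorem gc_shFn_in {c : ℕ → Bool} {n k o m : ℕ} (hom : o + m ≤ n) {t : ℕ} (ht : t < m) :
    gr_shFn c n k (o + t) = gc_io k (gr_cU c o) (gr_cQ c o) (gr_nU c o (o + m))
      (gr_shFn (gr_colMid c o m) m (gr_nU c o (o + m)) t) := by
  have hmid := gc_colMid_apply c o ht
  cases hc : c (o + t)
  · rw [hc] at hmid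
    rw [gc_shFn_Q k (by omega) hc, gc_shFn_Q _ ht hmid]
    unfold gc_io
    rw [if_neg (by omega), ← gc_cQ_colMid c o (by omega : t ≤ m)]
    omega
  · rw [hc] at hmid
    rw [gc_shFn_U k (by omega) hc, gc_shFn_U _ ht hmid]
    have h1 : gr_cU (gr_colMid c o m) t < gr_nU c o (o + m) := by
      rw [← gc_cU_colMid_top]
      exact gc_cU_lt hmid ht
    unfold gc_io
    rw [if_pos h1, ← gc_cU_colMid c o (by omega : t ≤ m)]
    omega

/-- the shuffle function outside of the mid block -/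
theorem gc_shFn_out {c : ℕ → Bool} {n k o m : ℕ} (hk : gr_cU c n = k) (hom : o + m ≤ n) {r : ℕ}
    (hr : r < o ∨ o + m ≤ r) :
    ¬ gc_Im k (gr_cU c o) (gr_cQ c o) m (gr_nU c o (o + m)) (gr_shFn c n k r) := by
  have a1 := gc_cU_add_cQ c o
  have a2 := gc_cU_add_cQ c (o + m)
  have a3 := gc_cU_add_cQ c n
  have a4 := gc_cU_mono c (by omega : o ≤ o + m)
  have a5 := gc_cU_mono c hom
  have a6 := gc_cQ_mono c (by omega : o ≤ o + m)
  have a7 := gc_cQ_mono c hom
  unfold gc_Im gr_nU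
  by_cases hrn : r < n
  · cases hc : c r
    · rw [gc_shFn_Q k hrn hc]
      rcases hr with hr | hr
      · have := gc_cQ_lt hc hr
        omega
      · have := gc_cQ_mono c hr
        omega
    · rw [gc_shFn_U k hrn hc]
      have b1 := gc_cU_lt hc hrn
      rcases hr with hr | hr
      · have := gc_cU_lt hc hr
        omega
      · have := gc_cU_mono c hr
        omega
  · rw [gc_shFn_ge c k (by omega)]
    omega

theorem gc_shFn_agree {cb ca : ℕ → Bool} {n k o m : ℕ}
    (hag : ∀ j, j < o ∨ o + m ≤ j → ca j = cb j)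
    (hnU : gr_nU ca o (o + m) = gr_nU cb o (o + m)) {r : ℕ} (hr : r < o ∨ o + m ≤ r) :
    gr_shFn ca n k r = gr_shFn cb n k r := by
  unfold gr_shFn
  rw [hag r hr, gct_cU_eq_of_agree (by omega) hag hnU r (by omega),
    gct_cQ_eq_of_agree (by omega) hag hnU r (by omega)]

/-! ## `StLocality` -/

theorem gc_StLocality (N : ℕ) : StLocality N := by
  intro n k o m cb ca hn hom _ _ hk hag hnU XU XQ Zm hU hQ hZ
  have hka : gr_cU ca n = k := (gct_cU_eq_of_agree (by omega) hag hnU n (Or.inr hom)).trans hk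
  have hoU : gr_cU ca o = gr_cU cb o := gct_cU_eq_of_agree (by omega) hag hnU o (Or.inl le_rfl)
  have hoQ : gr_cQ ca o = gr_cQ cb o := gct_cQ_eq_of_agree (by omega) hag hnU o (Or.inl le_rfl)
  have hmb : gr_cU (gr_colMid cb o m) m = gr_nU cb o (o + m) := gc_cU_colMid_top cb o m
  have hma : gr_cU (gr_colMid ca o m) m = gr_nU cb o (o + m) := by
    rw [gc_cU_colMid_top, hnU]
  have hkm : gr_nU cb o (o + m) ≤ m := gc_k_le hmb
  have hmN : m ≤ N := by omega
  -- numerics
  have a1 := gc_cU_add_cQ cb o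
  have a2 := gc_cU_add_cQ cb (o + m)
  have a3 := gc_cU_add_cQ cb n
  have a4 := gc_cU_mono cb (by omega : o ≤ o + m)
  have a5 := gc_cU_mono cb hom
  have a7 := gc_cQ_mono cb hom
  have hnUdef : gr_nU cb o (o + m) = gr_cU cb (o + m) - gr_cU cb o := rfl
  have h1 : gr_cU cb o + gr_nU cb o (o + m) ≤ k := by omega
  have h2 : k + gr_cQ cb o + (m - gr_nU cb o (o + m)) ≤ n := by omega
  generalize hkmdef : gr_nU cb o (o + m) = km at *
  generalize hoUdef : gr_cU cb o = oU at *
  generalize hoQdef : gr_cQ cb o = oQ at *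
  have hZcor : gs_IsCorner m Zm := gc_tri_corner hkm hU hQ hZ
  have hYcor : gs_IsCorner m ((gr_sh (gr_colMid cb o m) m km : gs_Mat N) * Zm *
      (gr_sh (gr_colMid ca o m) m km : gs_Mat N).transpose) := by
    refine gm_corner_mul (gm_corner_mul (gc_sh_corner _ hmb) hZcor) ?_
    intro i j hij
    rw [Matrix.transpose_apply, gc_sh_corner _ hma j i (by omega), Matrix.one_apply,
      Matrix.one_apply]
    congr 1
    rw [eq_iff_iff]
    exact eq_comm
  rw [gc_tri_iff]
  intro i j hij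
  obtain ⟨r, rfl⟩ := gc_f_surj cb hk hn i
  obtain ⟨s, rfl⟩ := gc_f_surj ca hka hn j
  generalize hM : gs_emb o ((gr_sh (gr_colMid cb o m) m km : gs_Mat N) * Zm *
      (gr_sh (gr_colMid ca o m) m km : gs_Mat N).transpose) = M at *
  have hT : ((gr_sh cb n k : gs_Mat N).transpose * M * (gr_sh ca n k : gs_Mat N))
      (gc_f cb hk hn r) (gc_f ca hka hn s) = M r s := by
    rw [← gc_conj_apply cb ca hk hka hn
      ((gr_sh cb n k : gs_Mat N).transpose * M * (gr_sh ca n k : gs_Mat N)) r s]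
    have e : (gr_sh cb n k : gs_Mat N) * ((gr_sh cb n k : gs_Mat N).transpose * M * gr_sh ca n k)
        * (gr_sh ca n k : gs_Mat N).transpose = M := by
      rw [Matrix.mul_assoc, Matrix.mul_assoc, Matrix.mul_assoc, gc_sh_mul_shT ca hka hn,
        Matrix.mul_one, ← Matrix.mul_assoc, gc_sh_mul_shT cb hk hn, Matrix.one_mul]
    rw [e]
  rw [hT, ← gc_at_fin M r s, ← gc_at_fin (gs_emb oU XU * gs_emb k (gs_emb oQ XQ))
    (gc_f cb hk hn r) (gc_f ca hka hn s)]
  have hfr : ((gc_f cb hk hn r : Fin N) : ℕ) = gr_shFn cb n k r := rfl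
  have hfs : ((gc_f ca hka hn s : Fin N) : ℕ) = gr_shFn ca n k s := rfl
  rw [hfr, hfs] at hij ⊢
  have hrN := r.2
  have hsN := s.2
  generalize (r : ℕ) = r at *
  generalize (s : ℕ) = s at *
  by_cases hblk : (o ≤ r ∧ r < o + m) ∧ (o ≤ s ∧ s < o + m)
  · obtain ⟨t, rfl⟩ : ∃ t, r = o + t := ⟨r - o, by omega⟩
    obtain ⟨t', rfl⟩ : ∃ t', s = o + t' := ⟨s - o, by omega⟩
    have ht : t < m := by omega
    have ht' : t' < m := by omega
    have e1 := gc_shFn_in (c := cb) (k := k) hom ht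
    have e2 := gc_shFn_in (c := ca) (k := k) hom ht'
    rw [hoUdef, hoQdef, hkmdef] at e1
    rw [hoU, hoQ, hnU] at e2
    have hτ : gr_shFn (gr_colMid cb o m) m km t < m := gc_shFn_lt hmb ht
    have hτ' : gr_shFn (gr_colMid ca o m) m km t' < m := gc_shFn_lt hma ht'
    rw [e1, e2] at hij ⊢
    rw [gc_at_big_in hU h1 (by omega) hkm hτ hτ', ← hM, gc_at_emb o _ hrN hsN,
      if_pos (by omega), Nat.add_sub_cancel_left, Nat.add_sub_cancel_left,
      gc_at_conj _ _ hmb hma hmN Zm (by omega) (by omega),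
      gc_at_lt Zm (by omega) (by omega), gc_at_lt _ (by omega) (by omega)]
    apply gc_tri_iff.1 hZ
    intro hUQ
    apply hij
    unfold gc_relUQ at hUQ ⊢
    have q1 : gr_shFn (gr_colMid cb o m) m km t < km := hUQ.1
    have q2 : km ≤ gr_shFn (gr_colMid ca o m) m km t' := hUQ.2.1
    unfold gc_io
    rw [if_pos q1, if_neg (by omega)]
    omega
  · rw [← hM, gc_at_emb_out hYcor hrN hsN hblk]
    have hout : ¬ gc_Im k oU oQ m km (gr_shFn cb n k r) ∨ ¬ gc_Im k oU oQ m km (gr_shFn ca n k s) := by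
      by_cases hr : r < o ∨ o + m ≤ r
      · left
        have := gc_shFn_out hk hom hr
        rwa [hoUdef, hoQdef, hkmdef] at this
      · right
        have := gc_shFn_out hka hom (by omega : s < o ∨ o + m ≤ s)
        rwa [hoU, hoQ, hnU] at this
    rw [gc_at_big_out hU hQ h1 (gc_shFn_ltN hk hn hrN) (gc_shFn_ltN hka hn hsN) hout]
    apply gc_dl_congr
    by_cases hr : r < o ∨ o + m ≤ r
    · rw [← gc_shFn_agree hag (by rw [hnU, hkmdef]) hr]
      exact (gc_shFn_inj hka).eq_iff.symm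
    · rw [gc_shFn_agree hag (by rw [hnU, hkmdef]) (by omega : s < o ∨ o + m ≤ s)]
      exact (gc_shFn_inj hk).eq_iff.symm

theorem gc_colorC_eqns : True := by
  have := @gc_dl.eq_1
  have := @gc_at.eq_1
  have := @gc_Im.eq_1
  have := @gc_io.eq_1
  trivial

end Claimed.Agent.R236
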