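import Mathlib
import Claimed.Agent.R236.GMatUni

/-!
# Row 236: matrix library for Model G2, part 3: permutation matrices (librarian helper252)

* `gm_pm f` : the matrix `(r,c) ↦ [f r = c]` of an index map `f : ℕ → ℕ`;
  `gs_swapMat o a b = gm_pm (gs_swapFn o a b)`, `gr_sh c n k = gm_pm (gr_shFn c n k)` by `rfl`.
* `gm_IsPerm N f` : `f` maps `[0,N)` injectively to itself.
* row / column actions, transposes, inverses, conjugation.
-/

set_option autoImplicit false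

namespace Claimed.Agent.R236

open Matrix

variable {N : ℕ}

/-- the matrix of an index map: rows `r`, columns `f r` -/
def gm_pm (f : ℕ → ℕ) : gs_Mat N := fun r c => if f r = (c : ℕ) then 1 else 0

theorem gm_swapMat_eq (o a b : ℕ) : (gs_swapMat o a b : gs_Mat N) = gm_pm (gs_swapFn o a b) := rfl

theorem gm_sh_eq (c : ℕ → Bool) (n k : ℕ) : (gr_sh c n k : gs_Mat N) = gm_pm (gr_shFn c n k) := rfl

theorem gm_pm_apply (f : ℕ → ℕ) (r c : Fin N) :
    (gm_pm f : gs_Mat N) r c = if f r = (c : ℕ) then 1 else 0 := rfl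

theorem gm_pm_congr {f g : ℕ → ℕ} (h : ∀ r, r < N → f r = g r) :
    (gm_pm f : gs_Mat N) = gm_pm g := by
  ext r c; rw [gm_pm_apply, gm_pm_apply, h r r.2]

theorem gm_pm_eq_one {f : ℕ → ℕ} (h : ∀ r, r < N → f r = r) : (gm_pm f : gs_Mat N) = 1 := by
  ext r c
  rw [gm_pm_apply, h r r.2, Matrix.one_apply]
  simp only [Fin.ext_iff]

theorem gm_pm_mul_apply (f : ℕ → ℕ) (A : gs_Mat N) (r c : Fin N) (h : f r < N) :
    ((gm_pm f : gs_Mat N) * A) r c = A ⟨f r, h⟩ c := by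
  rw [Matrix.mul_apply, Finset.sum_eq_single ⟨f r, h⟩]
  · simp [gm_pm_apply]
  · intro s _ hs
    rw [gm_pm_apply, if_neg (fun h' => hs (Fin.ext h'.symm)), zero_mul]
  · intro h'; exact absurd (Finset.mem_univ _) h'

theorem gm_pm_mul_apply_of_ge (f : ℕ → ℕ) (A : gs_Mat N) (r c : Fin N) (h : N ≤ f r) :
    ((gm_pm f : gs_Mat N) * A) r c = 0 := by
  rw [Matrix.mul_apply]
  apply Finset.sum_eq_zero
  intro s _
  rw [gm_pm_apply, if_neg (by have := s.2; omega), zero_mul]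

theorem gm_mul_pm_transpose_apply (A : gs_Mat N) (f : ℕ → ℕ) (r c : Fin N) (h : f c < N) :
    (A * (gm_pm f : gs_Mat N).transpose) r c = A r ⟨f c, h⟩ := by
  rw [Matrix.mul_apply, Finset.sum_eq_single ⟨f c, h⟩]
  · simp [gm_pm_apply]
  · intro s _ hs
    rw [Matrix.transpose_apply, gm_pm_apply, if_neg (fun h' => hs (Fin.ext h'.symm)), mul_zero]
  · intro h'; exact absurd (Finset.mem_univ _) h'

theorem gm_pm_mul_pm {f : ℕ → ℕ} (hf : ∀ r, r < N → f r < N) (g : ℕ → ℕ) :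
    (gm_pm f * gm_pm g : gs_Mat N) = gm_pm (fun r => g (f r)) := by
  ext r c
  rw [gm_pm_mul_apply f _ r c (hf r r.2)]
  rfl

/-- `f` permutes `[0,N)` -/
def gm_IsPerm (N : ℕ) (f : ℕ → ℕ) : Prop :=
  (∀ r, r < N → f r < N) ∧ ∀ r s, r < N → s < N → f r = f s → r = s

theorem gm_isPerm_of_inv {f g : ℕ → ℕ} (hf : ∀ r, r < N → f r < N)
    (hgf : ∀ r, r < N → g (f r) = r) : gm_IsPerm N f :=
  ⟨hf, fun r s hr hs h => by rw [← hgf r hr, ← hgf s hs, h]⟩

theorem gm_pm_mul_transpose {f : ℕ → ℕ} (hf : gm_IsPerm N f) :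
    (gm_pm f : gs_Mat N) * (gm_pm f : gs_Mat N).transpose = 1 := by
  ext r s
  rw [gm_pm_mul_apply f _ r s (hf.1 r r.2), Matrix.transpose_apply, gm_pm_apply, Matrix.one_apply]
  by_cases h : r = s
  · subst h; simp
  · rw [if_neg h, if_neg]
    intro h'
    exact h (Fin.ext (hf.2 r s r.2 s.2 h'.symm))

theorem gm_pm_transpose_mul {f : ℕ → ℕ} (hf : gm_IsPerm N f) :
    (gm_pm f : gs_Mat N).transpose * (gm_pm f : gs_Mat N) = 1 :=
  mul_eq_one_comm.mp (gm_pm_mul_transpose hf)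

theorem gm_pm_isUnit {f : ℕ → ℕ} (hf : gm_IsPerm N f) : IsUnit (gm_pm f : gs_Mat N).det :=
  (Matrix.isUnit_iff_isUnit_det _).mp (IsUnit.of_mul_eq_one _ (gm_pm_mul_transpose hf))

theorem gm_pm_inv {f : ℕ → ℕ} (hf : gm_IsPerm N f) :
    (gm_pm f : gs_Mat N)⁻¹ = (gm_pm f : gs_Mat N).transpose :=
  Matrix.inv_eq_right_inv (gm_pm_mul_transpose hf)

theorem gm_pm_transpose {f g : ℕ → ℕ} (hf : ∀ r, r < N → f r < N)
    (hgf : ∀ r, r < N → g (f r) = r) :
    (gm_pm f : gs_Mat N).transpose = gm_pm g := by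
  have hP := gm_isPerm_of_inv hf hgf
  have h1 : (gm_pm f * gm_pm g : gs_Mat N) = 1 := by
    rw [gm_pm_mul_pm hf]; exact gm_pm_eq_one hgf
  rw [← gm_pm_inv hP]
  exact Matrix.inv_eq_right_inv h1

/-- conjugation by a permutation matrix, entrywise -/
theorem gm_pm_conj_apply {f : ℕ → ℕ} (hf : ∀ r, r < N → f r < N) (A : gs_Mat N) (r s : Fin N) :
    ((gm_pm f : gs_Mat N) * A * (gm_pm f : gs_Mat N).transpose) r s = A ⟨f r, hf r r.2⟩ ⟨f s, hf s s.2⟩ := by
  rw [gm_mul_pm_transpose_apply _ f r s (hf s s.2), gm_pm_mul_apply f A r _ (hf r r.2)]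

/-- two-sided action with different permutations -/
theorem gm_pm_mul_mul_transpose_apply {f g : ℕ → ℕ} (hf : ∀ r, r < N → f r < N)
    (hg : ∀ r, r < N → g r < N) (A : gs_Mat N) (r s : Fin N) :
    ((gm_pm f : gs_Mat N) * A * (gm_pm g : gs_Mat N).transpose) r s = A ⟨f r, hf r r.2⟩ ⟨g s, hg s s.2⟩ := by
  rw [gm_mul_pm_transpose_apply _ g r s (hg s s.2), gm_pm_mul_apply f A r _ (hf r r.2)]

theorem gm_pm_corner {f : ℕ → ℕ} {m : ℕ} (h1 : ∀ r, r < m → f r < m) (h2 : ∀ r, m ≤ r → f r = r) :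
    gs_IsCorner m (gm_pm f : gs_Mat N) := by
  intro i j h
  rw [gm_pm_apply, Matrix.one_apply]
  by_cases hi : m ≤ (i : ℕ)
  · rw [h2 i hi]; simp only [Fin.ext_iff]
  · have hj : m ≤ (j : ℕ) := by omega
    have := h1 i (by omega)
    rw [if_neg (by omega), if_neg (fun h' => by rw [h'] at hi; exact hi hj)]

/-! ## swaps -/

theorem gm_swapFn_swapFn (o a b r : ℕ) : gs_swapFn o a b (gs_swapFn o b a r) = r := by
  unfold gs_swapFn
  split_ifs <;> omega

theorem gm_swapFn_lt {o a b m r : ℕ} (h : o + a + b ≤ m) (hr : r < m) : gs_swapFn o a b r < m := by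
  unfold gs_swapFn
  split_ifs <;> omega

theorem gm_swapFn_of_lt {o a b r : ℕ} (hr : r < o) : gs_swapFn o a b r = r := by
  unfold gs_swapFn
  split_ifs <;> omega

theorem gm_swapFn_of_ge {o a b r : ℕ} (hr : o + a + b ≤ r) : gs_swapFn o a b r = r := by
  unfold gs_swapFn
  split_ifs <;> omega

theorem gm_swapFn_first {o a b r : ℕ} (h1 : o ≤ r) (h2 : r < o + a) :
    gs_swapFn o a b r = r + b := by
  unfold gs_swapFn
  split_ifs <;> omega

theorem gm_swapFn_second {o a b r : ℕ} (h1 : o + a ≤ r) (h2 : r < o + a + b) :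
    gs_swapFn o a b r = r - a := by
  unfold gs_swapFn
  split_ifs <;> omega

theorem gm_swapFn_isPerm {o a b : ℕ} (h : o + a + b ≤ N) : gm_IsPerm N (gs_swapFn o a b) :=
  gm_isPerm_of_inv (g := gs_swapFn o b a) (fun _ hr => gm_swapFn_lt h hr)
    (fun r _ => gm_swapFn_swapFn o b a r)

theorem gm_swap_mul_swap {o a b : ℕ} (h : o + a + b ≤ N) :
    (gs_swapMat o a b * gs_swapMat o b a : gs_Mat N) = 1 := by
  rw [gm_swapMat_eq, gm_swapMat_eq, gm_pm_mul_pm (fun _ hr => gm_swapFn_lt h hr)]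
  exact gm_pm_eq_one fun r _ => gm_swapFn_swapFn o b a r

theorem gm_swap_transpose {o a b : ℕ} (h : o + a + b ≤ N) :
    (gs_swapMat o a b : gs_Mat N).transpose = gs_swapMat o b a :=
  gm_pm_transpose (fun _ hr => gm_swapFn_lt h hr) (fun r _ => gm_swapFn_swapFn o b a r)

theorem gm_swap_isUnit {o a b : ℕ} (h : o + a + b ≤ N) :
    IsUnit (gs_swapMat o a b : gs_Mat N).det := gm_pm_isUnit (gm_swapFn_isPerm h)

theorem gm_swap_inv {o a b : ℕ} (h : o + a + b ≤ N) :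
    (gs_swapMat o a b : gs_Mat N)⁻¹ = gs_swapMat o b a :=
  Matrix.inv_eq_right_inv (gm_swap_mul_swap h)

theorem gm_swap_zero_left (o b : ℕ) : (gs_swapMat o 0 b : gs_Mat N) = 1 :=
  gm_pm_eq_one fun r _ => by unfold gs_swapFn; split_ifs <;> omega

theorem gm_swap_zero_right (o a : ℕ) : (gs_swapMat o a 0 : gs_Mat N) = 1 :=
  gm_pm_eq_one fun r _ => by unfold gs_swapFn; split_ifs <;> omega

theorem gm_swap_corner (o a b : ℕ) : gs_IsCorner (o + a + b) (gs_swapMat o a b : gs_Mat N) :=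
  gm_pm_corner (fun _ hr => gm_swapFn_lt le_rfl hr) (fun _ hr => gm_swapFn_of_ge hr)

theorem gm_emb_swap (o' o a b : ℕ) :
    gs_emb o' (gs_swapMat o a b : gs_Mat N) = gs_swapMat (o' + o) a b := by
  ext i j
  by_cases hi : o' ≤ (i : ℕ)
  · by_cases hj : o' ≤ (j : ℕ)
    · rw [gm_emb_apply_ge o' _ hi hj]
      unfold gs_swapMat gs_swapFn
      simp only
      split_ifs <;> first | rfl | omega
    · rw [gm_emb_apply_lt_col o' _ i (by omega), Matrix.one_apply]
      unfold gs_swapMat gs_swapFn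
      simp only [Fin.ext_iff]
      split_ifs <;> first | rfl | omega
  · rw [gm_emb_apply_lt_row o' _ (by omega) j, Matrix.one_apply]
    unfold gs_swapMat gs_swapFn
    simp only [Fin.ext_iff]
    split_ifs <;> first | rfl | omega

/-- rows of `swap * A` -/
theorem gm_swap_mul_apply {o a b : ℕ} (h : o + a + b ≤ N) (A : gs_Mat N) (r c : Fin N) :
    ((gs_swapMat o a b : gs_Mat N) * A) r c = A ⟨gs_swapFn o a b r, gm_swapFn_lt h r.2⟩ c :=
  gm_pm_mul_apply _ A r c _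

/-- columns of `A * swap` -/
theorem gm_mul_swap_apply {o a b : ℕ} (h : o + a + b ≤ N) (A : gs_Mat N) (r c : Fin N) :
    (A * (gs_swapMat o a b : gs_Mat N)) r c = A r ⟨gs_swapFn o b a c, gm_swapFn_lt (by omega) c.2⟩ := by
  rw [← gm_swap_transpose (o := o) (a := b) (b := a) (by omega)]
  exact gm_mul_pm_transpose_apply A _ r c _

/-! ## shuffles -/

theorem gm_cU_add_cQ (c : ℕ → Bool) (j : ℕ) : gr_cU c j + gr_cQ c j = j := by
  unfold gr_cU gr_cQ
  induction j with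
  | zero => simp
  | succ j ih =>
    rw [Nat.count_succ, Nat.count_succ]
    cases c j <;> simp <;> omega

theorem gm_cU_mono (c : ℕ → Bool) {i j : ℕ} (h : i ≤ j) : gr_cU c i ≤ gr_cU c j :=
  Nat.count_monotone _ h

theorem gm_cQ_mono (c : ℕ → Bool) {i j : ℕ} (h : i ≤ j) : gr_cQ c i ≤ gr_cQ c j :=
  Nat.count_monotone _ h

theorem gm_cU_succ (c : ℕ → Bool) (j : ℕ) :
    gr_cU c (j + 1) = gr_cU c j + if c j = true then 1 else 0 := Nat.count_succ _ _

theorem gm_cQ_succ (c : ℕ → Bool) (j : ℕ) :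
    gr_cQ c (j + 1) = gr_cQ c j + if c j = false then 1 else 0 := Nat.count_succ _ _

theorem gm_cU_lt (c : ℕ → Bool) {i j : ℕ} (h : i < j) (hi : c i = true) :
    gr_cU c i < gr_cU c j := by
  have h1 := gm_cU_mono c (Nat.succ_le_of_lt h)
  have h2 := gm_cU_succ c i
  rw [if_pos hi] at h2
  simp only [Nat.succ_eq_add_one] at h1
  omega

theorem gm_cQ_lt (c : ℕ → Bool) {i j : ℕ} (h : i < j) (hi : c i = false) :
    gr_cQ c i < gr_cQ c j := by
  have h1 := gm_cQ_mono c (Nat.succ_le_of_lt h)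
  have h2 := gm_cQ_succ c i
  rw [if_pos hi] at h2
  simp only [Nat.succ_eq_add_one] at h1
  omega

theorem gm_shFn_U {c : ℕ → Bool} {n k r : ℕ} (hr : r < n) (hc : c r = true) :
    gr_shFn c n k r = gr_cU c r := by
  unfold gr_shFn; rw [if_pos hr, if_pos hc]

theorem gm_shFn_Q {c : ℕ → Bool} {n k r : ℕ} (hr : r < n) (hc : c r = false) :
    gr_shFn c n k r = k + gr_cQ c r := by
  unfold gr_shFn; rw [if_pos hr, if_neg (by simp [hc])]

theorem gm_shFn_ge {c : ℕ → Bool} {n k r : ℕ} (hr : n ≤ r) : gr_shFn c n k r = r := by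
  unfold gr_shFn; rw [if_neg (by omega)]

theorem gm_shFn_lt {c : ℕ → Bool} {n k r : ℕ} (hk : gr_cU c n = k) (hr : r < n) :
    gr_shFn c n k r < n := by
  have h0 := gm_cU_add_cQ c n
  cases hc : c r
  · rw [gm_shFn_Q hr hc]
    have := gm_cQ_lt c hr hc
    omega
  · rw [gm_shFn_U hr hc]
    have := gm_cU_lt c hr hc
    omega

theorem gm_shFn_lt_iff {c : ℕ → Bool} {n k r : ℕ} (hk : gr_cU c n = k) (hr : r < n) :
    gr_shFn c n k r < k ↔ c r = true := by
  cases hc : c r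
  · rw [gm_shFn_Q hr hc]; simp
  · rw [gm_shFn_U hr hc]
    have := gm_cU_lt c hr hc
    simp; omega

theorem gm_shFn_inj {c : ℕ → Bool} {n k r s : ℕ} (hk : gr_cU c n = k) (hr : r < n) (hs : s < n)
    (h : gr_shFn c n k r = gr_shFn c n k s) : r = s := by
  cases hcr : c r <;> cases hcs : c s
  · rw [gm_shFn_Q hr hcr, gm_shFn_Q hs hcs] at h
    rcases lt_trichotomy r s with h' | h' | h'
    · have := gm_cQ_lt c h' hcr; omega
    · exact h'
    · have := gm_cQ_lt c h' hcs; omega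
  · rw [gm_shFn_Q hr hcr, gm_shFn_U hs hcs] at h
    have := gm_cU_lt c hs hcs; omega
  · rw [gm_shFn_U hr hcr, gm_shFn_Q hs hcs] at h
    have := gm_cU_lt c hr hcr; omega
  · rw [gm_shFn_U hr hcr, gm_shFn_U hs hcs] at h
    rcases lt_trichotomy r s with h' | h' | h'
    · have := gm_cU_lt c h' hcr; omega
    · exact h'
    · have := gm_cU_lt c h' hcs; omega

theorem gm_shFn_lt' {c : ℕ → Bool} {n k r : ℕ} (hn : n ≤ N) (hk : gr_cU c n = k) (hr : r < N) :
    gr_shFn c n k r < N := by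
  by_cases h : r < n
  · have := gm_shFn_lt hk h; omega
  · rw [gm_shFn_ge (by omega)]; exact hr

theorem gm_shFn_isPerm {c : ℕ → Bool} {n k : ℕ} (hn : n ≤ N) (hk : gr_cU c n = k) :
    gm_IsPerm N (gr_shFn c n k) := by
  refine ⟨fun r hr => gm_shFn_lt' hn hk hr, fun r s _ _ h => ?_⟩
  by_cases hr : r < n
  · by_cases hs : s < n
    · exact gm_shFn_inj hk hr hs h
    · rw [gm_shFn_ge (r := s) (by omega)] at h
      have := gm_shFn_lt hk hr; omega
  · by_cases hs : s < n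
    · rw [gm_shFn_ge (r := r) (by omega)] at h
      have := gm_shFn_lt hk hs; omega
    · rwa [gm_shFn_ge (by omega), gm_shFn_ge (by omega)] at h

theorem gm_sh_mul_transpose {c : ℕ → Bool} {n k : ℕ} (hn : n ≤ N) (hk : gr_cU c n = k) :
    (gr_sh c n k : gs_Mat N) * (gr_sh c n k : gs_Mat N).transpose = 1 :=
  gm_pm_mul_transpose (gm_shFn_isPerm hn hk)

theorem gm_sh_transpose_mul {c : ℕ → Bool} {n k : ℕ} (hn : n ≤ N) (hk : gr_cU c n = k) :
    (gr_sh c n k : gs_Mat N).transpose * (gr_sh c n k : gs_Mat N) = 1 :=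
  gm_pm_transpose_mul (gm_shFn_isPerm hn hk)

theorem gm_sh_inv {c : ℕ → Bool} {n k : ℕ} (hn : n ≤ N) (hk : gr_cU c n = k) :
    (gr_sh c n k : gs_Mat N)⁻¹ = (gr_sh c n k : gs_Mat N).transpose :=
  gm_pm_inv (gm_shFn_isPerm hn hk)

theorem gm_sh_isUnit {c : ℕ → Bool} {n k : ℕ} (hn : n ≤ N) (hk : gr_cU c n = k) :
    IsUnit (gr_sh c n k : gs_Mat N).det := gm_pm_isUnit (gm_shFn_isPerm hn hk)

theorem gm_sh_corner {c : ℕ → Bool} {n k : ℕ} (hk : gr_cU c n = k) :
    gs_IsCorner n (gr_sh c n k : gs_Mat N) :=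
  gm_pm_corner (fun _ hr => gm_shFn_lt hk hr) (fun _ hr => gm_shFn_ge hr)

/-- `(Sh X Shᵀ) r s = X (shFn r) (shFn s)` -/
theorem gm_sh_conj_apply {c : ℕ → Bool} {n k : ℕ} (hn : n ≤ N) (hk : gr_cU c n = k) (A : gs_Mat N)
    (r s : Fin N) :
    ((gr_sh c n k : gs_Mat N) * A * (gr_sh c n k : gs_Mat N).transpose) r s =
      A ⟨gr_shFn c n k r, gm_shFn_lt' hn hk r.2⟩ ⟨gr_shFn c n k s, gm_shFn_lt' hn hk s.2⟩ :=
  gm_pm_conj_apply (fun _ hr => gm_shFn_lt' hn hk hr) A r s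

/-- standard index `↦` refined index -/
noncomputable def gm_shInvFn (c : ℕ → Bool) (n k s : ℕ) : ℕ :=
  if s < k then Nat.nth (fun t => c t = true) s
  else if s < n then Nat.nth (fun t => c t = false) (s - k) else s

theorem gm_nthU_lt {c : ℕ → Bool} {n s : ℕ} (hs : s < gr_cU c n) :
    Nat.nth (fun t => c t = true) s < n := Nat.nth_lt_of_lt_count hs

theorem gm_nthQ_lt {c : ℕ → Bool} {n s : ℕ} (hs : s < gr_cQ c n) :
    Nat.nth (fun t => c t = false) s < n := Nat.nth_lt_of_lt_count hs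

theorem gm_nthU_mem {c : ℕ → Bool} {n s : ℕ} (hs : s < gr_cU c n) :
    c (Nat.nth (fun t => c t = true) s) = true :=
  Nat.nth_mem (p := fun t => c t = true) s
    (fun hf => lt_of_lt_of_le hs (Nat.count_le_card hf n))

theorem gm_nthQ_mem {c : ℕ → Bool} {n s : ℕ} (hs : s < gr_cQ c n) :
    c (Nat.nth (fun t => c t = false) s) = false :=
  Nat.nth_mem (p := fun t => c t = false) s
    (fun hf => lt_of_lt_of_le hs (Nat.count_le_card hf n))

theorem gm_cU_nthU {c : ℕ → Bool} {n s : ℕ} (hs : s < gr_cU c n) :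
    gr_cU c (Nat.nth (fun t => c t = true) s) = s :=
  Nat.count_nth (p := fun t => c t = true)
    (fun hf => lt_of_lt_of_le hs (Nat.count_le_card hf n))

theorem gm_cQ_nthQ {c : ℕ → Bool} {n s : ℕ} (hs : s < gr_cQ c n) :
    gr_cQ c (Nat.nth (fun t => c t = false) s) = s :=
  Nat.count_nth (p := fun t => c t = false)
    (fun hf => lt_of_lt_of_le hs (Nat.count_le_card hf n))

theorem gm_nthU_cU {c : ℕ → Bool} {r : ℕ} (hr : c r = true) :
    Nat.nth (fun t => c t = true) (gr_cU c r) = r := Nat.nth_count (p := fun t => c t = true) hr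

theorem gm_nthQ_cQ {c : ℕ → Bool} {r : ℕ} (hr : c r = false) :
    Nat.nth (fun t => c t = false) (gr_cQ c r) = r := Nat.nth_count (p := fun t => c t = false) hr

theorem gm_shInvFn_shFn {c : ℕ → Bool} {n k : ℕ} (hk : gr_cU c n = k) (r : ℕ) :
    gm_shInvFn c n k (gr_shFn c n k r) = r := by
  by_cases hr : r < n
  · have h0 := gm_cU_add_cQ c n
    cases hc : c r
    · have := gm_cQ_lt c hr hc
      rw [gm_shFn_Q hr hc]
      unfold gm_shInvFn
      rw [if_neg (by omega), if_pos (by omega), Nat.add_sub_cancel_left, gm_nthQ_cQ hc]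
    · have := gm_cU_lt c hr hc
      rw [gm_shFn_U hr hc]
      unfold gm_shInvFn
      rw [if_pos (by omega), gm_nthU_cU hc]
  · have h0 := gm_cU_add_cQ c n
    rw [gm_shFn_ge (by omega)]
    unfold gm_shInvFn
    rw [if_neg (by omega), if_neg hr]

theorem gm_shFn_shInvFn {c : ℕ → Bool} {n k : ℕ} (hk : gr_cU c n = k) (s : ℕ) :
    gr_shFn c n k (gm_shInvFn c n k s) = s := by
  have h0 := gm_cU_add_cQ c n
  unfold gm_shInvFn
  by_cases h1 : s < k
  · rw [if_pos h1]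
    have h1' : s < gr_cU c n := by omega
    rw [gm_shFn_U (gm_nthU_lt h1') (gm_nthU_mem h1'), gm_cU_nthU h1']
  · rw [if_neg h1]
    by_cases h2 : s < n
    · rw [if_pos h2]
      have h2' : s - k < gr_cQ c n := by omega
      rw [gm_shFn_Q (gm_nthQ_lt h2') (gm_nthQ_mem h2'), gm_cQ_nthQ h2']
      omega
    · rw [if_neg h2, gm_shFn_ge (by omega)]

theorem gm_shInvFn_lt {c : ℕ → Bool} {n k s : ℕ} (hk : gr_cU c n = k) (hs : s < n) :
    gm_shInvFn c n k s < n := by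
  have h0 := gm_cU_add_cQ c n
  unfold gm_shInvFn
  by_cases h1 : s < k
  · rw [if_pos h1]; exact gm_nthU_lt (by omega)
  · rw [if_neg h1, if_pos hs]; exact gm_nthQ_lt (by omega)

theorem gm_shInvFn_lt' {c : ℕ → Bool} {n k s : ℕ} (hn : n ≤ N) (hk : gr_cU c n = k) (hs : s < N) :
    gm_shInvFn c n k s < N := by
  by_cases h : s < n
  · have := gm_shInvFn_lt hk h; omega
  · have h0 := gm_cU_add_cQ c n
    unfold gm_shInvFn
    rw [if_neg (by omega), if_neg h]; exact hs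

theorem gm_sh_transpose {c : ℕ → Bool} {n k : ℕ} (hn : n ≤ N) (hk : gr_cU c n = k) :
    (gr_sh c n k : gs_Mat N).transpose = gm_pm (gm_shInvFn c n k) :=
  gm_pm_transpose (fun _ hr => gm_shFn_lt' hn hk hr) (fun r _ => gm_shInvFn_shFn hk r)

/-- `(Shᵀ X Sh) i j = X (shInv i) (shInv j)` -/
theorem gm_sh_conj_apply' {c : ℕ → Bool} {n k : ℕ} (hn : n ≤ N) (hk : gr_cU c n = k) (A : gs_Mat N)
    (i j : Fin N) :
    ((gr_sh c n k : gs_Mat N).transpose * A * (gr_sh c n k : gs_Mat N)) i j =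
      A ⟨gm_shInvFn c n k i, gm_shInvFn_lt' hn hk i.2⟩ ⟨gm_shInvFn c n k j, gm_shInvFn_lt' hn hk j.2⟩ := by
  have h1 : (gr_sh c n k : gs_Mat N) = (gm_pm (gm_shInvFn c n k) : gs_Mat N).transpose := by
    rw [← gm_sh_transpose hn hk, Matrix.transpose_transpose]
  rw [gm_sh_transpose hn hk]
  conv_lhs => rw [h1]
  exact gm_pm_conj_apply (fun _ hr => gm_shInvFn_lt' hn hk hr) A i j

end Claimed.Agent.R236
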