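import Mathlib
import Claimed.Agent.R236.GMatSwap

/-!
# Row 236: matrix library for Model G2, part 4: block diagonal matrices, mid blocks
(librarian helper252)

* `gr_IsBD n K` is a group normalising `gs_IsUni n K`:
  `gm_bd_one/mul/inv/list_prod/mono`, `gm_bd_conj`, `gm_bd_conj'`, `gm_bd_conj_iff`,
  `gm_bd_emb`, `gm_bd_diagonal`.
* `gr_midBlock`: `gm_mid_apply`, `gm_mid_corner`, `gm_mid_one`, `gm_mid_emb`, `gm_emb_mid_apply`,
  `gm_mid_mul`, `gm_mid_uni`, `gm_mid_inv_uni`.
-/

set_option autoImplicit false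

namespace Claimed.Agent.R236

open Matrix

variable {N : ℕ}

/-! ## block diagonal matrices -/

/-- the positions allowed in a block diagonal matrix -/
def gm_bdPos (n : ℕ) (K : Finset ℕ) (i j : ℕ) : Prop :=
  (∀ c ∈ K, (i < c ↔ j < c)) ∧ (n ≤ i ∨ n ≤ j → i = j)

theorem gm_bd_sup {n : ℕ} {K : Finset ℕ} {d : gs_Mat N} (hd : gr_IsBD n K d) :
    gm_Sup (gm_bdPos n K) d := by
  intro i j h
  refine ⟨hd.2 i j h, fun hn => ?_⟩
  rw [hd.1 i j hn] at h
  by_contra hij
  exact h (Matrix.one_apply_ne (fun h' => hij (congrArg Fin.val h')))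

theorem gm_bd_one (n : ℕ) (K : Finset ℕ) : gr_IsBD n K (1 : gs_Mat N) := by
  refine ⟨gm_corner_one n, fun i j h c _ => ?_⟩
  by_cases hij : i = j
  · subst hij; exact Iff.rfl
  · exact absurd (Matrix.one_apply_ne hij) h

theorem gm_bd_mul {n : ℕ} {K : Finset ℕ} {d e : gs_Mat N} (hd : gr_IsBD n K d)
    (he : gr_IsBD n K e) : gr_IsBD n K (d * e) := by
  refine ⟨gm_corner_mul hd.1 he.1, fun i k h c hc => ?_⟩
  rw [Matrix.mul_apply] at h
  obtain ⟨j, _, hj⟩ := Finset.exists_ne_zero_of_sum_ne_zero h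
  exact (hd.2 i j (left_ne_zero_of_mul hj) c hc).trans (he.2 j k (right_ne_zero_of_mul hj) c hc)

theorem gm_bd_list_prod {n : ℕ} {K : Finset ℕ} (l : List (gs_Mat N))
    (h : ∀ d ∈ l, gr_IsBD n K d) : gr_IsBD n K l.prod := by
  induction l with
  | nil => exact gm_bd_one n K
  | cons d l ih =>
    rw [List.prod_cons]
    exact gm_bd_mul (h d (by simp)) (ih fun v hv => h v (by simp [hv]))

theorem gm_bd_mono {n : ℕ} {K K' : Finset ℕ} (hK : K' ⊆ K) {d : gs_Mat N} (hd : gr_IsBD n K d) :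
    gr_IsBD n K' d := ⟨hd.1, fun i j h c hc => hd.2 i j h c (hK hc)⟩

/-- the index of the block of `i` -/
def gm_blk (K : Finset ℕ) (i : ℕ) : ℕ := (K.filter fun c => c ≤ i).card

theorem gm_blk_mono (K : Finset ℕ) {i j : ℕ} (h : i ≤ j) : gm_blk K i ≤ gm_blk K j := by
  apply Finset.card_le_card
  intro c hc
  rw [Finset.mem_filter] at hc ⊢
  exact ⟨hc.1, by omega⟩

theorem gm_blk_eq_iff (K : Finset ℕ) (i j : ℕ) :
    gm_blk K i = gm_blk K j ↔ ∀ c ∈ K, (i < c ↔ j < c) := by
  constructor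
  · intro h c hc
    rcases le_total i j with hij | hij
    · have hsub : (K.filter fun c => c ≤ i) ⊆ (K.filter fun c => c ≤ j) := by
        intro c hc
        rw [Finset.mem_filter] at hc ⊢
        exact ⟨hc.1, by omega⟩
      have heq := Finset.eq_of_subset_of_card_le hsub (le_of_eq h.symm)
      constructor
      · intro h1
        by_contra h2
        have : c ∈ K.filter fun c => c ≤ j := Finset.mem_filter.mpr ⟨hc, by omega⟩
        rw [← heq, Finset.mem_filter] at this
        omega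
      · intro h1; omega
    · have hsub : (K.filter fun c => c ≤ j) ⊆ (K.filter fun c => c ≤ i) := by
        intro c hc
        rw [Finset.mem_filter] at hc ⊢
        exact ⟨hc.1, by omega⟩
      have heq := Finset.eq_of_subset_of_card_le hsub (le_of_eq h)
      constructor
      · intro h1; omega
      · intro h1
        by_contra h2
        have : c ∈ K.filter fun c => c ≤ i := Finset.mem_filter.mpr ⟨hc, by omega⟩
        rw [← heq, Finset.mem_filter] at this
        omega
  · intro h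
    unfold gm_blk
    congr 1
    apply Finset.filter_congr
    intro c hc
    have := h c hc
    constructor <;> intro h1 <;> omega

/-- `∃ c ∈ K, i < c ≤ j` iff the block of `i` is strictly before the block of `j` -/
theorem gm_blk_lt_iff (K : Finset ℕ) (i j : ℕ) :
    gm_blk K i < gm_blk K j ↔ ∃ c ∈ K, i < c ∧ c ≤ j := by
  constructor
  · intro h
    by_contra hne
    push Not at hne
    have : gm_blk K j ≤ gm_blk K i := by
      apply Finset.card_le_card
      intro c hc
      rw [Finset.mem_filter] at hc ⊢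
      refine ⟨hc.1, ?_⟩
      by_contra h1
      exact absurd hc.2 (not_le.mpr (hne c hc.1 (by omega)))
    omega
  · rintro ⟨c, hc, h1, h2⟩
    have hle := gm_blk_mono K (show i ≤ j by omega)
    rcases Nat.lt_or_ge (gm_blk K i) (gm_blk K j) with h | h
    · exact h
    · have := (gm_blk_eq_iff K i j).mp (le_antisymm hle h) c hc
      omega

theorem gm_bd_inv {n : ℕ} {K : Finset ℕ} {d : gs_Mat N} (hd : gr_IsBD n K d)
    (hu : IsUnit d.det) : gr_IsBD n K d⁻¹ := by
  refine ⟨gm_corner_inv hd.1 hu, ?_⟩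
  let b : Fin N → ℕ := fun i => gm_blk K i
  have h1 : d.BlockTriangular b := by
    intro i j hij
    by_contra h0
    exact (ne_of_lt hij) ((gm_blk_eq_iff K j i).mpr fun c hc => (hd.2 i j h0 c hc).symm)
  have h2 : d.BlockTriangular (OrderDual.toDual ∘ b) := by
    intro i j hij
    by_contra h0
    have hij' : b i < b j := hij
    exact (ne_of_lt hij') ((gm_blk_eq_iff K i j).mpr fun c hc => hd.2 i j h0 c hc)
  have := Matrix.invertibleOfIsUnitDet d hu
  have h1' := Matrix.blockTriangular_inv_of_blockTriangular h1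
  have h2' := Matrix.blockTriangular_inv_of_blockTriangular h2
  intro i j h0
  rw [← gm_blk_eq_iff]
  rcases lt_trichotomy (b i) (b j) with h | h | h
  · exact absurd (h2' (show (OrderDual.toDual ∘ b) j < (OrderDual.toDual ∘ b) i from h)) h0
  · exact h
  · exact absurd (h1' h) h0

theorem gm_bdPos_uniPos {n : ℕ} {K : Finset ℕ} (i j k l : ℕ) (h1 : gm_bdPos n K i j)
    (h2 : gm_uniPos n K j k) (h3 : gm_bdPos n K k l) : gm_uniPos n K i l := by
  obtain ⟨hk, c, hc, hjc, hck⟩ := h2
  refine ⟨?_, c, hc, (h1.1 c hc).mpr hjc, ?_⟩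
  · by_contra hl
    have := h3.2 (Or.inr (by omega)); omega
  · have := h3.1 c hc; omega

/-- `U(K)` is normalised by the block diagonal matrices -/
theorem gm_bd_conj {n : ℕ} {K : Finset ℕ} {d u : gs_Mat N} (hd : gr_IsBD n K d)
    (hdu : IsUnit d.det) (hu : gs_IsUni n K u) : gs_IsUni n K (d * u * d⁻¹) :=
  gm_pat_conj (r := gm_uniPos n K) (r' := gm_uniPos n K) gm_bdPos_uniPos
    (Matrix.mul_nonsing_inv d hdu) (gm_bd_sup hd) (gm_bd_sup (gm_bd_inv hd hdu)) hu

theorem gm_bd_conj' {n : ℕ} {K : Finset ℕ} {d u : gs_Mat N} (hd : gr_IsBD n K d)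
    (hdu : IsUnit d.det) (hu : gs_IsUni n K u) : gs_IsUni n K (d⁻¹ * u * d) :=
  gm_pat_conj (r := gm_uniPos n K) (r' := gm_uniPos n K) gm_bdPos_uniPos
    (Matrix.nonsing_inv_mul d hdu) (gm_bd_sup (gm_bd_inv hd hdu)) (gm_bd_sup hd) hu

theorem gm_bd_conj_iff {n : ℕ} {K : Finset ℕ} {d u : gs_Mat N} (hd : gr_IsBD n K d)
    (hdu : IsUnit d.det) : gs_IsUni n K (d * u * d⁻¹) ↔ gs_IsUni n K u := by
  refine ⟨fun h => ?_, gm_bd_conj hd hdu⟩
  have h1 := gm_bd_conj' hd hdu h
  have h2 : d⁻¹ * (d * u * d⁻¹) * d = u := by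
    calc d⁻¹ * (d * u * d⁻¹) * d = (d⁻¹ * d) * u * (d⁻¹ * d) := by noncomm_ring
      _ = u := by rw [Matrix.nonsing_inv_mul d hdu, one_mul, mul_one]
  rwa [h2] at h1

/-- a matrix living on `[o,o+m)` is block diagonal if no cut is strictly inside -/
theorem gm_bd_emb {n m o : ℕ} {K : Finset ℕ} {h : gs_Mat N} (hh : gs_IsCorner m h)
    (hn : o + m ≤ n) (hK : ∀ c ∈ K, c ≤ o ∨ o + m ≤ c) : gr_IsBD n K (gs_emb o h) := by
  refine ⟨gm_corner_mono hn (gm_emb_corner o hh), fun i j h0 c hc => ?_⟩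
  by_cases hij : i = j
  · subst hij; exact Iff.rfl
  · have h1 : o ≤ (i : ℕ) := by
      by_contra h1
      rw [gm_emb_apply_lt_row o h (by omega) j] at h0
      exact h0 (Matrix.one_apply_ne hij)
    have h2 : o ≤ (j : ℕ) := by
      by_contra h2
      rw [gm_emb_apply_lt_col o h i (by omega)] at h0
      exact h0 (Matrix.one_apply_ne hij)
    have h3 : (i : ℕ) < o + m ∧ (j : ℕ) < o + m := by
      by_contra h3
      rw [gm_emb_corner o hh i j (by omega)] at h0
      exact h0 (Matrix.one_apply_ne hij)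
    rcases hK c hc with h4 | h4 <;> constructor <;> intro h5 <;> omega

theorem gm_bd_diagonal {n : ℕ} (K : Finset ℕ) {lam : Fin N → ℂ}
    (h : ∀ j : Fin N, n ≤ (j : ℕ) → lam j = 1) : gr_IsBD n K (Matrix.diagonal lam) := by
  refine ⟨fun i j hij => ?_, fun i j h0 c _ => ?_⟩
  · by_cases e : i = j
    · subst e
      rw [Matrix.diagonal_apply_eq, Matrix.one_apply_eq, h i (by omega)]
    · rw [Matrix.diagonal_apply_ne _ e, Matrix.one_apply_ne e]
  · by_cases e : i = j
    · subst e; exact Iff.rfl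
    · exact absurd (Matrix.diagonal_apply_ne _ e) h0

theorem gm_diagonal_isUnit {lam : Fin N → ℂ} (h : ∀ j, lam j ≠ 0) :
    IsUnit (Matrix.diagonal lam).det := by
  rw [Matrix.det_diagonal, isUnit_iff_ne_zero]
  exact Finset.prod_ne_zero_iff.mpr fun j _ => h j

theorem gm_diagonal_inv {lam : Fin N → ℂ} (h : ∀ j, lam j ≠ 0) :
    (Matrix.diagonal lam)⁻¹ = Matrix.diagonal fun j => (lam j)⁻¹ := by
  apply Matrix.inv_eq_right_inv
  rw [Matrix.diagonal_mul_diagonal]
  have : (fun i => lam i * (lam i)⁻¹) = fun _ => (1 : ℂ) := by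
    funext i; exact mul_inv_cancel₀ (h i)
  rw [this, Matrix.diagonal_one]

/-! ## mid blocks -/

theorem gm_mid_apply {o m : ℕ} (h : o + m ≤ N) (A : gs_Mat N) {i j : Fin N} (hi : (i : ℕ) < m)
    (hj : (j : ℕ) < m) :
    gr_midBlock o m A i j = A ⟨o + i, by omega⟩ ⟨o + j, by omega⟩ := by
  unfold gr_midBlock; rw [dif_pos ⟨hi, hj, h⟩]

theorem gm_mid_corner (o m : ℕ) (A : gs_Mat N) : gs_IsCorner m (gr_midBlock o m A) := by
  intro i j h
  unfold gr_midBlock; rw [dif_neg (by omega)]

theorem gm_mid_one (o m : ℕ) : gr_midBlock o m (1 : gs_Mat N) = 1 := by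
  ext i j
  unfold gr_midBlock
  split_ifs with h
  · rw [Matrix.one_apply, Matrix.one_apply]
    simp only [Fin.ext_iff, Nat.add_left_cancel_iff]
  · rfl

theorem gm_mid_emb {o m : ℕ} {A : gs_Mat N} (hA : gs_IsCorner m A) (h : o + m ≤ N) :
    gr_midBlock o m (gs_emb o A) = A := by
  ext i j
  by_cases hij : (i : ℕ) < m ∧ (j : ℕ) < m
  · rw [gm_mid_apply h _ hij.1 hij.2, gm_emb_apply_ge o A (by simp) (by simp)]
    congr 1 <;> apply Fin.ext <;> simp
  · rw [gm_mid_corner o m _ i j (by omega), hA i j (by omega)]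

/-- entries of `emb o (midBlock o m A)` inside the window -/
theorem gm_emb_mid_apply {o m : ℕ} (h : o + m ≤ N) (A : gs_Mat N) {i j : Fin N}
    (hi : o ≤ (i : ℕ) ∧ (i : ℕ) < o + m) (hj : o ≤ (j : ℕ) ∧ (j : ℕ) < o + m) :
    gs_emb o (gr_midBlock o m A) i j = A i j := by
  rw [gm_emb_apply_ge o _ hi.1 hj.1, gm_mid_apply h _ (by simp; omega) (by simp; omega)]
  congr 1 <;> apply Fin.ext <;> simp <;> omega

/-- entries of `emb o (midBlock o m A)` outside of the window -/
theorem gm_emb_mid_apply_out (o m : ℕ) (A : gs_Mat N) {i j : Fin N}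
    (h : ¬ ((o ≤ (i : ℕ) ∧ (i : ℕ) < o + m) ∧ (o ≤ (j : ℕ) ∧ (j : ℕ) < o + m))) :
    gs_emb o (gr_midBlock o m A) i j = (1 : gs_Mat N) i j := by
  by_cases hi : o ≤ (i : ℕ)
  · by_cases hj : o ≤ (j : ℕ)
    · exact gm_emb_corner o (gm_mid_corner o m A) i j (by omega)
    · exact gm_emb_apply_lt_col o _ i (by omega)
  · exact gm_emb_apply_lt_row o _ (by omega) j

/-- the mid block is multiplicative on matrices which are block upper triangular with respect to
the merged frame -/
theorem gm_mid_mul {o m : ℕ} {A B : gs_Mat N}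
    (hA : ∀ i k : Fin N, o ≤ (i : ℕ) → (k : ℕ) < o → A i k = 0)
    (hB : ∀ k j : Fin N, o + m ≤ (k : ℕ) → (j : ℕ) < o + m → B k j = 0) :
    gr_midBlock o m (A * B) = gr_midBlock o m A * gr_midBlock o m B := by
  by_cases h : o + m ≤ N
  · ext i j
    by_cases hi : (i : ℕ) < m
    · by_cases hj : (j : ℕ) < m
      · rw [gm_mid_apply h _ hi hj, Matrix.mul_apply, Matrix.mul_apply]
        -- reindex by the rotation
        rw [← Equiv.sum_comp (gm_rot N o (by omega)).symm]
        apply Finset.sum_congr rfl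
        intro k _
        by_cases hk : (k : ℕ) < m
        · have hk'' : (gm_rot N o (by omega)).symm k = ⟨o + k, by omega⟩ := by
            rw [Equiv.symm_apply_eq, gm_rot_apply_ge (by omega) (by simp)]
            apply Fin.ext; simp
          rw [hk'', gm_mid_apply h _ hi hk, gm_mid_apply h _ hk hj]
        · rw [gm_mid_corner o m B k j (by omega), Matrix.one_apply_ne (by
            intro e; rw [e] at hk; exact hk hj), mul_zero]
          set k' := (gm_rot N o (by omega)).symm k with hk'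
          have hkk : gm_rot N o (by omega) k' = k := by rw [hk', Equiv.apply_symm_apply]
          by_cases h1 : o ≤ (k' : ℕ)
          · have h2 := congrArg Fin.val (gm_rot_apply_ge (N := N) (o := o) (by omega) h1)
            rw [hkk] at h2
            simp only at h2
            rw [hB k' _ (by omega) (by simp; omega), mul_zero]
          · rw [hA _ k' (by simp) (by omega), zero_mul]
      · rw [gm_mid_corner o m _ i j (by omega),
          gm_corner_mul (gm_mid_corner o m A) (gm_mid_corner o m B) i j (by omega)]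
    · rw [gm_mid_corner o m _ i j (by omega),
        gm_corner_mul (gm_mid_corner o m A) (gm_mid_corner o m B) i j (by omega)]
  · have h1 : ∀ C : gs_Mat N, gr_midBlock o m C = 1 := by
      intro C; ext i j; unfold gr_midBlock; rw [dif_neg (by omega)]
    rw [h1, h1, h1, one_mul]

/-- upper triangular matrices -/
theorem gm_mid_mul_of_upper {o m : ℕ} {A B : gs_Mat N}
    (hA : ∀ i k : Fin N, k < i → A i k = 0) (hB : ∀ i k : Fin N, k < i → B i k = 0) :
    gr_midBlock o m (A * B) = gr_midBlock o m A * gr_midBlock o m B :=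
  gm_mid_mul (fun i k h1 h2 => hA i k (Fin.lt_def.mpr (by omega)))
    (fun k j h1 h2 => hB k j (Fin.lt_def.mpr (by omega)))

theorem gm_mid_mul_uni {o m n n' : ℕ} {K K' : Finset ℕ} {u v : gs_Mat N} (hu : gs_IsUni n K u)
    (hv : gs_IsUni n' K' v) :
    gr_midBlock o m (u * v) = gr_midBlock o m u * gr_midBlock o m v :=
  gm_mid_mul_of_upper (fun _ _ h => gm_uni_lower hu h) (fun _ _ h => gm_uni_lower hv h)

/-- the frame induced on the window `[o,o+m)` -/
def gm_midK (K : Finset ℕ) (o m : ℕ) : Finset ℕ :=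
  (K.filter fun d => o ≤ d ∧ d ≤ o + m).image fun d => d - o

theorem gm_mid_uni {n o m : ℕ} {K : Finset ℕ} {u : gs_Mat N} (hu : gs_IsUni n K u) :
    gs_IsUni m (gm_midK K o m) (gr_midBlock o m u) := by
  intro i j h
  by_cases hc : (i : ℕ) < m ∧ (j : ℕ) < m ∧ o + m ≤ N
  · rw [gm_mid_apply hc.2.2 _ hc.1 hc.2.1] at h
    have h1 : (1 : gs_Mat N) i j = (1 : gs_Mat N) ⟨o + i, by omega⟩ ⟨o + j, by omega⟩ := by
      rw [Matrix.one_apply, Matrix.one_apply]
      simp only [Fin.ext_iff, Nat.add_left_cancel_iff]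
    rw [h1] at h
    obtain ⟨_, c, hcK, h2, h3⟩ := hu _ _ h
    simp only at h2 h3
    refine ⟨hc.2.1, c - o, ?_, by omega, by omega⟩
    unfold gm_midK
    rw [Finset.mem_image]
    exact ⟨c, Finset.mem_filter.mpr ⟨hcK, by omega, by omega⟩, rfl⟩
  · exfalso; apply h
    unfold gr_midBlock; rw [dif_neg hc]

theorem gm_mid_inv_uni {n o m : ℕ} {K : Finset ℕ} {u : gs_Mat N} (hu : gs_IsUni n K u) :
    gr_midBlock o m u⁻¹ = (gr_midBlock o m u)⁻¹ := by
  symm
  apply Matrix.inv_eq_right_inv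
  rw [← gm_mid_mul_uni hu (gm_uni_inv hu), gm_uni_mul_inv hu, gm_mid_one]

/-- `emb o (midBlock o m u)` lies in `U(K)` -/
theorem gm_emb_mid_uni {n o m : ℕ} {K : Finset ℕ} {u : gs_Mat N} (hu : gs_IsUni n K u) :
    gs_IsUni n K (gs_emb o (gr_midBlock o m u)) := by
  intro i j h
  by_cases hw : ((o ≤ (i : ℕ) ∧ (i : ℕ) < o + m) ∧ (o ≤ (j : ℕ) ∧ (j : ℕ) < o + m))
  · by_cases hN : o + m ≤ N
    · rw [gm_emb_mid_apply hN u hw.1 hw.2] at h
      exact hu i j h
    · have h1 : gr_midBlock o m u = 1 := by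
        ext i j; unfold gr_midBlock; rw [dif_neg (by omega)]
      rw [h1, gm_emb_one] at h
      exact absurd rfl h
  · exact absurd (gm_emb_mid_apply_out o m u hw) h

end Claimed.Agent.R236
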