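import Mathlib
import Claimed.Agent.R236.GMatBD

/-!
# Row 236: matrix library for Model G2, part 5: windows and radicals (librarian helper252)

* `gm_winPos o m` : the positions of a matrix `gs_emb o A`, `A` of rank `m`; `gm_emb_sup`.
* conjugation by diagonal matrices preserves every pattern: `gm_pat_diag_conj`, `gm_uni_diag_conj`.
* `gm_rad_conj` : `(emb o x)⁻¹ (1 + mask radPos p) (emb o x) ∈ U(K')`;
* `gm_rad_split` : `u = (1 + mask radPos p) * emb o (midBlock o m u)`.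
-/

set_option autoImplicit false

namespace Claimed.Agent.R236

open Matrix

variable {N : ℕ}

/-- positions of a matrix living on the window `[o,o+m)` -/
def gm_winPos (o m : ℕ) (i j : ℕ) : Prop := i = j ∨ ((o ≤ i ∧ i < o + m) ∧ (o ≤ j ∧ j < o + m))

theorem gm_emb_sup {m : ℕ} (o : ℕ) {A : gs_Mat N} (hA : gs_IsCorner m A) :
    gm_Sup (gm_winPos o m) (gs_emb o A) := by
  intro i j h0
  by_cases hij : i = j
  · exact Or.inl (congrArg Fin.val hij)
  · right
    have h1 : o ≤ (i : ℕ) := by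
      by_contra h1
      rw [gm_emb_apply_lt_row o A (by omega) j] at h0
      exact h0 (Matrix.one_apply_ne hij)
    have h2 : o ≤ (j : ℕ) := by
      by_contra h2
      rw [gm_emb_apply_lt_col o A i (by omega)] at h0
      exact h0 (Matrix.one_apply_ne hij)
    have h3 : (i : ℕ) < o + m ∧ (j : ℕ) < o + m := by
      by_contra h3
      rw [gm_emb_corner o hA i j (by omega)] at h0
      exact h0 (Matrix.one_apply_ne hij)
    exact ⟨⟨h1, h3.1⟩, h2, h3.2⟩

/-! ## diagonal conjugation -/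

theorem gm_pat_diag_conj {r : ℕ → ℕ → Prop} {lam : Fin N → ℂ} (h : ∀ j, lam j ≠ 0) {u : gs_Mat N}
    (hu : gm_Pat r u) : gm_Pat r ((Matrix.diagonal lam)⁻¹ * u * Matrix.diagonal lam) := by
  refine gm_pat_conj (r := r) (s := fun i j => i = j) (s' := fun i j => i = j) ?_
    (Matrix.nonsing_inv_mul _ (gm_diagonal_isUnit h)) ?_ (gm_sup_diagonal (fun _ => rfl) lam) hu
  · intro i j k l h1 h2 h3; subst h1; subst h3; exact h2
  · rw [gm_diagonal_inv h]; exact gm_sup_diagonal (fun _ => rfl) _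

theorem gm_pat_diag_conj' {r : ℕ → ℕ → Prop} {lam : Fin N → ℂ} (h : ∀ j, lam j ≠ 0) {u : gs_Mat N}
    (hu : gm_Pat r u) : gm_Pat r (Matrix.diagonal lam * u * (Matrix.diagonal lam)⁻¹) := by
  refine gm_pat_conj (r := r) (s := fun i j => i = j) (s' := fun i j => i = j) ?_
    (Matrix.mul_nonsing_inv _ (gm_diagonal_isUnit h)) (gm_sup_diagonal (fun _ => rfl) lam) ?_ hu
  · intro i j k l h1 h2 h3; subst h1; subst h3; exact h2
  · rw [gm_diagonal_inv h]; exact gm_sup_diagonal (fun _ => rfl) _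

/-- diagonal letters normalise `U(K)` -/
theorem gm_uni_diag_conj {n : ℕ} {K : Finset ℕ} {lam : ℕ → ℂ} (h : ∀ j, lam j ≠ 0) {u : gs_Mat N}
    (hu : gs_IsUni n K u) :
    gs_IsUni n K ((Matrix.diagonal fun j : Fin N => lam j)⁻¹ * u *
      Matrix.diagonal fun j : Fin N => lam j) :=
  gm_pat_diag_conj (r := gm_uniPos n K) (fun j => h j) hu

theorem gm_uni_diag_conj' {n : ℕ} {K : Finset ℕ} {lam : ℕ → ℂ} (h : ∀ j, lam j ≠ 0) {u : gs_Mat N}
    (hu : gs_IsUni n K u) :
    gs_IsUni n K ((Matrix.diagonal fun j : Fin N => lam j) * u *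
      (Matrix.diagonal fun j : Fin N => lam j)⁻¹) :=
  gm_pat_diag_conj' (r := gm_uniPos n K) (fun j => h j) hu

/-! ## radicals -/

theorem gm_radPos_uniPos {K : Finset ℕ} {n o m : ℕ} (i j : ℕ) (h : gr_radPos K n o m i j) :
    gm_uniPos n K i j := ⟨h.1, h.2.1⟩

theorem gm_rad_uni (K : Finset ℕ) (n o m : ℕ) (p : gs_Mat N) :
    gs_IsUni n K (1 + gr_mask (gr_radPos K n o m) p) :=
  gm_pat_mono (s := gm_uniPos n K) gm_radPos_uniPos (gm_pat_one_add_mask _ p)

theorem gm_win_rad_win {K K' : Finset ℕ} {n o m : ℕ} (hn : o + m ≤ n) (ho : o ∈ K')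
    (hom : o + m ∈ K') (hK : ∀ d, d ≤ o ∨ o + m ≤ d → d ∈ K → d ∈ K') (i j k l : ℕ)
    (h1 : gm_winPos o m i j) (h2 : gr_radPos K n o m j k) (h3 : gm_winPos o m k l) :
    gm_uniPos n K' i l := by
  obtain ⟨hk, ⟨d, hd, hjd, hdk⟩, hnot⟩ := h2
  by_cases hj1 : j < o
  · have hij : i = j := by rcases h1 with h | h <;> omega
    by_cases hk1 : k < o
    · have hkl : k = l := by rcases h3 with h | h <;> omega
      exact ⟨by omega, d, hK d (by omega) hd, by omega, by omega⟩
    · refine ⟨?_, o, ho, by omega, ?_⟩ <;> rcases h3 with h | h <;> omega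
  · by_cases hj2 : j < o + m
    · have hk2 : o + m ≤ k := by
        by_contra h; exact hnot ⟨by omega, by omega⟩
      have hkl : k = l := by rcases h3 with h | h <;> omega
      refine ⟨by omega, o + m, hom, ?_, by omega⟩
      rcases h1 with h | h <;> omega
    · have hij : i = j := by rcases h1 with h | h <;> omega
      have hkl : k = l := by rcases h3 with h | h <;> omega
      exact ⟨by omega, d, hK d (by omega) hd, by omega, by omega⟩

/-- the radical of the parabolic of the merged frame is normalised by the letters -/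
theorem gm_rad_conj {n o m : ℕ} {K K' : Finset ℕ} {x : gs_Mat N} (p : gs_Mat N) (hN : n ≤ N)
    (hn : o + m ≤ n) (ho : o ∈ K') (hom : o + m ∈ K')
    (hK : ∀ d, d ≤ o ∨ o + m ≤ d → d ∈ K → d ∈ K') (hx : gs_IsCorner m x) (hxu : IsUnit x.det) :
    gs_IsUni n K' ((gs_emb o x)⁻¹ * (1 + gr_mask (gr_radPos K n o m) p) * gs_emb o x) := by
  have hu : IsUnit (gs_emb o x).det := gm_emb_isUnit hx hxu (by omega)
  refine gm_pat_conj (r := gr_radPos K n o m) (r' := gm_uniPos n K') (gm_win_rad_win hn ho hom hK)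
    (Matrix.nonsing_inv_mul _ hu) ?_ (gm_emb_sup o hx) (gm_pat_one_add_mask _ p)
  rw [← gm_emb_inv hx hxu (by omega)]
  exact gm_emb_sup o (gm_corner_inv hx hxu)

theorem gm_rad_conj' {n o m : ℕ} {K K' : Finset ℕ} {x : gs_Mat N} (p : gs_Mat N) (hN : n ≤ N)
    (hn : o + m ≤ n) (ho : o ∈ K') (hom : o + m ∈ K')
    (hK : ∀ d, d ≤ o ∨ o + m ≤ d → d ∈ K → d ∈ K') (hx : gs_IsCorner m x) (hxu : IsUnit x.det) :
    gs_IsUni n K' (gs_emb o x * (1 + gr_mask (gr_radPos K n o m) p) * (gs_emb o x)⁻¹) := by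
  have hu : IsUnit (gs_emb o x).det := gm_emb_isUnit hx hxu (by omega)
  refine gm_pat_conj (r := gr_radPos K n o m) (r' := gm_uniPos n K') (gm_win_rad_win hn ho hom hK)
    (Matrix.mul_nonsing_inv _ hu) (gm_emb_sup o hx) ?_ (gm_pat_one_add_mask _ p)
  rw [← gm_emb_inv hx hxu (by omega)]
  exact gm_emb_sup o (gm_corner_inv hx hxu)

/-- the radical part of `u ∈ U(K)` -/
theorem gm_rad_part {n o m : ℕ} {K : Finset ℕ} {u : gs_Mat N} (hN : o + m ≤ N)
    (hu : gs_IsUni n K u) :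
    gm_Pat (gr_radPos K n o m) (u * (gs_emb o (gr_midBlock o m u))⁻¹) := by
  have hw := gm_emb_mid_uni (o := o) (m := m) hu
  have hv := gm_uni_mul hu (gm_uni_inv hw)
  intro i j h
  obtain ⟨h1, h2⟩ := hv i j h
  refine ⟨h1, h2, fun hwin => h ?_⟩
  obtain ⟨c, _, h3, h4⟩ := h2
  have hmid : gr_midBlock o m (u * (gs_emb o (gr_midBlock o m u))⁻¹) = 1 := by
    rw [gm_mid_mul_uni hu (gm_uni_inv hw), gm_mid_inv_uni hw,
      gm_mid_emb (gm_mid_corner o m u) hN]
    exact Matrix.mul_nonsing_inv _ (gm_uni_isUnit (gm_mid_uni hu))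
  have h5 := gm_emb_mid_apply hN (u * (gs_emb o (gr_midBlock o m u))⁻¹) (i := i) (j := j)
    ⟨hwin.1, by omega⟩ ⟨by omega, hwin.2⟩
  rw [hmid, gm_emb_one] at h5
  exact h5.symm

/-- every element of `U(K)` is (radical part) * (mid part) -/
theorem gm_rad_split {n o m : ℕ} {K : Finset ℕ} {u : gs_Mat N} (hN : o + m ≤ N)
    (hu : gs_IsUni n K u) :
    ∃ p, u = (1 + gr_mask (gr_radPos K n o m) p) * gs_emb o (gr_midBlock o m u) := by
  have hw := gm_emb_mid_uni (o := o) (m := m) hu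
  refine ⟨u * (gs_emb o (gr_midBlock o m u))⁻¹ - 1, ?_⟩
  rw [← gm_pat_eq_one_add_mask (gm_rad_part hN hu), mul_assoc, gm_uni_inv_mul hw, mul_one]

end Claimed.Agent.R236
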