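import Mathlib
import Claimed.Agent.R236.GChain
import Claimed.Agent.R236.GMatRad

/-!
# Row 236, SB2 part D: `StRadConj`, `StRadSplit` (helper252)
-/

set_option autoImplicit false

namespace Claimed.Agent.R236

/-- **StRadConj** -/
theorem gm_StRadConj (N : ℕ) : StRadConj N := by
  intro n o m K K' x p hN hn ho hom hK hx
  exact gm_rad_conj p hN hn ((hK o (Or.inl le_rfl)).mp ho) ((hK (o + m) (Or.inr le_rfl)).mp hom)
    (fun d hd h => (hK d hd).mp h) hx.2 hx.1

/-- **StRadSplit** -/
theorem gm_StRadSplit (N : ℕ) : StRadSplit N := by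
  intro n o m K u hN hn _ _ hu
  exact ⟨gm_mid_uni hu, gm_rad_split (by omega) hu⟩

end Claimed.Agent.R236
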