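import Mathlib
import Claimed.Agent.R236.GChain

/-!
# Row 236, REDUCE, SB7: completeness, definitions (owner helper10, prefix gk_)

Given a solution `x` of `S` we construct a colouring and a point `gk_pt` of the domain of the
transfer map with `Φ (gk_pt) = x`.

* `P_i = ∏_{j<i} M_j u_j`, `g_i = P_i⁻¹`; the subspace `U_i` is spanned by the first `k` columns of `g_i`;
* `(col_i, h_i, z_i)` = the chosen presentation of `g_i` relative to the frame `K_i`;
  `d_i = ⊕ h_{i,c}`, `ν_i = d_i (1+z_i) d_i⁻¹ ∈ U(K_i)`, `G_i = d_i (1+z_i) Sh_i = ν_i D_i`;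
* `Z_i = G_i⁻¹ M_i u_i G_{i+1}` is block triangular, `∏ Z_i = 1`;
* local data `datG`, `datS` from the completeness clauses of the local packages, with left correction
  the mid block of `ν_i`;
* `Zfr_i = Zlet_i⁻¹ Z_i`; its parts are the slot-3 unipotents of `eU`, `eQ` and the parameter `(i,0)`;
* parameter `(i,1)` : `ν_i EL_i⁻¹ - 1`.
-/

set_option autoImplicit false

namespace Claimed.Agent.R236

section compl

variable {Y : Type} {N : ℕ} (P : gr_Corr N) (p : gp_Pres N) (S : gs_Sys Y) (e0 k : ℕ)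
  (x : gs_Pt Y N)

/-- the `i`-th letter of the equation (padding letter out of range) -/
def gk_letter (i : ℕ) : gs_Letter Y := (S.eq e0).ls.getD i (.L fun _ => 1)

/-- number of letters -/
def gk_len : ℕ := (S.eq e0).ls.length

/-- rank -/
def gk_n : ℕ := (S.eq e0).rk

/-- frames -/
def gk_K (i : ℕ) : Finset ℕ := gs_frame S.sig (S.eq e0).K0 (S.eq e0).ls i

/-- matrix of the `i`-th letter -/
noncomputable def gk_M (i : ℕ) : gs_Mat N := gs_lmat x (gk_letter S e0 i)

/-- the `i`-th unipotent -/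
def gk_u (i : ℕ) : gs_Mat N := x (.inr (e0, i))

/-- partial products -/
noncomputable def gk_P (i : ℕ) : gs_Mat N :=
  ((List.range i).map fun j => gk_M S e0 x j * gk_u e0 x j).prod

/-- `g_i = P_i⁻¹` -/
noncomputable def gk_g (i : ℕ) : gs_Mat N := (gk_P S e0 x i)⁻¹

/-- the colourings -/
noncomputable def gk_col (i : ℕ) : ℕ → Bool := p.col (gk_K S e0 i) (gk_n S e0) k (gk_g S e0 x i)

/-- the adapted bases of the blocks -/
noncomputable def gk_h (i c : ℕ) : gs_Mat N := p.h (gk_K S e0 i) (gk_n S e0) k (gk_g S e0 x i) c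

/-- the gluing part -/
noncomputable def gk_z (i : ℕ) : gs_Mat N := p.z (gk_K S e0 i) (gk_n S e0) k (gk_g S e0 x i)

/-- the context -/
noncomputable def gk_C : gr_Ctx Y := gr_ctx S e0 k (gk_col p S e0 k x)

/-- `d_i` -/
noncomputable def gk_d (i : ℕ) : gs_Mat N := gp_dmat (gk_K S e0 i) (gk_n S e0) (gk_h p S e0 k x i)

/-- `D_i = d_i Sh_i` -/
noncomputable def gk_D (i : ℕ) : gs_Mat N :=
  gk_d p S e0 k x i * gr_sh (gk_col p S e0 k x i) (gk_n S e0) k

/-- `ν_i = d_i (1+z_i) d_i⁻¹` -/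
noncomputable def gk_nu (i : ℕ) : gs_Mat N :=
  gk_d p S e0 k x i * (1 + gk_z p S e0 k x i) * (gk_d p S e0 k x i)⁻¹

/-- `G_i = d_i (1+z_i) Sh_i` -/
noncomputable def gk_G (i : ℕ) : gs_Mat N :=
  gk_d p S e0 k x i * (1 + gk_z p S e0 k x i) * gr_sh (gk_col p S e0 k x i) (gk_n S e0) k

/-- `Z_i = G_i⁻¹ M_i u_i G_{i+1}` -/
noncomputable def gk_Z (i : ℕ) : gs_Mat N :=
  (gk_G p S e0 k x i)⁻¹ * gk_M S e0 x i * gk_u e0 x i * gk_G p S e0 k x (i + 1)

/-- the mid block of `ν_i` for the interval `[o,o+m)` -/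
noncomputable def gk_numid (i o m : ℕ) : gs_Mat N := gr_midBlock o m (gk_nu p S e0 k x i)

/-- the numbers of the `G` letter `i` -/
noncomputable def gk_gnum (i : ℕ) (inv : Bool) (y : Y) (o : ℕ) : gr_GNum :=
  gr_gnum (gk_col p S e0 k x i) (gk_col p S e0 k x (i + 1)) o (S.sig y).rk ((S.sig y).src inv)
    ((S.sig y).tgt inv)

/-- the numbers of the swap `i` -/
noncomputable def gk_snum (i o A B : ℕ) : gr_SNum :=
  gr_snum (gk_col p S e0 k x i) (gk_col p S e0 k x (i + 1)) o A B

/-- what the local data of the `G` letter `i` must satisfy -/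
def gk_specG (i : ℕ) (inv : Bool) (y : Y) (o : ℕ) (w : gr_GIdx → gs_Mat N) : Prop :=
  w ∈ gr_GSet N (gk_gnum p S e0 k x i inv y o) ∧
  w .h1 = (if 0 < (S.sig y).src inv then gk_h p S e0 k x i o else 1) ∧
  w .h2 = (if (S.sig y).src inv < (S.sig y).rk then gk_h p S e0 k x i (o + (S.sig y).src inv)
    else 1) ∧
  w .k1 = (if 0 < (S.sig y).tgt inv then gk_h p S e0 k x (i + 1) o else 1) ∧
  w .k2 = (if (S.sig y).tgt inv < (S.sig y).rk then gk_h p S e0 k x (i + 1) (o + (S.sig y).tgt inv)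
    else 1) ∧
  w .m = (if inv then (x (.inl y))⁻¹ else x (.inl y)) ∧
  P.ELG (gk_gnum p S e0 k x i inv y o) w = gk_numid p S e0 k x i o (S.sig y).rk

/-- the local data of the `G` letter `i` -/
noncomputable def gk_datG (i : ℕ) (inv : Bool) (y : Y) (o : ℕ) : gr_GIdx → gs_Mat N :=
  Classical.epsilon (gk_specG P p S e0 k x i inv y o)

/-- what the local data of the swap `i` must satisfy -/
def gk_specS (i o A B : ℕ) (w : (gr_SIdx → gs_Mat N) × (Fin 2 → gs_Mat N)) : Prop :=
  w ∈ gr_SSet N (gk_snum p S e0 k x i o A B) ∧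
  w.1 .hAm = (if 0 < A then gk_h p S e0 k x i o else 1) ∧
  w.1 .hBm = (if 0 < B then gk_h p S e0 k x i (o + A) else 1) ∧
  w.1 .hAp = (if 0 < A then gk_h p S e0 k x (i + 1) (o + B) else 1) ∧
  w.1 .hBp = (if 0 < B then gk_h p S e0 k x (i + 1) o else 1) ∧
  P.ELS (gk_snum p S e0 k x i o A B) w = gk_numid p S e0 k x i o (A + B)

/-- the local data of the swap `i` -/
noncomputable def gk_datS (i o A B : ℕ) : (gr_SIdx → gs_Mat N) × (Fin 2 → gs_Mat N) :=
  Classical.epsilon (gk_specS P p S e0 k x i o A B)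

/-- left correction -/
noncomputable def gk_EL (i : ℕ) : gs_Mat N :=
  match gk_letter S e0 i with
  | .L _ => 1
  | .G inv y o => gs_emb o (P.ELG (gk_gnum p S e0 k x i inv y o) (gk_datG P p S e0 k x i inv y o))
  | .S o A B => gs_emb o (P.ELS (gk_snum p S e0 k x i o A B) (gk_datS P p S e0 k x i o A B))

/-- right correction -/
noncomputable def gk_ER (i : ℕ) : gs_Mat N :=
  match gk_letter S e0 i with
  | .L _ => 1
  | .G inv y o => gs_emb o (P.ERG (gk_gnum p S e0 k x i inv y o) (gk_datG P p S e0 k x i inv y o))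
  | .S o A B => gs_emb o (P.ERS (gk_snum p S e0 k x i o A B) (gk_datS P p S e0 k x i o A B))

/-- the letter part -/
noncomputable def gk_Zlet (i : ℕ) : gs_Mat N :=
  (gk_D p S e0 k x i)⁻¹ * (gk_EL P p S e0 k x i)⁻¹ * gk_M S e0 x i * (gk_ER P p S e0 k x i)⁻¹ *
    gk_D p S e0 k x (i + 1)

/-- the frame part -/
noncomputable def gk_Zfr (i : ℕ) : gs_Mat N := (gk_Zlet P p S e0 k x i)⁻¹ * gk_Z p S e0 k x i

/-- values of the new variables -/
noncomputable def gk_var : gr_Var → gs_Mat N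
  | .H i c =>
    if i < gk_len S e0 ∧ c ∈ gk_K S e0 i ∧ c < gk_n S e0 then gk_h p S e0 k x i c else 1
  | .YU i =>
    match gk_letter S e0 i with
    | .G inv y o => gk_datG P p S e0 k x i inv y o .yU
    | _ => 1
  | .YQ i =>
    match gk_letter S e0 i with
    | .G inv y o => gk_datG P p S e0 k x i inv y o .yQ
    | _ => 1
  | .T i =>
    match gk_letter S e0 i with
    | .S o A B => (gk_datS P p S e0 k x i o A B).1 .t
    | _ => 1
  | .S i =>
    match gk_letter S e0 i with
    | .S o A B => (gk_datS P p S e0 k x i o A B).1 .s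
    | _ => 1
  | .R i =>
    match gk_letter S e0 i with
    | .S o A B => (gk_datS P p S e0 k x i o A B).1 .r
    | _ => 1
  | .V i =>
    match gk_letter S e0 i with
    | .S o A B => (gk_datS P p S e0 k x i o A B).1 .v
    | _ => 1

/-- unipotent of `eU` in the slot `r` of the segment `i` -/
noncomputable def gk_uU (i r : ℕ) : gs_Mat N :=
  if r = 3 then gr_midBlock 0 k (gk_Zfr P p S e0 k x i)
  else
    match gk_letter S e0 i with
    | .S o A B =>
      if r = 0 then gs_emb (gr_cU (gk_col p S e0 k x i) o) ((gk_datS P p S e0 k x i o A B).1 .c0)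
      else if r = 1 then
        gs_emb (gr_cU (gk_col p S e0 k x i) o) ((gk_datS P p S e0 k x i o A B).1 .c1)
      else 1
    | _ => 1

/-- unipotent of `eQ` in the slot `r` of the segment `i` -/
noncomputable def gk_uQ (i r : ℕ) : gs_Mat N :=
  if r = 3 then gr_midBlock k (gk_n S e0 - k) (gk_Zfr P p S e0 k x i)
  else
    match gk_letter S e0 i with
    | .S o A B =>
      if r = 0 then gs_emb (gr_cQ (gk_col p S e0 k x i) o) ((gk_datS P p S e0 k x i o A B).1 .e0)
      else if r = 1 then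
        gs_emb (gr_cQ (gk_col p S e0 k x i) o) ((gk_datS P p S e0 k x i o A B).1 .e1)
      else gs_emb (gr_cQ (gk_col p S e0 k x i) o) ((gk_datS P p S e0 k x i o A B).1 .e2)
    | _ => 1

/-- the `j`-th unipotent of the link of a `G` letter -/
def gk_wG (w : gr_GIdx → gs_Mat N) : ℕ → gs_Mat N
  | 0 => w .w0 | 1 => w .w1 | 2 => w .w2 | 3 => w .w3 | 4 => w .w4
  | 5 => w .w5 | 6 => w .w6 | 7 => w .w7 | 8 => w .w8 | _ => 1

/-- the `j`-th unipotent of the link of the strand `A` -/
def gk_wA (w : gr_SIdx → gs_Mat N) : ℕ → gs_Mat N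
  | 0 => w .wA0 | 1 => w .wA1 | 2 => w .wA2 | 3 => w .wA3 | _ => 1

/-- the `j`-th unipotent of the link of the strand `B` -/
def gk_wB (w : gr_SIdx → gs_Mat N) : ℕ → gs_Mat N
  | 0 => w .wB0 | 1 => w .wB1 | 2 => w .wB2 | 3 => w .wB3 | _ => 1

/-- the `j`-th unipotent of the link in slot `s` of the letter `i` -/
noncomputable def gk_lk (i s j : ℕ) : gs_Mat N :=
  match gk_letter S e0 i, s with
  | .G inv y o, 0 => gk_wG (gk_datG P p S e0 k x i inv y o) j
  | .S o A B, 0 => gk_wA (gk_datS P p S e0 k x i o A B).1 j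
  | .S o A B, 1 => gk_wB (gk_datS P p S e0 k x i o A B).1 j
  | _, _ => 1

/-- the parameters -/
noncomputable def gk_par : ℕ × ℕ → gs_Mat N
  | (i, 0) => gk_Zfr P p S e0 k x i
  | (i, 1) => gk_nu p S e0 k x i * (gk_EL P p S e0 k x i)⁻¹ - 1
  | (i, r + 2) =>
    match gk_letter S e0 i with
    | .S o A B => if h : r < 2 then (gk_datS P p S e0 k x i o A B).2 ⟨r, h⟩ else 0
    | _ => 0

/-- **the preimage** -/
noncomputable def gk_pt : gr_Z Y N :=
  (fun
    | .inl (.inl y) => x (.inl y)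
    | .inl (.inr v) => gk_var P p S e0 k x v
    | .inr (e, j) =>
      if e = e0 then (if j / 4 < gk_len S e0 then gk_uU P p S e0 k x (j / 4) (j % 4) else 1)
      else if e < S.eqs.length then x (.inr (e, j))
      else if e = S.eqs.length then
        (if j / 4 < gk_len S e0 then gk_uQ P p S e0 k x (j / 4) (j % 4) else 1)
      else if (e - S.eqs.length - 1) / (N + 2) < gk_len S e0 then
        gk_lk P p S e0 k x ((e - S.eqs.length - 1) / (N + 2)) ((e - S.eqs.length - 1) % (N + 2)) j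
      else 1,
   gk_par P p S e0 k x)

end compl

end Claimed.Agent.R236
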