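import Mathlib
import Claimed.Agent.R236.GCompl
import Claimed.Agent.R236.GChain2

/-!
# Row 236, REDUCE, SB7: completeness, statement chain (owner helper10, prefix gk_)

`StK1 .. StK10`; `gk_complete : StPres → StK2 → StK9 → StK10 → StRedComplete` is proved here.
Every statement is about the objects of `GCompl.lean` under the standing hypotheses `gk_Hyp`.
-/

set_option autoImplicit false

namespace Claimed.Agent.R236

/-- standing hypotheses -/
structure gk_Hyp {Y : Type} {N : ℕ} (R : Subring ℂ) (P : gr_Corr N) (p : gp_Pres N) (S : gs_Sys Y)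
    (e0 k : ℕ) (x : gs_Pt Y N) : Prop where
  P_ok : P.OK R
  p_ok : p.OK
  hyp : gr_Hyp N R S e0 k
  sol : x ∈ gs_Sol N S

/-- a statement about all data satisfying the standing hypotheses -/
def gk_All (N : ℕ) (R : Subring ℂ)
    (Q : ∀ (Y : Type), gr_Corr N → gp_Pres N → gs_Sys Y → ℕ → ℕ → gs_Pt Y N → Prop) : Prop :=
  ∀ (Y : Type) (P : gr_Corr N) (p : gp_Pres N) (S : gs_Sys Y) (e0 k : ℕ) (x : gs_Pt Y N),
    gk_Hyp R P p S e0 k x → Q Y P p S e0 k x

/-! ## the geometry of the letters -/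

section geo
variable {Y : Type} {N : ℕ} (S : gs_Sys Y) (e0 : ℕ) (x : gs_Pt Y N)

/-- offset of the letter `i` -/
def gk_o (i : ℕ) : ℕ := (gs_mid S.sig (gk_letter S e0 i)).1

/-- size of the interval of the letter `i` -/
def gk_m (i : ℕ) : ℕ := (gs_mid S.sig (gk_letter S e0 i)).2

/-- source cut of the letter `i` -/
def gk_a (i : ℕ) : ℕ :=
  match gk_letter S e0 i with
  | .G inv y _ => (S.sig y).src inv
  | .S _ A _ => A
  | .L _ => 0

/-- target cut of the letter `i` -/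
def gk_c (i : ℕ) : ℕ :=
  match gk_letter S e0 i with
  | .G inv y _ => (S.sig y).tgt inv
  | .S _ _ B => B
  | .L _ => 0

/-- the matrix of the letter `i` at mid level -/
noncomputable def gk_Mmid (i : ℕ) : gs_Mat N :=
  match gk_letter S e0 i with
  | .G inv y _ => if inv then (x (.inl y))⁻¹ else x (.inl y)
  | .S _ A B => gs_swapMat 0 A B
  | .L _ => 1

end geo

/-- K1b: the geometry of the letters -/
def StK1b (N : ℕ) (R : Subring ℂ) : Prop :=
  gk_All N R fun _ _ _ S e0 _ x =>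
    ∀ i, i < gk_len S e0 →
      gs_midOK (gk_K S e0 i) (gk_o S e0 i) (gk_m S e0 i) (gk_a S e0 i) ∧
      gk_c S e0 i ≤ gk_m S e0 i ∧
      gk_K S e0 (i + 1) = gs_cutRepl (gk_K S e0 i) (gk_o S e0 i) (gk_m S e0 i) (gk_c S e0 i) ∧
      gr_GL (gk_m S e0 i) (gk_Mmid S e0 x i) ∧
      ((∀ lam, gk_letter S e0 i ≠ .L lam) → gk_M S e0 x i = gs_emb (gk_o S e0 i) (gk_Mmid S e0 x i))

/-- K3a: the block structure of `M_i u_i` -/
def StK3a (N : ℕ) (R : Subring ℂ) : Prop :=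
  gk_All N R fun _ _ _ S e0 _ x =>
    ∀ i, i < gk_len S e0 →
      (∀ c ∈ gk_K S e0 i, (c ≤ gk_o S e0 i ∨ gk_o S e0 i + gk_m S e0 i ≤ c) →
        c ∈ gk_K S e0 (i + 1) ∧
        ∀ r s : Fin N, c ≤ (r : ℕ) → (s : ℕ) < c → (gk_M S e0 x i * gk_u e0 x i) r s = 0) ∧
      (∀ lo, gr_Spect (gk_K S e0 i) (gk_n S e0) (gk_o S e0 i) (gk_m S e0 i) lo →
        lo ∈ gk_K S e0 (i + 1) ∧ gr_nxt (gk_K S e0 (i + 1)) lo = gr_nxt (gk_K S e0 i) lo ∧
        ∃ lam : ℂ, lam ≠ 0 ∧ ∀ r s : Fin N, lo ≤ (r : ℕ) → (r : ℕ) < gr_nxt (gk_K S e0 i) lo →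
          (s : ℕ) < gr_nxt (gk_K S e0 i) lo →
          (gk_M S e0 x i * gk_u e0 x i) r s = if r = s then lam else 0)

/-- K1: the partial products -/
def StK1 (N : ℕ) (R : Subring ℂ) : Prop :=
  gk_All N R fun _ _ _ S e0 _ x =>
    (∀ i, gp_Frame N (gk_n S e0) (gk_K S e0 i)) ∧
    (∀ i, gk_len S e0 ≤ i → gk_K S e0 i = gk_K S e0 0) ∧
    (∀ i, gr_GL (gk_n S e0) (gk_M S e0 x i)) ∧
    (∀ i, gs_IsUni (gk_n S e0) (gk_K S e0 (i + 1)) (gk_u e0 x i)) ∧
    (∀ i, gk_len S e0 ≤ i → gk_P S e0 x i = 1) ∧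
    (∀ i, gr_GL (gk_n S e0) (gk_g S e0 x i)) ∧
    (∀ i, gk_g S e0 x i = gk_M S e0 x i * gk_u e0 x i * gk_g S e0 x (i + 1))

/-- K2: the colourings are admissible -/
def StK2 (N : ℕ) (R : Subring ℂ) : Prop :=
  gk_All N R fun _ _ p S e0 k x => (gk_C p S e0 k x).WF

/-- K3: colourings and adapted bases of the untouched blocks agree, the number of `U` indices in the
interval of the letter is preserved; everything is trivial at the base frame -/
def StK3 (N : ℕ) (R : Subring ℂ) : Prop :=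
  gk_All N R fun _ _ p S e0 k x =>
    (∀ i, gr_CF N (gk_n S e0) k (gk_K S e0 i) (gk_col p S e0 k x i)) ∧
    (∀ i, gl_Fam (gk_n S e0) (gk_K S e0 i) (gk_h p S e0 k x i)) ∧
    (∀ i (r s : Fin N), gk_z p S e0 k x i r s ≠ 0 →
      gp_zPos (gk_K S e0 i) (gk_n S e0) (gk_col p S e0 k x i) r s) ∧
    (∀ i c, i < gk_len S e0 →
      gr_Spect (gk_K S e0 i) (gk_n S e0) (gk_o S e0 i) (gk_m S e0 i) c →
      gk_h p S e0 k x i c = gk_h p S e0 k x (i + 1) c) ∧
    (∀ i j, i < gk_len S e0 → (j < gk_o S e0 i ∨ gk_o S e0 i + gk_m S e0 i ≤ j) →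
      gk_col p S e0 k x (i + 1) j = gk_col p S e0 k x i j) ∧
    (∀ i, i < gk_len S e0 →
      gr_nU (gk_col p S e0 k x (i + 1)) (gk_o S e0 i) (gk_o S e0 i + gk_m S e0 i) =
        gr_nU (gk_col p S e0 k x i) (gk_o S e0 i) (gk_o S e0 i + gk_m S e0 i)) ∧
    (∀ i, gk_len S e0 ≤ i → gk_col p S e0 k x i = gk_col p S e0 k x 0 ∧
      gk_h p S e0 k x i = gk_h p S e0 k x 0 ∧ gk_z p S e0 k x i = gk_z p S e0 k x 0) ∧
    (∀ j, gk_col p S e0 k x 0 j = decide (j < k)) ∧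
    (∀ c ∈ gk_K S e0 0, c < gk_n S e0 → gk_h p S e0 k x 0 c = 1) ∧ gk_z p S e0 k x 0 = 0

/-- K4: `Z_i` is block triangular, the product is `1`; `ν_i ∈ U(K_i)`, `d_i` block diagonal -/
def StK4 (N : ℕ) (R : Subring ℂ) : Prop :=
  gk_All N R fun _ _ p S e0 k x =>
    (∀ i, gr_IsBD (gk_n S e0) (gk_K S e0 i) (gk_d p S e0 k x i) ∧ IsUnit (gk_d p S e0 k x i).det) ∧
    (∀ i, gs_IsUni (gk_n S e0) (gk_K S e0 i) (gk_nu p S e0 k x i)) ∧
    (∀ i, gk_G p S e0 k x i = gk_nu p S e0 k x i * gk_D p S e0 k x i) ∧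
    (∀ i, gr_IsTri (gk_n S e0) k (gk_Z p S e0 k x i) ∧ IsUnit (gk_Z p S e0 k x i).det) ∧
    ((List.range (gk_len S e0)).map fun i => gk_Z p S e0 k x i).prod = 1

/-- K5m: the hypotheses of the completeness clauses, at mid level -/
def StK5m (N : ℕ) (R : Subring ℂ) : Prop :=
  gk_All N R fun _ _ p S e0 k x =>
    ∀ i, i < gk_len S e0 → (∀ lam, gk_letter S e0 i ≠ .L lam) →
      let o := gk_o S e0 i
      let m := gk_m S e0 i
      let km := gr_nU (gk_col p S e0 k x i) o (o + m)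
      gr_IsTri m km
        ((gl_dmid o m (gk_a S e0 i) (gk_h p S e0 k x i) * gr_midBlock o m (1 + gk_z p S e0 k x i) *
            gr_sh (gr_colMid (gk_col p S e0 k x i) o m) m km)⁻¹ * gk_Mmid S e0 x i *
          (gr_midBlock o m (gk_u e0 x i) * gr_midBlock o m (gk_nu p S e0 k x (i + 1))) *
          (gl_dmid o m (gk_c S e0 i) (gk_h p S e0 k x (i + 1)) *
            gr_sh (gr_colMid (gk_col p S e0 k x (i + 1)) o m) m km)) ∧
      gs_IsUni m {0, gk_c S e0 i, m}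
        (gr_midBlock o m (gk_u e0 x i) * gr_midBlock o m (gk_nu p S e0 k x (i + 1))) ∧
      gr_midBlock o m (gk_nu p S e0 k x i) =
        gl_dmid o m (gk_a S e0 i) (gk_h p S e0 k x i) * gr_midBlock o m (1 + gk_z p S e0 k x i) *
          (gl_dmid o m (gk_a S e0 i) (gk_h p S e0 k x i))⁻¹ ∧
      ∀ r s : Fin N, (gr_midBlock o m (1 + gk_z p S e0 k x i) - 1) r s ≠ 0 →
        gr_nU (gk_col p S e0 k x i) o (o + gk_a S e0 i) ≤ (r : ℕ) ∧ (r : ℕ) < gk_a S e0 i ∧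
          gk_a S e0 i ≤ (s : ℕ) ∧
          (s : ℕ) < gk_a S e0 i + gr_nU (gk_col p S e0 k x i) (o + gk_a S e0 i) (o + m)

/-- K5: the local data exist -/
def StK5 (N : ℕ) (R : Subring ℂ) : Prop :=
  gk_All N R fun _ P p S e0 k x =>
    ∀ i, i < gk_len S e0 →
      (∀ inv y o, gk_letter S e0 i = .G inv y o →
        gk_specG P p S e0 k x i inv y o (gk_datG P p S e0 k x i inv y o)) ∧
      (∀ o A B, gk_letter S e0 i = .S o A B →
        gk_specS P p S e0 k x i o A B (gk_datS P p S e0 k x i o A B))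

/-- K6: reading the point `gk_pt` gives back the data it was built from -/
def StK6 (N : ℕ) (R : Subring ℂ) : Prop :=
  gk_All N R fun _ P p S e0 k x =>
    let C := gk_C p S e0 k x
    let z := gk_pt P p S e0 k x
    let E0 := S.eqs.length
    (∀ i, gr_M C z i = gk_M S e0 x i) ∧
    (∀ i c, i ≤ gk_len S e0 → c ∈ gk_K S e0 i → c < gk_n S e0 →
      gr_hval C z i c = gk_h p S e0 k x i c) ∧
    (∀ i, i ≤ gk_len S e0 → gr_D C z i = gk_D p S e0 k x i) ∧
    (∀ i r, i < gk_len S e0 → r < 4 →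
      gr_uU e0 z i r = gk_uU P p S e0 k x i r ∧ gr_uQ E0 z i r = gk_uQ P p S e0 k x i r) ∧
    (∀ i inv y o, i < gk_len S e0 → gk_letter S e0 i = .G inv y o →
      gr_readG C E0 z i inv y o = gk_datG P p S e0 k x i inv y o) ∧
    (∀ i o A B, i < gk_len S e0 → gk_letter S e0 i = .S o A B →
      gr_readS C e0 E0 z i o A B = gk_datS P p S e0 k x i o A B) ∧
    (∀ i, i < gk_len S e0 → gr_EL C e0 E0 P z i = gk_EL P p S e0 k x i ∧
      gr_ER C e0 E0 P z i = gk_ER P p S e0 k x i ∧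
      gr_Zlet C e0 E0 P z i = gk_Zlet P p S e0 k x i)

/-- K7: the point is locally admissible at every letter -/
def StK7 (N : ℕ) (R : Subring ℂ) : Prop :=
  gk_All N R fun _ P p S e0 k x =>
    ∀ i, i < gk_len S e0 →
      gr_LocAdm (gk_C p S e0 k x) e0 S.eqs.length (gk_pt P p S e0 k x) i

/-- K8: the left unipotent splits, the frame part is block triangular and conjugates into `U(K_{i+1})` -/
def StK8 (N : ℕ) (R : Subring ℂ) : Prop :=
  gk_All N R fun _ P p S e0 k x =>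
    (∀ i, i < gk_len S e0 →
      gk_nu p S e0 k x i =
        gr_nuRad (gk_C p S e0 k x) (gk_pt P p S e0 k x) i * gk_EL P p S e0 k x i) ∧
    (∀ i, i < gk_len S e0 →
      gr_IsTri (gk_n S e0) k (gk_Zfr P p S e0 k x i) ∧
      gs_IsUni (gk_n S e0) (gk_K S e0 (i + 1))
        (gk_D p S e0 k x (i + 1) * gk_Zfr P p S e0 k x i * (gk_D p S e0 k x (i + 1))⁻¹) ∧
      gr_Zfr (gk_C p S e0 k x) e0 S.eqs.length (gk_pt P p S e0 k x) i = gk_Zfr P p S e0 k x i)

/-- K9: the point lies in the domain -/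
def StK9 (N : ℕ) (R : Subring ℂ) : Prop :=
  gk_All N R fun _ P p S e0 k x =>
    gk_pt P p S e0 k x ∈ gr_Dom N S e0 k (gk_col p S e0 k x)

/-- K10: the point is a preimage of `x` -/
def StK10 (N : ℕ) (R : Subring ℂ) : Prop :=
  gk_All N R fun _ P p S e0 k x =>
    gr_PhiS P S e0 k (gk_col p S e0 k x) (gk_pt P p S e0 k x) = x

/-- assembly -/
theorem gk_complete (N : ℕ) (R : Subring ℂ) (hp : StPres N) (h2 : StK2 N R) (h9 : StK9 N R)
    (h10 : StK10 N R) : StRedComplete N R := by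
  intro P hP Y S e0 k hyp x hx
  obtain ⟨p, hpo⟩ := hp
  have H : gk_Hyp R P p S e0 k x := ⟨hP, hpo, hyp, hx⟩
  exact ⟨gk_col p S e0 k x, h2 Y P p S e0 k x H, gk_pt P p S e0 k x, h9 Y P p S e0 k x H,
    h10 Y P p S e0 k x H⟩

end Claimed.Agent.R236
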