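import Mathlib
import Claimed.Agent.R236.GReduce

/-!
# Row 236, REDUCE: calculus of frames, typed words and colour counts (owner helper148, prefix `gf_`)

Shared layer of G-REDWF and G-SB1.

* `gf_mem_cutRepl`, `gf_FrameOK` : cut sets;
* `gf_Typed` : a word is typed from a frame to a frame (recursive form of `gs_Eqn.WF.app/closed`);
* `gf_frame_*` : computation of `gs_frame`;
* `gf_cU_*`, `gf_nU_*` : counting colours;
* `gf_image_cutRepl`, `gf_image_midOK` : images of frames under monotone maps;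
* `gf_nxt_*` : the next cut.
-/

set_option autoImplicit false

namespace Claimed.Agent.R236

/-! ## cut sets -/

theorem gf_mem_cutRepl {K : Finset ℕ} {o m c d : ℕ} :
    d ∈ gs_cutRepl K o m c ↔ d = o + c ∨ (d ∈ K ∧ (d ≤ o ∨ o + m ≤ d)) := by
  simp [gs_cutRepl]

/-- a frame of rank `n` -/
def gf_FrameOK (n : ℕ) (K : Finset ℕ) : Prop := 0 ∈ K ∧ n ∈ K ∧ ∀ d ∈ K, d ≤ n

theorem gf_frameOK_cutRepl {n : ℕ} {K : Finset ℕ} {o m a c : ℕ} (hK : gf_FrameOK n K)
    (h : gs_midOK K o m a) (hc : c ≤ m) : gf_FrameOK n (gs_cutRepl K o m c) := by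
  obtain ⟨h0, hn, hle⟩ := hK
  obtain ⟨ho, -, hm, -, -⟩ := h
  have := hle _ hm
  refine ⟨gf_mem_cutRepl.2 (Or.inr ⟨h0, Or.inl (Nat.zero_le _)⟩),
    gf_mem_cutRepl.2 (Or.inr ⟨hn, Or.inr this⟩), fun d hd => ?_⟩
  rcases gf_mem_cutRepl.1 hd with rfl | ⟨hd, -⟩
  · omega
  · exact hle d hd

section words
variable {Y : Type}

/-- the signature bounds -/
def gf_SigOK (sig : Y → gs_Sig) : Prop := ∀ y, (sig y).s ≤ (sig y).rk ∧ (sig y).t ≤ (sig y).rk

theorem gf_tgt_le {sig : Y → gs_Sig} (h : gf_SigOK sig) (y : Y) (inv : Bool) :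
    (sig y).tgt inv ≤ (sig y).rk := by
  cases inv
  · exact (h y).2
  · exact (h y).1

theorem gf_src_le {sig : Y → gs_Sig} (h : gf_SigOK sig) (y : Y) (inv : Bool) :
    (sig y).src inv ≤ (sig y).rk := by
  cases inv
  · exact (h y).1
  · exact (h y).2

theorem gf_frameOK_step {sig : Y → gs_Sig} (hs : gf_SigOK sig) {n : ℕ} {K : Finset ℕ}
    (hK : gf_FrameOK n K) {l : gs_Letter Y} (h : gs_app sig n K l) :
    gf_FrameOK n (gs_step sig K l) := by
  cases l with
  | G inv y o => exact gf_frameOK_cutRepl hK h (gf_tgt_le hs y inv)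
  | S o a b => exact gf_frameOK_cutRepl hK h (Nat.le_add_left _ _)
  | L lam => exact hK

/-- the word `ls` is typed from the frame `K` to the frame `K'` -/
def gf_Typed (sig : Y → gs_Sig) (n : ℕ) : Finset ℕ → List (gs_Letter Y) → Finset ℕ → Prop
  | K, [], K' => K = K'
  | K, l :: ls, K' => gs_app sig n K l ∧ gf_Typed sig n (gs_step sig K l) ls K'

theorem gf_typed_append {sig : Y → gs_Sig} {n : ℕ} {K K' K'' : Finset ℕ}
    {l₁ l₂ : List (gs_Letter Y)} (h₁ : gf_Typed sig n K l₁ K') (h₂ : gf_Typed sig n K' l₂ K'') :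
    gf_Typed sig n K (l₁ ++ l₂) K'' := by
  induction l₁ generalizing K with
  | nil =>
    have : K = K' := h₁
    subst this
    exact h₂
  | cons l ls ih => exact ⟨h₁.1, ih h₁.2⟩

theorem gf_frame_zero (sig : Y → gs_Sig) (K : Finset ℕ) (ls : List (gs_Letter Y)) :
    gs_frame sig K ls 0 = K := by simp [gs_frame]

theorem gf_frame_nil (sig : Y → gs_Sig) (K : Finset ℕ) (i : ℕ) :
    gs_frame sig K [] i = K := by simp [gs_frame]

theorem gf_frame_cons_succ (sig : Y → gs_Sig) (K : Finset ℕ) (l : gs_Letter Y)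
    (ls : List (gs_Letter Y)) (i : ℕ) :
    gs_frame sig K (l :: ls) (i + 1) = gs_frame sig (gs_step sig K l) ls i := by
  simp [gs_frame]

theorem gf_frame_succ (sig : Y → gs_Sig) (K : Finset ℕ) (ls : List (gs_Letter Y)) (i : ℕ)
    (h : i < ls.length) :
    gs_frame sig K ls (i + 1) = gs_step sig (gs_frame sig K ls i) ls[i] := by
  induction ls generalizing K i with
  | nil => simp at h
  | cons l ls ih =>
    cases i with
    | zero => simp [gs_frame]
    | succ i =>
      rw [gf_frame_cons_succ, gf_frame_cons_succ, ih _ i (by simpa using h)]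
      simp

theorem gf_frame_of_le (sig : Y → gs_Sig) (K : Finset ℕ) (ls : List (gs_Letter Y)) (i : ℕ)
    (h : ls.length ≤ i) : gs_frame sig K ls i = gs_frame sig K ls ls.length := by
  simp [gs_frame, List.take_of_length_le h]

theorem gf_frame_append_left (sig : Y → gs_Sig) (K : Finset ℕ) (l₁ l₂ : List (gs_Letter Y)) (i : ℕ)
    (h : i ≤ l₁.length) : gs_frame sig K (l₁ ++ l₂) i = gs_frame sig K l₁ i := by
  simp [gs_frame, List.take_append_of_le_length h]

theorem gf_frame_append_right (sig : Y → gs_Sig) (K : Finset ℕ) (l₁ l₂ : List (gs_Letter Y))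
    (j : ℕ) : gs_frame sig K (l₁ ++ l₂) (l₁.length + j)
      = gs_frame sig (gs_frame sig K l₁ l₁.length) l₂ j := by
  simp [gs_frame, List.take_append, List.take_of_length_le (Nat.le_add_right l₁.length j)]

theorem gf_typed_iff {sig : Y → gs_Sig} {n : ℕ} {K K' : Finset ℕ} {ls : List (gs_Letter Y)} :
    gf_Typed sig n K ls K' ↔
      (∀ (i : ℕ) (h : i < ls.length), gs_app sig n (gs_frame sig K ls i) ls[i]) ∧
        gs_frame sig K ls ls.length = K' := by
  induction ls generalizing K with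
  | nil => simp [gf_Typed, gs_frame]
  | cons l ls ih =>
    rw [gf_Typed, ih]
    constructor
    · rintro ⟨h1, h2, h3⟩
      refine ⟨fun i hi => ?_, ?_⟩
      · cases i with
        | zero => simpa [gf_frame_zero] using h1
        | succ i =>
          rw [gf_frame_cons_succ]
          simpa using h2 i (by simpa using hi)
      · rw [List.length_cons, gf_frame_cons_succ]
        exact h3
    · rintro ⟨h1, h2⟩
      refine ⟨by have := h1 0 (by simp); rw [gf_frame_zero] at this; exact this,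
        fun i hi => ?_, ?_⟩
      · have := h1 (i + 1) (by simpa using hi)
        rw [gf_frame_cons_succ] at this
        simpa using this
      · rw [List.length_cons, gf_frame_cons_succ] at h2
        exact h2

/-- the final frame of a typed word -/
theorem gf_Typed.frame_length {sig : Y → gs_Sig} {n : ℕ} {K K' : Finset ℕ}
    {ls : List (gs_Letter Y)} (h : gf_Typed sig n K ls K') :
    gs_frame sig K ls ls.length = K' := (gf_typed_iff.1 h).2

/-- all frames of a typed word are frames -/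
theorem gf_frameOK_frame {sig : Y → gs_Sig} (hs : gf_SigOK sig) {n : ℕ} {K : Finset ℕ}
    (hK : gf_FrameOK n K) {ls : List (gs_Letter Y)}
    (h : ∀ (i : ℕ) (h : i < ls.length), gs_app sig n (gs_frame sig K ls i) ls[i]) (i : ℕ) :
    gf_FrameOK n (gs_frame sig K ls i) := by
  induction i with
  | zero => rw [gf_frame_zero]; exact hK
  | succ i ih =>
    by_cases hi : i < ls.length
    · rw [gf_frame_succ _ _ _ _ hi]
      exact gf_frameOK_step hs ih (h i hi)
    · rw [gf_frame_of_le _ _ _ _ (by omega), ← gf_frame_of_le _ _ _ i (by omega)]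
      exact ih

end words

/-! ## counting colours -/

section counts
variable (c : ℕ → Bool)

theorem gf_cU_zero : gr_cU c 0 = 0 := Nat.count_zero _

theorem gf_cQ_zero : gr_cQ c 0 = 0 := Nat.count_zero _

theorem gf_cU_succ (j : ℕ) : gr_cU c (j + 1) = gr_cU c j + if c j = true then 1 else 0 :=
  Nat.count_succ _ _

theorem gf_cQ_succ (j : ℕ) : gr_cQ c (j + 1) = gr_cQ c j + if c j = false then 1 else 0 :=
  Nat.count_succ _ _

theorem gf_cU_add_cQ (j : ℕ) : gr_cU c j + gr_cQ c j = j := by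
  induction j with
  | zero => simp [gf_cU_zero, gf_cQ_zero]
  | succ j ih =>
    rw [gf_cU_succ, gf_cQ_succ]
    cases c j <;> simp <;> omega

theorem gf_cU_mono : Monotone (gr_cU c) := Nat.count_monotone _

theorem gf_cQ_mono : Monotone (gr_cQ c) := Nat.count_monotone _

theorem gf_cU_le {i j : ℕ} (h : i ≤ j) : gr_cU c i ≤ gr_cU c j := gf_cU_mono c h

theorem gf_cQ_le {i j : ℕ} (h : i ≤ j) : gr_cQ c i ≤ gr_cQ c j := gf_cQ_mono c h

theorem gf_nU_add_nQ {lo hi : ℕ} (h : lo ≤ hi) : gr_nU c lo hi + gr_nQ c lo hi = hi - lo := by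
  have h1 := gf_cU_add_cQ c lo
  have h2 := gf_cU_add_cQ c hi
  have h3 := gf_cU_le c h
  have h4 := gf_cQ_le c h
  unfold gr_nU gr_nQ
  omega

theorem gf_cU_add_nU {lo hi : ℕ} (h : lo ≤ hi) : gr_cU c lo + gr_nU c lo hi = gr_cU c hi := by
  have h3 := gf_cU_le c h
  unfold gr_nU
  omega

theorem gf_cQ_add_nQ {lo hi : ℕ} (h : lo ≤ hi) : gr_cQ c lo + gr_nQ c lo hi = gr_cQ c hi := by
  have h3 := gf_cQ_le c h
  unfold gr_nQ
  omega

variable {c}

theorem gf_cU_congr {c' : ℕ → Bool} {j : ℕ} (h : ∀ t, t < j → c t = c' t) :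
    gr_cU c j = gr_cU c' j := by
  induction j with
  | zero => simp [gf_cU_zero]
  | succ j ih =>
    rw [gf_cU_succ, gf_cU_succ, ih fun t ht => h t (by omega), h j (by omega)]

/-- two colourings which agree outside of `[o,o+m)` and have the same number of `U` inside -/
theorem gf_cU_congr_out {c' : ℕ → Bool} {o m : ℕ} (h : ∀ j, j < o ∨ o + m ≤ j → c' j = c j)
    (hn : gr_nU c' o (o + m) = gr_nU c o (o + m)) (d : ℕ) (hd : d ≤ o ∨ o + m ≤ d) :
    gr_cU c' d = gr_cU c d := by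
  have h0 : gr_cU c' o = gr_cU c o := gf_cU_congr fun t ht => h t (Or.inl ht)
  rcases hd with hd | hd
  · exact gf_cU_congr fun t ht => h t (Or.inl (by omega))
  · obtain ⟨e, rfl⟩ := Nat.exists_eq_add_of_le hd
    induction e with
    | zero =>
      have h1 := gf_cU_add_nU c' (Nat.le_add_right o m)
      have h2 := gf_cU_add_nU c (Nat.le_add_right o m)
      simp only [Nat.add_zero]
      omega
    | succ e ih =>
      rw [← Nat.add_assoc, gf_cU_succ, gf_cU_succ, ih (by omega), h (o + m + e) (Or.inr (by omega))]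

theorem gf_cQ_congr_out {c' : ℕ → Bool} {o m : ℕ} (h : ∀ j, j < o ∨ o + m ≤ j → c' j = c j)
    (hn : gr_nU c' o (o + m) = gr_nU c o (o + m)) (d : ℕ) (hd : d ≤ o ∨ o + m ≤ d) :
    gr_cQ c' d = gr_cQ c d := by
  have h1 := gf_cU_congr_out h hn d hd
  have h2 := gf_cU_add_cQ c d
  have h3 := gf_cU_add_cQ c' d
  omega

end counts

/-! ## images of frames under monotone maps -/

theorem gf_image_midOK {K : Finset ℕ} {o m a : ℕ} (h : gs_midOK K o m a) {f : ℕ → ℕ}
    (hf : Monotone f) : gs_midOK (K.image f) (f o) (f (o + m) - f o) (f (o + a) - f o) := by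
  obtain ⟨ho, ha, hm, ham, hin⟩ := h
  have h1 : f o ≤ f (o + a) := hf (Nat.le_add_right _ _)
  have h2 : f (o + a) ≤ f (o + m) := hf (by omega)
  refine ⟨Finset.mem_image_of_mem f ho, ?_, ?_, by omega, ?_⟩
  · rw [Nat.add_sub_cancel' h1]; exact Finset.mem_image_of_mem f ha
  · rw [Nat.add_sub_cancel' (h1.trans h2)]; exact Finset.mem_image_of_mem f hm
  · intro d hd hd1 hd2
    obtain ⟨d', hd', rfl⟩ := Finset.mem_image.1 hd
    rw [Nat.add_sub_cancel' (h1.trans h2)] at hd2
    rw [Nat.add_sub_cancel' h1]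
    have h3 : o < d' := by
      by_contra hc
      exact absurd (hf (not_lt.1 hc)) (not_le.2 hd1)
    have h4 : d' < o + m := by
      by_contra hc
      exact absurd (hf (not_lt.1 hc)) (not_le.2 hd2)
    rw [hin d' hd' h3 h4]

theorem gf_image_cutRepl {K : Finset ℕ} {o m a c : ℕ} (h : gs_midOK K o m a) {f g : ℕ → ℕ}
    (hf : Monotone f) (hfg : ∀ d, d ≤ o ∨ o + m ≤ d → g d = f d) (hg : f o ≤ g (o + c)) :
    (gs_cutRepl K o m c).image g
      = gs_cutRepl (K.image f) (f o) (f (o + m) - f o) (g (o + c) - f o) := by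
  obtain ⟨ho, ha, hm, ham, hin⟩ := h
  have h1 : f o ≤ f (o + m) := hf (Nat.le_add_right _ _)
  ext d
  rw [Finset.mem_image, gf_mem_cutRepl, Nat.add_sub_cancel' hg, Nat.add_sub_cancel' h1]
  constructor
  · rintro ⟨d', hd', rfl⟩
    rcases gf_mem_cutRepl.1 hd' with rfl | ⟨hd', hd''⟩
    · exact Or.inl rfl
    · rw [hfg d' hd'']
      refine Or.inr ⟨Finset.mem_image_of_mem f hd', ?_⟩
      rcases hd'' with h' | h'
      · exact Or.inl (hf h')
      · exact Or.inr (hf h')
  · rintro (rfl | ⟨hd, hd''⟩)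
    · exact ⟨o + c, gf_mem_cutRepl.2 (Or.inl rfl), rfl⟩
    · obtain ⟨d', hd', rfl⟩ := Finset.mem_image.1 hd
      by_cases hout : d' ≤ o ∨ o + m ≤ d'
      · exact ⟨d', gf_mem_cutRepl.2 (Or.inr ⟨hd', hout⟩), hfg d' hout⟩
      · have h3 : o ≤ d' := by omega
        have h4 : d' ≤ o + m := by omega
        rcases hd'' with h' | h'
        · exact ⟨o, gf_mem_cutRepl.2 (Or.inr ⟨ho, Or.inl le_rfl⟩),
            (hfg o (Or.inl le_rfl)).trans (le_antisymm (hf h3) h')⟩
        · exact ⟨o + m, gf_mem_cutRepl.2 (Or.inr ⟨hm, Or.inr le_rfl⟩),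
            (hfg _ (Or.inr le_rfl)).trans (le_antisymm h' (hf h4))⟩

/-! ## the next cut -/

theorem gf_nxt_eq {K : Finset ℕ} {c d : ℕ} (hd : d ∈ K) (hcd : c < d)
    (hmin : ∀ d' ∈ K, c < d' → d ≤ d') : gr_nxt K c = d := by
  unfold gr_nxt
  apply le_antisymm
  · exact Nat.sInf_le ⟨hd, hcd⟩
  · exact le_csInf ⟨d, hd, hcd⟩ fun d' hd' => hmin d' hd'.1 hd'.2

theorem gf_nxt_spec {K : Finset ℕ} {c n : ℕ} (hn : n ∈ K) (hc : c < n) :
    gr_nxt K c ∈ K ∧ c < gr_nxt K c ∧ ∀ d' ∈ K, c < d' → gr_nxt K c ≤ d' := by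
  have hne : {d | d ∈ K ∧ c < d}.Nonempty := ⟨n, hn, hc⟩
  have h := Nat.sInf_mem hne
  exact ⟨h.1, h.2, fun d' hd' hcd' => Nat.sInf_le ⟨hd', hcd'⟩⟩

/-- the next cut only depends on the cuts above `c` up to the next cut -/
theorem gf_nxt_congr {K K' : Finset ℕ} {c n : ℕ} (hn : n ∈ K) (hc : c < n)
    (h : ∀ d, c < d → d ≤ gr_nxt K c → (d ∈ K ↔ d ∈ K')) : gr_nxt K' c = gr_nxt K c := by
  obtain ⟨h1, h2, h3⟩ := gf_nxt_spec hn hc
  refine gf_nxt_eq ((h _ h2 le_rfl).1 h1) h2 fun d' hd' hcd' => ?_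
  by_contra hlt
  have hlt' : d' ≤ gr_nxt K c := by omega
  exact hlt (h3 d' ((h d' hcd' hlt').2 hd') hcd')

end Claimed.Agent.R236
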