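import Mathlib
import Claimed.Agent.R236.GLiftA

/-!
# Row 236, REDUCE, SB3 (LIFT), part B: the LIFT lemma (owner helper58, prefix `gl_`)

* `gl_adapted_block` : inside a block an adapted colouring is `U…UQ…Q`;
* `gl_uq` : the colour pattern (`U` row, `Q` column); `gl_tri_of_uq`;
* `gl_key` : `d⁻¹ * emb o X * d' = W * emb o (dmid⁻¹ X dmid')`, `W` of pattern `gl_uq`;
* `gl_lift` : **LIFT**: a block triangular identity at mid level gives one at frame level.
-/

set_option autoImplicit false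

namespace Claimed.Agent.R236

open Matrix

variable {N : ℕ}

/-! ## adapted colourings -/

theorem gl_adapted_down {n : ℕ} {K : Finset ℕ} {c : ℕ → Bool} (had : gr_Adapted n K c) {lo hi : ℕ}
    (hhi : hi ≤ n) (hno : ∀ d ∈ K, lo < d → d < hi → False) {t : ℕ} (h2 : t < hi)
    (ht : c t = true) : ∀ s, lo ≤ s → s ≤ t → c s = true := by
  intro s hs hst
  obtain ⟨d, rfl⟩ := Nat.exists_eq_add_of_le hst
  induction d with
  | zero => exact ht
  | succ d ih =>
    refine ih (by omega) ?_ (by omega)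
    exact had.2 (s + d) (by omega) (fun hK => hno _ hK (by omega) (by omega)) ht

/-- inside a block an adapted colouring is `U…UQ…Q` -/
theorem gl_adapted_block {n : ℕ} {K : Finset ℕ} {c : ℕ → Bool} (had : gr_Adapted n K c) {lo hi : ℕ}
    (hhi : hi ≤ n) (hno : ∀ d ∈ K, lo < d → d < hi → False) {t : ℕ} (h1 : lo ≤ t) (h2 : t < hi) :
    c t = true ↔ t < lo + gr_nU c lo hi := by
  constructor
  · intro ht
    have e1 : gr_nU c lo (t + 1) = t + 1 - lo :=
      gct_nU_of_forall (by omega) fun j hj1 hj2 =>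
        gl_adapted_down had hhi hno h2 ht j hj1 (by omega)
    have e2 := gct_nU_add c (lo := lo) (mid := t + 1) (hi := hi) (by omega) (by omega)
    omega
  · intro ht
    by_contra hc
    have hcf : c t = false := by simpa using hc
    have e1 : gr_nU c t hi = 0 := by
      refine gct_nU_of_forall_not fun j hj1 hj2 => ?_
      by_contra hj
      have hjt : c j = true := by simpa using hj
      have := gl_adapted_down had hhi hno hj2 hjt t h1 hj1
      rw [hcf] at this
      exact absurd this (by simp)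
    have e2 := gct_nU_add c (lo := lo) (mid := t) (hi := hi) h1 (by omega)
    have e3 := gct_nU_le c h1
    omega

/-! ## the colour pattern -/

/-- `U` row, `Q` column -/
def gl_uq (c : ℕ → Bool) (n : ℕ) (i j : ℕ) : Prop := i < j ∧ j < n ∧ c i = true ∧ c j = false

theorem gl_uq_lt {c : ℕ → Bool} {n : ℕ} (i j : ℕ) (h : gl_uq c n i j) : i < j := h.1

theorem gl_uq_trans {c : ℕ → Bool} {n : ℕ} (i j k : ℕ) (h : gl_uq c n i j) (h' : gl_uq c n j k) :
    gl_uq c n i k := by
  have h1 := h.2.2.2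
  have h2 := h'.2.2.1
  rw [h1] at h2
  exact absurd h2 (by simp)

theorem gl_sh_sup (c : ℕ → Bool) (n k : ℕ) :
    gm_Sup (fun r s => gr_shFn c n k r = s) (gr_sh c n k : gs_Mat N) := by
  intro r s h
  unfold gr_sh at h
  by_contra hne
  exact h (if_neg hne)

/-- a matrix of the colour pattern is `[[1,*],[0,1]]` in standard coordinates -/
theorem gl_tri_of_uq (hSh : StShInv N) {c : ℕ → Bool} {n k : ℕ} (hnN : n ≤ N)
    (hb : ∀ j, n ≤ j → c j = false) (hk : gr_cU c n = k) {W : gs_Mat N}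
    (hW : gm_Pat (gl_uq c n) W) :
    gr_Tri n k 1 1 ((gr_sh c n k : gs_Mat N).transpose * W * gr_sh c n k) := by
  obtain ⟨_, h2, _⟩ := hSh c n k hnN hb hk
  refine ⟨(gr_sh c n k : gs_Mat N).transpose * (W - 1) * gr_sh c n k, ?_, ?_⟩
  · rw [gm_isUQ_iff_sup]
    have hW' := gm_pat_iff_sup.mp hW
    have hT := gm_sup_transpose (gl_sh_sup (N := N) c n k)
    refine gm_sup_mul (r := fun s j => ∃ i, gr_shFn c n k i = s ∧ gl_uq c n i j)
      (s := fun r s => gr_shFn c n k r = s) ?_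
      (gm_sup_mul (r := fun s r => gr_shFn c n k r = s) (s := gl_uq c n) ?_ hT hW')
      (gl_sh_sup c n k)
    · rintro s j t ⟨i, rfl, h1, h3, h4, h5⟩ rfl
      have hi : i < n := by omega
      have e1 := gct_cU_eq_add c (lo := i + 1) (hi := n) (by omega)
      have e2 := gct_cU_succ c i
      have e3 := gct_cU_add_cQ c n
      have e4 := gct_cQ_eq_add c (lo := j + 1) (hi := n) (by omega)
      have e5 := gct_cQ_succ c j
      simp only [gr_shFn, if_pos hi, if_pos h3, h4, h5, if_true] at e2 e5 ⊢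
      simp
      omega
    · intro s i j h1 h2
      exact ⟨i, h1, h2⟩
  · unfold gr_asm
    rw [gm_emb_one, mul_one, mul_sub, sub_mul, mul_one, h2]
    abel

/-- a unipotent of the block `[s, nxt s)` for the frame `(u | q)` has the colour pattern -/
theorem gl_emb_uq {n : ℕ} {K : Finset ℕ} {cb : ℕ → Bool} (hn : n ∈ K) (had : gr_Adapted n K cb)
    {s : ℕ} (hsn : s < n) {w : gs_Mat N}
    (hw : gs_IsUni (gr_nxt K s - s) {0, gr_nU cb s (gr_nxt K s), gr_nxt K s - s} w) :
    gm_Pat (gl_uq cb n) (gs_emb s w) := by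
  obtain ⟨_, g2, g3, g4⟩ := gl_nxt_spec hn hsn
  have hno : ∀ d ∈ K, s < d → d < gr_nxt K s → False := fun d hd h1 h2 => by
    have := g4 d hd h1; omega
  intro i j hij
  by_cases hi : s ≤ (i : ℕ)
  · by_cases hj : s ≤ (j : ℕ)
    · rw [gm_emb_apply_ge s w hi hj, ← gm_one_apply_sub s hi hj] at hij
      obtain ⟨h1, c, hc, h2, h3⟩ := hw _ _ hij
      simp only at h1 h2 h3
      simp only [Finset.mem_insert, Finset.mem_singleton] at hc
      have hcu : c = gr_nU cb s (gr_nxt K s) := by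
        rcases hc with hc | hc | hc
        · omega
        · exact hc
        · omega
      refine ⟨by omega, by omega, ?_, ?_⟩
      · exact (gl_adapted_block had g3 hno hi (by omega)).2 (by omega)
      · by_contra hcj
        have hcj' : cb j = true := by simpa using hcj
        have := (gl_adapted_block had g3 hno hj (by omega)).1 hcj'
        omega
    · exact absurd (gm_emb_apply_lt_col s w i (by omega)) hij
  · exact absurd (gm_emb_apply_lt_row s w (by omega) j) hij

/-- the links of the untouched blocks -/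
def gl_SpLink (n : ℕ) (K : Finset ℕ) (cb : ℕ → Bool) (o m : ℕ) (h h' : ℕ → gs_Mat N) : Prop :=
  ∀ s, gr_Spect K n o m s →
    ∃ w, gs_IsUni (gr_nxt K s - s) {0, gr_nU cb s (gr_nxt K s), gr_nxt K s - s} w ∧ h s = h' s * w

/-- **KEY**: `d⁻¹ * emb o X * d' = W * emb o (dmid⁻¹ X dmid')` -/
theorem gl_key {n : ℕ} {K : Finset ℕ} {cb : ℕ → Bool} (hnN : n ≤ N) (hn : n ∈ K)
    (hle : ∀ d ∈ K, d ≤ n) (had : gr_Adapted n K cb) {o m a c : ℕ} (hmid : gs_midOK K o m a)
    (hc : c ≤ m) {h h' : ℕ → gs_Mat N} (hh : gl_Fam n K h)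
    (hh' : gl_Fam n (gs_cutRepl K o m c) h') (hsp : gl_SpLink n K cb o m h h')
    {X : gs_Mat N} (hX : gs_IsCorner m X) :
    ∃ W, gm_Pat (gl_uq cb n) W ∧
      (gl_bd n K h)⁻¹ * gs_emb o X * gl_bd n (gs_cutRepl K o m c) h' =
        W * gs_emb o ((gl_dmid o m a h)⁻¹ * X * gl_dmid o m c h') := by
  classical
  set K' := gs_cutRepl K o m c with hK'
  have hmid' : gs_midOK K' o m c := gl_midOK_cutRepl hmid hc
  have homn : o + m ≤ n := hle _ hmid.2.2.1
  have hn' : n ∈ K' := (gl_spect_mem_iff hmid hc (Or.inr homn)).2 hn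
  have hle' : ∀ d ∈ K', d ≤ n := by
    intro d hd
    rcases gl_mem_cutRepl.1 hd with h1 | h1
    · omega
    · exact hle d h1.1
  -- the spectator unipotents
  let ws : ℕ → gs_Mat N := fun s =>
    if hs : gr_Spect K n o m s then Classical.choose (hsp s hs) else 1
  have hws : ∀ s (hs : gr_Spect K n o m s),
      gs_IsUni (gr_nxt K s - s) {0, gr_nU cb s (gr_nxt K s), gr_nxt K s - s} (ws s) ∧
        h s = h' s * ws s := by
    intro s hs
    simp only [ws, dif_pos hs]
    exact Classical.choose_spec (hsp s hs)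
  have hws1 : ∀ s, ¬ gr_Spect K n o m s → ws s = 1 := fun s hs => by simp only [ws, dif_neg hs]
  have hwsF : gl_Fam n K ws := by
    intro s hsK hsn
    by_cases hs : gr_Spect K n o m s
    · exact ⟨gm_uni_isUnit (hws s hs).1, gm_uni_corner (hws s hs).1⟩
    · rw [hws1 s hs]; exact ⟨by simp, gm_corner_one _⟩
  -- the spectator part of `h'` as a family on `K`
  have hspF : gl_Fam n K (gl_sp o m h') := by
    intro s hsK hsn
    unfold gl_sp
    by_cases hs : s < o ∨ o + m ≤ s
    · rw [if_pos hs, ← gl_nxt_cutRepl hn hmid hc hsn hs]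
      exact hh' s ((gl_spect_mem_iff hmid hc (by omega)).2 hsK) hsn
    · rw [if_neg hs]; exact ⟨by simp, gm_corner_one _⟩
  have e1 : gl_bd n K' (gl_sp o m h') = gl_bd n K (gl_sp o m h') := by
    refine gl_bd_congr fun s _ => ?_
    by_cases hs : s < o ∨ o + m ≤ s
    · have : s ∈ K' ↔ s ∈ K := gl_spect_mem_iff hmid hc (by omega)
      simp only [this]
    · unfold gl_sp
      simp only [if_neg hs, gm_emb_one, ite_self]
  have e2 : gl_bd n K (gl_sp o m h) = gl_bd n K (gl_sp o m h') * gl_bd n K ws := by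
    rw [← gl_bd_mul hnN hn hspF.cor hwsF.cor]
    refine gl_bd_congr' fun s hsK hsn => ?_
    unfold gl_sp
    by_cases hs : s < o ∨ o + m ≤ s
    · rw [if_pos hs, if_pos hs]
      exact (hws s ⟨hsK, hsn, hs⟩).2
    · rw [if_neg hs, if_neg hs, hws1 s (fun h3 => hs h3.2.2), mul_one]
  set S' := gl_bd n K (gl_sp o m h') with hS'
  set S'i := gl_bd n K (fun s => (gl_sp o m h' s)⁻¹) with hS'i
  set Wm := gl_bd n K ws with hWm
  set Wi := gl_bd n K (fun s => (ws s)⁻¹) with hWi
  have hdm := gl_dmid_GL hnN hle hmid hh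
  have hdp := gl_dmid_GL hnN hle' hmid' hh'
  set dm := gl_dmid o m a h with hdm_def
  set dp := gl_dmid o m c h' with hdp_def
  have hSS : S' * S'i = 1 := gl_bd_mul_inv hnN hn hspF
  have hSS' : S'i * S' = 1 := mul_eq_one_comm.mp hSS
  have hWW : Wm * Wi = 1 := gl_bd_mul_inv hnN hn hwsF
  have hAA : gs_emb o dm * gs_emb o dm⁻¹ = 1 := by
    rw [← gm_emb_mul hdm.2 (gm_corner_inv hdm.2 hdm.1) (by omega), Matrix.mul_nonsing_inv _ hdm.1,
      gm_emb_one]
  have hd : gl_bd n K h = S' * Wm * gs_emb o dm := by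
    rw [gl_bd_split hnN hn hle hmid hh.cor, e2]
  have hd' : gl_bd n K' h' = S' * gs_emb o dp := by
    rw [gl_bd_split hnN hn' hle' hmid' hh'.cor, e1]
  have hdinv : (gl_bd n K h)⁻¹ = gs_emb o dm⁻¹ * Wi * S'i := by
    apply Matrix.inv_eq_right_inv
    rw [hd]
    calc S' * Wm * gs_emb o dm * (gs_emb o dm⁻¹ * Wi * S'i)
        = S' * (Wm * (gs_emb o dm * gs_emb o dm⁻¹) * Wi) * S'i := by simp only [mul_assoc]
      _ = 1 := by rw [hAA, mul_one, hWW, mul_one, hSS]
  have hcomS : Commute S' (gs_emb o X) :=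
    gl_bd_commute_emb hn hmid.1 hspF.cor
      (fun s h1 h2 => by unfold gl_sp; rw [if_neg (by omega)]) hX
  have hcomW : Commute Wi (gs_emb o dm⁻¹) :=
    gl_bd_commute_emb hn hmid.1 hwsF.inv.cor
      (fun s h1 h2 => by
        show (ws s)⁻¹ = 1
        rw [hws1 s (fun h3 => by have := h3.2.2; omega), inv_one])
      (gm_corner_inv hdm.2 hdm.1)
  refine ⟨Wi, ?_, ?_⟩
  · -- pattern
    rw [hWi, ← gl_bd_inv hnN hn hwsF]
    refine gm_pat_inv gl_uq_lt gl_uq_trans ?_
    refine gm_pat_list_prod gl_uq_trans _ ?_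
    intro u hu
    obtain ⟨s, hs, rfl⟩ := List.mem_map.mp hu
    have hsn := List.mem_range.mp hs
    by_cases hsK : s ∈ K
    · rw [if_pos hsK]
      by_cases hsp' : gr_Spect K n o m s
      · exact gl_emb_uq hn had hsn (hws s hsp').1
      · rw [hws1 s hsp', gm_emb_one]; exact gm_pat_one _
    · rw [if_neg hsK]; exact gm_pat_one _
  · rw [hdinv, hd']
    have hcor1 : gs_IsCorner m (dm⁻¹ * X) := gm_corner_mul (gm_corner_inv hdm.2 hdm.1) hX
    rw [gm_emb_mul hcor1 hdp.2 (by omega), gm_emb_mul (gm_corner_inv hdm.2 hdm.1) hX (by omega)]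
    calc gs_emb o dm⁻¹ * Wi * S'i * gs_emb o X * (S' * gs_emb o dp)
        = gs_emb o dm⁻¹ * Wi * S'i * (gs_emb o X * S') * gs_emb o dp := by simp only [mul_assoc]
      _ = gs_emb o dm⁻¹ * Wi * (S'i * S') * gs_emb o X * gs_emb o dp := by
          rw [← hcomS.eq]; simp only [mul_assoc]
      _ = (gs_emb o dm⁻¹ * Wi) * gs_emb o X * gs_emb o dp := by rw [hSS', mul_one]
      _ = Wi * (gs_emb o dm⁻¹ * gs_emb o X * gs_emb o dp) := by
          rw [← hcomW.eq]; simp only [mul_assoc]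

theorem gl_colMid_beyond (c : ℕ → Bool) (o m : ℕ) : ∀ j, m ≤ j → gr_colMid c o m j = false := by
  intro j hj
  unfold gr_colMid
  simp [Nat.not_lt.mpr hj]

theorem gl_colMid_cU (c : ℕ → Bool) (o m : ℕ) : gr_cU (gr_colMid c o m) m = gr_nU c o (o + m) := by
  rw [gct_nU_eq_count]
  refine gct_cU_congr fun j hj => ?_
  unfold gr_colMid
  simp [hj]

theorem gl_sh_inv (hSh : StShInv N) {c : ℕ → Bool} {n k : ℕ} (hnN : n ≤ N)
    (hb : ∀ j, n ≤ j → c j = false) (hk : gr_cU c n = k) :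
    (gr_sh c n k : gs_Mat N)⁻¹ = (gr_sh c n k : gs_Mat N).transpose :=
  Matrix.inv_eq_right_inv (hSh c n k hnN hb hk).1

/-- **LIFT**: a block triangular identity at mid level gives one at frame level. -/
theorem gl_lift (hSh : StShInv N) (hLoc : StLocality N) (hTM : StTriMul N)
    {n k : ℕ} {K : Finset ℕ} {cb ca : ℕ → Bool} {o m a c : ℕ}
    (hCF : gr_CF N n k K cb) (hca : ∀ j, n ≤ j → ca j = false)
    (hmid : gs_midOK K o m a) (hc : c ≤ m)
    (hcol : ∀ j, j < o ∨ o + m ≤ j → ca j = cb j) (hcnt : gr_nU ca o (o + m) = gr_nU cb o (o + m))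
    {h h' : ℕ → gs_Mat N} (hh : gl_Fam n K h) (hh' : gl_Fam n (gs_cutRepl K o m c) h')
    (hsp : gl_SpLink n K cb o m h h')
    {X XU XQ : gs_Mat N} (hX : gs_IsCorner m X)
    (hXU : gs_IsCorner (gr_nU cb o (o + m)) XU) (hXQ : gs_IsCorner (m - gr_nU cb o (o + m)) XQ)
    (hT : gr_Tri m (gr_nU cb o (o + m)) XU XQ
      ((gl_dmid o m a h * gr_sh (gr_colMid cb o m) m (gr_nU cb o (o + m)))⁻¹ * X *
        (gl_dmid o m c h' * gr_sh (gr_colMid ca o m) m (gr_nU cb o (o + m))))) :
    gr_Tri n k (gs_emb (gr_cU cb o) XU) (gs_emb (gr_cQ cb o) XQ)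
      ((gl_bd n K h * gr_sh cb n k)⁻¹ * gs_emb o X *
        (gl_bd n (gs_cutRepl K o m c) h' * gr_sh ca n k)) := by
  have hnN := hCF.nN
  have homn : o + m ≤ n := hCF.le _ hmid.2.2.1
  have hkn : k ≤ n := hCF.cnt ▸ gct_cU_le cb n
  set km := gr_nU cb o (o + m) with hkm
  set Sh : gs_Mat N := gr_sh cb n k with hShd
  set Sh' : gs_Mat N := gr_sh ca n k with hShd'
  set shm : gs_Mat N := gr_sh (gr_colMid cb o m) m km with hshm
  set shm' : gs_Mat N := gr_sh (gr_colMid ca o m) m km with hshm'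
  set dm := gl_dmid o m a h with hdm
  set dp := gl_dmid o m c h' with hdp
  have hShI : Sh⁻¹ = Sh.transpose := gl_sh_inv hSh hnN hCF.ad.1 hCF.cnt
  have hSh1 : Sh * Sh.transpose = 1 := (hSh cb n k hnN hCF.ad.1 hCF.cnt).1
  have hm1 := hSh (gr_colMid cb o m) m km (by omega) (gl_colMid_beyond cb o m) (gl_colMid_cU cb o m)
  have hm2 := hSh (gr_colMid ca o m) m km (by omega) (gl_colMid_beyond ca o m)
    ((gl_colMid_cU ca o m).trans hcnt)
  have hshmI : shm⁻¹ = shm.transpose := Matrix.inv_eq_right_inv hm1.1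
  obtain ⟨W, hW, hkey⟩ := gl_key hnN hCF.top hCF.le hCF.ad hmid hc hh hh' hsp hX
  rw [← hdm, ← hdp] at hkey
  set Zm := (dm * shm)⁻¹ * X * (dp * shm') with hZm
  have hZ : shm * Zm * shm'.transpose = dm⁻¹ * X * dp := by
    rw [hZm, Matrix.mul_inv_rev, hshmI]
    calc shm * (shm.transpose * dm⁻¹ * X * (dp * shm')) * shm'.transpose
        = (shm * shm.transpose) * dm⁻¹ * X * dp * (shm' * shm'.transpose) := by
          simp only [mul_assoc]
      _ = dm⁻¹ * X * dp := by rw [hm1.1, hm2.1, one_mul, mul_one]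
  have h1 := gl_tri_of_uq hSh hnN hCF.ad.1 hCF.cnt hW
  rw [← hShd] at h1
  have h2 := hLoc n k o m cb ca hnN homn hCF.ad.1 hca hCF.cnt hcol hcnt XU XQ Zm hXU hXQ hT
  rw [← hkm, ← hShd, ← hShd', ← hshm, ← hshm', hZ] at h2
  have c1 : gs_IsCorner k (gs_emb (gr_cU cb o) XU) := by
    refine gm_corner_mono ?_ (gm_emb_corner _ hXU)
    have e1 := gct_cU_eq_add cb (lo := o) (hi := o + m) (by omega)
    have e2 := gct_cU_mono cb homn
    have e3 := hCF.cnt
    omega
  have c2 : gs_IsCorner (n - k) (gs_emb (gr_cQ cb o) XQ) := by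
    refine gm_corner_mono ?_ (gm_emb_corner _ hXQ)
    have e1 := gct_cQ_eq_add cb (lo := o) (hi := o + m) (by omega)
    have e2 := gct_cQ_mono cb homn
    have e3 := hCF.cnt
    have e4 := gct_cU_add_cQ cb n
    have e5 := gct_nU_add_nQ cb (lo := o) (hi := o + m) (by omega)
    omega
  have h3 := hTM n k 1 1 _ _ _ _ hkn hnN (gm_corner_one k) (gm_corner_one (n - k)) c1 c2 h1 h2
  rw [one_mul, one_mul] at h3
  convert h3 using 1
  rw [Matrix.mul_inv_rev, hShI]
  calc Sh.transpose * (gl_bd n K h)⁻¹ * gs_emb o X * (gl_bd n (gs_cutRepl K o m c) h' * Sh')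
      = Sh.transpose * ((gl_bd n K h)⁻¹ * gs_emb o X * gl_bd n (gs_cutRepl K o m c) h') * Sh' := by
        simp only [mul_assoc]
    _ = Sh.transpose * W * (Sh * Sh.transpose) * gs_emb o (dm⁻¹ * X * dp) * Sh' := by
        rw [hkey, hSh1]; simp only [mul_assoc, mul_one]
    _ = _ := by simp only [mul_assoc]

end Claimed.Agent.R236
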