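import Mathlib
import Claimed.Agent.R236.GChain
import Claimed.Agent.R236.GMat

/-!
# Row 236, REDUCE, SB4 (SOUND), part A: general lemmas on words (owner helper188, prefix gsd_)
-/

set_option autoImplicit false

namespace Claimed.Agent.R236

section words
variable {Y : Type} {N : ℕ}

/-- the padding letter of `gr_Ctx.letter` -/
def gsd_pad (Y : Type) : gs_Letter Y := .L fun _ => 1

/-- the value of a word as a product over `List.range` -/
theorem gsd_val_eq_prod (x : gs_Pt Y N) (e : ℕ) (ls : List (gs_Letter Y)) (i0 : ℕ) :
    gs_val x e i0 ls =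
      ((List.range ls.length).map fun i =>
        gs_lmat x (ls.getD i (gsd_pad Y)) * x (.inr (e, i0 + i))).prod := by
  induction ls generalizing i0 with
  | nil => simp [gs_val]
  | cons l ls ih =>
    rw [gs_val, ih, List.length_cons, List.range_succ_eq_map, List.map_cons, List.prod_cons,
      List.map_map]
    congr 1
    congr 1
    apply List.map_congr_left
    intro i _
    simp only [Function.comp, List.getD_cons_succ]
    have : i0 + 1 + i = i0 + i.succ := by omega
    rw [this]

/-- the matrix of a renamed letter -/
theorem gsd_lmat_map {Y' : Type} (f : Y → Y') (x : gs_Pt Y N) (x' : gs_Pt Y' N)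
    (h : ∀ y, x (.inl y) = x' (.inl (f y))) (l : gs_Letter Y) :
    gs_lmat x l = gs_lmat x' (l.map f) := by
  cases l with
  | G inv y o => cases inv <;> simp [gs_lmat, gs_Letter.map, h]
  | S o a b => rfl
  | L lam => rfl

/-- the value of a renamed word -/
theorem gsd_val_map {Y' : Type} (f : Y → Y') (x : gs_Pt Y N) (x' : gs_Pt Y' N)
    (h : ∀ y, x (.inl y) = x' (.inl (f y))) (e : ℕ) (h' : ∀ j, x (.inr (e, j)) = x' (.inr (e, j)))
    (ls : List (gs_Letter Y)) (i0 : ℕ) :
    gs_val x e i0 ls = gs_val x' e i0 (ls.map (gs_Letter.map f)) := by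
  induction ls generalizing i0 with
  | nil => rfl
  | cons l ls ih => rw [List.map_cons, gs_val, gs_val, ih, gsd_lmat_map f x x' h, h']

/-- one step of the frame computation for a renamed letter -/
theorem gsd_step_map {Y' : Type} (f : Y → Y') (sig : Y → gs_Sig) (sig' : Y' → gs_Sig)
    (h : ∀ y, sig' (f y) = sig y) (K : Finset ℕ) (l : gs_Letter Y) :
    gs_step sig' K (l.map f) = gs_step sig K l := by
  cases l with
  | G inv y o => simp [gs_step, gs_Letter.map, h]
  | S o a b => rfl
  | L lam => rfl

/-- the frames of a renamed word -/
theorem gsd_frame_map {Y' : Type} (f : Y → Y') (sig : Y → gs_Sig) (sig' : Y' → gs_Sig)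
    (h : ∀ y, sig' (f y) = sig y) (K0 : Finset ℕ) (ls : List (gs_Letter Y)) (i : ℕ) :
    gs_frame sig' K0 (ls.map (gs_Letter.map f)) i = gs_frame sig K0 ls i := by
  unfold gs_frame
  rw [← List.map_take]
  generalize ls.take i = l
  induction l generalizing K0 with
  | nil => rfl
  | cons a l ih => rw [List.map_cons, List.foldl_cons, List.foldl_cons, gsd_step_map f sig sig' h, ih]

end words

section telescope
variable {M : Type} [Monoid M]

/-- telescoping product -/
theorem gsd_telescope (A A' X : ℕ → M) (hA : ∀ i, A' i * A i = 1) (m : ℕ) :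
    ((List.range m).map fun i => A i * X i * A' (i + 1)).prod =
      A 0 * ((List.range m).map X).prod * A' m ∨ m = 0 := by
  induction m with
  | zero => right; rfl
  | succ m ih =>
    left
    rw [List.range_succ, List.map_append, List.prod_append, List.map_append, List.prod_append]
    simp only [List.map_cons, List.map_nil, List.prod_cons, List.prod_nil, mul_one]
    rcases ih with ih | rfl
    · rw [ih]
      calc A 0 * ((List.range m).map X).prod * A' m * (A m * X m * A' (m + 1))
          = A 0 * ((List.range m).map X).prod * (A' m * A m) * X m * A' (m + 1) := by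
            simp only [mul_assoc]
        _ = _ := by rw [hA, mul_one]; simp only [mul_assoc]
    · simp

end telescope

end Claimed.Agent.R236
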