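import Mathlib
import Claimed.Agent.R236.GSoundA
import Claimed.Agent.R236.GCount

/-!
# Row 236, REDUCE, SB4 (SOUND), part B: frames and colour counts (owner helper188, prefix gsd_)
-/

set_option autoImplicit false

namespace Claimed.Agent.R236

section frames
variable {Y : Type}

theorem gsd_frame_zero (sig : Y → gs_Sig) (K0 : Finset ℕ) (ls : List (gs_Letter Y)) :
    gs_frame sig K0 ls 0 = K0 := rfl

theorem gsd_frame_succ (sig : Y → gs_Sig) (K0 : Finset ℕ) (ls : List (gs_Letter Y)) {i : ℕ}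
    (h : i < ls.length) :
    gs_frame sig K0 ls (i + 1) = gs_step sig (gs_frame sig K0 ls i) ls[i] := by
  unfold gs_frame
  rw [List.take_add_one, List.foldl_append, List.getElem?_eq_getElem h]
  rfl

/-- a frame of rank `n` -/
structure gsd_FrOK (n : ℕ) (K : Finset ℕ) : Prop where
  zero : 0 ∈ K
  top : n ∈ K
  le : ∀ d ∈ K, d ≤ n

theorem gsd_cutRepl_ok {n : ℕ} {K : Finset ℕ} (hK : gsd_FrOK n K) {o m a c : ℕ}
    (h : gs_midOK K o m a) (hc : c ≤ m) : gsd_FrOK n (gs_cutRepl K o m c) := by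
  obtain ⟨h1, h2, h3, h4, h5⟩ := h
  have hom := hK.le _ h3
  refine ⟨?_, ?_, ?_⟩
  · simp only [gs_cutRepl, Finset.mem_insert, Finset.mem_filter]
    right; exact ⟨hK.zero, Or.inl (Nat.zero_le _)⟩
  · simp only [gs_cutRepl, Finset.mem_insert, Finset.mem_filter]
    right; exact ⟨hK.top, Or.inr hom⟩
  · intro d hd
    simp only [gs_cutRepl, Finset.mem_insert, Finset.mem_filter] at hd
    rcases hd with rfl | ⟨hd, _⟩
    · omega
    · exact hK.le d hd

theorem gsd_tgt_le {σ : gs_Sig} (h : σ.s ≤ σ.rk ∧ σ.t ≤ σ.rk) (inv : Bool) : σ.tgt inv ≤ σ.rk := by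
  cases inv <;> simp [gs_Sig.tgt, h.1, h.2]

theorem gsd_src_le {σ : gs_Sig} (h : σ.s ≤ σ.rk ∧ σ.t ≤ σ.rk) (inv : Bool) : σ.src inv ≤ σ.rk := by
  cases inv <;> simp [gs_Sig.src, h.1, h.2]

theorem gsd_step_ok {sig : Y → gs_Sig} (hsig : ∀ y, (sig y).s ≤ (sig y).rk ∧ (sig y).t ≤ (sig y).rk)
    {n : ℕ} {K : Finset ℕ} (hK : gsd_FrOK n K) {l : gs_Letter Y} (h : gs_app sig n K l) :
    gsd_FrOK n (gs_step sig K l) := by
  cases l with
  | G inv y o => exact gsd_cutRepl_ok hK h (gsd_tgt_le (hsig y) inv)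
  | S o a b => exact gsd_cutRepl_ok hK h (Nat.le_add_left _ _)
  | L lam => exact hK

theorem gsd_frame_ok {sig : Y → gs_Sig}
    (hsig : ∀ y, (sig y).s ≤ (sig y).rk ∧ (sig y).t ≤ (sig y).rk) {N : ℕ} {R : Subring ℂ}
    {E : gs_Eqn Y} (hE : E.WF sig N R) (i : ℕ) (hi : i ≤ E.ls.length) :
    gsd_FrOK E.rk (gs_frame sig E.K0 E.ls i) := by
  induction i with
  | zero => exact ⟨hE.zero_mem, hE.rk_mem, hE.le_rk⟩
  | succ i ih =>
    rw [gsd_frame_succ sig E.K0 E.ls hi]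
    exact gsd_step_ok hsig (ih (by omega)) (hE.app i hi)

end frames

section ctx
variable {Y : Type} {N : ℕ} {R : Subring ℂ} {S : gs_Sys Y} {e0 k : ℕ}

theorem gsd_eq_mem (h : e0 < S.eqs.length) : S.eq e0 ∈ S.eqs := by
  unfold gs_Sys.eq
  rw [List.getD_eq_getElem _ _ h]
  exact List.getElem_mem h

theorem gsd_hyp_eqn (hyp : gr_Hyp N R S e0 k) : (S.eq e0).WF S.sig N R :=
  hyp.wf.eqn _ (gsd_eq_mem hyp.lt)

theorem gsd_hyp_sig (hyp : gr_Hyp N R S e0 k) (y : Y) :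
    (S.sig y).s ≤ (S.sig y).rk ∧ (S.sig y).t ≤ (S.sig y).rk := ⟨hyp.wf.sig_s y, hyp.wf.sig_t y⟩

theorem gsd_len_pos (hyp : gr_Hyp N R S e0 k) (col : ℕ → ℕ → Bool) :
    0 < (gr_ctx S e0 k col).len := List.length_pos_iff.2 hyp.ne

/-- the frames of the reduced equation -/
theorem gsd_K_ok (hyp : gr_Hyp N R S e0 k) (col : ℕ → ℕ → Bool) (i : ℕ)
    (hi : i ≤ (gr_ctx S e0 k col).len) :
    gsd_FrOK (gr_ctx S e0 k col).n ((gr_ctx S e0 k col).K i) :=
  gsd_frame_ok (gsd_hyp_sig hyp) (gsd_hyp_eqn hyp) i hi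

theorem gsd_K_len (hyp : gr_Hyp N R S e0 k) (col : ℕ → ℕ → Bool) :
    (gr_ctx S e0 k col).K (gr_ctx S e0 k col).len = (gr_ctx S e0 k col).K 0 :=
  (gsd_hyp_eqn hyp).closed

theorem gsd_n_le (hyp : gr_Hyp N R S e0 k) (col : ℕ → ℕ → Bool) : (gr_ctx S e0 k col).n ≤ N :=
  (gsd_hyp_eqn hyp).rk_le

theorem gsd_letter_eq (col : ℕ → ℕ → Bool) {i : ℕ} (hi : i < (gr_ctx S e0 k col).len) :
    (gr_ctx S e0 k col).letter i = (S.eq e0).ls[i]'hi := by
  unfold gr_Ctx.letter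
  exact List.getD_eq_getElem _ _ hi

/-- the letter `i` may be applied at the frame `i` -/
theorem gsd_app (hyp : gr_Hyp N R S e0 k) (col : ℕ → ℕ → Bool) {i : ℕ}
    (hi : i < (gr_ctx S e0 k col).len) :
    gs_app S.sig (gr_ctx S e0 k col).n ((gr_ctx S e0 k col).K i) ((gr_ctx S e0 k col).letter i) := by
  rw [gsd_letter_eq col hi]
  exact (gsd_hyp_eqn hyp).app i hi

theorem gsd_K_succ (col : ℕ → ℕ → Bool) {i : ℕ} (hi : i < (gr_ctx S e0 k col).len) :
    (gr_ctx S e0 k col).K (i + 1) =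
      gs_step S.sig ((gr_ctx S e0 k col).K i) ((gr_ctx S e0 k col).letter i) := by
  rw [gsd_letter_eq col hi]
  exact gsd_frame_succ _ _ _ hi

theorem gsd_stepOK {col : ℕ → ℕ → Bool} (hC : (gr_ctx S e0 k col).WF) {i : ℕ}
    (hi : i < (gr_ctx S e0 k col).len) :
    (gr_ctx S e0 k col).stepOK (col i) (col (i + 1)) ((gr_ctx S e0 k col).letter i) := by
  rw [gsd_letter_eq col hi]
  exact hC.step i hi

/-- the interval touched by a letter lies in `[0,n)` and its ends are cuts -/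
theorem gsd_mid_ok (hyp : gr_Hyp N R S e0 k) (col : ℕ → ℕ → Bool) {i : ℕ}
    (hi : i < (gr_ctx S e0 k col).len) :
    (gs_mid S.sig ((gr_ctx S e0 k col).letter i)).1 ∈ (gr_ctx S e0 k col).K i ∧
    (gs_mid S.sig ((gr_ctx S e0 k col).letter i)).1 +
      (gs_mid S.sig ((gr_ctx S e0 k col).letter i)).2 ∈ (gr_ctx S e0 k col).K i := by
  have h := gsd_app hyp col hi
  have hK := gsd_K_ok hyp col i hi.le
  cases hl : (gr_ctx S e0 k col).letter i with
  | G inv y o => rw [hl] at h; exact ⟨h.1, h.2.2.1⟩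
  | S o a b => rw [hl] at h; exact ⟨h.1, h.2.2.1⟩
  | L lam => exact ⟨hK.zero, hK.zero⟩

/-- one step does not change the number of `U` colours -/
theorem gsd_cnt_step (hyp : gr_Hyp N R S e0 k) {col : ℕ → ℕ → Bool}
    (hC : (gr_ctx S e0 k col).WF) {i : ℕ} (hi : i < (gr_ctx S e0 k col).len) :
    gr_cU (col (i + 1)) (gr_ctx S e0 k col).n = gr_cU (col i) (gr_ctx S e0 k col).n := by
  have h := gsd_app hyp col hi
  have hs := gsd_stepOK hC hi
  have hK := gsd_K_ok hyp col i hi.le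
  cases hl : (gr_ctx S e0 k col).letter i with
  | G inv y o =>
    rw [hl] at h hs
    have hle := hK.le _ h.2.2.1
    exact gct_cU_eq_of_agree (Nat.le_add_right _ _) hs.1 hs.2 _ (Or.inr hle)
  | S o a b =>
    rw [hl] at h hs
    have hle := hK.le _ h.2.2.1
    obtain ⟨h1, h2, h3⟩ := hs
    refine gct_cU_eq_of_agree (Nat.le_add_right o (a + b)) h1 ?_ _ (Or.inr hle)
    have e1 := gct_nU_add (col i) (Nat.le_add_right o a) (show o + a ≤ o + a + b by omega)
    have e2 := gct_nU_add (col (i + 1)) (Nat.le_add_right o b) (show o + b ≤ o + b + a by omega)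
    have e3 : o + (a + b) = o + a + b := by omega
    have e4 : o + (a + b) = o + b + a := by omega
    have g1 : gr_nU (col i) o (o + (a + b)) =
        gr_nU (col i) o (o + a) + gr_nU (col i) (o + a) (o + a + b) := by rw [e3]; exact e1.symm
    have g2 : gr_nU (col (i + 1)) o (o + (a + b)) =
        gr_nU (col (i + 1)) o (o + b) + gr_nU (col (i + 1)) (o + b) (o + b + a) := by
      rw [e4]; exact e2.symm
    rw [g1, g2]
    omega
  | L lam =>
    rw [hl] at hs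
    have : col (i + 1) = col i := hs
    rw [this]

/-- every colouring has exactly `k` indices of colour `U` -/
theorem gsd_col_cnt (hyp : gr_Hyp N R S e0 k) {col : ℕ → ℕ → Bool}
    (hC : (gr_ctx S e0 k col).WF) (i : ℕ) (hi : i ≤ (gr_ctx S e0 k col).len) :
    gr_cU (col i) (gr_ctx S e0 k col).n = k := by
  induction i with
  | zero =>
    have h0 : col 0 = fun j => decide (j < k) := funext hC.base
    rw [h0, gct_cU_prefix]
    have : k < (gr_ctx S e0 k col).n := hyp.ltn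
    omega
  | succ i ih => rw [gsd_cnt_step hyp hC hi, ih (by omega)]

/-- the data `gr_CF` at the frame `i` -/
theorem gsd_CF (hyp : gr_Hyp N R S e0 k) {col : ℕ → ℕ → Bool}
    (hC : (gr_ctx S e0 k col).WF) (i : ℕ) (hi : i ≤ (gr_ctx S e0 k col).len) :
    gr_CF N (gr_ctx S e0 k col).n k ((gr_ctx S e0 k col).K i) (col i) := by
  have hK := gsd_K_ok hyp col i hi
  exact ⟨gsd_n_le hyp col, hK.zero, hK.top, hK.le, ⟨hC.beyond i, hC.adapted i⟩,
    gsd_col_cnt hyp hC i hi⟩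

end ctx

end Claimed.Agent.R236
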