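import Mathlib
import Claimed.Agent.R236.GSoundB
import Claimed.Agent.R236.GMatUni

/-!
# Row 236, REDUCE, SB4 (SOUND), part C: the abstract assembly (owner helper188, prefix gsd_)

From the list of facts `gsd_Facts` we get: every `gr_u i` lies in `U(K_{i+1})` and `∏ M_i u_i = 1`.
-/

set_option autoImplicit false

namespace Claimed.Agent.R236

section monoid
variable {G : Type} [Monoid G]

/-- telescoping product, hypotheses only where needed -/
theorem gsd_telescope' (A A' X : ℕ → G) (m : ℕ) (hA : ∀ i, i ≤ m → A' i * A i = 1) :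
    ((List.range (m + 1)).map fun i => A i * X i * A' (i + 1)).prod =
      A 0 * ((List.range (m + 1)).map X).prod * A' (m + 1) := by
  induction m with
  | zero => simp
  | succ m ih =>
    rw [List.range_succ, List.map_append, List.prod_append, List.map_append, List.prod_append,
      ih fun i hi => hA i (by omega)]
    simp only [List.map_cons, List.map_nil, List.prod_cons, List.prod_nil, mul_one]
    calc A 0 * ((List.range (m + 1)).map X).prod * A' (m + 1) *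
          (A (m + 1) * X (m + 1) * A' (m + 1 + 1))
        = A 0 * ((List.range (m + 1)).map X).prod * (A' (m + 1) * A (m + 1)) * X (m + 1) *
          A' (m + 1 + 1) := by simp only [mul_assoc]
      _ = _ := by rw [hA (m + 1) le_rfl, mul_one]; simp only [mul_assoc]

/-- the algebra of one step -/
theorem gsd_step_identity (m m' r er' D1 D1' zf cc el1' r1' el el' d d' : G)
    (hm : m * m' = 1) (hel : el * el' = 1) (hd : d * d' = 1) :
    m * (m' * r * m * er' * (D1 * zf * D1') * cc * el1' * r1') =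
      r * el * d * ((d' * el' * m * er' * D1) * zf) * (D1' * cc * el1' * r1') := by
  have h1 : m * (m' * r * m * er' * (D1 * zf * D1') * cc * el1' * r1') =
      (m * m') * (r * m * er' * (D1 * zf * D1') * cc * el1' * r1') := by simp only [mul_assoc]
  have h2 : r * el * d * ((d' * el' * m * er' * D1) * zf) * (D1' * cc * el1' * r1') =
      r * (el * ((d * d') * (el' * (m * er' * (D1 * zf * D1') * cc * el1' * r1')))) := by
    simp only [mul_assoc]
  have h3 : r * (el * (el' * (m * er' * (D1 * zf * D1') * cc * el1' * r1'))) =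
      r * ((el * el') * (m * er' * (D1 * zf * D1') * cc * el1' * r1')) := by
    simp only [mul_assoc]
  rw [h1, h2, hm, hd, one_mul, one_mul, h3, hel, one_mul]
  simp only [mul_assoc]

end monoid

section facts
variable {Y : Type} {N : ℕ}

theorem gsd_w_lt (C : gr_Ctx Y) {i : ℕ} (h : i < C.len) : C.w i = i := Nat.mod_eq_of_lt h

theorem gsd_w_len (C : gr_Ctx Y) : C.w C.len = 0 := Nat.mod_self _

theorem gsd_w_w (C : gr_Ctx Y) (i : ℕ) : C.w (C.w i) = C.w i := Nat.mod_mod _ _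

theorem gsd_nuRad_w (C : gr_Ctx Y) (z : gr_Z Y N) (i : ℕ) :
    gr_nuRad C z (C.w i) = gr_nuRad C z i := by
  unfold gr_nuRad
  rw [gsd_w_w]

/-- a matrix supported on rows `< k` and columns `≥ k` has square zero -/
theorem gsd_UQ_sq {n k : ℕ} {β : gs_Mat N} (h : gr_IsUQ n k β) : β * β = 0 := by
  ext i l
  rw [Matrix.mul_apply, Matrix.zero_apply]
  apply Finset.sum_eq_zero
  intro j _
  by_contra hne
  have h1 := h i j (left_ne_zero_of_mul hne)
  have h2 := h j l (right_ne_zero_of_mul hne)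
  omega

/-- the facts from which soundness of the deleted equation follows -/
structure gsd_Facts (C : gr_Ctx Y) (e0 E0 : ℕ) (P : gr_Corr N) (z : gr_Z Y N) : Prop where
  len_pos : 0 < C.len
  M_unit : ∀ i, i < C.len → IsUnit (gr_M C z i).det
  D_unit : ∀ i, i ≤ C.len → IsUnit (gr_D C z i).det
  D_len : gr_D C z C.len = gr_D C z 0
  K_len : C.K C.len = C.K 0
  EL : ∀ i, i < C.len → gs_IsUni C.n (C.K i) (gr_EL C e0 E0 P z i)
  ER : ∀ i, i < C.len → gs_IsUni C.n (C.K (i + 1)) (gr_ER C e0 E0 P z i)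
  rad : ∀ i, i < C.len → gs_IsUni C.n (C.K i) (gr_nuRad C z i)
  radc : ∀ i, i < C.len →
    gs_IsUni C.n (C.K (i + 1)) ((gr_M C z i)⁻¹ * gr_nuRad C z i * gr_M C z i)
  fr : ∀ i, i < C.len →
    gs_IsUni C.n (C.K (i + 1)) (gr_D C z (i + 1) * gr_Zfr C e0 E0 z i * (gr_D C z (i + 1))⁻¹)
  tot : ∃ β, gr_IsUQ C.n C.k β ∧ gr_Ztot C e0 E0 P z = 1 + β
  close : ∀ β, gr_IsUQ C.n C.k β → gs_IsUni C.n (C.K 0) (gr_D C z 0 * (1 - β) * (gr_D C z 0)⁻¹)

variable {C : gr_Ctx Y} {e0 E0 : ℕ} {P : gr_Corr N} {z : gr_Z Y N}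

theorem gsd_K_w (F : gsd_Facts C e0 E0 P z) {i : ℕ} (hi : i ≤ C.len) : C.K (C.w i) = C.K i := by
  rcases hi.lt_or_eq with h | h
  · rw [gsd_w_lt C h]
  · rw [h, gsd_w_len, F.K_len]

theorem gsd_w_lt_len (F : gsd_Facts C e0 E0 P z) (i : ℕ) : C.w i < C.len :=
  Nat.mod_lt _ F.len_pos

theorem gsd_EL_w (F : gsd_Facts C e0 E0 P z) {i : ℕ} (hi : i ≤ C.len) :
    gs_IsUni C.n (C.K i) (gr_EL C e0 E0 P z (C.w i)) := by
  have := F.EL (C.w i) (gsd_w_lt_len F i)
  rwa [gsd_K_w F hi] at this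

theorem gsd_rad_w (F : gsd_Facts C e0 E0 P z) {i : ℕ} (hi : i ≤ C.len) :
    gs_IsUni C.n (C.K i) (gr_nuRad C z i) := by
  have := F.rad (C.w i) (gsd_w_lt_len F i)
  rwa [gsd_K_w F hi, gsd_nuRad_w] at this

theorem gsd_two_sub (F : gsd_Facts C e0 E0 P z) :
    ∃ β, gr_IsUQ C.n C.k β ∧ gr_Ztot C e0 E0 P z = 1 + β ∧ 2 - gr_Ztot C e0 E0 P z = 1 - β := by
  obtain ⟨β, h1, h2⟩ := F.tot
  refine ⟨β, h1, h2, ?_⟩
  rw [h2]
  have : (2 : gs_Mat N) = 1 + 1 := by norm_num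
  rw [this]
  abel

/-- the closure correction -/
theorem gsd_corr_uni (F : gsd_Facts C e0 E0 P z) (i : ℕ) :
    gs_IsUni C.n (C.K (i + 1))
      (if i + 1 = C.len then gr_D C z 0 * (2 - gr_Ztot C e0 E0 P z) * (gr_D C z 0)⁻¹ else 1) := by
  split_ifs with h
  · obtain ⟨β, h1, _, h3⟩ := gsd_two_sub F
    rw [h3, h, F.K_len]
    exact F.close β h1
  · exact gm_uni_one _ _

/-- **the new unipotents are unipotent** -/
theorem gsd_u_uni (F : gsd_Facts C e0 E0 P z) {i : ℕ} (hi : i < C.len) :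
    gs_IsUni C.n (C.K (i + 1)) (gr_u C e0 E0 P z i) := by
  unfold gr_u
  exact gm_uni_mul (gm_uni_mul (gm_uni_mul (gm_uni_mul (gm_uni_mul (F.radc i hi)
    (gm_uni_inv (F.ER i hi))) (F.fr i hi)) (gsd_corr_uni F i))
    (gm_uni_inv (gsd_EL_w F hi))) (gm_uni_inv (gsd_rad_w F hi))

/-- `A_i = νrad_i EL_i D_i` -/
noncomputable def gsd_A (C : gr_Ctx Y) (e0 E0 : ℕ) (P : gr_Corr N) (z : gr_Z Y N) (i : ℕ) :
    gs_Mat N := gr_nuRad C z i * gr_EL C e0 E0 P z (C.w i) * gr_D C z i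

/-- the inverse of `A_i` -/
noncomputable def gsd_A' (C : gr_Ctx Y) (e0 E0 : ℕ) (P : gr_Corr N) (z : gr_Z Y N) (i : ℕ) :
    gs_Mat N := (gr_D C z i)⁻¹ * (gr_EL C e0 E0 P z (C.w i))⁻¹ * (gr_nuRad C z i)⁻¹

theorem gsd_A'_mul_A (F : gsd_Facts C e0 E0 P z) {i : ℕ} (hi : i ≤ C.len) :
    gsd_A' C e0 E0 P z i * gsd_A C e0 E0 P z i = 1 := by
  unfold gsd_A gsd_A'
  have h1 := gm_uni_inv_mul (gsd_rad_w F hi)
  have h2 := gm_uni_inv_mul (gsd_EL_w F hi)
  have h3 := Matrix.nonsing_inv_mul _ (F.D_unit i hi)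
  calc (gr_D C z i)⁻¹ * (gr_EL C e0 E0 P z (C.w i))⁻¹ * (gr_nuRad C z i)⁻¹ *
        (gr_nuRad C z i * gr_EL C e0 E0 P z (C.w i) * gr_D C z i)
      = (gr_D C z i)⁻¹ * ((gr_EL C e0 E0 P z (C.w i))⁻¹ * (((gr_nuRad C z i)⁻¹ *
        gr_nuRad C z i) * gr_EL C e0 E0 P z (C.w i))) * gr_D C z i := by simp only [mul_assoc]
    _ = 1 := by rw [h1, one_mul, h2, mul_one, h3]

theorem gsd_A_mul_A' (F : gsd_Facts C e0 E0 P z) {i : ℕ} (hi : i ≤ C.len) :
    gsd_A C e0 E0 P z i * gsd_A' C e0 E0 P z i = 1 :=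
  mul_eq_one_comm.1 (gsd_A'_mul_A F hi)

theorem gsd_A'_len (F : gsd_Facts C e0 E0 P z) :
    gsd_A' C e0 E0 P z C.len = gsd_A' C e0 E0 P z 0 := by
  unfold gsd_A'
  have h0 : C.w 0 = 0 := Nat.zero_mod _
  rw [F.D_len, gsd_w_len, h0, ← gsd_nuRad_w C z C.len, gsd_w_len]

/-- the factor in standard coordinates -/
noncomputable def gsd_X (C : gr_Ctx Y) (e0 E0 : ℕ) (P : gr_Corr N) (z : gr_Z Y N) (i : ℕ) :
    gs_Mat N :=
  gr_Zlet C e0 E0 P z i * gr_Zfr C e0 E0 z i *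
    (if i + 1 = C.len then 2 - gr_Ztot C e0 E0 P z else 1)

/-- one factor of the product -/
theorem gsd_M_mul_u (F : gsd_Facts C e0 E0 P z) {i : ℕ} (hi : i < C.len) :
    gr_M C z i * gr_u C e0 E0 P z i =
      gsd_A C e0 E0 P z i * gsd_X C e0 E0 P z i * gsd_A' C e0 E0 P z (i + 1) := by
  unfold gr_u gsd_A gsd_A' gsd_X gr_Zlet
  rw [gsd_w_lt C hi]
  rw [gsd_step_identity (gr_M C z i) (gr_M C z i)⁻¹ (gr_nuRad C z i) (gr_ER C e0 E0 P z i)⁻¹
    (gr_D C z (i + 1)) (gr_D C z (i + 1))⁻¹ (gr_Zfr C e0 E0 z i) _ _ _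
    (gr_EL C e0 E0 P z i) (gr_EL C e0 E0 P z i)⁻¹ (gr_D C z i) (gr_D C z i)⁻¹
    (Matrix.mul_nonsing_inv _ (F.M_unit i hi)) (gm_uni_mul_inv (F.EL i hi))
    (Matrix.mul_nonsing_inv _ (F.D_unit i hi.le))]
  split_ifs with h
  · have hD : gr_D C z (i + 1) = gr_D C z 0 := by rw [h, F.D_len]
    rw [hD]
    have h3 := Matrix.nonsing_inv_mul _ (F.D_unit 0 (Nat.zero_le _))
    have h4 : (gr_D C z 0)⁻¹ * (gr_D C z 0 * (2 - gr_Ztot C e0 E0 P z) * (gr_D C z 0)⁻¹) =
        (2 - gr_Ztot C e0 E0 P z) * (gr_D C z 0)⁻¹ := by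
      rw [mul_assoc, ← mul_assoc, h3, one_mul]
    rw [h4]
    simp only [mul_assoc]
  · simp only [mul_one, mul_assoc]

/-- the product of the factors in standard coordinates -/
theorem gsd_prod_X (F : gsd_Facts C e0 E0 P z) :
    ((List.range C.len).map (gsd_X C e0 E0 P z)).prod = 1 := by
  obtain ⟨m, hm⟩ := Nat.exists_eq_succ_of_ne_zero F.len_pos.ne'
  obtain ⟨β, h1, h2, h3⟩ := gsd_two_sub F
  have hZ : gr_Ztot C e0 E0 P z =
      ((List.range m).map fun i => gr_Zlet C e0 E0 P z i * gr_Zfr C e0 E0 z i).prod *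
        (gr_Zlet C e0 E0 P z m * gr_Zfr C e0 E0 z m) := by
    unfold gr_Ztot
    rw [hm, List.range_succ, List.map_append, List.prod_append]
    simp
  have hX : ((List.range m).map (gsd_X C e0 E0 P z)) =
      (List.range m).map fun i => gr_Zlet C e0 E0 P z i * gr_Zfr C e0 E0 z i := by
    apply List.map_congr_left
    intro i hi
    rw [List.mem_range] at hi
    unfold gsd_X
    rw [if_neg (by omega), mul_one]
  rw [hm, List.range_succ, List.map_append, List.prod_append, hX]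
  simp only [List.map_cons, List.map_nil, List.prod_cons, List.prod_nil, mul_one]
  unfold gsd_X
  rw [if_pos hm.symm, ← mul_assoc, ← hZ, h3, h2]
  have : (1 + β) * (1 - β) = 1 - β * β := by noncomm_ring
  rw [this, gsd_UQ_sq h1, sub_zero]

/-- **the deleted equation holds** -/
theorem gsd_prod_one (F : gsd_Facts C e0 E0 P z) :
    ((List.range C.len).map fun i => gr_M C z i * gr_u C e0 E0 P z i).prod = 1 := by
  obtain ⟨m, hm⟩ := Nat.exists_eq_succ_of_ne_zero F.len_pos.ne'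
  have h1 : ((List.range C.len).map fun i => gr_M C z i * gr_u C e0 E0 P z i) =
      (List.range C.len).map fun i =>
        gsd_A C e0 E0 P z i * gsd_X C e0 E0 P z i * gsd_A' C e0 E0 P z (i + 1) := by
    apply List.map_congr_left
    intro i hi
    rw [List.mem_range] at hi
    exact gsd_M_mul_u F hi
  rw [h1]
  have h2 := gsd_telescope' (gsd_A C e0 E0 P z) (gsd_A' C e0 E0 P z) (gsd_X C e0 E0 P z) m
    (fun i hi => gsd_A'_mul_A F (by omega))
  have h3 := gsd_prod_X F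
  rw [hm] at h3 ⊢
  rw [h2, h3, mul_one, ← Nat.succ_eq_add_one, ← hm, gsd_A'_len F]
  exact gsd_A_mul_A' F (Nat.zero_le _)

end facts

end Claimed.Agent.R236
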