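import Mathlib
import Claimed.Agent.R236.GLiftB
import Claimed.Agent.R236.GSoundC
import Claimed.Agent.R236.GMatBD
import Claimed.Agent.R236.GMatSwap

/-!
# Row 236, REDUCE, SB3 (LIFT), part C: context facts, interface to SB1, numbers
(owner helper58, prefix `gl_`)

* `gl_GLk`, `gl_SLk`, `StLinkG`, `StLinkS` : what SB3 needs from SB1 about the links of a letter;
* `gl_hval_fam` : the values of the `H i c` form a `gl_Fam`;
* `gl_spLink` : the links of the untouched blocks (from `StUnpackUn`);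
* `gl_colMid_two` : an adapted colouring on an interval made of two blocks;
* numbers of a `G` letter (`gl_gnum_*`) and of a swap (`gl_snum_*`).
-/

set_option autoImplicit false

namespace Claimed.Agent.R236

open Matrix

variable {N : ℕ}

/-! ## interface to SB1 -/

/-- the unipotents and the link equation of a `G` letter (the fields `w0 … w8`, `link` of `gr_GOk`) -/
structure gl_GLk (ν : gr_GNum) (z : gr_GIdx → gs_Mat N) : Prop where
  w0 : gs_IsUni ν.m {0, ν.c, ν.m} (z .w0)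
  w1 : gs_IsUni ν.m {0, ν.v1, ν.c, ν.m} (z .w1)
  w2 : gs_IsUni ν.m {0, ν.v1, ν.c, ν.c + ν.v2, ν.m} (z .w2)
  w3 : gs_IsUni ν.m {0, ν.v1, ν.km, ν.km + ν.p1, ν.m} (z .w3)
  w4 : gs_IsUni ν.m {0, ν.u1, ν.km, ν.km + ν.p1, ν.m} (z .w4)
  w5 : gs_IsUni ν.m {0, ν.u1, ν.km, ν.km + ν.q1, ν.m} (z .w5)
  w6 : gs_IsUni ν.m {0, ν.u1, ν.a, ν.a + ν.u2, ν.m} (z .w6)
  w7 : gs_IsUni ν.m {0, ν.a, ν.a + ν.u2, ν.m} (z .w7)
  w8 : gs_IsUni ν.m {0, ν.a, ν.m} (z .w8)
  link : z .m * z .w0 * z .k1 * z .w1 * gs_emb ν.c (z .k2) * z .w2 *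
      gs_swapMat ν.v1 ν.p1 ν.v2 * z .w3 * (z .yU)⁻¹ * z .w4 * gs_emb ν.km (z .yQ)⁻¹ * z .w5 *
      gs_swapMat ν.u1 ν.u2 ν.q1 * z .w6 * (z .h1)⁻¹ * z .w7 * gs_emb ν.a (z .h2)⁻¹ * z .w8 = 1

/-- the unipotents and the link equations of a swap (the fields `wA*`, `wB*`, `linkA`, `linkB` of
`gr_SOk`) -/
structure gl_SLk (ν : gr_SNum) (z : gr_SIdx → gs_Mat N) : Prop where
  wA0 : gs_IsUni ν.A {0, ν.a + ν.h, ν.A} (z .wA0)
  wA1 : gs_IsUni ν.A {0, ν.a, ν.a + ν.h, ν.A} (z .wA1)
  wA2 : gs_IsUni ν.A {0, ν.a, ν.A} (z .wA2)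
  wA3 : gs_IsUni ν.A {0, ν.A} (z .wA3)
  wB0 : gs_IsUni ν.B {0, ν.b, ν.B} (z .wB0)
  wB1 : gs_IsUni ν.B {0, ν.b, ν.b + ν.h, ν.B} (z .wB1)
  wB2 : gs_IsUni ν.B {0, ν.b + ν.h, ν.B} (z .wB2)
  wB3 : gs_IsUni ν.B {0, ν.B} (z .wB3)
  linkA : z .hAp * z .wA0 * z .s * z .wA1 * gs_emb ν.a (z .r)⁻¹ * z .wA2 * (z .hAm)⁻¹ * z .wA3 = 1
  linkB : z .hBp * z .wB0 * gs_emb ν.b (z .v) * z .wB1 * (z .t)⁻¹ * z .wB2 * (z .hBm)⁻¹ * z .wB3 = 1

/-- SB1 → SB3: the link of a `G` letter, read off a locally admissible point -/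
def StLinkG (N : ℕ) (R : Subring ℂ) : Prop :=
  ∀ (Y : Type) (S : gs_Sys Y) (e0 k : ℕ), gr_Hyp N R S e0 k →
    ∀ col, (gr_ctx S e0 k col).WF → ∀ z : gr_Z Y N,
      let C := gr_ctx S e0 k col
      ∀ i, i < C.len → gr_LocAdm C e0 S.eqs.length z i → ∀ inv y o, C.letter i = .G inv y o →
        gl_GLk (gr_gnum (C.col i) (C.col (i + 1)) o (C.sig y).rk ((C.sig y).src inv)
          ((C.sig y).tgt inv)) (gr_readG C S.eqs.length z i inv y o)

/-- SB1 → SB3: the links of a swap, read off a locally admissible point -/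
def StLinkS (N : ℕ) (R : Subring ℂ) : Prop :=
  ∀ (Y : Type) (S : gs_Sys Y) (e0 k : ℕ), gr_Hyp N R S e0 k →
    ∀ col, (gr_ctx S e0 k col).WF → ∀ z : gr_Z Y N,
      let C := gr_ctx S e0 k col
      ∀ i, i < C.len → gr_LocAdm C e0 S.eqs.length z i → ∀ o A B, C.letter i = .S o A B →
        gl_SLk (gr_snum (C.col i) (C.col (i + 1)) o A B) (gr_readS C e0 S.eqs.length z i o A B).1

/-! ## context facts -/

section ctx

variable {Y : Type} {R : Subring ℂ} {S : gs_Sys Y} {e0 k : ℕ}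

theorem gl_K_w (hyp : gr_Hyp N R S e0 k) (col : ℕ → ℕ → Bool) {i : ℕ}
    (hi : i ≤ (gr_ctx S e0 k col).len) :
    (gr_ctx S e0 k col).K ((gr_ctx S e0 k col).w i) = (gr_ctx S e0 k col).K i := by
  rcases hi.lt_or_eq with h | h
  · rw [gsd_w_lt _ h]
  · rw [h, gsd_w_len, gsd_K_len hyp col]

/-- the values of the `H i c` -/
theorem gl_hval_fam (hyp : gr_Hyp N R S e0 k) (col : ℕ → ℕ → Bool) (z : gr_Z Y N)
    (hnew : ∀ v, gr_GL ((gr_ctx S e0 k col).nsig v).rk (gr_nval z v)) {i : ℕ}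
    (hi : i ≤ (gr_ctx S e0 k col).len) :
    gl_Fam (gr_ctx S e0 k col).n ((gr_ctx S e0 k col).K i) (gr_hval (gr_ctx S e0 k col) z i) := by
  intro c hc hcn
  have h1 := hnew (.H ((gr_ctx S e0 k col).w i) c)
  have hw : (gr_ctx S e0 k col).w i < (gr_ctx S e0 k col).len :=
    Nat.mod_lt _ (gsd_len_pos hyp col)
  have hKw := gl_K_w hyp col hi
  simp only [gr_Ctx.nsig] at h1
  rw [if_pos ⟨hw, by rw [hKw]; exact hc, hcn⟩, hKw] at h1
  exact h1

/-- the links of the untouched blocks -/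
theorem gl_spLink (hUn : StUnpackUn N R) (hyp : gr_Hyp N R S e0 k) {col : ℕ → ℕ → Bool}
    (hC : (gr_ctx S e0 k col).WF) (z : gr_Z Y N) {i : ℕ} (hi : i < (gr_ctx S e0 k col).len)
    (hadm : gr_LocAdm (gr_ctx S e0 k col) e0 S.eqs.length z i) :
    gl_SpLink (gr_ctx S e0 k col).n ((gr_ctx S e0 k col).K i) (col i)
      (gs_mid S.sig ((gr_ctx S e0 k col).letter i)).1
      (gs_mid S.sig ((gr_ctx S e0 k col).letter i)).2
      (gr_hval (gr_ctx S e0 k col) z i) (gr_hval (gr_ctx S e0 k col) z (i + 1)) := by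
  intro c hc
  obtain ⟨hcK, hcn, hco⟩ := hc
  have hnN := gsd_n_le hyp col
  have h1 := hadm.link (c + 2) (by omega)
  have hls : (gr_ctx S e0 k col).E.ls[i]? = some ((gr_ctx S e0 k col).letter i) := by
    rw [gsd_letter_eq col hi]
    exact List.getElem?_eq_getElem hi
  have hlk : (gr_ctx S e0 k col).link i (c + 2) = (gr_ctx S e0 k col).linkUn i c := by
    unfold gr_Ctx.link
    rw [hls]
    simp only
    rw [if_pos ⟨hcK, hcn, hco⟩]
  rw [hlk] at h1
  have h2 := (hUn Y S e0 k hyp col hC _ z hadm.new i c hi hcK hcn hco).1 h1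
  exact ⟨_, h2.1, h2.2.2⟩

end ctx

/-! ## colourings of an interval made of two blocks -/

theorem gl_colMid_two {n : ℕ} {K : Finset ℕ} {c : ℕ → Bool} (had : gr_Adapted n K c) {o m a : ℕ}
    (hmid : gs_midOK K o m a) (homn : o + m ≤ n) :
    gr_colMid c o m =
      fun j => decide (j < gr_nU c o (o + a) ∨ (a ≤ j ∧ j < a + gr_nU c (o + a) (o + m))) := by
  obtain ⟨_, _, _, h4, h5⟩ := hmid
  have hno1 : ∀ d ∈ K, o < d → d < o + a → False := fun d hd h1 h2 => by
    have := h5 d hd h1 (by omega); omega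
  have hno2 : ∀ d ∈ K, o + a < d → d < o + m → False := fun d hd h1 h2 => by
    have := h5 d hd (by omega) h2; omega
  have e1 := gct_nU_le c (lo := o) (hi := o + a) (by omega)
  have e2 := gct_nU_le c (lo := o + a) (hi := o + m) (by omega)
  funext j
  unfold gr_colMid
  by_cases hjm : j < m
  · by_cases hja : j < a
    · have h := gl_adapted_block had (lo := o) (hi := o + a) (by omega) hno1 (t := o + j)
        (by omega) (by omega)
      by_cases hc : c (o + j) = true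
      · have := h.1 hc
        simp only [hjm, hc, decide_true, Bool.and_self]
        symm; rw [decide_eq_true_iff]; left; omega
      · have hc' : c (o + j) = false := by simpa using hc
        have : ¬ (o + j < o + gr_nU c o (o + a)) := fun h' => hc (h.2 h')
        simp only [hc', Bool.and_false]
        symm; rw [decide_eq_false_iff_not]; omega
    · have h := gl_adapted_block had (lo := o + a) (hi := o + m) homn hno2 (t := o + j)
        (by omega) (by omega)
      by_cases hc : c (o + j) = true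
      · have := h.1 hc
        simp only [hjm, hc, decide_true, Bool.and_self]
        symm; rw [decide_eq_true_iff]; right; omega
      · have hc' : c (o + j) = false := by simpa using hc
        have : ¬ (o + j < o + a + gr_nU c (o + a) (o + m)) := fun h' => hc (h.2 h')
        simp only [hc', Bool.and_false]
        symm; rw [decide_eq_false_iff_not]; omega
  · simp only [hjm, decide_false, Bool.false_and]
    symm; rw [decide_eq_false_iff_not]; omega

/-! ## the numbers of a `G` letter -/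

section gnum
variable (cb ca : ℕ → Bool) (o m a c : ℕ)

theorem gl_gnum_a : (gr_gnum cb ca o m a c).a = a := by
  have := gct_nU_add_nQ cb (lo := o) (hi := o + a) (by omega)
  simp only [gr_gnum, gr_GNum.a]; omega

theorem gl_gnum_c : (gr_gnum cb ca o m a c).c = c := by
  have := gct_nU_add_nQ ca (lo := o) (hi := o + c) (by omega)
  simp only [gr_gnum, gr_GNum.c]; omega

theorem gl_gnum_m (ha : a ≤ m) : (gr_gnum cb ca o m a c).m = m := by
  have e1 := gct_nU_add_nQ cb (lo := o) (hi := o + a) (by omega)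
  have e2 := gct_nU_add_nQ cb (lo := o + a) (hi := o + m) (by omega)
  simp only [gr_gnum, gr_GNum.m]; omega

theorem gl_gnum_km (ha : a ≤ m) : (gr_gnum cb ca o m a c).km = gr_nU cb o (o + m) := by
  have e1 := gct_nU_add cb (lo := o) (mid := o + a) (hi := o + m) (by omega) (by omega)
  simp only [gr_gnum, gr_GNum.km]; omega

theorem gl_gnum_uq2 (ha : a ≤ m) :
    (gr_gnum cb ca o m a c).u2 + (gr_gnum cb ca o m a c).q2 = m - a := by
  have e2 := gct_nU_add_nQ cb (lo := o + a) (hi := o + m) (by omega)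
  simp only [gr_gnum]; omega

theorem gl_gnum_vp2 (hc : c ≤ m) :
    (gr_gnum cb ca o m a c).v2 + (gr_gnum cb ca o m a c).p2 = m - c := by
  have e2 := gct_nU_add_nQ ca (lo := o + c) (hi := o + m) (by omega)
  simp only [gr_gnum]; omega

theorem gl_gnum_ok (ha : a ≤ m) (hc : c ≤ m) (hcnt : gr_nU ca o (o + m) = gr_nU cb o (o + m)) :
    (gr_gnum cb ca o m a c).Ok := by
  have e1 := gct_nU_add cb (lo := o) (mid := o + a) (hi := o + m) (by omega) (by omega)
  have e2 := gct_nU_add ca (lo := o) (mid := o + c) (hi := o + m) (by omega) (by omega)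
  have e3 := gct_nQ_add cb (lo := o) (mid := o + a) (hi := o + m) (by omega) (by omega)
  have e4 := gct_nQ_add ca (lo := o) (mid := o + c) (hi := o + m) (by omega) (by omega)
  have e5 := gct_nU_add_nQ cb (lo := o) (hi := o + m) (by omega)
  have e6 := gct_nU_add_nQ ca (lo := o) (hi := o + m) (by omega)
  simp only [gr_gnum, gr_GNum.Ok]; omega

end gnum

theorem gl_gnum_cb {n : ℕ} {K : Finset ℕ} {cb : ℕ → Bool} (ca : ℕ → Bool)
    (had : gr_Adapted n K cb) {o m a : ℕ} (c : ℕ) (hmid : gs_midOK K o m a) (homn : o + m ≤ n) :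
    (gr_gnum cb ca o m a c).cb = gr_colMid cb o m := by
  rw [gl_colMid_two had hmid homn]
  unfold gr_GNum.cb
  rw [gl_gnum_a cb ca o m a c]
  rfl

theorem gl_gnum_ca {n : ℕ} {K' : Finset ℕ} (cb : ℕ → Bool) {ca : ℕ → Bool}
    (had : gr_Adapted n K' ca) {o m c : ℕ} (a : ℕ) (hmid : gs_midOK K' o m c) (homn : o + m ≤ n) :
    (gr_gnum cb ca o m a c).ca = gr_colMid ca o m := by
  rw [gl_colMid_two had hmid homn]
  unfold gr_GNum.ca
  rw [gl_gnum_c cb ca o m a c]
  rfl

end Claimed.Agent.R236
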