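import Mathlib
import Claimed.Agent.R236.GLiftC

/-!
# Row 236, REDUCE, SB3 (LIFT), part G: the case of a letter `G` (owner helper58, prefix `gl_`)
-/

set_option autoImplicit false

namespace Claimed.Agent.R236

open Matrix

variable {N : ℕ}

theorem gl_GL_one (m : ℕ) : gr_GL m (1 : gs_Mat N) := ⟨by simp, gm_corner_one m⟩

theorem gl_GL_inv {m : ℕ} {A : gs_Mat N} (h : gr_GL m A) : gr_GL m A⁻¹ :=
  ⟨by rw [Matrix.det_nonsing_inv]; exact h.1.ringInverse, gm_corner_inv h.2 h.1⟩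

theorem gl_GL_mul {m : ℕ} {A B : gs_Mat N} (hA : gr_GL m A) (hB : gr_GL m B) : gr_GL m (A * B) :=
  ⟨by rw [Matrix.det_mul]; exact hA.1.mul hB.1, gm_corner_mul hA.2 hB.2⟩

theorem gl_GL_mono {m m' : ℕ} (h : m ≤ m') {A : gs_Mat N} (hA : gr_GL m A) : gr_GL m' A :=
  ⟨hA.1, gm_corner_mono h hA.2⟩

theorem gl_GL_uni {n : ℕ} {K : Finset ℕ} {u : gs_Mat N} (h : gs_IsUni n K u) : gr_GL n u :=
  ⟨gm_uni_isUnit h, gm_uni_corner h⟩

theorem gl_GL_emb {m o : ℕ} {A : gs_Mat N} (hA : gr_GL m A) (h : o + m ≤ N) :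
    gr_GL (o + m) (gs_emb o A) := ⟨gm_emb_isUnit hA.2 hA.1 h, gm_emb_corner o hA.2⟩

/-- the block `[o,o+a)` -/
theorem gl_fam_left {n : ℕ} {K : Finset ℕ} (hle : ∀ d ∈ K, d ≤ n) {o m a : ℕ}
    (hmid : gs_midOK K o m a) {h : ℕ → gs_Mat N} (hh : gl_Fam n K h) :
    gr_GL a (if 0 < a then h o else 1) := by
  have homn : o + m ≤ n := hle _ hmid.2.2.1
  by_cases ha : 0 < a
  · rw [if_pos ha]
    have := hh o hmid.1 (by have := hmid.2.2.2.1; omega)
    rwa [gl_nxt_mid_left hmid ha, Nat.add_sub_cancel_left] at this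
  · rw [if_neg ha]; exact gl_GL_one _

/-- the block `[o+a,o+m)` -/
theorem gl_fam_right {n : ℕ} {K : Finset ℕ} (hle : ∀ d ∈ K, d ≤ n) {o m a : ℕ}
    (hmid : gs_midOK K o m a) {h : ℕ → gs_Mat N} (hh : gl_Fam n K h) :
    gr_GL (m - a) (if a < m then h (o + a) else 1) := by
  have homn : o + m ≤ n := hle _ hmid.2.2.1
  by_cases ha : a < m
  · rw [if_pos ha]
    have := hh (o + a) hmid.2.1 (by omega)
    rwa [gl_nxt_mid_right hmid ha, Nat.add_sub_add_left] at this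
  · rw [if_neg ha]; exact gl_GL_one _

section ctx

variable {Y : Type} {R : Subring ℂ} {S : gs_Sys Y} {e0 k : ℕ}

theorem gl_ls_get (col : ℕ → ℕ → Bool) {i : ℕ} (hi : i < (gr_ctx S e0 k col).len) :
    (gr_ctx S e0 k col).E.ls[i]? = some ((gr_ctx S e0 k col).letter i) := by
  rw [gsd_letter_eq col hi]
  exact List.getElem?_eq_getElem hi

/-- the local data of a `G` letter are admissible -/
theorem gl_GOk (hLG : StLinkG N R) (hyp : gr_Hyp N R S e0 k) {col : ℕ → ℕ → Bool}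
    (hC : (gr_ctx S e0 k col).WF) (z : gr_Z Y N) {i : ℕ} (hi : i < (gr_ctx S e0 k col).len)
    (hadm : gr_LocAdm (gr_ctx S e0 k col) e0 S.eqs.length z i) {inv : Bool} {y : Y} {o : ℕ}
    (hl : (gr_ctx S e0 k col).letter i = .G inv y o) :
    gr_GOk (gr_gnum (col i) (col (i + 1)) o (S.sig y).rk ((S.sig y).src inv) ((S.sig y).tgt inv))
      (gr_readG (gr_ctx S e0 k col) S.eqs.length z i inv y o) := by
  have hlk := hLG Y S e0 k hyp col hC z i hi hadm inv y o hl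
  have happ := gsd_app hyp col hi
  have hKs := gsd_K_succ (S := S) (e0 := e0) (k := k) col hi
  have hst := gsd_stepOK hC hi
  rw [hl] at happ hKs hst
  have hmid : gs_midOK ((gr_ctx S e0 k col).K i) o (S.sig y).rk ((S.sig y).src inv) := happ
  have hct : (S.sig y).tgt inv ≤ (S.sig y).rk := gsd_tgt_le (gsd_hyp_sig hyp y) inv
  have hmid' : gs_midOK ((gr_ctx S e0 k col).K (i + 1)) o (S.sig y).rk ((S.sig y).tgt inv) := by
    rw [hKs]; exact gl_midOK_cutRepl hmid hct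
  have hF := gl_hval_fam hyp col z hadm.new hi.le
  have hF' := gl_hval_fam hyp col z hadm.new (Nat.succ_le_of_lt hi)
  have hK := gsd_K_ok hyp col i hi.le
  have hK' := gsd_K_ok hyp col (i + 1) (Nat.succ_le_of_lt hi)
  have hls := gl_ls_get (S := S) (e0 := e0) (k := k) col hi
  rw [hl] at hls
  have ha := hmid.2.2.2.1
  refine ⟨?_, ?_, ?_, ?_, ?_, ?_, ?_, hlk.w0, hlk.w1, hlk.w2, hlk.w3, hlk.w4, hlk.w5, hlk.w6,
    hlk.w7, hlk.w8, hlk.link⟩
  · rw [gl_gnum_a]; exact gl_fam_left hK.le hmid hF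
  · rw [gl_gnum_uq2 _ _ _ _ _ _ ha]; exact gl_fam_right hK.le hmid hF
  · rw [gl_gnum_c]; exact gl_fam_left hK'.le hmid' hF'
  · rw [gl_gnum_vp2 _ _ _ _ _ _ hct]; exact gl_fam_right hK'.le hmid' hF'
  · rw [gl_gnum_km _ _ _ _ _ _ ha]
    have h1 := hadm.new (.YU i)
    simp only [gr_Ctx.nsig, hls] at h1
    exact h1
  · rw [gl_gnum_km _ _ _ _ _ _ ha, gl_gnum_m _ _ _ _ _ _ ha]
    have h1 := hadm.new (.YQ i)
    simp only [gr_Ctx.nsig, hls] at h1
    have e := gct_nU_add_nQ (col i) (lo := o) (hi := o + (S.sig y).rk) (by omega)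
    have e' : (S.sig y).rk - gr_nU (col i) o (o + (S.sig y).rk)
        = gr_nQ (col i) o (o + (S.sig y).rk) := by omega
    rw [e']
    exact h1
  · rw [gl_gnum_m _ _ _ _ _ _ ha]
    have h1 := hadm.old y
    cases inv
    · exact h1
    · exact gl_GL_inv h1

/-- **LIFT** in the context of a reduction -/
theorem gl_lift_ctx (hSh : StShInv N) (hLoc : StLocality N) (hTM : StTriMul N)
    (hUn : StUnpackUn N R) (hyp : gr_Hyp N R S e0 k) {col : ℕ → ℕ → Bool}
    (hC : (gr_ctx S e0 k col).WF) (z : gr_Z Y N) {i : ℕ} (hi : i < (gr_ctx S e0 k col).len)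
    (hadm : gr_LocAdm (gr_ctx S e0 k col) e0 S.eqs.length z i) {o m a c : ℕ}
    (hml : gs_mid S.sig ((gr_ctx S e0 k col).letter i) = (o, m))
    (hmid : gs_midOK ((gr_ctx S e0 k col).K i) o m a)
    (hKs : (gr_ctx S e0 k col).K (i + 1) = gs_cutRepl ((gr_ctx S e0 k col).K i) o m c)
    (hc : c ≤ m) (hcol : ∀ j, j < o ∨ o + m ≤ j → col (i + 1) j = col i j)
    (hcnt : gr_nU (col (i + 1)) o (o + m) = gr_nU (col i) o (o + m))
    {X XU XQ : gs_Mat N} (hX : gs_IsCorner m X)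
    (hXU : gs_IsCorner (gr_nU (col i) o (o + m)) XU)
    (hXQ : gs_IsCorner (m - gr_nU (col i) o (o + m)) XQ)
    (hT : gr_Tri m (gr_nU (col i) o (o + m)) XU XQ
      ((gl_dmid o m a (gr_hval (gr_ctx S e0 k col) z i) *
          gr_sh (gr_colMid (col i) o m) m (gr_nU (col i) o (o + m)))⁻¹ * X *
        (gl_dmid o m c (gr_hval (gr_ctx S e0 k col) z (i + 1)) *
          gr_sh (gr_colMid (col (i + 1)) o m) m (gr_nU (col i) o (o + m))))) :
    gr_Tri (gr_ctx S e0 k col).n k (gs_emb (gr_cU (col i) o) XU) (gs_emb (gr_cQ (col i) o) XQ)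
      ((gr_D (gr_ctx S e0 k col) z i)⁻¹ * gs_emb o X * gr_D (gr_ctx S e0 k col) z (i + 1)) := by
  have hF := gl_hval_fam hyp col z hadm.new hi.le
  have hF' := gl_hval_fam hyp col z hadm.new (Nat.succ_le_of_lt hi)
  have hsp := gl_spLink hUn hyp hC z hi hadm
  rw [hml] at hsp
  rw [hKs] at hF'
  have h := gl_lift hSh hLoc hTM (gsd_CF hyp hC i hi.le) (hC.beyond (i + 1)) hmid hc hcol hcnt
    hF hF' hsp hX hXU hXQ hT
  rw [← hKs] at h
  exact h

/-- **the case of a letter `G`** -/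
theorem gl_loc_G (hSh : StShInv N) (hLoc : StLocality N) (hTM : StTriMul N)
    (hUn : StUnpackUn N R) (hLG : StLinkG N R) (P : gr_Corr N) (hP : P.OK R)
    (hyp : gr_Hyp N R S e0 k) {col : ℕ → ℕ → Bool}
    (hC : (gr_ctx S e0 k col).WF) (z : gr_Z Y N) {i : ℕ} (hi : i < (gr_ctx S e0 k col).len)
    (hadm : gr_LocAdm (gr_ctx S e0 k col) e0 S.eqs.length z i) {inv : Bool} {y : Y} {o : ℕ}
    (hl : (gr_ctx S e0 k col).letter i = .G inv y o) :
    gs_IsUni (gr_ctx S e0 k col).n ((gr_ctx S e0 k col).K i)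
      (gr_EL (gr_ctx S e0 k col) e0 S.eqs.length P z i) ∧
    gs_IsUni (gr_ctx S e0 k col).n ((gr_ctx S e0 k col).K (i + 1))
      (gr_ER (gr_ctx S e0 k col) e0 S.eqs.length P z i) ∧
    gr_Tri (gr_ctx S e0 k col).n (gr_ctx S e0 k col).k (gr_XUlet (gr_ctx S e0 k col) e0 z i)
      (gr_XQlet (gr_ctx S e0 k col) S.eqs.length z i)
      (gr_Zlet (gr_ctx S e0 k col) e0 S.eqs.length P z i) := by
  have hOk := gl_GOk hLG hyp hC z hi hadm hl
  have happ := gsd_app hyp col hi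
  have hKs := gsd_K_succ (S := S) (e0 := e0) (k := k) col hi
  have hst := gsd_stepOK hC hi
  rw [hl] at happ hKs hst
  have hmid : gs_midOK ((gr_ctx S e0 k col).K i) o (S.sig y).rk ((S.sig y).src inv) := happ
  have hct : (S.sig y).tgt inv ≤ (S.sig y).rk := gsd_tgt_le (gsd_hyp_sig hyp y) inv
  have hKs' : (gr_ctx S e0 k col).K (i + 1) =
      gs_cutRepl ((gr_ctx S e0 k col).K i) o (S.sig y).rk ((S.sig y).tgt inv) := hKs
  have hmid' : gs_midOK ((gr_ctx S e0 k col).K (i + 1)) o (S.sig y).rk ((S.sig y).tgt inv) := by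
    rw [hKs']; exact gl_midOK_cutRepl hmid hct
  have hK := gsd_K_ok hyp col i hi.le
  have hK' := gsd_K_ok hyp col (i + 1) (Nat.succ_le_of_lt hi)
  have hCF := gsd_CF hyp hC i hi.le
  have hCF' := gsd_CF hyp hC (i + 1) (Nat.succ_le_of_lt hi)
  have hnN := gsd_n_le hyp col
  have homn : o + (S.sig y).rk ≤ (gr_ctx S e0 k col).n := hK.le _ hmid.2.2.1
  have ha := hmid.2.2.2.1
  obtain ⟨hcol, hcnt⟩ : (∀ j, j < o ∨ o + (S.sig y).rk ≤ j → col (i + 1) j = col i j) ∧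
      gr_nU (col (i + 1)) o (o + (S.sig y).rk) = gr_nU (col i) o (o + (S.sig y).rk) := hst
  set ν := gr_gnum (col i) (col (i + 1)) o (S.sig y).rk ((S.sig y).src inv) ((S.sig y).tgt inv)
    with hν
  set dat := gr_readG (gr_ctx S e0 k col) S.eqs.length z i inv y o with hdat
  have eνa : ν.a = (S.sig y).src inv := gl_gnum_a _ _ _ _ _ _
  have eνc : ν.c = (S.sig y).tgt inv := gl_gnum_c _ _ _ _ _ _
  have eνm : ν.m = (S.sig y).rk := gl_gnum_m _ _ _ _ _ _ ha
  have eνk : ν.km = gr_nU (col i) o (o + (S.sig y).rk) := gl_gnum_km _ _ _ _ _ _ ha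
  have eνcb : ν.cb = gr_colMid (col i) o (S.sig y).rk := gl_gnum_cb _ hCF.ad _ hmid homn
  have eνca : ν.ca = gr_colMid (col (i + 1)) o (S.sig y).rk := gl_gnum_ca _ hCF'.ad _ hmid' homn
  have hνOk : ν.Ok := gl_gnum_ok _ _ _ _ _ _ ha hct hcnt
  obtain ⟨hEL, hER, hT⟩ := (hP.G ν hνOk (by rw [eνm]; omega)).2.2.1 dat hOk
  rw [eνm, eνa] at hEL
  rw [eνm, eνc] at hER
  set el := P.ELG ν dat with hel
  set er := P.ERG ν dat with her
  have hELeq : gr_EL (gr_ctx S e0 k col) e0 S.eqs.length P z i = gs_emb o el := by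
    simp only [gr_EL, hl]; rfl
  have hEReq : gr_ER (gr_ctx S e0 k col) e0 S.eqs.length P z i = gs_emb o er := by
    simp only [gr_ER, hl]; rfl
  have hMeq : gr_M (gr_ctx S e0 k col) z i = gs_emb o (dat .m) := by
    simp only [gr_M, hl, gs_Letter.map]
    cases inv <;> rfl
  have hXUeq : gr_XUlet (gr_ctx S e0 k col) e0 z i = gs_emb (gr_cU (col i) o) (dat .yU) := by
    simp only [gr_XUlet, hl]; rfl
  have hXQeq : gr_XQlet (gr_ctx S e0 k col) S.eqs.length z i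
      = gs_emb (gr_cQ (col i) o) (dat .yQ) := by
    simp only [gr_XQlet, hl]; rfl
  have hoN : o + (S.sig y).rk ≤ N := by omega
  refine ⟨?_, ?_, ?_⟩
  · rw [hELeq]
    refine gm_uni_emb hEL ?_ homn
    intro c hc
    simp only [Finset.mem_insert, Finset.mem_singleton] at hc
    rcases hc with rfl | rfl | rfl
    · exact hmid.1
    · exact hmid.2.1
    · exact hmid.2.2.1
  · rw [hEReq]
    refine gm_uni_emb hER ?_ homn
    intro c hc
    simp only [Finset.mem_insert, Finset.mem_singleton] at hc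
    rcases hc with rfl | rfl | rfl
    · exact hmid'.1
    · exact hmid'.2.1
    · exact hmid'.2.2.1
  · have hm := hOk.m
    have hyU := hOk.yU
    have hyQ := hOk.yQ
    rw [eνm] at hm
    rw [eνk] at hyU
    rw [eνm, eνk] at hyQ
    have hel' := gl_GL_inv (gl_GL_uni hEL)
    have her' := gl_GL_inv (gl_GL_uni hER)
    have hX : gs_IsCorner (S.sig y).rk (el⁻¹ * dat .m * er⁻¹) :=
      gm_corner_mul (gm_corner_mul hel'.2 hm.2) her'.2
    have hT' : gr_Tri (S.sig y).rk (gr_nU (col i) o (o + (S.sig y).rk)) (dat .yU) (dat .yQ)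
        ((gl_dmid o (S.sig y).rk ((S.sig y).src inv) (gr_hval (gr_ctx S e0 k col) z i) *
            gr_sh (gr_colMid (col i) o (S.sig y).rk) (S.sig y).rk
              (gr_nU (col i) o (o + (S.sig y).rk)))⁻¹ * (el⁻¹ * dat .m * er⁻¹) *
          (gl_dmid o (S.sig y).rk ((S.sig y).tgt inv) (gr_hval (gr_ctx S e0 k col) z (i + 1)) *
            gr_sh (gr_colMid (col (i + 1)) o (S.sig y).rk) (S.sig y).rk
              (gr_nU (col i) o (o + (S.sig y).rk)))) := by
      have e1 : gr_G_Dm ν dat =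
          gl_dmid o (S.sig y).rk ((S.sig y).src inv) (gr_hval (gr_ctx S e0 k col) z i) *
            gr_sh (gr_colMid (col i) o (S.sig y).rk) (S.sig y).rk
              (gr_nU (col i) o (o + (S.sig y).rk)) := by
        unfold gr_G_Dm gr_G_dm
        rw [eνcb, eνm, eνk, eνa]; rfl
      have e2 : gr_G_Dp ν dat =
          gl_dmid o (S.sig y).rk ((S.sig y).tgt inv) (gr_hval (gr_ctx S e0 k col) z (i + 1)) *
            gr_sh (gr_colMid (col (i + 1)) o (S.sig y).rk) (S.sig y).rk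
              (gr_nU (col i) o (o + (S.sig y).rk)) := by
        unfold gr_G_Dp gr_G_dp
        rw [eνca, eνm, eνk, eνc]; rfl
      rw [eνm, eνk, e1, e2] at hT
      simpa only [mul_assoc] using hT
    have hlift := gl_lift_ctx hSh hLoc hTM hUn hyp hC z hi hadm (by rw [hl]; rfl) hmid hKs' hct
      hcol hcnt hX hyU.2 hyQ.2 hT'
    rw [hXUeq, hXQeq]
    have hZ : gr_Zlet (gr_ctx S e0 k col) e0 S.eqs.length P z i =
        (gr_D (gr_ctx S e0 k col) z i)⁻¹ * gs_emb o (el⁻¹ * dat .m * er⁻¹) *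
          gr_D (gr_ctx S e0 k col) z (i + 1) := by
      unfold gr_Zlet
      rw [hELeq, hEReq, hMeq, gm_emb_mul (gm_corner_mul hel'.2 hm.2) her'.2 hoN,
        gm_emb_mul hel'.2 hm.2 hoN, gm_emb_inv (gm_uni_corner hEL) (gm_uni_isUnit hEL) hoN,
        gm_emb_inv (gm_uni_corner hER) (gm_uni_isUnit hER) hoN]
      simp only [mul_assoc]
    rw [hZ]
    exact hlift

end ctx

end Claimed.Agent.R236
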