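import Mathlib
import Claimed.Agent.R236.GSoundC

/-!
# Row 236, REDUCE, SB4 (SOUND), part D: the adapted bases `D_i` (owner helper188, prefix gsd_)
-/

set_option autoImplicit false

namespace Claimed.Agent.R236

section general
variable {N : ℕ}

theorem gsd_list_prod_isUnit (l : List (gs_Mat N)) (h : ∀ a ∈ l, IsUnit a.det) :
    IsUnit l.prod.det := by
  induction l with
  | nil => simp
  | cons a l ih =>
    rw [List.prod_cons, Matrix.det_mul]
    exact (h a (by simp)).mul (ih fun b hb => h b (by simp [hb]))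

theorem gsd_BD_one (n : ℕ) (K : Finset ℕ) : gr_IsBD n K (1 : gs_Mat N) := by
  refine ⟨gm_corner_one n, fun i j h c _ => ?_⟩
  rw [Matrix.one_apply] at h
  have : i = j := by by_contra hne; exact h (if_neg hne)
  rw [this]

theorem gsd_BD_mul {n : ℕ} {K : Finset ℕ} {d d' : gs_Mat N} (h : gr_IsBD n K d)
    (h' : gr_IsBD n K d') : gr_IsBD n K (d * d') := by
  refine ⟨gm_corner_mul h.1 h'.1, fun i j hne c hc => ?_⟩
  rw [Matrix.mul_apply] at hne
  obtain ⟨l, _, hl⟩ := Finset.exists_ne_zero_of_sum_ne_zero hne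
  exact (h.2 i l (left_ne_zero_of_mul hl) c hc).trans (h'.2 l j (right_ne_zero_of_mul hl) c hc)

theorem gsd_BD_list_prod {n : ℕ} {K : Finset ℕ} (l : List (gs_Mat N))
    (h : ∀ a ∈ l, gr_IsBD n K a) : gr_IsBD n K l.prod := by
  induction l with
  | nil => exact gsd_BD_one n K
  | cons a l ih =>
    rw [List.prod_cons]
    exact gsd_BD_mul (h a (by simp)) (ih fun b hb => h b (by simp [hb]))

theorem gsd_BD_emb {n m c : ℕ} {K : Finset ℕ} {h : gs_Mat N} (hh : gs_IsCorner m h)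
    (hcm : c + m ≤ n) (hK : ∀ d ∈ K, d ≤ c ∨ c + m ≤ d) : gr_IsBD n K (gs_emb c h) := by
  refine ⟨gm_corner_mono hcm (gm_emb_corner c hh), fun i j hne d hd => ?_⟩
  by_cases hij : i = j
  · rw [hij]
  have h1 : (1 : gs_Mat N) i j = 0 := Matrix.one_apply_ne hij
  have hc : gs_IsCorner (c + m) (gs_emb c h) := gm_emb_corner c hh
  have hi : (i : ℕ) < c + m ∧ (j : ℕ) < c + m := by
    by_contra hcon
    apply hne
    rw [hc i j (by omega), h1]
  have hi' : c ≤ (i : ℕ) ∧ c ≤ (j : ℕ) := by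
    by_contra hcon
    apply hne
    rw [gs_emb, dif_neg hcon, h1]
  rcases hK d hd with h2 | h2 <;> omega

/-- the next cut -/
theorem gsd_nxt_spec {n c : ℕ} {K : Finset ℕ} (hK : gsd_FrOK n K) (hc : c < n) :
    gr_nxt K c ∈ K ∧ c < gr_nxt K c ∧ gr_nxt K c ≤ n ∧ ∀ d ∈ K, c < d → gr_nxt K c ≤ d := by
  have hne : {d | d ∈ K ∧ c < d}.Nonempty := ⟨n, hK.top, hc⟩
  have h := Nat.sInf_mem hne
  exact ⟨h.1, h.2, hK.le _ h.1, fun d hd hcd => Nat.sInf_le ⟨hd, hcd⟩⟩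

end general

section ctx
variable {Y : Type} {N : ℕ} {R : Subring ℂ} {S : gs_Sys Y} {e0 k : ℕ} {col : ℕ → ℕ → Bool}

theorem gsd_ctx_K_w (hyp : gr_Hyp N R S e0 k) {i : ℕ} (hi : i ≤ (gr_ctx S e0 k col).len) :
    (gr_ctx S e0 k col).K ((gr_ctx S e0 k col).w i) = (gr_ctx S e0 k col).K i := by
  rcases hi.lt_or_eq with h | h
  · rw [gsd_w_lt _ h]
  · rw [h, gsd_w_len, gsd_K_len hyp]

theorem gsd_ctx_w_lt (hyp : gr_Hyp N R S e0 k) (i : ℕ) : (gr_ctx S e0 k col).w i < (gr_ctx S e0 k col).len :=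
  Nat.mod_lt _ (gsd_len_pos hyp col)

theorem gsd_nsig_H {i c : ℕ} (hi : i < (gr_ctx S e0 k col).len) (hc : c ∈ (gr_ctx S e0 k col).K i) (hcn : c < (gr_ctx S e0 k col).n) :
    ((gr_ctx S e0 k col).nsig (.H i c)).rk = gr_nxt ((gr_ctx S e0 k col).K i) c - c := by
  simp only [gr_Ctx.nsig]
  rw [if_pos ⟨hi, hc, hcn⟩]

/-- shape of the value of `H i c` -/
theorem gsd_hval_GL (hyp : gr_Hyp N R S e0 k) {z : gr_Z Y N}
    (hnew : ∀ v, gr_GL ((gr_ctx S e0 k col).nsig v).rk (gr_nval z v)) {i c : ℕ} (hi : i ≤ (gr_ctx S e0 k col).len)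
    (hc : c ∈ (gr_ctx S e0 k col).K i) (hcn : c < (gr_ctx S e0 k col).n) :
    gr_GL (gr_nxt ((gr_ctx S e0 k col).K i) c - c) (gr_hval (gr_ctx S e0 k col) z i c) := by
  have h := hnew (.H ((gr_ctx S e0 k col).w i) c)
  rw [gsd_nsig_H (gsd_ctx_w_lt hyp i) (by rw [gsd_ctx_K_w hyp hi]; exact hc) hcn,
    gsd_ctx_K_w hyp hi] at h
  exact h

/-- the factors of `d_i` -/
theorem gsd_factor (hyp : gr_Hyp N R S e0 k) {z : gr_Z Y N}
    (hnew : ∀ v, gr_GL ((gr_ctx S e0 k col).nsig v).rk (gr_nval z v)) {i c : ℕ} (hi : i ≤ (gr_ctx S e0 k col).len)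
    (hcn : c < (gr_ctx S e0 k col).n) :
    IsUnit (if c ∈ (gr_ctx S e0 k col).K i then gs_emb c (gr_hval (gr_ctx S e0 k col) z i c) else 1 : gs_Mat N).det ∧
      gr_IsBD (gr_ctx S e0 k col).n ((gr_ctx S e0 k col).K i) (if c ∈ (gr_ctx S e0 k col).K i then gs_emb c (gr_hval (gr_ctx S e0 k col) z i c) else 1 : gs_Mat N) := by
  split_ifs with hc
  · have hK := gsd_K_ok hyp col i hi
    obtain ⟨h1, h2, h3, h4⟩ := gsd_nxt_spec hK hcn
    have hGL := gsd_hval_GL hyp hnew hi hc hcn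
    have hn := gsd_n_le hyp col
    refine ⟨gm_emb_isUnit hGL.2 hGL.1 (by omega), gsd_BD_emb hGL.2 (by omega) fun d hd => ?_⟩
    by_cases hcd : c < d
    · right
      have := h4 d hd hcd
      omega
    · left; omega
  · exact ⟨by simp, gsd_BD_one _ _⟩

theorem gsd_d_ok (hyp : gr_Hyp N R S e0 k) {z : gr_Z Y N}
    (hnew : ∀ v, gr_GL ((gr_ctx S e0 k col).nsig v).rk (gr_nval z v)) {i : ℕ} (hi : i ≤ (gr_ctx S e0 k col).len) :
    IsUnit (gr_d (gr_ctx S e0 k col) z i).det ∧ gr_IsBD (gr_ctx S e0 k col).n ((gr_ctx S e0 k col).K i) (gr_d (gr_ctx S e0 k col) z i) := by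
  unfold gr_d
  constructor
  · apply gsd_list_prod_isUnit
    intro a ha
    rw [List.mem_map] at ha
    obtain ⟨c, hc, rfl⟩ := ha
    exact (gsd_factor hyp hnew hi (List.mem_range.1 hc)).1
  · apply gsd_BD_list_prod
    intro a ha
    rw [List.mem_map] at ha
    obtain ⟨c, hc, rfl⟩ := ha
    exact (gsd_factor hyp hnew hi (List.mem_range.1 hc)).2

/-- the shuffle at the frame `i` -/
theorem gsd_sh_ok (hSh : StShInv N) (hyp : gr_Hyp N R S e0 k) (hC : (gr_ctx S e0 k col).WF) {i : ℕ}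
    (hi : i ≤ (gr_ctx S e0 k col).len) :
    (gr_sh (col i) (gr_ctx S e0 k col).n k : gs_Mat N) * (gr_sh (col i) (gr_ctx S e0 k col).n k : gs_Mat N).transpose = 1 ∧
      (gr_sh (col i) (gr_ctx S e0 k col).n k : gs_Mat N).transpose * gr_sh (col i) (gr_ctx S e0 k col).n k = 1 :=
  let h := hSh (col i) (gr_ctx S e0 k col).n k (gsd_n_le hyp col) (hC.beyond i) (gsd_col_cnt hyp hC i hi)
  ⟨h.1, h.2.1⟩

theorem gsd_D_unit (hSh : StShInv N) (hyp : gr_Hyp N R S e0 k) (hC : (gr_ctx S e0 k col).WF) {z : gr_Z Y N}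
    (hnew : ∀ v, gr_GL ((gr_ctx S e0 k col).nsig v).rk (gr_nval z v)) {i : ℕ} (hi : i ≤ (gr_ctx S e0 k col).len) :
    IsUnit (gr_D (gr_ctx S e0 k col) z i).det := by
  unfold gr_D
  rw [Matrix.det_mul]
  exact (gsd_d_ok hyp hnew hi).1.mul
    (Matrix.isUnit_det_of_right_inverse (gsd_sh_ok hSh hyp hC hi).1)

/-- conjugation by `D_i` -/
theorem gsd_D_conj (hSh : StShInv N) (hyp : gr_Hyp N R S e0 k) (hC : (gr_ctx S e0 k col).WF) (z : gr_Z Y N) {i : ℕ}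
    (hi : i ≤ (gr_ctx S e0 k col).len) (X : gs_Mat N) :
    gr_D (gr_ctx S e0 k col) z i * X * (gr_D (gr_ctx S e0 k col) z i)⁻¹ =
      gr_d (gr_ctx S e0 k col) z i * (gr_sh (col i) (gr_ctx S e0 k col).n k * X * (gr_sh (col i) (gr_ctx S e0 k col).n k : gs_Mat N).transpose) *
        (gr_d (gr_ctx S e0 k col) z i)⁻¹ := by
  unfold gr_D
  have : (gr_sh ((gr_ctx S e0 k col).col i) (gr_ctx S e0 k col).n (gr_ctx S e0 k col).k : gs_Mat N)⁻¹ =
      (gr_sh (col i) (gr_ctx S e0 k col).n k : gs_Mat N).transpose :=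
    Matrix.inv_eq_right_inv (gsd_sh_ok hSh hyp hC hi).1
  rw [Matrix.mul_inv_rev, this]
  simp only [mul_assoc]
  rfl

theorem gsd_D_len (hyp : gr_Hyp N R S e0 k) (hC : (gr_ctx S e0 k col).WF) (z : gr_Z Y N) :
    gr_D (gr_ctx S e0 k col) z (gr_ctx S e0 k col).len = gr_D (gr_ctx S e0 k col) z 0 := by
  unfold gr_D gr_d gr_hval
  have h0 : (gr_ctx S e0 k col).w 0 = 0 := Nat.zero_mod _
  rw [gsd_K_len hyp, gsd_w_len, h0, hC.closed]

/-- which matrices in standard coordinates conjugate into `U(K_i)` -/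
theorem gsd_D_conj_uni (hSh : StShInv N) (hGap : StGap N) (hBD : StBDConj N)
    (hyp : gr_Hyp N R S e0 k) (hC : (gr_ctx S e0 k col).WF) {z : gr_Z Y N}
    (hnew : ∀ v, gr_GL ((gr_ctx S e0 k col).nsig v).rk (gr_nval z v)) {i : ℕ} (hi : i ≤ (gr_ctx S e0 k col).len)
    {sU sQ β : gs_Mat N} (hU : gs_IsUni k ((gr_ctx S e0 k col).KU i) sU) (hQ : gs_IsUni ((gr_ctx S e0 k col).n - k) ((gr_ctx S e0 k col).KQ i) sQ)
    (hβ : ∀ a b : Fin N, β a b ≠ 0 → gr_good (col i) ((gr_ctx S e0 k col).K i) (gr_ctx S e0 k col).n k a b) :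
    gs_IsUni (gr_ctx S e0 k col).n ((gr_ctx S e0 k col).K i) (gr_D (gr_ctx S e0 k col) z i * gr_asm k sU sQ β * (gr_D (gr_ctx S e0 k col) z i)⁻¹) := by
  rw [gsd_D_conj hSh hyp hC z hi]
  obtain ⟨h1, h2⟩ := gsd_d_ok hyp hnew hi
  rw [hBD (gr_ctx S e0 k col).n ((gr_ctx S e0 k col).K i) _ _ (gsd_n_le hyp col) h2 h1]
  have hUQ : gr_IsUQ (gr_ctx S e0 k col).n k β := fun a b hab => by
    obtain ⟨g1, g2, g3, _⟩ := hβ a b hab
    exact ⟨g1, g2, g3⟩
  exact (hGap (gr_ctx S e0 k col).n k ((gr_ctx S e0 k col).K i) (col i) (gsd_CF hyp hC i hi) sU sQ β (gm_uni_corner hU)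
    (gm_uni_corner hQ) hUQ).2 ⟨hU, hQ, hβ⟩

end ctx

end Claimed.Agent.R236
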