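import Mathlib
import Claimed.Agent.R236.GComplSt
import Claimed.Agent.R236.GLiftG
import Claimed.Agent.R236.GSoundD
import Claimed.Agent.R236.GFrame

/-!
# Row 236, REDUCE, SB7: `StK1`, `StK1b` (owner helper183, prefix gk1_)

Partial products and the geometry of the letters.
-/

set_option autoImplicit false

namespace Claimed.Agent.R236

section k1
variable {Y : Type} {N : ℕ} {R : Subring ℂ} {S : gs_Sys Y} {e0 k : ℕ} {x : gs_Pt Y N}

theorem gk1_letter_lt {i : ℕ} (hi : i < gk_len S e0) :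
    gk_letter S e0 i = (S.eq e0).ls[i]'hi := by
  unfold gk_letter
  exact List.getD_eq_getElem _ _ hi

theorem gk1_letter_ge {i : ℕ} (hi : gk_len S e0 ≤ i) :
    gk_letter S e0 i = .L fun _ => 1 := by
  unfold gk_letter
  exact List.getD_eq_default _ _ hi

theorem gk1_letter_mem {i : ℕ} (hi : i < gk_len S e0) : gk_letter S e0 i ∈ (S.eq e0).ls := by
  rw [gk1_letter_lt hi]
  exact List.getElem_mem hi

theorem gk1_K_ge (hyp : gr_Hyp N R S e0 k) {i : ℕ} (hi : gk_len S e0 ≤ i) :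
    gk_K S e0 i = gk_K S e0 0 := by
  unfold gk_K
  rw [gf_frame_of_le _ _ _ i hi, (gsd_hyp_eqn hyp).closed]
  rfl

theorem gk1_K_ok (hyp : gr_Hyp N R S e0 k) (i : ℕ) : gsd_FrOK (gk_n S e0) (gk_K S e0 i) := by
  by_cases hi : i ≤ gk_len S e0
  · exact gsd_frame_ok (gsd_hyp_sig hyp) (gsd_hyp_eqn hyp) i hi
  · rw [gk1_K_ge hyp (by omega)]
    exact gsd_frame_ok (gsd_hyp_sig hyp) (gsd_hyp_eqn hyp) 0 (Nat.zero_le _)

theorem gk1_n_le (hyp : gr_Hyp N R S e0 k) : gk_n S e0 ≤ N := (gsd_hyp_eqn hyp).rk_le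

theorem gk1_frame (hyp : gr_Hyp N R S e0 k) (i : ℕ) : gp_Frame N (gk_n S e0) (gk_K S e0 i) :=
  ⟨gk1_n_le hyp, (gk1_K_ok hyp i).zero, (gk1_K_ok hyp i).top, (gk1_K_ok hyp i).le⟩

theorem gk1_app (hyp : gr_Hyp N R S e0 k) {i : ℕ} (hi : i < gk_len S e0) :
    gs_app S.sig (gk_n S e0) (gk_K S e0 i) (gk_letter S e0 i) := by
  rw [gk1_letter_lt hi]
  exact (gsd_hyp_eqn hyp).app i hi

theorem gk1_K_succ {i : ℕ} (hi : i < gk_len S e0) :
    gk_K S e0 (i + 1) = gs_step S.sig (gk_K S e0 i) (gk_letter S e0 i) := by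
  rw [gk1_letter_lt hi]
  exact gsd_frame_succ _ _ _ hi

theorem gk1_var_GL (hx : x ∈ gs_Sol N S) (y : Y) : gr_GL (S.sig y).rk (x (.inl y)) := hx.1 y

theorem gk1_M_ge {i : ℕ} (hi : gk_len S e0 ≤ i) : gk_M S e0 x i = 1 := by
  unfold gk_M
  rw [gk1_letter_ge hi]
  simp [gs_lmat]

theorem gk1_u_ge (hx : x ∈ gs_Sol N S) {i : ℕ} (hi : gk_len S e0 ≤ i) : gk_u e0 x i = 1 := by
  have h := hx.2.1 e0 i
  have h0 : S.urk e0 i = 0 := by
    unfold gs_Sys.urk
    rw [if_neg]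
    exact Nat.not_lt.2 hi
  rw [h0] at h
  exact gm_uni_zero_iff.1 h

theorem gk1_u_uni (hx : x ∈ gs_Sol N S) (i : ℕ) :
    gs_IsUni (gk_n S e0) (gk_K S e0 (i + 1)) (gk_u e0 x i) := by
  have h := hx.2.1 e0 i
  refine gm_uni_mono ?_ (Finset.Subset.refl _) h
  unfold gs_Sys.urk
  split_ifs
  · exact le_rfl
  · exact Nat.zero_le _

theorem gk1_diag_GL {n : ℕ} {lam : ℕ → ℂ} (h0 : ∀ j, lam j ≠ 0) (h1 : ∀ j, n ≤ j → lam j = 1) :
    gr_GL n (Matrix.diagonal fun j : Fin N => lam j) := by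
  refine ⟨?_, ?_⟩
  · rw [Matrix.det_diagonal, isUnit_iff_ne_zero]
    exact Finset.prod_ne_zero_iff.2 fun j _ => h0 j
  · intro i j hij
    by_cases h : i = j
    · subst h
      rw [Matrix.diagonal_apply_eq, Matrix.one_apply_eq]
      exact h1 _ (by omega)
    · rw [Matrix.diagonal_apply_ne _ h, Matrix.one_apply_ne h]

theorem gk1_M_GL (hyp : gr_Hyp N R S e0 k) (hx : x ∈ gs_Sol N S) (i : ℕ) :
    gr_GL (gk_n S e0) (gk_M S e0 x i) := by
  by_cases hi : i < gk_len S e0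
  · have happ := gk1_app hyp hi
    have hmem := gk1_letter_mem hi
    have hK := gk1_K_ok hyp i
    have hn := gk1_n_le hyp
    unfold gk_M
    cases hl : gk_letter S e0 i with
    | G inv y o =>
      rw [hl] at happ
      have hle : o + (S.sig y).rk ≤ gk_n S e0 := hK.le _ happ.2.2.1
      cases inv with
      | false => exact gl_GL_mono hle (gl_GL_emb (gk1_var_GL hx y) (by omega))
      | true => exact gl_GL_mono hle (gl_GL_emb (gl_GL_inv (gk1_var_GL hx y)) (by omega))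
    | S o a b =>
      rw [hl] at happ
      have hle : o + (a + b) ≤ gk_n S e0 := hK.le _ happ.2.2.1
      exact gl_GL_mono (m := o + a + b) (by omega)
        ⟨gm_swap_isUnit (by omega), gm_swap_corner o a b⟩
    | L lam =>
      rw [hl] at happ hmem
      exact gk1_diag_GL (fun j => ((gsd_hyp_eqn hyp).unit lam hmem j).1) happ.2
  · rw [gk1_M_ge (by omega)]
    exact gl_GL_one _

theorem gk1_P_succ (i : ℕ) :
    gk_P S e0 x (i + 1) = gk_P S e0 x i * (gk_M S e0 x i * gk_u e0 x i) := by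
  unfold gk_P
  rw [List.range_succ, List.map_append, List.prod_append]
  simp

theorem gk1_P_len (hx : x ∈ gs_Sol N S) : gk_P S e0 x (gk_len S e0) = 1 := by
  have h := hx.2.2 e0
  rw [gsd_val_eq_prod] at h
  rw [← h]
  unfold gk_P gk_len
  congr 1
  apply List.map_congr_left
  intro i _
  simp only [Nat.zero_add]
  rfl

theorem gk1_P_ge (hx : x ∈ gs_Sol N S) {i : ℕ} (hi : gk_len S e0 ≤ i) : gk_P S e0 x i = 1 := by
  induction i, hi using Nat.le_induction with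
  | base => exact gk1_P_len hx
  | succ i hi ih => rw [gk1_P_succ, ih, gk1_M_ge hi, gk1_u_ge hx hi]; simp

theorem gk1_Mu_GL (hyp : gr_Hyp N R S e0 k) (hx : x ∈ gs_Sol N S) (i : ℕ) :
    gr_GL (gk_n S e0) (gk_M S e0 x i * gk_u e0 x i) :=
  gl_GL_mul (gk1_M_GL hyp hx i) (gl_GL_uni (gk1_u_uni hx i))

theorem gk1_P_GL (hyp : gr_Hyp N R S e0 k) (hx : x ∈ gs_Sol N S) (i : ℕ) :
    gr_GL (gk_n S e0) (gk_P S e0 x i) := by
  induction i with
  | zero =>
    have : gk_P S e0 x 0 = 1 := by simp [gk_P]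
    rw [this]
    exact gl_GL_one _
  | succ i ih =>
    rw [gk1_P_succ]
    exact gl_GL_mul ih (gk1_Mu_GL hyp hx i)

theorem gk1_g_GL (hyp : gr_Hyp N R S e0 k) (hx : x ∈ gs_Sol N S) (i : ℕ) :
    gr_GL (gk_n S e0) (gk_g S e0 x i) := gl_GL_inv (gk1_P_GL hyp hx i)

theorem gk1_g_rec (hyp : gr_Hyp N R S e0 k) (hx : x ∈ gs_Sol N S) (i : ℕ) :
    gk_g S e0 x i = gk_M S e0 x i * gk_u e0 x i * gk_g S e0 x (i + 1) := by
  unfold gk_g
  rw [gk1_P_succ, Matrix.mul_inv_rev, ← Matrix.mul_assoc,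
    Matrix.mul_nonsing_inv _ (gk1_Mu_GL hyp hx i).1, Matrix.one_mul]

end k1

/-- **K1** -/
theorem gk_k1 (N : ℕ) (R : Subring ℂ) : StK1 N R := by
  intro Y P p S e0 k x H
  exact ⟨gk1_frame H.hyp, fun i hi => gk1_K_ge H.hyp hi, gk1_M_GL H.hyp H.sol,
    gk1_u_uni H.sol, fun i hi => gk1_P_ge H.sol hi, gk1_g_GL H.hyp H.sol, gk1_g_rec H.hyp H.sol⟩

/-- **K1b** -/
theorem gk_k1b (N : ℕ) (R : Subring ℂ) : StK1b N R := by
  intro Y P p S e0 k x H i hi
  have happ := gk1_app H.hyp hi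
  have hK := gk1_K_ok H.hyp i
  have hn := gk1_n_le H.hyp
  have hs := gk1_K_succ (S := S) (e0 := e0) hi
  unfold gk_o gk_m gk_a gk_c gk_Mmid gk_M
  rw [hs]
  cases hl : gk_letter S e0 i with
  | G inv y o =>
    rw [hl] at happ
    refine ⟨happ, gsd_tgt_le (gsd_hyp_sig H.hyp y) inv, rfl, ?_, fun _ => ?_⟩
    · cases inv with
      | false => exact gk1_var_GL H.sol y
      | true => exact gl_GL_inv (gk1_var_GL H.sol y)
    · cases inv <;> rfl
  | S o a b =>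
    rw [hl] at happ
    have hle : o + (a + b) ≤ gk_n S e0 := hK.le _ happ.2.2.1
    refine ⟨happ, Nat.le_add_left _ _, rfl, ?_, fun _ => ?_⟩
    · exact gl_GL_mono (m := 0 + a + b) (by simp [gs_mid])
        ⟨gm_swap_isUnit (by omega), gm_swap_corner 0 a b⟩
    · simp only [gs_lmat, gs_mid]
      rw [gm_emb_swap, Nat.add_zero]
  | L lam =>
    refine ⟨⟨hK.zero, hK.zero, hK.zero, le_rfl, fun d _ h1 h2 => ?_⟩, le_rfl, ?_, gl_GL_one _,
      fun h => absurd rfl (h lam)⟩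
    · simp only [gs_mid] at h1 h2
      omega
    · simp only [gs_step, gs_mid]
      ext d
      rw [gf_mem_cutRepl]
      constructor
      · intro h; exact Or.inr ⟨h, Or.inr (Nat.zero_le _)⟩
      · rintro (h | h)
        · rw [h]; exact hK.zero
        · exact h.1

end Claimed.Agent.R236
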