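import Mathlib
import Claimed.Agent.R236.GSoundD
import Claimed.Agent.R236.GMatSwap

/-!
# Row 236, REDUCE, SB4 (SOUND), part E: the letters (owner helper188, prefix gsd_)
-/

set_option autoImplicit false

namespace Claimed.Agent.R236

section general
variable {N : ℕ}

theorem gsd_cutRepl_outside {K : Finset ℕ} {o m a c : ℕ} (h : gs_midOK K o m a) (hc : c ≤ m)
    (d : ℕ) (hd : d ≤ o ∨ o + m ≤ d) : d ∈ K ↔ d ∈ gs_cutRepl K o m c := by
  obtain ⟨h1, _, h3, _, _⟩ := h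
  simp only [gs_cutRepl, Finset.mem_insert, Finset.mem_filter]
  constructor
  · intro hK
    exact Or.inr ⟨hK, hd⟩
  · rintro (rfl | ⟨hK, _⟩)
    · rcases hd with hd | hd
      · have : c = 0 := by omega
        subst this
        exact h1
      · have : c = m := by omega
        subst this
        exact h3
    · exact hK

theorem gsd_GL_inv {m : ℕ} {x : gs_Mat N} (h : gr_GL m x) : gr_GL m x⁻¹ :=
  ⟨Matrix.isUnit_nonsing_inv_det _ h.1, gm_corner_inv h.2 h.1⟩

theorem gsd_diag_isUnit {lam : ℕ → ℂ} (h : ∀ j, lam j ≠ 0) :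
    IsUnit (Matrix.diagonal fun j : Fin N => lam j).det := by
  rw [Matrix.det_diagonal, isUnit_iff_ne_zero]
  exact Finset.prod_ne_zero_iff.2 fun j _ => h j

/-- diagonal matrices normalise every pattern group -/
theorem gsd_diag_conj {lam : ℕ → ℂ} (h : ∀ j, lam j ≠ 0) {n : ℕ} {K : Finset ℕ} {u : gs_Mat N}
    (hu : gs_IsUni n K u) :
    gs_IsUni n K ((Matrix.diagonal fun j : Fin N => lam j)⁻¹ * u *
      Matrix.diagonal fun j : Fin N => lam j) := by
  refine gm_pat_conj (r := gm_uniPos n K) (r' := gm_uniPos n K) (s := fun i j => i = j)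
    (s' := fun i j => i = j) ?_ (Matrix.nonsing_inv_mul _ (gsd_diag_isUnit h)) ?_
    (gm_sup_diagonal (fun _ => rfl) _) hu
  · rintro i j k l rfl hjk rfl
    exact hjk
  · rw [Matrix.inv_diagonal]
    exact gm_sup_diagonal (fun _ => rfl) _

end general

section ctx
variable {Y : Type} {N : ℕ} {R : Subring ℂ} {S : gs_Sys Y} {e0 k : ℕ} {col : ℕ → ℕ → Bool}

/-- cuts outside of the touched interval do not change -/
theorem gsd_K_outside (hyp : gr_Hyp N R S e0 k) {i : ℕ} (hi : i < (gr_ctx S e0 k col).len) (d : ℕ)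
    (hd : d ≤ (gs_mid S.sig ((gr_ctx S e0 k col).letter i)).1 ∨
      (gs_mid S.sig ((gr_ctx S e0 k col).letter i)).1 + (gs_mid S.sig ((gr_ctx S e0 k col).letter i)).2 ≤ d) :
    d ∈ (gr_ctx S e0 k col).K i ↔ d ∈ (gr_ctx S e0 k col).K (i + 1) := by
  have h := gsd_app hyp col hi
  rw [gsd_K_succ col hi]
  cases hl : (gr_ctx S e0 k col).letter i with
  | G inv y o =>
    rw [hl] at h hd
    exact gsd_cutRepl_outside h (gsd_tgt_le (gsd_hyp_sig hyp y) inv) d hd
  | S o a b =>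
    rw [hl] at h hd
    exact gsd_cutRepl_outside h (Nat.le_add_left _ _) d hd
  | L lam => exact Iff.rfl

theorem gsd_mid_le (hyp : gr_Hyp N R S e0 k) {i : ℕ} (hi : i < (gr_ctx S e0 k col).len) :
    (gs_mid S.sig ((gr_ctx S e0 k col).letter i)).1 + (gs_mid S.sig ((gr_ctx S e0 k col).letter i)).2 ≤ (gr_ctx S e0 k col).n :=
  (gsd_K_ok hyp col i hi.le).le _ (gsd_mid_ok hyp col hi).2

/-- the shape of the matrix of a letter -/
theorem gsd_M_form (hyp : gr_Hyp N R S e0 k) {z : gr_Z Y N}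
    (hold : ∀ y, gr_GL (S.sig y).rk (z.1 (.inl (.inl y)))) {i : ℕ} (hi : i < (gr_ctx S e0 k col).len) :
    (∃ x, gr_GL (gs_mid S.sig ((gr_ctx S e0 k col).letter i)).2 x ∧
      gr_M (gr_ctx S e0 k col) z i = gs_emb (gs_mid S.sig ((gr_ctx S e0 k col).letter i)).1 x) ∨
    (∃ lam : ℕ → ℂ, (gr_ctx S e0 k col).letter i = .L lam ∧ (∀ j, lam j ≠ 0) ∧
      gr_M (gr_ctx S e0 k col) z i = Matrix.diagonal fun j : Fin N => lam j) := by
  have hle := gsd_mid_le (col := col) hyp hi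
  have hn := gsd_n_le hyp col
  unfold gr_M
  cases hl : (gr_ctx S e0 k col).letter i with
  | G inv y o =>
    left
    cases inv
    · exact ⟨_, hold y, rfl⟩
    · exact ⟨_, gsd_GL_inv (hold y), rfl⟩
  | S o a b =>
    left
    rw [hl] at hle
    simp only [gs_mid] at hle
    refine ⟨gs_swapMat 0 a b, ⟨gm_swap_isUnit (by omega), ?_⟩, ?_⟩
    · have := gm_swap_corner (N := N) 0 a b
      simpa [gs_mid] using this
    · have := gm_emb_swap (N := N) o 0 a b
      simp only [gs_mid, this, add_zero]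
      rfl
  | L lam =>
    right
    refine ⟨lam, rfl, fun j => ?_, rfl⟩
    have hmem : gs_Letter.L lam ∈ (S.eq e0).ls := by
      rw [← hl, gsd_letter_eq col hi]
      exact List.getElem_mem hi
    exact ((gsd_hyp_eqn hyp).unit lam hmem j).1

theorem gsd_M_unit (hyp : gr_Hyp N R S e0 k) {z : gr_Z Y N}
    (hold : ∀ y, gr_GL (S.sig y).rk (z.1 (.inl (.inl y)))) {i : ℕ} (hi : i < (gr_ctx S e0 k col).len) :
    IsUnit (gr_M (gr_ctx S e0 k col) z i).det := by
  have hle := gsd_mid_le (col := col) hyp hi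
  have hn := gsd_n_le hyp col
  rcases gsd_M_form hyp hold hi with ⟨x, hx, h⟩ | ⟨lam, _, h0, h⟩
  · rw [h]
    exact gm_emb_isUnit hx.2 hx.1 (by omega)
  · rw [h]
    exact gsd_diag_isUnit h0

theorem gsd_rad (z : gr_Z Y N) {i : ℕ} (hi : i < (gr_ctx S e0 k col).len) :
    gs_IsUni (gr_ctx S e0 k col).n ((gr_ctx S e0 k col).K i) (gr_nuRad (gr_ctx S e0 k col) z i) := by
  unfold gr_nuRad
  rw [gsd_w_lt _ hi]
  refine gm_pat_mono (s := gm_uniPos (gr_ctx S e0 k col).n ((gr_ctx S e0 k col).K i)) (fun a b h => ?_) (gm_pat_one_add_mask _ _)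
  exact ⟨h.1, h.2.1⟩

theorem gsd_radc (hRad : StRadConj N) (hyp : gr_Hyp N R S e0 k) {z : gr_Z Y N}
    (hold : ∀ y, gr_GL (S.sig y).rk (z.1 (.inl (.inl y)))) {i : ℕ} (hi : i < (gr_ctx S e0 k col).len) :
    gs_IsUni (gr_ctx S e0 k col).n ((gr_ctx S e0 k col).K (i + 1)) ((gr_M (gr_ctx S e0 k col) z i)⁻¹ * gr_nuRad (gr_ctx S e0 k col) z i * gr_M (gr_ctx S e0 k col) z i) := by
  rcases gsd_M_form hyp hold hi with ⟨x, hx, h⟩ | ⟨lam, hl, h0, h⟩
  · rw [h]
    unfold gr_nuRad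
    rw [gsd_w_lt _ hi]
    exact hRad (gr_ctx S e0 k col).n _ _ ((gr_ctx S e0 k col).K i) ((gr_ctx S e0 k col).K (i + 1)) x _ (gsd_n_le hyp col) (gsd_mid_le hyp hi)
      (gsd_mid_ok hyp col hi).1 (gsd_mid_ok hyp col hi).2 (gsd_K_outside hyp hi) hx
  · rw [h]
    have hK : (gr_ctx S e0 k col).K (i + 1) = (gr_ctx S e0 k col).K i := by
      rw [gsd_K_succ col hi, hl]
      rfl
    rw [hK]
    exact gsd_diag_conj h0 (gsd_rad z hi)

/-! ### the trailing unipotents -/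

theorem gsd_sU_uni {z : gr_Z Y N} {e1 i : ℕ}
    (hu : ∀ j, j < 4 → gs_IsUni k ((gr_ctx S e0 k col).frU i j) (gr_uU e1 z i j)) :
    gs_IsUni k ((gr_ctx S e0 k col).KU (i + 1)) (gr_sU (gr_ctx S e0 k col) e1 z i) := by
  have h0 := hu 0 (by omega)
  have h1 := hu 1 (by omega)
  have h2 := hu 2 (by omega)
  have h3 := hu 3 (by omega)
  unfold gr_sU
  unfold gr_Ctx.frU at h0 h1 h2 h3
  cases hl : (gr_ctx S e0 k col).letter i with
  | G inv y o =>
    simp only [hl] at h0 h1 h2 h3 ⊢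
    exact gm_uni_mul (gm_uni_mul (gm_uni_mul h0 h1) h2) h3
  | S o a b =>
    simp only [hl] at h2 h3 ⊢
    exact gm_uni_mul h2 h3
  | L lam =>
    simp only [hl] at h0 h1 h2 h3 ⊢
    exact gm_uni_mul (gm_uni_mul (gm_uni_mul h0 h1) h2) h3

theorem gsd_sQ_uni {z : gr_Z Y N} {e2 i : ℕ}
    (hu : ∀ j, j < 4 → gs_IsUni ((gr_ctx S e0 k col).n - k) ((gr_ctx S e0 k col).frQ i j) (gr_uQ e2 z i j)) :
    gs_IsUni ((gr_ctx S e0 k col).n - k) ((gr_ctx S e0 k col).KQ (i + 1)) (gr_sQ (gr_ctx S e0 k col) e2 z i) := by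
  have h0 := hu 0 (by omega)
  have h1 := hu 1 (by omega)
  have h2 := hu 2 (by omega)
  have h3 := hu 3 (by omega)
  unfold gr_sQ
  unfold gr_Ctx.frQ at h0 h1 h2 h3
  cases hl : (gr_ctx S e0 k col).letter i with
  | G inv y o =>
    simp only [hl] at h0 h1 h2 h3 ⊢
    exact gm_uni_mul (gm_uni_mul (gm_uni_mul h0 h1) h2) h3
  | S o a b =>
    simp only [hl] at h3 ⊢
    exact h3
  | L lam =>
    simp only [hl] at h0 h1 h2 h3 ⊢
    exact gm_uni_mul (gm_uni_mul (gm_uni_mul h0 h1) h2) h3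

theorem gsd_fr (hSh : StShInv N) (hGap : StGap N) (hBD : StBDConj N)
    (hyp : gr_Hyp N R S e0 k) (hC : (gr_ctx S e0 k col).WF) {z : gr_Z Y N}
    (hnew : ∀ v, gr_GL ((gr_ctx S e0 k col).nsig v).rk (gr_nval z v)) {e1 e2 i : ℕ} (hi : i < (gr_ctx S e0 k col).len)
    (hU : ∀ j, j < 4 → gs_IsUni k ((gr_ctx S e0 k col).frU i j) (gr_uU e1 z i j))
    (hQ : ∀ j, j < 4 → gs_IsUni ((gr_ctx S e0 k col).n - k) ((gr_ctx S e0 k col).frQ i j) (gr_uQ e2 z i j)) :
    gs_IsUni (gr_ctx S e0 k col).n ((gr_ctx S e0 k col).K (i + 1))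
      (gr_D (gr_ctx S e0 k col) z (i + 1) * gr_Zfr (gr_ctx S e0 k col) e1 e2 z i * (gr_D (gr_ctx S e0 k col) z (i + 1))⁻¹) := by
  unfold gr_Zfr
  exact gsd_D_conj_uni hSh hGap hBD hyp hC hnew hi (gsd_sU_uni hU) (gsd_sQ_uni hQ)
    (gm_sup_mask _ _)

/-- the closure correction -/
theorem gsd_close (hSh : StShInv N) (hGap : StGap N) (hBD : StBDConj N)
    (hyp : gr_Hyp N R S e0 k) (hC : (gr_ctx S e0 k col).WF) {z : gr_Z Y N}
    (hnew : ∀ v, gr_GL ((gr_ctx S e0 k col).nsig v).rk (gr_nval z v)) {β : gs_Mat N} (hβ : gr_IsUQ (gr_ctx S e0 k col).n k β) :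
    gs_IsUni (gr_ctx S e0 k col).n ((gr_ctx S e0 k col).K 0) (gr_D (gr_ctx S e0 k col) z 0 * (1 - β) * (gr_D (gr_ctx S e0 k col) z 0)⁻¹) := by
  have h1 : (1 - β : gs_Mat N) = gr_asm k 1 1 (-β) := by
    unfold gr_asm
    rw [gm_emb_one, mul_one, sub_eq_add_neg]
  rw [h1]
  refine gsd_D_conj_uni hSh hGap hBD hyp hC hnew (Nat.zero_le _) (gm_uni_one _ _) (gm_uni_one _ _) ?_
  intro a b hab
  have hab' : β a b ≠ 0 := by
    intro h0
    apply hab
    rw [Matrix.neg_apply, h0, neg_zero]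
  obtain ⟨g1, g2, g3⟩ := hβ a b hab'
  refine ⟨g1, g2, g3, k, hyp.mem, ?_, ?_⟩
  · have hc : col 0 a = true := by
      have := hC.base a
      rw [show col 0 a = decide ((a : ℕ) < k) from this]; simpa using g1
    have hcnt : gr_cU (col 0) a = a := by
      have h0 : col 0 = fun j => decide (j < k) := funext hC.base
      rw [h0, gct_cU_prefix]
      omega
    have := gm_nthU_cU hc
    rw [hcnt] at this
    rw [this]
    exact g1
  · have hc : col 0 b = false := by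
      have := hC.base b
      rw [show col 0 b = decide ((b : ℕ) < k) from this]; simpa using g2
    have hcnt : gr_cQ (col 0) b = b - k := by
      have h0 : col 0 = fun j => decide (j < k) := funext hC.base
      have h2 := gct_cU_add_cQ (col 0) b
      rw [h0, gct_cU_prefix] at h2
      rw [h0]
      omega
    have := gm_nthQ_cQ hc
    rw [hcnt] at this
    rw [this]
    exact g2

end ctx

end Claimed.Agent.R236
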