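import Mathlib
import Claimed.Agent.R236.GSoundE

/-!
# Row 236, REDUCE, SB4 (SOUND), part F: `StRedSound` from the interfaces (owner helper188, prefix gsd_)
-/

set_option autoImplicit false

namespace Claimed.Agent.R236

/-- the values of the segments are corner matrices -/
def StXCorner (N : ℕ) (R : Subring ℂ) : Prop :=
  ∀ (Y : Type) (S : gs_Sys Y) (e0 k : ℕ), gr_Hyp N R S e0 k →
    ∀ col, (gr_ctx S e0 k col).WF → ∀ z : gr_Z Y N,
      ∀ i, i < (gr_ctx S e0 k col).len → gr_LocAdm (gr_ctx S e0 k col) e0 S.eqs.length z i →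
        gs_IsCorner k (gr_XUlet (gr_ctx S e0 k col) e0 z i) ∧
        gs_IsCorner ((gr_ctx S e0 k col).n - k) (gr_XQlet (gr_ctx S e0 k col) S.eqs.length z i)

section general
variable {N : ℕ}

theorem gsd_tri_one (n k : ℕ) : gr_Tri n k (1 : gs_Mat N) 1 1 := by
  refine ⟨0, fun i j h => absurd rfl h, ?_⟩
  unfold gr_asm
  rw [gm_emb_one, mul_one, add_zero]

/-- products of block triangular matrices -/
theorem gsd_tri_prod (hTM : StTriMul N) {n k : ℕ} (hk : k ≤ n) (hn : n ≤ N)
    (XU XQ Z : ℕ → gs_Mat N) (m : ℕ)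
    (h : ∀ i, i < m → gs_IsCorner k (XU i) ∧ gs_IsCorner (n - k) (XQ i) ∧
      gr_Tri n k (XU i) (XQ i) (Z i)) :
    gs_IsCorner k ((List.range m).map XU).prod ∧ gs_IsCorner (n - k) ((List.range m).map XQ).prod ∧
      gr_Tri n k ((List.range m).map XU).prod ((List.range m).map XQ).prod
        ((List.range m).map Z).prod := by
  induction m with
  | zero => exact ⟨gm_corner_one _, gm_corner_one _, gsd_tri_one n k⟩
  | succ m ih =>
    obtain ⟨a1, a2, a3⟩ := ih fun i hi => h i (by omega)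
    obtain ⟨b1, b2, b3⟩ := h m (by omega)
    simp only [List.range_succ, List.map_append, List.prod_append, List.map_cons, List.map_nil,
      List.prod_cons, List.prod_nil, mul_one]
    exact ⟨gm_corner_mul a1 b1, gm_corner_mul a2 b2, hTM n k _ _ _ _ _ _ hk hn a1 a2 b1 b2 a3 b3⟩

end general

section ctx
variable {Y : Type} {N : ℕ} {R : Subring ℂ} {S : gs_Sys Y} {e0 k : ℕ} {col : ℕ → ℕ → Bool}

theorem gsd_Zfr_tri (z : gr_Z Y N) (e1 e2 i : ℕ) :
    gr_Tri (gr_ctx S e0 k col).n k (gr_sU (gr_ctx S e0 k col) e1 z i) (gr_sQ (gr_ctx S e0 k col) e2 z i) (gr_Zfr (gr_ctx S e0 k col) e1 e2 z i) := by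
  refine ⟨_, fun a b hab => ?_, rfl⟩
  obtain ⟨g1, g2, g3, _⟩ := gm_sup_mask _ _ a b hab
  exact ⟨g1, g2, g3⟩

/-- all facts -/
theorem gsd_facts (hEq : StUnpackEq) (hUQ : StUnpackUQ N R) (hAdm : StLocAdm N R)
    (hLoc : StLoc N R) (hSh : StShInv N) (hTM : StTriMul N) (hGap : StGap N) (hBD : StBDConj N)
    (hRad : StRadConj N) (hXC : StXCorner N R) {P : gr_Corr N} (hP : P.OK R)
    (hyp : gr_Hyp N R S e0 k) (hC : (gr_ctx S e0 k col).WF) {z : gr_Z Y N} (hz : z ∈ gr_Dom N S e0 k col) :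
    gsd_Facts (gr_ctx S e0 k col) e0 S.eqs.length P z := by
  obtain ⟨hv, hu, he⟩ := (show z.1 ∈ gs_Sol N (gr_reduce N S e0 k col) from hz)
  obtain ⟨q1, q2, -, -, -⟩ := hEq N Y S e0 k col hyp.lt
  have hold : ∀ y, gr_GL (S.sig y).rk (z.1 (.inl (.inl y))) := fun y => hv (.inl y)
  have hnew : ∀ v, gr_GL ((gr_ctx S e0 k col).nsig v).rk (gr_nval z v) := fun v => hv (.inr v)
  have satU : gs_EqnSat (gr_ctx S e0 k col).sig' z.1 e0 (gr_ctx S e0 k col).eU := by
    rw [← q1]; exact ⟨fun j => hu e0 j, he e0⟩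
  have satQ : gs_EqnSat (gr_ctx S e0 k col).sig' z.1 S.eqs.length (gr_ctx S e0 k col).eQ := by
    rw [← q2]; exact ⟨fun j => hu S.eqs.length j, he S.eqs.length⟩
  obtain ⟨uU, -, pU⟩ := (hUQ Y S e0 k hyp col hC e0 S.eqs.length z).1.1 satU
  obtain ⟨uQ, -, pQ⟩ := (hUQ Y S e0 k hyp col hC e0 S.eqs.length z).2.1 satQ
  have hL := fun i (hi : i < (gr_ctx S e0 k col).len) =>
    hLoc P hP Y S e0 k hyp col hC z i hi (hAdm Y S e0 k hyp col hC z hz i hi)
  have hkn : k ≤ (gr_ctx S e0 k col).n := (show k < (gr_ctx S e0 k col).n from hyp.ltn).le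
  refine
    { len_pos := gsd_len_pos hyp col
      M_unit := fun i hi => gsd_M_unit hyp hold hi
      D_unit := fun i hi => gsd_D_unit hSh hyp hC hnew hi
      D_len := gsd_D_len hyp hC z
      K_len := gsd_K_len hyp col
      EL := fun i hi => (hL i hi).1
      ER := fun i hi => (hL i hi).2.1
      rad := fun i hi => gsd_rad z hi
      radc := fun i hi => gsd_radc hRad hyp hold hi
      fr := fun i hi => gsd_fr hSh hGap hBD hyp hC hnew hi (fun j hj => uU i j hi hj)
        (fun j hj => uQ i j hi hj)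
      tot := ?_
      close := fun β hβ => gsd_close hSh hGap hBD hyp hC hnew hβ }
  have key := gsd_tri_prod hTM hkn (gsd_n_le hyp col)
    (fun i => gr_XUlet (gr_ctx S e0 k col) e0 z i * gr_sU (gr_ctx S e0 k col) e0 z i)
    (fun i => gr_XQlet (gr_ctx S e0 k col) S.eqs.length z i * gr_sQ (gr_ctx S e0 k col) S.eqs.length z i)
    (fun i => gr_Zlet (gr_ctx S e0 k col) e0 S.eqs.length P z i * gr_Zfr (gr_ctx S e0 k col) e0 S.eqs.length z i) (gr_ctx S e0 k col).len
    (fun i hi => by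
      obtain ⟨c1, c2⟩ := hXC Y S e0 k hyp col hC z i hi (hAdm Y S e0 k hyp col hC z hz i hi)
      have c3 := gm_uni_corner (gsd_sU_uni (col := col) (fun j hj => uU i j hi hj))
      have c4 := gm_uni_corner (gsd_sQ_uni (col := col) (fun j hj => uQ i j hi hj))
      exact ⟨gm_corner_mul c1 c3, gm_corner_mul c2 c4,
        hTM _ _ _ _ _ _ _ _ hkn (gsd_n_le hyp col) c1 c2 c3 c4 (hL i hi).2.2
          (gsd_Zfr_tri z e0 S.eqs.length i)⟩)
  obtain ⟨β, hβ, hZ⟩ := key.2.2
  refine ⟨β, hβ, ?_⟩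
  unfold gr_Ztot
  rw [hZ, pU, pQ]
  unfold gr_asm
  rw [gm_emb_one, mul_one]

end ctx

/-- **SOUNDNESS** from the interfaces -/
theorem gsd_sound {N : ℕ} {R : Subring ℂ} (hEq : StUnpackEq) (hUQ : StUnpackUQ N R)
    (hAdm : StLocAdm N R) (hLoc : StLoc N R) (hSh : StShInv N) (hTM : StTriMul N) (hGap : StGap N)
    (hBD : StBDConj N) (hRad : StRadConj N) (hXC : StXCorner N R) : StRedSound N R := by
  intro P hP Y S e0 k hyp col hC z hz
  have F := gsd_facts hEq hUQ hAdm hLoc hSh hTM hGap hBD hRad hXC hP hyp hC hz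
  obtain ⟨hv, hu, he⟩ := (show z.1 ∈ gs_Sol N (gr_reduce N S e0 k col) from hz)
  obtain ⟨-, -, q3, -, -⟩ := hEq N Y S e0 k col hyp.lt
  have hsig : ∀ y, (gr_reduce N S e0 k col).sig (Sum.inl y) = S.sig y := fun _ => rfl
  refine ⟨fun y => hv (.inl y), fun e i => ?_, fun e => ?_⟩
  · show gs_IsUni (S.urk e i) (S.frame e (i + 1))
      (if e = e0 then (if i < (gr_ctx S e0 k col).len then gr_u (gr_ctx S e0 k col) e0 S.eqs.length P z i else 1)
        else if e < S.eqs.length then z.1 (.inr (e, i)) else 1)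
    split_ifs with h1 h2 h3
    · rw [h1]
      have : S.urk e0 i = (gr_ctx S e0 k col).n := if_pos h2
      rw [this]
      exact gsd_u_uni F h2
    · exact gm_uni_one _ _
    · have h := hu e i
      unfold gs_Sys.urk gs_Sys.frame at h ⊢
      rw [q3 e h3 h1] at h
      simp only [gs_Eqn.map, List.length_map] at h
      rw [gsd_frame_map Sum.inl S.sig _ hsig] at h
      exact h
    · exact gm_uni_one _ _
  · have hinl : ∀ y, gr_PhiS P S e0 k col z (.inl y) = z.1 (.inl (Sum.inl y)) := fun _ => rfl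
    by_cases h1 : e = e0
    · rw [h1]
      rw [gsd_val_eq_prod]
      rw [← gsd_prod_one F]
      apply congrArg
      apply List.map_congr_left
      intro i hi
      rw [List.mem_range] at hi
      have hi' : i < (gr_ctx S e0 k col).len := hi
      rw [gsd_lmat_map Sum.inl _ z.1 hinl, Nat.zero_add]
      have : gr_PhiS P S e0 k col z (.inr (e0, i)) = gr_u (gr_ctx S e0 k col) e0 S.eqs.length P z i := by
        show (if e0 = e0 then (if i < (gr_ctx S e0 k col).len then gr_u (gr_ctx S e0 k col) e0 S.eqs.length P z i else 1)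
          else if e0 < S.eqs.length then z.1 (.inr (e0, i)) else 1) = _
        rw [if_pos rfl, if_pos hi']
      rw [this]
      rfl
    · by_cases h3 : e < S.eqs.length
      · have hinr : ∀ j, gr_PhiS P S e0 k col z (.inr (e, j)) = z.1 (.inr (e, j)) := by
          intro j
          show (if e = e0 then (if j < (gr_ctx S e0 k col).len then gr_u (gr_ctx S e0 k col) e0 S.eqs.length P z j else 1)
            else if e < S.eqs.length then z.1 (.inr (e, j)) else 1) = _
          rw [if_neg h1, if_pos h3]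
        rw [gsd_val_map Sum.inl _ z.1 hinl e hinr]
        have h := he e
        rw [q3 e h3 h1] at h
        exact h
      · have : S.eq e = gs_Eqn.triv Y := by
          unfold gs_Sys.eq
          exact List.getD_eq_default _ _ (not_lt.1 h3)
        rw [this]
        rfl

end Claimed.Agent.R236
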