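import Mathlib
import Claimed.Agent.R236.GSoundF

/-!
# Row 236, REDUCE, SB4 (SOUND), part G: `StXCorner` (owner helper188, prefix gsd_)
-/

set_option autoImplicit false

namespace Claimed.Agent.R236

section general
variable {N : ℕ}

theorem gsd_diag_corner {m : ℕ} {d : Fin N → ℂ} (h : ∀ j : Fin N, m ≤ (j : ℕ) → d j = 1) :
    gs_IsCorner m (Matrix.diagonal d) := by
  intro i j hij
  by_cases hne : i = j
  · subst hne
    rw [Matrix.diagonal_apply_eq, Matrix.one_apply_eq]
    exact h i (by omega)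
  · rw [Matrix.diagonal_apply_ne _ hne, Matrix.one_apply_ne hne]

theorem gsd_emb_corner_le {m o r : ℕ} {x : gs_Mat N} (h : gs_IsCorner r x) (hle : o + r ≤ m) :
    gs_IsCorner m (gs_emb o x) := gm_corner_mono hle (gm_emb_corner o h)

end general

section ctx
variable {Y : Type} {N : ℕ} {R : Subring ℂ} {S : gs_Sys Y} {e0 k : ℕ} {col : ℕ → ℕ → Bool}

theorem gsd_ctx_col : (gr_ctx S e0 k col).col = col := rfl

theorem gsd_ctx_k : (gr_ctx S e0 k col).k = k := rfl

theorem gsd_ctx_sig : (gr_ctx S e0 k col).sig = S.sig := rfl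

theorem gsd_getElem? {i : ℕ} (hi : i < (gr_ctx S e0 k col).len) : (gr_ctx S e0 k col).E.ls[i]? = some ((gr_ctx S e0 k col).letter i) := by
  rw [gsd_letter_eq col hi]
  exact List.getElem?_eq_getElem hi

theorem gsd_cQ_n (hyp : gr_Hyp N R S e0 k) (hC : (gr_ctx S e0 k col).WF) {i : ℕ} (hi : i ≤ (gr_ctx S e0 k col).len) :
    gr_cQ (col i) (gr_ctx S e0 k col).n = (gr_ctx S e0 k col).n - k := by
  have h1 := gsd_col_cnt hyp hC i hi
  have h2 := gct_cU_add_cQ (col i) (gr_ctx S e0 k col).n
  omega

/-- bounds for an interval `[o, o+m)` inside `[0,n)` -/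
theorem gsd_interval_le (hyp : gr_Hyp N R S e0 k) (hC : (gr_ctx S e0 k col).WF) {i : ℕ} (hi : i ≤ (gr_ctx S e0 k col).len) {o m : ℕ}
    (hom : o + m ≤ (gr_ctx S e0 k col).n) :
    gr_cU (col i) o + gr_nU (col i) o (o + m) ≤ k ∧
      gr_cQ (col i) o + gr_nQ (col i) o (o + m) ≤ (gr_ctx S e0 k col).n - k := by
  have h1 := gsd_col_cnt hyp hC i hi
  have h2 := gsd_cQ_n hyp hC hi
  have h3 := gct_cU_eq_add (col i) (Nat.le_add_right o m)
  have h4 := gct_cQ_eq_add (col i) (Nat.le_add_right o m)
  have h5 := gct_cU_mono (col i) hom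
  have h6 := gct_cQ_mono (col i) hom
  omega

/-- the numbers of a swap -/
theorem gsd_snum_le (hyp : gr_Hyp N R S e0 k) (hC : (gr_ctx S e0 k col).WF) {i : ℕ} (hi : i < (gr_ctx S e0 k col).len) {o A B : ℕ}
    (hl : (gr_ctx S e0 k col).letter i = .S o A B) :
    gr_cU (col i) o + (gr_snum (col i) (col (i + 1)) o A B).a +
        (gr_snum (col i) (col (i + 1)) o A B).b + (gr_snum (col i) (col (i + 1)) o A B).h ≤ k ∧
      gr_cQ (col i) o + (gr_snum (col i) (col (i + 1)) o A B).h +
        (gr_snum (col i) (col (i + 1)) o A B).x + (gr_snum (col i) (col (i + 1)) o A B).y ≤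
          (gr_ctx S e0 k col).n - k := by
  have hs := gsd_stepOK hC hi
  have hle := gsd_mid_le (col := col) hyp hi
  rw [hl] at hs hle
  obtain ⟨-, h2, h3⟩ := hs
  simp only [gs_mid] at hle
  obtain ⟨g1, g2⟩ := gsd_interval_le hyp hC hi.le hle
  have e1 := gct_nU_add (col i) (Nat.le_add_right o A) (show o + A ≤ o + A + B by omega)
  have e2 := gct_nQ_add (col i) (Nat.le_add_right o A) (show o + A ≤ o + A + B by omega)
  have e3 : o + (A + B) = o + A + B := by omega
  rw [e3] at g1 g2
  have f1 := gct_nU_add_nQ (col i) (Nat.le_add_right o A)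
  have f2 := gct_nU_add_nQ (col i) (show o + A ≤ o + A + B by omega)
  have f3 := gct_nU_le (col (i + 1)) (show o + B ≤ o + B + A by omega)
  simp only [gr_snum]
  omega

theorem gsd_XCorner : StXCorner N R := by
  intro Y S e0 k hyp col hC z i hi adm
  have hget := gsd_getElem? (col := col) (S := S) (e0 := e0) (k := k) hi
  have hle := gsd_mid_le (col := col) hyp hi
  unfold gr_XUlet gr_XQlet
  cases hl : (gr_ctx S e0 k col).letter i with
  | L lam =>
    simp only
    constructor
    · apply gsd_diag_corner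
      intro j hj
      exact if_neg (not_lt.2 hj)
    · apply gsd_diag_corner
      intro j hj
      exact if_neg (not_lt.2 hj)
  | G inv y o =>
    simp only [gsd_ctx_col]
    rw [hl] at hle hget
    simp only [gs_mid] at hle
    obtain ⟨g1, g2⟩ := gsd_interval_le hyp hC hi.le hle
    have hU := (adm.new (.YU i)).2
    have hQ := (adm.new (.YQ i)).2
    simp only [gr_Ctx.nsig, hget, gsd_ctx_col, gsd_ctx_sig] at hU hQ
    exact ⟨gsd_emb_corner_le hU g1, gsd_emb_corner_le hQ g2⟩
  | S o A B =>
    simp only [gsd_ctx_col]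
    rw [hl] at hget
    obtain ⟨g1, g2⟩ := gsd_snum_le hyp hC hi hl
    have hT := adm.new (.T i)
    have hS := adm.new (.S i)
    have hR := adm.new (.R i)
    have hV := adm.new (.V i)
    simp only [gr_Ctx.nsig, hget, gsd_ctx_col] at hT hS hR hV
    have u0 := gm_uni_corner (adm.uU 0 (by omega))
    have u1 := gm_uni_corner (adm.uU 1 (by omega))
    have q0 := gm_uni_corner (adm.uQ 0 (by omega))
    have q1 := gm_uni_corner (adm.uQ 1 (by omega))
    have q2 := gm_uni_corner (adm.uQ 2 (by omega))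
    constructor
    · refine gm_corner_mul (gm_corner_mul (gm_corner_mul (gm_corner_mul
        (gsd_emb_corner_le hT.2 (by omega)) u0)
        (gm_corner_mono (by omega) (gm_swap_corner _ _ _))) u1)
        (gsd_emb_corner_le (gsd_GL_inv hS).2 (by omega))
    · refine gm_corner_mul (gm_corner_mul (gm_corner_mul (gm_corner_mul (gm_corner_mul
        (gm_corner_mul (gsd_emb_corner_le hR.2 (by omega)) q0) ?_) q1)
        (gm_corner_mono (by omega) (gm_swap_corner _ _ _))) q2)
        (gsd_emb_corner_le (gsd_GL_inv hV).2 (by omega))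
      apply gsd_diag_corner
      intro j hj
      apply if_neg
      intro hcon
      omega

end ctx

end Claimed.Agent.R236
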