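import Mathlib
import Claimed.Agent.R236.GComplSt
import Claimed.Agent.R236.GSoundG
import Claimed.Agent.R236.GColorD
import Claimed.Agent.R236.GColorB

/-!
# Row 236, REDUCE, SB7, leaf K8: the frame parts (owner helper188, prefix gk8_)
-/

set_option autoImplicit false

namespace Claimed.Agent.R236

section alg
variable {N : ℕ}

/-- lift an invertible matrix to a unit -/
theorem gk8_lift {A : gs_Mat N} (h : IsUnit A.det) :
    ∃ U : (gs_Mat N)ˣ, A = (U : gs_Mat N) ∧ A⁻¹ = ((U⁻¹ : (gs_Mat N)ˣ) : gs_Mat N) := by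
  obtain ⟨U, hU⟩ := (Matrix.isUnit_iff_isUnit_det A).2 h
  exact ⟨U, hU.symm, by rw [← hU, Matrix.coe_units_inv]⟩

/-- the conjugated frame part -/
theorem gk8_alg_conj {D D1 EL M ER nuR u nu1 : gs_Mat N} (hD : IsUnit D.det) (hD1 : IsUnit D1.det)
    (hEL : IsUnit EL.det) (hM : IsUnit M.det) (hER : IsUnit ER.det) (hR : IsUnit nuR.det)
    (hu : IsUnit u.det) (hnu1 : IsUnit nu1.det) :
    D1 * ((D⁻¹ * EL⁻¹ * M * ER⁻¹ * D1)⁻¹ * ((nuR * EL * D)⁻¹ * M * u * (nu1 * D1))) * D1⁻¹ =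
      ER * (M⁻¹ * nuR * M)⁻¹ * u * nu1 := by
  obtain ⟨D, rfl, hD'⟩ := gk8_lift hD
  obtain ⟨D1, rfl, hD1'⟩ := gk8_lift hD1
  obtain ⟨EL, rfl, hEL'⟩ := gk8_lift hEL
  obtain ⟨M, rfl, hM'⟩ := gk8_lift hM
  obtain ⟨ER, rfl, hER'⟩ := gk8_lift hER
  obtain ⟨nuR, rfl, hR'⟩ := gk8_lift hR
  obtain ⟨u, rfl, hu'⟩ := gk8_lift hu
  obtain ⟨nu1, rfl, hnu1'⟩ := gk8_lift hnu1
  simp only [hD', hD1', hEL', hM', hER', ← Units.val_mul, ← Matrix.coe_units_inv]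
  congr 1
  group

/-- the parts of a block triangular matrix are its mid blocks -/
theorem gk8_partU_eq {k : ℕ} (hk : k ≤ N) (Z : gs_Mat N) : gc_partU k Z = gr_midBlock 0 k Z := by
  ext i j
  unfold gc_partU gr_midBlock
  by_cases h : (i : ℕ) < k ∧ (j : ℕ) < k
  · rw [if_pos h, dif_pos ⟨h.1, h.2, by omega⟩]
    congr 1 <;> exact Fin.ext (Nat.zero_add _).symm
  · rw [if_neg h, dif_neg (fun h' => h ⟨h'.1, h'.2.1⟩)]

theorem gk8_partQ_eq {n k : ℕ} (hk : k ≤ n) (hn : n ≤ N) (Z : gs_Mat N) :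
    gc_partQ n k Z = gr_midBlock k (n - k) Z := by
  ext i j
  unfold gc_partQ gr_midBlock
  by_cases h : (i : ℕ) + k < n ∧ (j : ℕ) + k < n
  · rw [dif_pos ⟨h.1, h.2, hn⟩, dif_pos ⟨by omega, by omega, by omega⟩]
    congr 1 <;> exact Fin.ext (Nat.add_comm _ _)
  · rw [dif_neg (fun h' => h ⟨h'.1, h'.2.1⟩), dif_neg (fun h' => h ⟨by omega, by omega⟩)]

/-- a block triangular matrix is assembled from its mid blocks and its masked `UQ` part -/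
theorem gk8_tri_mid {n k : ℕ} (hk : k ≤ n) (hn : n ≤ N) {Z : gs_Mat N} (h : gr_IsTri n k Z) :
    gr_Tri n k (gr_midBlock 0 k Z) (gr_midBlock k (n - k) Z) Z := by
  rw [← gk8_partU_eq (hk.trans hn), ← gk8_partQ_eq hk hn]
  exact gc_isTri_tri hn h

/-- GapNone, read backwards -/
theorem gk8_gap {n k : ℕ} {K : Finset ℕ} {c : ℕ → Bool} (hkn : k ≤ n) (hn : n ≤ N)
    (hk : gr_cU c n = k) {Z : gs_Mat N} (hT : gr_IsTri n k Z)
    (hW : gs_IsUni n K (gr_sh c n k * Z * (gr_sh c n k : gs_Mat N).transpose)) :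
    gs_IsUni k (K.image (gr_cU c)) (gr_midBlock 0 k Z) ∧
    gs_IsUni (n - k) (K.image (gr_cQ c)) (gr_midBlock k (n - k) Z) ∧
    gr_asm k (gr_midBlock 0 k Z) (gr_midBlock k (n - k) Z) (gr_mask (gr_good c K n k) Z) = Z := by
  obtain ⟨β, hβ, hZ⟩ := gk8_tri_mid hkn hn hT
  have hW' : gs_IsUni n K (gr_sh c n k *
      gr_asm k (gr_midBlock 0 k Z) (gr_midBlock k (n - k) Z) β *
      (gr_sh c n k : gs_Mat N).transpose) := by
    rw [← hZ]; exact hW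
  obtain ⟨a1, a2, a3⟩ := gc_gap_mp hn hk (gm_mid_corner _ _ _) (gm_mid_corner _ _ _) hβ hW'
  refine ⟨a1, a2, ?_⟩
  have hm : gr_mask (gr_good c K n k) Z = β := by
    ext i j
    by_cases hg : gr_good c K n k i j
    · rw [gm_mask_apply_pos _ hg]
      conv_lhs => rw [hZ]
      exact gc_asm_UQ (gm_mid_corner _ _ _) hg.1 hg.2.1
    · rw [gm_mask_apply_neg _ hg]
      by_contra hne
      exact hg (a3 i j (Ne.symm hne))
  rw [hm]
  exact hZ.symm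

end alg

section data
variable {Y : Type} {N : ℕ} {R : Subring ℂ} {P : gr_Corr N} {p : gp_Pres N} {S : gs_Sys Y}
  {e0 k : ℕ} {x : gs_Pt Y N}

/-- the left correction is the mid block of `ν_i` -/
theorem gk8_EL_eq (h5 : StK5 N R) (H : gk_Hyp R P p S e0 k x) {i : ℕ} (hi : i < gk_len S e0) :
    gk_EL P p S e0 k x i =
      gs_emb (gk_o S e0 i) (gr_midBlock (gk_o S e0 i) (gk_m S e0 i) (gk_nu p S e0 k x i)) := by
  obtain ⟨hG, hS⟩ := h5 Y P p S e0 k x H i hi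
  unfold gk_EL gk_o gk_m
  cases hl : gk_letter S e0 i with
  | L lam =>
    simp only [gs_mid]
    rw [gm_emb_zero, gm_corner_zero_iff.1 (gm_mid_corner 0 0 _)]
  | G inv y o =>
    simp only [gs_mid]
    rw [(hG inv y o hl).2.2.2.2.2.2]
    rfl
  | S o A B =>
    simp only [gs_mid]
    rw [(hS o A B hl).2.2.2.2.2]
    rfl

theorem gk8_om_le (h1 : StK1 N R) (h1b : StK1b N R) (H : gk_Hyp R P p S e0 k x) {i : ℕ}
    (hi : i < gk_len S e0) : gk_o S e0 i + gk_m S e0 i ≤ N := by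
  obtain ⟨hF, -⟩ := h1 Y P p S e0 k x H
  obtain ⟨hm, -⟩ := h1b Y P p S e0 k x H i hi
  exact ((hF i).le _ hm.2.2.1).trans (hF i).nN

/-- the left correction is unipotent -/
theorem gk8_EL_uni (h4 : StK4 N R) (h5 : StK5 N R) (H : gk_Hyp R P p S e0 k x) {i : ℕ}
    (hi : i < gk_len S e0) : gs_IsUni (gk_n S e0) (gk_K S e0 i) (gk_EL P p S e0 k x i) := by
  rw [gk8_EL_eq h5 H hi]
  exact gm_emb_mid_uni ((h4 Y P p S e0 k x H).2.1 i)

/-- the value of `νrad` at the point -/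
theorem gk8_nuRad_eq (h1 : StK1 N R) (h1b : StK1b N R) (h4 : StK4 N R) (h5 : StK5 N R)
    (H : gk_Hyp R P p S e0 k x) {i : ℕ} (hi : i < gk_len S e0) :
    gr_nuRad (gk_C p S e0 k x) (gk_pt P p S e0 k x) i =
      gk_nu p S e0 k x i * (gk_EL P p S e0 k x i)⁻¹ := by
  have hw : (gk_C p S e0 k x).w i = i := gsd_w_lt _ hi
  unfold gr_nuRad
  rw [hw]
  have hpat := gm_rad_part (gk8_om_le h1 h1b H hi) ((h4 Y P p S e0 k x H).2.1 i)
  rw [← gk8_EL_eq h5 H hi] at hpat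
  exact (gm_pat_eq_one_add_mask hpat).symm

/-- K8, first part -/
theorem gk8_nu_split (h1 : StK1 N R) (h1b : StK1b N R) (h4 : StK4 N R) (h5 : StK5 N R)
    (H : gk_Hyp R P p S e0 k x) {i : ℕ} (hi : i < gk_len S e0) :
    gk_nu p S e0 k x i =
      gr_nuRad (gk_C p S e0 k x) (gk_pt P p S e0 k x) i * gk_EL P p S e0 k x i := by
  rw [gk8_nuRad_eq h1 h1b h4 h5 H hi, mul_assoc, gm_uni_inv_mul (gk8_EL_uni h4 h5 H hi), mul_one]

theorem gk8_kn (H : gk_Hyp R P p S e0 k x) : k ≤ gk_n S e0 := H.hyp.ltn.le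

theorem gk8_nN (h1 : StK1 N R) (H : gk_Hyp R P p S e0 k x) : gk_n S e0 ≤ N :=
  ((h1 Y P p S e0 k x H).1 0).nN

theorem gk8_sh (h3 : StK3 N R) (H : gk_Hyp R P p S e0 k x) (i : ℕ) :
    (gr_sh (gk_col p S e0 k x i) (gk_n S e0) k : gs_Mat N) *
        (gr_sh (gk_col p S e0 k x i) (gk_n S e0) k : gs_Mat N).transpose = 1 :=
  gc_sh_mul_shT _ ((h3 Y P p S e0 k x H).1 i).cnt ((h3 Y P p S e0 k x H).1 i).nN

theorem gk8_D_unit (h3 : StK3 N R) (h4 : StK4 N R) (H : gk_Hyp R P p S e0 k x) (i : ℕ) :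
    IsUnit (gk_D p S e0 k x i).det := by
  unfold gk_D
  rw [Matrix.det_mul]
  exact ((h4 Y P p S e0 k x H).1 i).2.mul (Matrix.isUnit_det_of_right_inverse (gk8_sh h3 H i))

theorem gk8_D_conj (h3 : StK3 N R) (H : gk_Hyp R P p S e0 k x) (i : ℕ) (X : gs_Mat N) :
    gk_D p S e0 k x i * X * (gk_D p S e0 k x i)⁻¹ =
      gk_d p S e0 k x i * (gr_sh (gk_col p S e0 k x i) (gk_n S e0) k * X *
        (gr_sh (gk_col p S e0 k x i) (gk_n S e0) k : gs_Mat N).transpose) *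
        (gk_d p S e0 k x i)⁻¹ := by
  unfold gk_D
  rw [Matrix.mul_inv_rev, Matrix.inv_eq_right_inv (gk8_sh h3 H i)]
  simp only [mul_assoc]

theorem gk8_old (H : gk_Hyp R P p S e0 k x) (y : Y) :
    gr_GL (S.sig y).rk ((gk_pt P p S e0 k x).1 (.inl (.inl y))) := H.sol.1 y

/-- what `StLoc` says at the point -/
theorem gk8_loc (h2 : StK2 N R) (h6 : StK6 N R) (h7 : StK7 N R) (hLoc : StLoc N R)
    (H : gk_Hyp R P p S e0 k x) {i : ℕ} (hi : i < gk_len S e0) :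
    gs_IsUni (gk_n S e0) (gk_K S e0 (i + 1)) (gk_ER P p S e0 k x i) ∧
    gr_Tri (gk_n S e0) k (gr_XUlet (gk_C p S e0 k x) e0 (gk_pt P p S e0 k x) i)
      (gr_XQlet (gk_C p S e0 k x) S.eqs.length (gk_pt P p S e0 k x) i) (gk_Zlet P p S e0 k x i) ∧
    gs_IsCorner k (gr_XUlet (gk_C p S e0 k x) e0 (gk_pt P p S e0 k x) i) ∧
    gs_IsCorner (gk_n S e0 - k)
      (gr_XQlet (gk_C p S e0 k x) S.eqs.length (gk_pt P p S e0 k x) i) := by
  have hC := h2 Y P p S e0 k x H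
  have hLA := h7 Y P p S e0 k x H i hi
  obtain ⟨-, b2, b3⟩ := hLoc P H.P_ok Y S e0 k H.hyp (gk_col p S e0 k x) hC _ i hi hLA
  obtain ⟨c1, c2⟩ := gsd_XCorner Y S e0 k H.hyp (gk_col p S e0 k x) hC _ i hi hLA
  obtain ⟨-, -, -, -, -, -, hE6⟩ := h6 Y P p S e0 k x H
  obtain ⟨-, e2, e3⟩ := hE6 i hi
  refine ⟨?_, ?_, c1, c2⟩
  · rw [← e2]; exact b2
  · rw [← e3]; exact b3

theorem gk8_Zlet_unit (h1 : StK1 N R) (h2 : StK2 N R) (h3 : StK3 N R) (h4 : StK4 N R)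
    (h5 : StK5 N R) (h6 : StK6 N R) (h7 : StK7 N R) (hLoc : StLoc N R)
    (H : gk_Hyp R P p S e0 k x) {i : ℕ} (hi : i < gk_len S e0) :
    IsUnit (gk_Zlet P p S e0 k x i).det := by
  unfold gk_Zlet
  simp only [Matrix.det_mul]
  refine IsUnit.mul (IsUnit.mul (IsUnit.mul (IsUnit.mul ?_ ?_) ?_) ?_) ?_
  · exact Matrix.isUnit_nonsing_inv_det _ (gk8_D_unit h3 h4 H i)
  · exact Matrix.isUnit_nonsing_inv_det _ (gm_uni_isUnit (gk8_EL_uni h4 h5 H hi))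
  · exact ((h1 Y P p S e0 k x H).2.2.1 i).1
  · exact Matrix.isUnit_nonsing_inv_det _ (gm_uni_isUnit (gk8_loc h2 h6 h7 hLoc H hi).1)
  · exact gk8_D_unit h3 h4 H (i + 1)

/-- the frame part is block triangular -/
theorem gk8_Zfr_tri (h1 : StK1 N R) (h2 : StK2 N R) (h3 : StK3 N R) (h4 : StK4 N R)
    (h5 : StK5 N R) (h6 : StK6 N R) (h7 : StK7 N R) (hLoc : StLoc N R)
    (H : gk_Hyp R P p S e0 k x) {i : ℕ} (hi : i < gk_len S e0) :
    gr_IsTri (gk_n S e0) k (gk_Zfr P p S e0 k x i) := by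
  obtain ⟨-, t, c1, c2⟩ := gk8_loc h2 h6 h7 hLoc H hi
  have hkn := gk8_kn H
  have hnN := gk8_nN h1 H
  have hZu := gk8_Zlet_unit h1 h2 h3 h4 h5 h6 h7 hLoc H hi
  obtain ⟨u1, u2⟩ := gc_tri_units hkn hnN c1 c2 t hZu
  obtain ⟨-, ti⟩ := gc_StTriInv N _ _ _ _ _ hkn hnN ⟨u1, c1⟩ ⟨u2, c2⟩ t
  have tz := gk8_tri_mid hkn hnN ((h4 Y P p S e0 k x H).2.2.2.1 i).1
  have tm := gc_StTriMul N _ _ _ _ _ _ _ _ hkn hnN (gm_corner_inv c1 u1) (gm_corner_inv c2 u2)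
    (gm_mid_corner _ _ _) (gm_mid_corner _ _ _) ti tz
  exact gc_tri_isTri hkn (gm_corner_mul (gm_corner_inv c1 u1) (gm_mid_corner _ _ _))
    (gm_corner_mul (gm_corner_inv c2 u2) (gm_mid_corner _ _ _)) tm

/-- `νrad` at the point is unipotent -/
theorem gk8_rad_uni {i : ℕ} (hi : i < gk_len S e0) :
    gs_IsUni (gk_n S e0) (gk_K S e0 i) (gr_nuRad (gk_C p S e0 k x) (gk_pt P p S e0 k x) i) :=
  gsd_rad (S := S) (e0 := e0) (k := k) (col := gk_col p S e0 k x) (gk_pt P p S e0 k x) hi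

/-- the conjugate of `νrad` by the letter -/
theorem gk8_radc (h6 : StK6 N R) (H : gk_Hyp R P p S e0 k x) {i : ℕ} (hi : i < gk_len S e0) :
    gs_IsUni (gk_n S e0) (gk_K S e0 (i + 1))
      ((gk_M S e0 x i)⁻¹ * gr_nuRad (gk_C p S e0 k x) (gk_pt P p S e0 k x) i * gk_M S e0 x i) := by
  have := gsd_radc (col := gk_col p S e0 k x) (gm_StRadConj N) H.hyp (z := gk_pt P p S e0 k x)
    (gk8_old H) hi
  rw [show gr_M (gr_ctx S e0 k (gk_col p S e0 k x)) (gk_pt P p S e0 k x) i = gk_M S e0 x i from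
    (h6 Y P p S e0 k x H).1 i] at this
  exact this

/-- the conjugated frame part -/
theorem gk8_conj_eq (h1 : StK1 N R) (h1b : StK1b N R) (h2 : StK2 N R) (h3 : StK3 N R)
    (h4 : StK4 N R) (h5 : StK5 N R) (h6 : StK6 N R) (h7 : StK7 N R) (hLoc : StLoc N R)
    (H : gk_Hyp R P p S e0 k x) {i : ℕ} (hi : i < gk_len S e0) :
    gk_D p S e0 k x (i + 1) * gk_Zfr P p S e0 k x i * (gk_D p S e0 k x (i + 1))⁻¹ =
      gk_ER P p S e0 k x i *
        ((gk_M S e0 x i)⁻¹ * gr_nuRad (gk_C p S e0 k x) (gk_pt P p S e0 k x) i * gk_M S e0 x i)⁻¹ *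
        gk_u e0 x i * gk_nu p S e0 k x (i + 1) := by
  have hG := (h4 Y P p S e0 k x H).2.2.1
  unfold gk_Zfr gk_Zlet gk_Z
  rw [hG i, hG (i + 1), gk8_nu_split h1 h1b h4 h5 H hi]
  exact gk8_alg_conj (gk8_D_unit h3 h4 H i) (gk8_D_unit h3 h4 H (i + 1))
    (gm_uni_isUnit (gk8_EL_uni h4 h5 H hi)) ((h1 Y P p S e0 k x H).2.2.1 i).1
    (gm_uni_isUnit (gk8_loc h2 h6 h7 hLoc H hi).1) (gm_uni_isUnit (gk8_rad_uni hi))
    (gm_uni_isUnit ((h1 Y P p S e0 k x H).2.2.2.1 i))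
    (gm_uni_isUnit ((h4 Y P p S e0 k x H).2.1 (i + 1)))

theorem gk8_conj_uni (h1 : StK1 N R) (h1b : StK1b N R) (h2 : StK2 N R) (h3 : StK3 N R)
    (h4 : StK4 N R) (h5 : StK5 N R) (h6 : StK6 N R) (h7 : StK7 N R) (hLoc : StLoc N R)
    (H : gk_Hyp R P p S e0 k x) {i : ℕ} (hi : i < gk_len S e0) :
    gs_IsUni (gk_n S e0) (gk_K S e0 (i + 1))
      (gk_D p S e0 k x (i + 1) * gk_Zfr P p S e0 k x i * (gk_D p S e0 k x (i + 1))⁻¹) := by
  rw [gk8_conj_eq h1 h1b h2 h3 h4 h5 h6 h7 hLoc H hi]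
  exact gm_uni_mul (gm_uni_mul (gm_uni_mul (gk8_loc h2 h6 h7 hLoc H hi).1
    (gm_uni_inv (gk8_radc h6 H hi))) ((h1 Y P p S e0 k x H).2.2.2.1 i))
    ((h4 Y P p S e0 k x H).2.1 (i + 1))

/-- the parts of the frame part -/
theorem gk8_parts (h1 : StK1 N R) (h1b : StK1b N R) (h2 : StK2 N R) (h3 : StK3 N R)
    (h4 : StK4 N R) (h5 : StK5 N R) (h6 : StK6 N R) (h7 : StK7 N R) (hLoc : StLoc N R)
    (H : gk_Hyp R P p S e0 k x) {i : ℕ} (hi : i < gk_len S e0) :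
    gs_IsUni k ((gk_K S e0 (i + 1)).image (gr_cU (gk_col p S e0 k x (i + 1))))
      (gr_midBlock 0 k (gk_Zfr P p S e0 k x i)) ∧
    gs_IsUni (gk_n S e0 - k) ((gk_K S e0 (i + 1)).image (gr_cQ (gk_col p S e0 k x (i + 1))))
      (gr_midBlock k (gk_n S e0 - k) (gk_Zfr P p S e0 k x i)) ∧
    gr_asm k (gr_midBlock 0 k (gk_Zfr P p S e0 k x i))
      (gr_midBlock k (gk_n S e0 - k) (gk_Zfr P p S e0 k x i))
      (gr_mask (gr_good (gk_col p S e0 k x (i + 1)) (gk_K S e0 (i + 1)) (gk_n S e0) k)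
        (gk_Zfr P p S e0 k x i)) = gk_Zfr P p S e0 k x i := by
  have hu := gk8_conj_uni h1 h1b h2 h3 h4 h5 h6 h7 hLoc H hi
  rw [gk8_D_conj h3 H, gm_bd_conj_iff ((h4 Y P p S e0 k x H).1 (i + 1)).1
    ((h4 Y P p S e0 k x H).1 (i + 1)).2] at hu
  exact gk8_gap (gk8_kn H) (gk8_nN h1 H) ((h3 Y P p S e0 k x H).1 (i + 1)).cnt
    (gk8_Zfr_tri h1 h2 h3 h4 h5 h6 h7 hLoc H hi) hu

/-- the trailing unipotent of the segment of `eU` at the point -/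
theorem gk8_sU (h6 : StK6 N R) (H : gk_Hyp R P p S e0 k x) {i : ℕ} (hi : i < gk_len S e0) :
    gr_sU (gk_C p S e0 k x) e0 (gk_pt P p S e0 k x) i =
      gr_midBlock 0 k (gk_Zfr P p S e0 k x i) := by
  obtain ⟨-, -, -, hu, -⟩ := h6 Y P p S e0 k x H
  unfold gr_sU
  rw [(hu i 0 hi (by omega)).1, (hu i 1 hi (by omega)).1, (hu i 2 hi (by omega)).1,
    (hu i 3 hi (by omega)).1]
  change (match gk_letter S e0 i with
    | .S _ _ _ => gk_uU P p S e0 k x i 2 * gk_uU P p S e0 k x i 3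
    | _ => gk_uU P p S e0 k x i 0 * gk_uU P p S e0 k x i 1 * gk_uU P p S e0 k x i 2 *
        gk_uU P p S e0 k x i 3) = _
  unfold gk_uU
  cases hl : gk_letter S e0 i <;> simp

/-- the trailing unipotent of the segment of `eQ` at the point -/
theorem gk8_sQ (h6 : StK6 N R) (H : gk_Hyp R P p S e0 k x) {i : ℕ} (hi : i < gk_len S e0) :
    gr_sQ (gk_C p S e0 k x) S.eqs.length (gk_pt P p S e0 k x) i =
      gr_midBlock k (gk_n S e0 - k) (gk_Zfr P p S e0 k x i) := by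
  obtain ⟨-, -, -, hu, -⟩ := h6 Y P p S e0 k x H
  unfold gr_sQ
  rw [(hu i 0 hi (by omega)).2, (hu i 1 hi (by omega)).2, (hu i 2 hi (by omega)).2,
    (hu i 3 hi (by omega)).2]
  change (match gk_letter S e0 i with
    | .S _ _ _ => gk_uQ P p S e0 k x i 3
    | _ => gk_uQ P p S e0 k x i 0 * gk_uQ P p S e0 k x i 1 * gk_uQ P p S e0 k x i 2 *
        gk_uQ P p S e0 k x i 3) = _
  unfold gk_uQ
  cases hl : gk_letter S e0 i <;> simp

/-- the frame part read from the point -/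
theorem gk8_Zfr_eq (h1 : StK1 N R) (h1b : StK1b N R) (h2 : StK2 N R) (h3 : StK3 N R)
    (h4 : StK4 N R) (h5 : StK5 N R) (h6 : StK6 N R) (h7 : StK7 N R) (hLoc : StLoc N R)
    (H : gk_Hyp R P p S e0 k x) {i : ℕ} (hi : i < gk_len S e0) :
    gr_Zfr (gk_C p S e0 k x) e0 S.eqs.length (gk_pt P p S e0 k x) i = gk_Zfr P p S e0 k x i := by
  unfold gr_Zfr
  rw [gk8_sU h6 H hi, gk8_sQ h6 H hi]
  exact (gk8_parts h1 h1b h2 h3 h4 h5 h6 h7 hLoc H hi).2.2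

end data

/-- **K8** -/
theorem gk_k8 {N : ℕ} {R : Subring ℂ} (h1 : StK1 N R) (h1b : StK1b N R) (h2 : StK2 N R)
    (h3 : StK3 N R) (h4 : StK4 N R) (h5 : StK5 N R) (h6 : StK6 N R) (h7 : StK7 N R)
    (hLoc : StLoc N R) : StK8 N R := by
  intro Y P p S e0 k x H
  exact ⟨fun i hi => gk8_nu_split h1 h1b h4 h5 H hi, fun i hi =>
    ⟨gk8_Zfr_tri h1 h2 h3 h4 h5 h6 h7 hLoc H hi, gk8_conj_uni h1 h1b h2 h3 h4 h5 h6 h7 hLoc H hi,
      gk8_Zfr_eq h1 h1b h2 h3 h4 h5 h6 h7 hLoc H hi⟩⟩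

end Claimed.Agent.R236
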