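import Mathlib
import Claimed.Agent.R236.GComplK8

/-!
# Row 236, REDUCE, SB7, leaf K10: `Φ (gk_pt) = x` (owner helper188, prefix gk10_)
-/

set_option autoImplicit false

namespace Claimed.Agent.R236

section alg
variable {N : ℕ}

theorem gk10_alg {M nuR ER u nu1 EL1 nuR1 : gs_Mat N} (hM : IsUnit M.det) (hR : IsUnit nuR.det)
    (hER : IsUnit ER.det) (hu : IsUnit u.det) (hEL1 : IsUnit EL1.det) (hR1 : IsUnit nuR1.det)
    (h : nu1 = nuR1 * EL1) :
    M⁻¹ * nuR * M * ER⁻¹ * (ER * (M⁻¹ * nuR * M)⁻¹ * u * nu1) * 1 * EL1⁻¹ * nuR1⁻¹ = u := by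
  subst h
  obtain ⟨M, rfl, hM'⟩ := gk8_lift hM
  obtain ⟨nuR, rfl, hR'⟩ := gk8_lift hR
  obtain ⟨ER, rfl, hER'⟩ := gk8_lift hER
  obtain ⟨u, rfl, hu'⟩ := gk8_lift hu
  obtain ⟨EL1, rfl, hEL1'⟩ := gk8_lift hEL1
  obtain ⟨nuR1, rfl, hR1'⟩ := gk8_lift hR1
  simp only [hM', hER', hEL1', hR1', mul_one, ← Units.val_mul, ← Matrix.coe_units_inv]
  congr 1
  group

end alg

section data
variable {Y : Type} {N : ℕ} {R : Subring ℂ} {P : gr_Corr N} {p : gp_Pres N} {S : gs_Sys Y}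
  {e0 k : ℕ} {x : gs_Pt Y N}

theorem gk10_nu_len (h1 : StK1 N R) (h3 : StK3 N R) (H : gk_Hyp R P p S e0 k x) :
    gk_nu p S e0 k x (gk_len S e0) = gk_nu p S e0 k x 0 := by
  obtain ⟨-, hK, -⟩ := h1 Y P p S e0 k x H
  obtain ⟨-, -, -, -, -, -, hl, -⟩ := h3 Y P p S e0 k x H
  obtain ⟨-, a2, a3⟩ := hl _ le_rfl
  unfold gk_nu gk_d
  rw [hK _ le_rfl, a2, a3]

/-- the total product at the point -/
theorem gk10_Ztot (h1 : StK1 N R) (h1b : StK1b N R) (h2 : StK2 N R) (h3 : StK3 N R)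
    (h4 : StK4 N R) (h5 : StK5 N R) (h6 : StK6 N R) (h7 : StK7 N R) (hLoc : StLoc N R)
    (H : gk_Hyp R P p S e0 k x) :
    gr_Ztot (gk_C p S e0 k x) e0 S.eqs.length P (gk_pt P p S e0 k x) = 1 := by
  unfold gr_Ztot
  rw [← (h4 Y P p S e0 k x H).2.2.2.2]
  congr 1
  apply List.map_congr_left
  intro i hi
  have hi' : i < gk_len S e0 := List.mem_range.1 hi
  rw [((h6 Y P p S e0 k x H).2.2.2.2.2.2 i hi').2.2, gk8_Zfr_eq h1 h1b h2 h3 h4 h5 h6 h7 hLoc H hi']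
  unfold gk_Zfr
  rw [← mul_assoc, Matrix.mul_nonsing_inv _ (gk8_Zlet_unit h1 h2 h3 h4 h5 h6 h7 hLoc H hi'), one_mul]

/-- the unipotents of the deleted equation -/
theorem gk10_u (h1 : StK1 N R) (h1b : StK1b N R) (h2 : StK2 N R) (h3 : StK3 N R)
    (h4 : StK4 N R) (h5 : StK5 N R) (h6 : StK6 N R) (h7 : StK7 N R) (hLoc : StLoc N R)
    (H : gk_Hyp R P p S e0 k x) {i : ℕ} (hi : i < gk_len S e0) :
    gr_u (gk_C p S e0 k x) e0 S.eqs.length P (gk_pt P p S e0 k x) i = gk_u e0 x i := by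
  obtain ⟨hM6, -, hD6, -, -, -, hE6⟩ := h6 Y P p S e0 k x H
  have hlen : 0 < gk_len S e0 := by omega
  have hw : (gk_C p S e0 k x).w (i + 1) < gk_len S e0 := Nat.mod_lt _ hlen
  have hnu : gk_nu p S e0 k x (i + 1) = gk_nu p S e0 k x ((gk_C p S e0 k x).w (i + 1)) := by
    rcases (Nat.succ_le_of_lt hi).lt_or_eq with h | h
    · rw [gsd_w_lt (gk_C p S e0 k x) h]
    · have : (gk_C p S e0 k x).w (i + 1) = 0 := by
        rw [show i + 1 = (gk_C p S e0 k x).len from h]; exact gsd_w_len _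
      rw [this, show i + 1 = gk_len S e0 from h]
      exact gk10_nu_len h1 h3 H
  have hcl : (if i + 1 = (gk_C p S e0 k x).len then
      gr_D (gk_C p S e0 k x) (gk_pt P p S e0 k x) 0 *
        (2 - gr_Ztot (gk_C p S e0 k x) e0 S.eqs.length P (gk_pt P p S e0 k x)) *
        (gr_D (gk_C p S e0 k x) (gk_pt P p S e0 k x) 0)⁻¹ else 1) = (1 : gs_Mat N) := by
    split_ifs
    · rw [gk10_Ztot h1 h1b h2 h3 h4 h5 h6 h7 hLoc H, hD6 0 (Nat.zero_le _),
        show (2 : gs_Mat N) - 1 = 1 by norm_num, mul_one,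
        Matrix.mul_nonsing_inv _ (gk8_D_unit h3 h4 H 0)]
    · rfl
  unfold gr_u
  rw [hcl, hM6 i, (hE6 i hi).2.1, hD6 (i + 1) hi, gk8_Zfr_eq h1 h1b h2 h3 h4 h5 h6 h7 hLoc H hi,
    (hE6 _ hw).1, ← gsd_nuRad_w _ _ (i + 1), gk8_conj_eq h1 h1b h2 h3 h4 h5 h6 h7 hLoc H hi]
  exact gk10_alg ((h1 Y P p S e0 k x H).2.2.1 i).1 (gm_uni_isUnit (gk8_rad_uni hi))
    (gm_uni_isUnit (gk8_loc h2 h6 h7 hLoc H hi).1)
    (gm_uni_isUnit ((h1 Y P p S e0 k x H).2.2.2.1 i))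
    (gm_uni_isUnit (gk8_EL_uni h4 h5 H hw)) (gm_uni_isUnit (gk8_rad_uni hw))
    (hnu.trans (gk8_nu_split h1 h1b h4 h5 H hw))

end data

/-- **K10** -/
theorem gk_k10 {N : ℕ} {R : Subring ℂ} (h1 : StK1 N R) (h1b : StK1b N R) (h2 : StK2 N R)
    (h3 : StK3 N R) (h4 : StK4 N R) (h5 : StK5 N R) (h6 : StK6 N R) (h7 : StK7 N R)
    (hLoc : StLoc N R) : StK10 N R := by
  intro Y P p S e0 k x H
  funext q
  rcases q with y | ⟨e, j⟩
  · rfl
  · have hx := H.sol.2.1 e j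
    change (if e = e0 then (if j < gk_len S e0 then
        gr_u (gk_C p S e0 k x) e0 S.eqs.length P (gk_pt P p S e0 k x) j else 1)
      else if e < S.eqs.length then (gk_pt P p S e0 k x).1 (.inr (e, j)) else 1) = x (.inr (e, j))
    by_cases he : e = e0
    · rw [if_pos he, he]
      rw [he] at hx
      by_cases hj : j < gk_len S e0
      · rw [if_pos hj]
        exact gk10_u h1 h1b h2 h3 h4 h5 h6 h7 hLoc H hj
      · rw [if_neg hj]
        have : S.urk e0 j = 0 := if_neg hj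
        rw [this] at hx
        exact (gm_uni_zero_iff.1 hx).symm
    · rw [if_neg he]
      by_cases hE : e < S.eqs.length
      · rw [if_pos hE]
        change (if e = e0 then _ else if e < S.eqs.length then x (.inr (e, j)) else _) = _
        rw [if_neg he, if_pos hE]
      · rw [if_neg hE]
        have h0 : S.eq e = gs_Eqn.triv Y := by
          unfold gs_Sys.eq
          exact List.getD_eq_default _ _ (not_lt.1 hE)
        have : S.urk e j = 0 := by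
          unfold gs_Sys.urk
          rw [h0]
          rfl
        rw [this] at hx
        exact (gm_uni_zero_iff.1 hx).symm

end Claimed.Agent.R236
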