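import Mathlib
import Claimed.Agent.R236.GComplSt
import Claimed.Agent.R236.GLiftG

/-!
# Row 236, REDUCE, SB7: `StK2` (the colourings are admissible); prefix gk_k2
-/

set_option autoImplicit false

namespace Claimed.Agent.R236

variable {N : ℕ} {R : Subring ℂ}

theorem gk_k2 (_h1 : StK1 N R) (h1b : StK1b N R) (h3 : StK3 N R) (h5m : StK5m N R)
    (hS : StSwapNum N) : StK2 N R := by
  intro Y P p S e0 k x H
  obtain ⟨hCF, hFam, -, -, hout, hcnt, hlen, hbase, -, -⟩ := h3 Y P p S e0 k x H
  have hb := h1b Y P p S e0 k x H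
  have h5 := h5m Y P p S e0 k x H
  refine ⟨hbase, (hlen _ le_rfl).1, fun i => (hCF i).ad.1, fun i => (hCF i).ad.2, ?_⟩
  intro i hi
  have hi' : i < gk_len S e0 := hi
  have hlet : gk_letter S e0 i = (S.eq e0).ls[i] := List.getD_eq_getElem _ _ hi
  show (gk_C p S e0 k x).stepOK (gk_col p S e0 k x i) (gk_col p S e0 k x (i + 1)) (S.eq e0).ls[i]
  generalize (S.eq e0).ls[i] = l at hlet
  cases l with
  | L lam =>
    have ho : gk_o S e0 i = 0 := by unfold gk_o; rw [hlet]; rfl
    have hm : gk_m S e0 i = 0 := by unfold gk_m; rw [hlet]; rfl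
    show gk_col p S e0 k x (i + 1) = gk_col p S e0 k x i
    funext j
    exact hout i j hi' (Or.inr (by rw [ho, hm]; omega))
  | G inv y o =>
    have ho : gk_o S e0 i = o := by unfold gk_o; rw [hlet]; rfl
    have hm : gk_m S e0 i = (S.sig y).rk := by unfold gk_m; rw [hlet]; rfl
    have h2 := hcnt i hi'
    rw [ho, hm] at h2
    refine ⟨fun j hj => hout i j hi' ?_, h2⟩
    rw [ho, hm]
    exact hj
  | S o A B =>
    have ho : gk_o S e0 i = o := by unfold gk_o; rw [hlet]; rfl
    have hm : gk_m S e0 i = A + B := by unfold gk_m; rw [hlet]; rfl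
    have hga : gk_a S e0 i = A := by unfold gk_a; rw [hlet]
    have hgc : gk_c S e0 i = B := by unfold gk_c; rw [hlet]
    have hMm : gk_Mmid S e0 x i = gs_swapMat 0 A B := by unfold gk_Mmid; rw [hlet]
    have h2 := hcnt i hi'
    rw [ho, hm] at h2
    obtain ⟨hmid, hcm, hKs, -, -⟩ := hb i hi'
    rw [ho, hm, hga] at hmid
    rw [ho, hm, hgc] at hKs
    have hmid' : gs_midOK (gk_K S e0 (i + 1)) o (A + B) B := by
      rw [hKs]
      exact gl_midOK_cutRepl hmid (by omega)
    have homn : o + (A + B) ≤ gk_n S e0 := (hCF i).le _ hmid.2.2.1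
    have hnN : gk_n S e0 ≤ N := (hCF i).nN
    have t := h5 i hi' (fun lam => by rw [hlet]; simp)
    simp only [ho, hm, hga, hgc, hMm] at t
    obtain ⟨t1, t2, -, t4⟩ := t
    have c1 := gl_colMid_two (hCF i).ad hmid homn
    have c2 := gl_colMid_two (hCF (i + 1)).ad hmid' homn
    have e1 := gct_nU_add (gk_col p S e0 k x i) (lo := o) (mid := o + A) (hi := o + (A + B))
      (by omega) (by omega)
    have e2 := gct_nU_add (gk_col p S e0 k x (i + 1)) (lo := o) (mid := o + B) (hi := o + (A + B))
      (by omega) (by omega)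
    rw [c1, c2, ← e1] at t1
    have key := hS A B (gr_nU (gk_col p S e0 k x i) o (o + A))
      (gr_nU (gk_col p S e0 k x i) (o + A) (o + (A + B)))
      (gr_nU (gk_col p S e0 k x (i + 1)) o (o + B))
      (gr_nU (gk_col p S e0 k x (i + 1)) (o + B) (o + (A + B)))
      (if 0 < A then gk_h p S e0 k x i o else 1)
      (if A < A + B then gk_h p S e0 k x i (o + A) else 1)
      (if B < A + B then gk_h p S e0 k x (i + 1) (o + B) else 1)
      (if 0 < B then gk_h p S e0 k x (i + 1) o else 1)
      (gr_midBlock o (A + B) (1 + gk_z p S e0 k x i) - 1)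
      (gr_midBlock o (A + B) (gk_u e0 x i) * gr_midBlock o (A + B) (gk_nu p S e0 k x (i + 1)))
      (by omega)
      (by have := gct_nU_le (gk_col p S e0 k x i) (lo := o) (hi := o + A) (by omega); omega)
      (by have := gct_nU_le (gk_col p S e0 k x i) (lo := o + A) (hi := o + (A + B)) (by omega); omega)
      (by have := gct_nU_le (gk_col p S e0 k x (i + 1)) (lo := o) (hi := o + B) (by omega); omega)
      (by
        have := gct_nU_le (gk_col p S e0 k x (i + 1)) (lo := o + B) (hi := o + (A + B)) (by omega)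
        omega)
      (by omega)
      (gl_fam_left (hCF i).le hmid (hFam i))
      (by
        have := gl_fam_right (hCF i).le hmid (hFam i)
        rwa [Nat.add_sub_cancel_left] at this)
      (by
        have := gl_fam_right (hCF (i + 1)).le hmid' (hFam (i + 1))
        rwa [Nat.add_sub_cancel] at this)
      (gl_fam_left (hCF (i + 1)).le hmid' (hFam (i + 1)))
      t4 t2
      (by
        rw [add_sub_cancel]
        exact t1)
    refine ⟨fun j hj => hout i j hi' ?_, ?_, ?_⟩
    · rw [ho, hm]
      exact hj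
    · rw [show o + B + A = o + (A + B) by omega]
      exact key
    · rw [show o + B + A = o + (A + B) by omega, show o + A + B = o + (A + B) by omega]
      omega

end Claimed.Agent.R236
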