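import Mathlib
import Claimed.Agent.R236.GComplSt
import Claimed.Agent.R236.GLiftG

/-!
# Row 236, REDUCE, SB7: `StK3` (spectators, counts, base frame); prefix gk_k3
-/

set_option autoImplicit false

namespace Claimed.Agent.R236

variable {N : ℕ} {R : Subring ℂ}

/-- the largest cut `≤ j` -/
theorem gk_k3_floor {K : Finset ℕ} (h0 : 0 ∈ K) (j : ℕ) :
    ∃ lo ∈ K, lo ≤ j ∧ ∀ d ∈ K, d ≤ j → d ≤ lo := by
  classical
  have hne : (K.filter fun d => d ≤ j).Nonempty := ⟨0, Finset.mem_filter.2 ⟨h0, Nat.zero_le _⟩⟩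
  refine ⟨(K.filter fun d => d ≤ j).max' hne, ?_, ?_, ?_⟩
  · exact (Finset.mem_filter.1 (Finset.max'_mem _ hne)).1
  · exact (Finset.mem_filter.1 (Finset.max'_mem _ hne)).2
  · intro d hd hdj
    exact Finset.le_max' _ d (Finset.mem_filter.2 ⟨hd, hdj⟩)

theorem gk_k3 (h1 : StK1 N R) (h1b : StK1b N R) (h3a : StK3a N R) : StK3 N R := by
  intro Y P p S e0 k x H
  obtain ⟨hFr, hKlen, hM, hu, hPlen, hg, hgrec⟩ := h1 Y P p S e0 k x H
  have hb := h1b Y P p S e0 k x H
  have ha := h3a Y P p S e0 k x H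
  have hkn : k < gk_n S e0 := H.hyp.ltn
  have hk : k ≤ gk_n S e0 := hkn.le
  have hCF : ∀ i, gr_CF N (gk_n S e0) k (gk_K S e0 i) (gk_col p S e0 k x i) := fun i =>
    H.p_ok.cf _ _ _ _ (hFr i) hk (hg i)
  have hGLb : ∀ i, gr_GL (gk_n S e0) (gk_M S e0 x i * gk_u e0 x i) := fun i =>
    gl_GL_mul (hM i) (gl_GL_uni (hu i))
  -- spectator blocks
  have hsp : ∀ i, i < gk_len S e0 → ∀ lo,
      gr_Spect (gk_K S e0 i) (gk_n S e0) (gk_o S e0 i) (gk_m S e0 i) lo →
      (∀ j, lo ≤ j → j < gr_nxt (gk_K S e0 i) lo →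
        gk_col p S e0 k x i j = gk_col p S e0 k x (i + 1) j) ∧
      gk_h p S e0 k x i lo = gk_h p S e0 k x (i + 1) lo := by
    intro i hi lo hlo
    obtain ⟨hloK', hnxt, lam, hlam, hdiag⟩ := (ha i hi).2 lo hlo
    obtain ⟨hloK, hlon, hlo'⟩ := hlo
    obtain ⟨hmid, -, -, -, -⟩ := hb i hi
    obtain ⟨hhiK, hlohi, -, hmin⟩ := gl_nxt_spec (hFr i).top hlon
    have hhi : gr_nxt (gk_K S e0 i) lo ≤ gk_o S e0 i ∨
        gk_o S e0 i + gk_m S e0 i ≤ gr_nxt (gk_K S e0 i) lo := by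
      rcases hlo' with h | h
      · exact Or.inl (hmin _ hmid.1 h)
      · exact Or.inr (by omega)
    have hzero := ((ha i hi).1 _ hhiK hhi).2
    have := H.p_ok.spect (gk_K S e0 i) (gk_K S e0 (i + 1)) (gk_n S e0) k (gk_g S e0 x (i + 1))
      (gk_M S e0 x i * gk_u e0 x i) lo (gr_nxt (gk_K S e0 i) lo) lam (hFr i) (hFr (i + 1)) hk
      (hg (i + 1)) (hGLb i) hloK hloK' hlon rfl hnxt hlam hzero hdiag
    rw [← hgrec i] at this
    exact this
  have hcount : ∀ i, i < gk_len S e0 → ∀ c ∈ gk_K S e0 i,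
      (c ≤ gk_o S e0 i ∨ gk_o S e0 i + gk_m S e0 i ≤ c) →
      gr_cU (gk_col p S e0 k x i) c = gr_cU (gk_col p S e0 k x (i + 1)) c := by
    intro i hi c hc hc'
    obtain ⟨hcK', hzero⟩ := (ha i hi).1 c hc hc'
    have := H.p_ok.count (gk_K S e0 i) (gk_K S e0 (i + 1)) (gk_n S e0) k (gk_g S e0 x (i + 1))
      (gk_M S e0 x i * gk_u e0 x i) c (hFr i) (hFr (i + 1)) hk (hg (i + 1)) (hGLb i) hc hcK' hzero
    rw [← hgrec i] at this
    exact this
  have hg0 : gk_g S e0 x 0 = 1 := by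
    unfold gk_g gk_P
    simp
  have hglen : ∀ i, gk_len S e0 ≤ i → gk_g S e0 x i = gk_g S e0 x 0 := by
    intro i hi
    rw [hg0]
    unfold gk_g
    rw [hPlen i hi, inv_one]
  have hkK : k ∈ gk_K S e0 0 := H.hyp.mem
  have hcol0 : ∀ j, gk_col p S e0 k x 0 j = decide (j < k) := by
    intro j
    unfold gk_col
    rw [hg0]
    exact H.p_ok.base _ _ _ (hFr 0) hkK j
  refine ⟨hCF, fun i => H.p_ok.gl _ _ _ _ (hFr i) hk (hg i),
    fun i => H.p_ok.zsupp _ _ _ _ (hFr i) hk (hg i), fun i c hi hc => (hsp i hi c hc).2, ?_, ?_, ?_,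
    hcol0, ?_, ?_⟩
  · -- colours outside of the interval
    intro i j hi hj
    by_cases hjn : gk_n S e0 ≤ j
    · rw [(hCF i).ad.1 j hjn, (hCF (i + 1)).ad.1 j hjn]
    · obtain ⟨hmid, -, -, -, -⟩ := hb i hi
      obtain ⟨lo, hloK, hloj, hmax⟩ := gk_k3_floor (hFr i).zero j
      have hlon : lo < gk_n S e0 := by omega
      obtain ⟨hhiK, hlohi, -, -⟩ := gl_nxt_spec (hFr i).top hlon
      have hjhi : j < gr_nxt (gk_K S e0 i) lo := by
        by_contra hc
        have := hmax _ hhiK (by omega)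
        omega
      have hspect : gr_Spect (gk_K S e0 i) (gk_n S e0) (gk_o S e0 i) (gk_m S e0 i) lo := by
        refine ⟨hloK, hlon, ?_⟩
        rcases hj with h | h
        · exact Or.inl (by omega)
        · exact Or.inr (hmax _ hmid.2.2.1 h)
      exact ((hsp i hi lo hspect).1 j hloj hjhi).symm
  · -- the number of `U` in the interval
    intro i hi
    obtain ⟨hmid, -, -, -, -⟩ := hb i hi
    unfold gr_nU
    rw [hcount i hi _ hmid.1 (Or.inl le_rfl), hcount i hi _ hmid.2.2.1 (Or.inr le_rfl)]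
  · -- beyond the last letter
    intro i hi
    refine ⟨?_, ?_, ?_⟩
    · unfold gk_col
      rw [hKlen i hi, hglen i hi]
    · unfold gk_h
      rw [hKlen i hi, hglen i hi]
    · unfold gk_z
      rw [hKlen i hi, hglen i hi]
  · -- `h_0 = 1`
    intro c hc hcn
    obtain ⟨hhiK, hlohi, -, hmin⟩ := gl_nxt_spec (hFr 0).top hcn
    refine H.p_ok.triv _ _ _ _ (hFr 0) hk (hg 0) c hc hcn ?_
    by_cases hck : c < k
    · right
      refine gct_nU_of_forall hlohi.le fun j _ hj => ?_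
      have h2 := hmin k hkK hck
      have h3 := hcol0 j
      unfold gk_col at h3
      rw [h3]
      simp
      omega
    · left
      refine gct_nU_of_forall_not fun j hj _ => ?_
      have h3 := hcol0 j
      unfold gk_col at h3
      rw [h3]
      simp
      omega
  · -- `z_0 = 0`
    ext r s
    by_contra hne
    obtain ⟨-, hr, hs, d, -, hrd, hds⟩ := H.p_ok.zsupp _ _ _ _ (hFr 0) hk (hg 0) r s hne
    have h3 := hcol0 r
    have h4 := hcol0 s
    unfold gk_col at h3 h4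
    rw [h3] at hr
    rw [h4] at hs
    simp at hr hs
    omega

end Claimed.Agent.R236
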