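import Mathlib
import Claimed.Agent.R236.GLiftG
import Claimed.Agent.R236.GColorA

/-!
# Row 236, REDUCE, SB3 (LIFT), part L: the case of a letter `L` (owner helper58, prefix `gl_`)
-/

set_option autoImplicit false

namespace Claimed.Agent.R236

open Matrix

variable {N : ℕ}

theorem gl_shInvFn_inj {c : ℕ → Bool} {n k : ℕ} (hk : gr_cU c n = k) {s t : ℕ}
    (h : gm_shInvFn c n k s = gm_shInvFn c n k t) : s = t := by
  rw [← gm_shFn_shInvFn hk s, ← gm_shFn_shInvFn hk t, h]

/-- a diagonal matrix in standard coordinates -/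
theorem gl_sh_diag {c : ℕ → Bool} {n k : ℕ} (hn : n ≤ N) (hk : gr_cU c n = k) (lam : ℕ → ℂ)
    (hlam : ∀ j, n ≤ j → lam j = 1) :
    (gr_sh c n k : gs_Mat N).transpose * Matrix.diagonal (fun j : Fin N => lam j) * gr_sh c n k =
      gr_asm k
        (Matrix.diagonal fun j : Fin N =>
          if (j : ℕ) < k then lam (Nat.nth (fun t => c t = true) j) else 1)
        (Matrix.diagonal fun j : Fin N =>
          if (j : ℕ) < n - k then lam (Nat.nth (fun t => c t = false) j) else 1) 0 := by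
  have hkn : k ≤ n := hk ▸ gct_cU_le c n
  have hU : gs_IsCorner k (Matrix.diagonal fun j : Fin N =>
      if (j : ℕ) < k then lam (Nat.nth (fun t => c t = true) j) else 1 : gs_Mat N) := by
    intro i j hij
    by_cases e : i = j
    · subst e
      rw [Matrix.diagonal_apply_eq, Matrix.one_apply_eq, if_neg (by omega)]
    · rw [Matrix.diagonal_apply_ne _ e, Matrix.one_apply_ne e]
  ext i j
  rw [gm_sh_conj_apply' hn hk, gr_asm, add_zero, gc_diag_apply hU]
  by_cases e : i = j
  · subst e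
    rw [Matrix.diagonal_apply_eq]
    by_cases hi : (i : ℕ) < k
    · rw [if_pos hi, Matrix.diagonal_apply_eq, if_pos hi]
      simp only [gm_shInvFn, if_pos hi]
    · rw [if_neg hi, gm_emb_apply_ge k _ (by omega) (by omega), Matrix.diagonal_apply_eq]
      simp only [gm_shInvFn, if_neg hi]
      by_cases hin : (i : ℕ) < n
      · rw [if_pos hin, if_pos (by omega)]
      · rw [if_neg hin, if_neg (by omega), hlam _ (by omega)]
  · have e' : (⟨gm_shInvFn c n k i, gm_shInvFn_lt' hn hk i.2⟩ : Fin N) ≠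
        ⟨gm_shInvFn c n k j, gm_shInvFn_lt' hn hk j.2⟩ := by
      intro h
      exact e (Fin.ext (gl_shInvFn_inj hk (congrArg Fin.val h)))
    rw [Matrix.diagonal_apply_ne _ e']
    by_cases hi : (i : ℕ) < k
    · rw [if_pos hi, Matrix.diagonal_apply_ne _ e]
    · rw [if_neg hi]
      by_cases hj : k ≤ (j : ℕ)
      · rw [gm_emb_apply_ge k _ (by omega) hj, Matrix.diagonal_apply_ne]
        intro h
        have := congrArg Fin.val h
        simp only at this
        exact e (Fin.ext (by omega))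
      · rw [gm_emb_apply_lt_col k _ i (by omega), Matrix.one_apply_ne e]

/-- `lam` is constant on the blocks -/
theorem gl_lam_const {n : ℕ} {K : Finset ℕ} {lam : ℕ → ℂ}
    (h1 : ∀ j, j + 1 < n → j + 1 ∉ K → lam j = lam (j + 1)) {i j : ℕ} (hij : i ≤ j) (hj : j < n)
    (hb : ∀ c ∈ K, (i < c ↔ j < c)) : lam i = lam j := by
  obtain ⟨d, rfl⟩ := Nat.exists_eq_add_of_le hij
  induction d with
  | zero => rfl
  | succ d ih =>
    have h2 : i + d + 1 ∉ K := fun hK => by
      have := (hb _ hK).1 (by omega)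
      omega
    rw [ih (by omega) (by omega) (fun c hc => ?_), h1 (i + d) (by omega) h2]
    · rfl
    · have := hb c hc
      constructor
      · intro h3
        have := this.1 h3
        omega
      · intro h3
        omega

/-- a diagonal matrix which is constant on the blocks commutes with the block diagonal matrices -/
theorem gl_diag_comm {n : ℕ} {K : Finset ℕ} {d : gs_Mat N} (hd : gr_IsBD n K d) {lam : ℕ → ℂ}
    (h1 : ∀ j, j + 1 < n → j + 1 ∉ K → lam j = lam (j + 1)) :
    Matrix.diagonal (fun j : Fin N => lam j) * d = d * Matrix.diagonal (fun j : Fin N => lam j) := by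
  ext i j
  rw [Matrix.diagonal_mul, Matrix.mul_diagonal]
  by_cases h0 : d i j = 0
  · rw [h0, mul_zero, zero_mul]
  · have hb := hd.2 i j h0
    have hl : lam i = lam j := by
      by_cases hn : n ≤ (i : ℕ) ∨ n ≤ (j : ℕ)
      · have h2 := hd.1 i j hn
        by_cases e : i = j
        · rw [e]
        · rw [h2, Matrix.one_apply_ne e] at h0
          exact absurd rfl h0
      · rcases le_total (i : ℕ) (j : ℕ) with h | h
        · exact gl_lam_const h1 h (by omega) hb
        · exact (gl_lam_const h1 h (by omega) fun c hc => (hb c hc).symm).symm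
    rw [hl, mul_comm]

/-- block diagonal matrices are block diagonal -/
theorem gl_bd_BD {n : ℕ} {K : Finset ℕ} (hn : n ∈ K) {h : ℕ → gs_Mat N} (hh : gl_Cor n K h) :
    gr_IsBD n K (gl_bd n K h) := by
  unfold gl_bd
  apply gm_bd_list_prod
  intro d hd
  obtain ⟨c, hc, rfl⟩ := List.mem_map.mp hd
  have hcn := List.mem_range.mp hc
  by_cases hcK : c ∈ K
  · rw [if_pos hcK]
    obtain ⟨_, g2, g3, g4⟩ := gl_nxt_spec hn hcn
    refine gm_bd_emb (hh c hcK hcn) (by omega) ?_
    intro e he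
    by_cases hce : c < e
    · right; have := g4 e he hce; omega
    · left; omega
  · rw [if_neg hcK]; exact gm_bd_one n K

theorem gl_cutRepl_zero {K : Finset ℕ} (h0 : 0 ∈ K) : gs_cutRepl K 0 0 0 = K := by
  ext d
  rw [gl_mem_cutRepl]
  constructor
  · rintro (h | h)
    · rw [h]; exact h0
    · exact h.1
  · exact fun h => Or.inr ⟨h, Or.inr (by omega)⟩

theorem gl_sh_zero (c : ℕ → Bool) (k : ℕ) : (gr_sh c 0 k : gs_Mat N) = 1 :=
  gm_pm_eq_one fun r _ => by simp [gr_shFn]

section ctx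

variable {Y : Type} {R : Subring ℂ} {S : gs_Sys Y} {e0 k : ℕ}

/-- **the case of a letter `L`** -/
theorem gl_loc_L (hSh : StShInv N) (hLoc : StLocality N) (hTM : StTriMul N)
    (hUn : StUnpackUn N R) (P : gr_Corr N)
    (hyp : gr_Hyp N R S e0 k) {col : ℕ → ℕ → Bool}
    (hC : (gr_ctx S e0 k col).WF) (z : gr_Z Y N) {i : ℕ} (hi : i < (gr_ctx S e0 k col).len)
    (hadm : gr_LocAdm (gr_ctx S e0 k col) e0 S.eqs.length z i) {lam : ℕ → ℂ}
    (hl : (gr_ctx S e0 k col).letter i = .L lam) :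
    gs_IsUni (gr_ctx S e0 k col).n ((gr_ctx S e0 k col).K i)
      (gr_EL (gr_ctx S e0 k col) e0 S.eqs.length P z i) ∧
    gs_IsUni (gr_ctx S e0 k col).n ((gr_ctx S e0 k col).K (i + 1))
      (gr_ER (gr_ctx S e0 k col) e0 S.eqs.length P z i) ∧
    gr_Tri (gr_ctx S e0 k col).n (gr_ctx S e0 k col).k (gr_XUlet (gr_ctx S e0 k col) e0 z i)
      (gr_XQlet (gr_ctx S e0 k col) S.eqs.length z i)
      (gr_Zlet (gr_ctx S e0 k col) e0 S.eqs.length P z i) := by
  have happ := gsd_app hyp col hi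
  have hKs := gsd_K_succ (S := S) (e0 := e0) (k := k) col hi
  have hst := gsd_stepOK hC hi
  rw [hl] at happ hKs hst
  have hKs' : (gr_ctx S e0 k col).K (i + 1) = (gr_ctx S e0 k col).K i := hKs
  have hcc : col (i + 1) = col i := hst
  obtain ⟨hl1, hl2⟩ : (∀ j, j + 1 < (gr_ctx S e0 k col).n → j + 1 ∉ (gr_ctx S e0 k col).K i →
      lam j = lam (j + 1)) ∧ (∀ j, (gr_ctx S e0 k col).n ≤ j → lam j = 1) := happ
  have hK := gsd_K_ok hyp col i hi.le
  have hCF := gsd_CF hyp hC i hi.le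
  have hnN := gsd_n_le hyp col
  have hkn : k ≤ (gr_ctx S e0 k col).n := hCF.cnt ▸ gct_cU_le (col i) _
  have hELeq : gr_EL (gr_ctx S e0 k col) e0 S.eqs.length P z i = 1 := by
    simp only [gr_EL, hl]
  have hEReq : gr_ER (gr_ctx S e0 k col) e0 S.eqs.length P z i = 1 := by
    simp only [gr_ER, hl]
  have hMeq : gr_M (gr_ctx S e0 k col) z i = Matrix.diagonal fun j : Fin N => lam j := by
    simp only [gr_M, hl, gs_Letter.map, gs_lmat]
  refine ⟨hELeq ▸ gm_uni_one _ _, hEReq ▸ gm_uni_one _ _, ?_⟩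
  -- `D_i⁻¹ D_{i+1}` is `[[1,*],[0,1]]`
  have hmid : gs_midOK ((gr_ctx S e0 k col).K i) 0 0 0 :=
    ⟨hK.zero, hK.zero, hK.zero, le_rfl, fun d _ h1 h2 => by omega⟩
  have hT0 : gr_Tri 0 (gr_nU (col i) 0 (0 + 0)) (1 : gs_Mat N) 1
      ((gl_dmid 0 0 0 (gr_hval (gr_ctx S e0 k col) z i) *
          gr_sh (gr_colMid (col i) 0 0) 0 (gr_nU (col i) 0 (0 + 0)))⁻¹ * 1 *
        (gl_dmid 0 0 0 (gr_hval (gr_ctx S e0 k col) z (i + 1)) *
          gr_sh (gr_colMid (col (i + 1)) 0 0) 0 (gr_nU (col i) 0 (0 + 0)))) := by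
    refine ⟨0, fun i j h => absurd rfl h, ?_⟩
    simp [gl_dmid, gl_sh_zero, gr_asm, gm_emb_one]
  have h1 := gl_lift_ctx hSh hLoc hTM hUn hyp hC z hi hadm (o := 0) (m := 0) (a := 0) (c := 0)
    (by rw [hl]; rfl) hmid (by rw [hKs', gl_cutRepl_zero hK.zero]) le_rfl
    (fun j _ => by rw [hcc]) (by rw [hcc]) (gm_corner_one 0) (gm_corner_one _) (gm_corner_one _) hT0
  rw [gm_emb_one, gm_emb_one, gm_emb_one, mul_one] at h1
  -- the diagonal part
  have hF' := gl_hval_fam hyp col z hadm.new (Nat.succ_le_of_lt hi)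
  have hBD : gr_IsBD (gr_ctx S e0 k col).n ((gr_ctx S e0 k col).K i)
      (gr_d (gr_ctx S e0 k col) z (i + 1)) := by
    rw [gl_d_eq, ← hKs']
    exact gl_bd_BD (hKs' ▸ hK.top) hF'.cor
  have hcomm := gl_diag_comm hBD hl1
  have hdiag := gl_sh_diag (N := N) hnN hCF.cnt lam hl2
  have hXU : gr_XUlet (gr_ctx S e0 k col) e0 z i = Matrix.diagonal fun j : Fin N =>
      if (j : ℕ) < k then lam (Nat.nth (fun t => col i t = true) j) else 1 := by
    simp only [gr_XUlet, hl]; rfl
  have hXQ : gr_XQlet (gr_ctx S e0 k col) S.eqs.length z i = Matrix.diagonal fun j : Fin N =>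
      if (j : ℕ) < (gr_ctx S e0 k col).n - k then lam (Nat.nth (fun t => col i t = false) j)
      else 1 := by
    simp only [gr_XQlet, hl]; rfl
  have cU : gs_IsCorner k (gr_XUlet (gr_ctx S e0 k col) e0 z i) := by
    rw [hXU]
    intro a b hab
    by_cases e : a = b
    · subst e
      rw [Matrix.diagonal_apply_eq, Matrix.one_apply_eq, if_neg (by omega)]
    · rw [Matrix.diagonal_apply_ne _ e, Matrix.one_apply_ne e]
  have cQ : gs_IsCorner ((gr_ctx S e0 k col).n - k)
      (gr_XQlet (gr_ctx S e0 k col) S.eqs.length z i) := by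
    rw [hXQ]
    intro a b hab
    by_cases e : a = b
    · subst e
      rw [Matrix.diagonal_apply_eq, Matrix.one_apply_eq, if_neg (by omega)]
    · rw [Matrix.diagonal_apply_ne _ e, Matrix.one_apply_ne e]
  have h2 : gr_Tri (gr_ctx S e0 k col).n k (gr_XUlet (gr_ctx S e0 k col) e0 z i)
      (gr_XQlet (gr_ctx S e0 k col) S.eqs.length z i)
      ((gr_sh (col i) (gr_ctx S e0 k col).n k : gs_Mat N).transpose *
        Matrix.diagonal (fun j : Fin N => lam j) * gr_sh (col i) (gr_ctx S e0 k col).n k) := by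
    rw [hdiag, hXU, hXQ]
    exact ⟨0, fun i j h => absurd rfl h, rfl⟩
  have h3 := hTM _ k 1 1 _ _ _ _ hkn hnN (gm_corner_one k) (gm_corner_one _) cU cQ h1 h2
  rw [one_mul, one_mul] at h3
  suffices hZ : gr_Zlet (gr_ctx S e0 k col) e0 S.eqs.length P z i =
      (gr_D (gr_ctx S e0 k col) z i)⁻¹ * gr_D (gr_ctx S e0 k col) z (i + 1) *
        ((gr_sh (col i) (gr_ctx S e0 k col).n k : gs_Mat N).transpose *
          Matrix.diagonal (fun j : Fin N => lam j) * gr_sh (col i) (gr_ctx S e0 k col).n k) by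
    rw [hZ]; exact h3
  unfold gr_Zlet
  rw [hELeq, hEReq, hMeq, inv_one, mul_one, mul_one]
  have hSh1 := (hSh (col i) _ k hnN hCF.ad.1 hCF.cnt).1
  have hD : gr_D (gr_ctx S e0 k col) z (i + 1) =
      gr_d (gr_ctx S e0 k col) z (i + 1) * gr_sh (col i) (gr_ctx S e0 k col).n k := by
    unfold gr_D
    show _ * gr_sh (col (i + 1)) _ _ = _
    rw [hcc]; rfl
  rw [hD]
  set Sh : gs_Mat N := gr_sh (col i) (gr_ctx S e0 k col).n k
  set d' := gr_d (gr_ctx S e0 k col) z (i + 1)
  set M : gs_Mat N := Matrix.diagonal fun j : Fin N => lam j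
  calc (gr_D (gr_ctx S e0 k col) z i)⁻¹ * M * (d' * Sh)
      = (gr_D (gr_ctx S e0 k col) z i)⁻¹ * (M * d') * Sh := by simp only [mul_assoc]
    _ = (gr_D (gr_ctx S e0 k col) z i)⁻¹ * (d' * (Sh * Sh.transpose) * M) * Sh := by
        rw [hcomm, hSh1, mul_one]
    _ = _ := by simp only [mul_assoc]

end ctx

end Claimed.Agent.R236
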