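import Mathlib
import Claimed.Agent.R236.GComplSt
import Claimed.Agent.R236.GLiftL

/-!
# Row 236, REDUCE, SB7, leaf K3a: the block structure of `M_i u_i` (owner helper162)
-/

set_option autoImplicit false

namespace Claimed.Agent.R236

open Matrix

variable {N : ℕ}

/-- the two properties of the matrix of a letter used below -/
def gka_MOK (K : Finset ℕ) (n o m : ℕ) (M : gs_Mat N) : Prop :=
  (∀ c, (c ≤ o ∨ o + m ≤ c) → ∀ r l : Fin N, c ≤ (r : ℕ) → (l : ℕ) < c → M r l = 0) ∧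
  ∀ lo, gr_Spect K n o m lo → ∃ lam : ℂ, lam ≠ 0 ∧
    ∀ r l : Fin N, lo ≤ (r : ℕ) → (r : ℕ) < gr_nxt K lo → M r l = if r = l then lam else 0

theorem gka_emb_ok {K : Finset ℕ} {n o m : ℕ} (hn : n ∈ K) (ho : o ∈ K) {X : gs_Mat N}
    (hX : gs_IsCorner m X) : gka_MOK K n o m (gs_emb o X) := by
  constructor
  · intro c hc r l hr hl
    have hne : r ≠ l := by
      intro e
      rw [e] at hr
      omega
    rcases hc with hc | hc
    · rw [gm_emb_apply_lt_col o X r (by omega), Matrix.one_apply_ne hne]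
    · rw [gm_emb_corner o hX r l (Or.inl (by omega)), Matrix.one_apply_ne hne]
  · rintro lo ⟨h1, h2, h3⟩
    refine ⟨1, one_ne_zero, fun r l hr1 hr2 => ?_⟩
    obtain ⟨_, g2, g3, g4⟩ := gl_nxt_spec hn h2
    rw [← Matrix.one_apply]
    rcases h3 with h3 | h3
    · have := g4 o ho h3
      exact gm_emb_apply_lt_row o X (by omega) l
    · exact gm_emb_corner o hX r l (Or.inl (by omega))

theorem gka_diag_ok {K : Finset ℕ} {n : ℕ} (hn : n ∈ K) {lam : ℕ → ℂ}
    (h1 : ∀ j, j + 1 < n → j + 1 ∉ K → lam j = lam (j + 1)) (h0 : ∀ j, lam j ≠ 0) (o m : ℕ) :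
    gka_MOK K n o m (Matrix.diagonal fun j : Fin N => lam j) := by
  constructor
  · intro c _ r l hr hl
    exact Matrix.diagonal_apply_ne _ (by
      intro e
      rw [e] at hr
      omega)
  · rintro lo ⟨_, h2, _⟩
    refine ⟨lam lo, h0 lo, fun r l hr1 hr2 => ?_⟩
    obtain ⟨_, g2, g3, g4⟩ := gl_nxt_spec hn h2
    rw [Matrix.diagonal_apply]
    have : lam lo = lam r := gl_lam_const h1 hr1 (by omega) fun c hc => by
      constructor
      · intro h
        have := g4 c hc h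
        omega
      · intro h
        omega
    rw [this]

/-- the block structure of `M * u` -/
theorem gka_mul {K K' : Finset ℕ} {n o m : ℕ} {M u : gs_Mat N} (hM : gka_MOK K n o m M)
    (hu : gs_IsUni n K' u) :
    (∀ c, (c ≤ o ∨ o + m ≤ c) → ∀ r s : Fin N, c ≤ (r : ℕ) → (s : ℕ) < c → (M * u) r s = 0) ∧
    ∀ lo, gr_Spect K n o m lo → lo < gr_nxt K lo →
      (∀ d ∈ K', lo < d → gr_nxt K lo ≤ d) → ∃ lam : ℂ, lam ≠ 0 ∧
      ∀ r s : Fin N, lo ≤ (r : ℕ) → (r : ℕ) < gr_nxt K lo → (s : ℕ) < gr_nxt K lo →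
        (M * u) r s = if r = s then lam else 0 := by
  constructor
  · intro c hc r s hr hs
    rw [Matrix.mul_apply]
    refine Finset.sum_eq_zero fun l _ => ?_
    by_cases hl : (l : ℕ) < c
    · rw [hM.1 c hc r l hr hl, zero_mul]
    · rw [gm_uni_lower hu (Fin.lt_def.mpr (by omega)), mul_zero]
  · intro lo hlo _ hK'
    obtain ⟨lam, hlam, hrow⟩ := hM.2 lo hlo
    refine ⟨lam, hlam, fun r s hr1 hr2 hs => ?_⟩
    rw [Matrix.mul_apply, Finset.sum_eq_single r]
    · rw [hrow r r hr1 hr2, if_pos rfl]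
      have hu1 : u r s = (1 : gs_Mat N) r s := by
        by_contra hne
        obtain ⟨_, d, hd, h1, h2⟩ := hu r s hne
        have := hK' d hd (by omega)
        omega
      rw [hu1, Matrix.one_apply]
      split_ifs <;> simp
    · intro l _ hl
      rw [hrow r l hr1 hr2, if_neg (Ne.symm hl), zero_mul]
    · intro h
      exact absurd (Finset.mem_univ r) h

theorem gk_k3a {R : Subring ℂ} (h1 : StK1 N R) (h1b : StK1b N R) : StK3a N R := by
  intro Y P p S e0 k x H i hi
  obtain ⟨a1, _, _, a4, _, _, _⟩ := h1 Y P p S e0 k x H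
  obtain ⟨b1, b2, b3, b4, b5⟩ := h1b Y P p S e0 k x H i hi
  have hn : gk_n S e0 ∈ gk_K S e0 i := (a1 i).top
  have hn' : gk_n S e0 ∈ gk_K S e0 (i + 1) := (a1 (i + 1)).top
  have hM : gka_MOK (gk_K S e0 i) (gk_n S e0) (gk_o S e0 i) (gk_m S e0 i) (gk_M S e0 x i) := by
    by_cases hL : ∀ lam, gk_letter S e0 i ≠ .L lam
    · rw [b5 hL]
      exact gka_emb_ok hn b1.1 b4.2
    · push Not at hL
      obtain ⟨lam, hlam⟩ := hL
      have happ := gsd_app H.hyp (fun _ _ => false) (i := i) hi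
      have happ' : gs_app S.sig (gk_n S e0) (gk_K S e0 i) (gk_letter S e0 i) := happ
      rw [hlam] at happ'
      have hmem : gs_Letter.L lam ∈ (S.eq e0).ls := by
        have e : gk_letter S e0 i = (S.eq e0).ls[i]'hi := List.getD_eq_getElem _ _ hi
        rw [← hlam, e]
        exact List.getElem_mem hi
      have hunit := (gsd_hyp_eqn H.hyp).unit lam hmem
      have e2 : gk_M S e0 x i = Matrix.diagonal fun j : Fin N => lam j := by
        unfold gk_M
        rw [hlam]
        rfl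
      rw [e2]
      exact gka_diag_ok hn happ'.1 (fun j => (hunit j).1) _ _
  obtain ⟨m1, m2⟩ := gka_mul hM (a4 i)
  constructor
  · intro c hc hco
    refine ⟨?_, m1 c hco⟩
    rw [b3]
    exact (gl_spect_mem_iff b1 b2 hco).mpr hc
  · intro lo hlo
    have hnx : gr_nxt (gk_K S e0 (i + 1)) lo = gr_nxt (gk_K S e0 i) lo := by
      rw [b3]
      exact gl_nxt_cutRepl hn b1 b2 hlo.2.1 hlo.2.2
    obtain ⟨_, g2, _, _⟩ := gl_nxt_spec hn hlo.2.1
    obtain ⟨_, _, _, g4'⟩ := gl_nxt_spec hn' hlo.2.1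
    refine ⟨?_, hnx, m2 lo hlo g2 fun d hd hlt => ?_⟩
    · rw [b3]
      exact (gl_spect_mem_iff b1 b2 (by have := hlo.2.2; omega)).mpr hlo.1
    · rw [← hnx]
      exact g4' d hd hlt

end Claimed.Agent.R236
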