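import Mathlib
import Claimed.Agent.R236.GChain2
import Claimed.Agent.R236.GLiftL
import Claimed.Agent.R236.GMatBD

/-!
# Row 236, REDUCE, SB7, leaf MID: from frame level to mid level (owner helper162, prefix `gkm_`)

`gk_midTri : StMidTri N`, `gk_midNu : StMidNu N` (statements in `GChain2.lean`).
Tool: `gkm_Up o m A` (block upper triangular for the cuts `o`, `o + m`); `gr_midBlock o m` is
multiplicative on such matrices.
-/

set_option autoImplicit false

namespace Claimed.Agent.R236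

open Matrix

variable {N : ℕ}

/-- block upper triangular for the cuts `o` and `o + m` -/
def gkm_Up (o m : ℕ) (A : gs_Mat N) : Prop :=
  (∀ i k : Fin N, o ≤ (i : ℕ) → (k : ℕ) < o → A i k = 0) ∧
    ∀ i k : Fin N, o + m ≤ (i : ℕ) → (k : ℕ) < o + m → A i k = 0

theorem gkm_up_mul {o m : ℕ} {A B : gs_Mat N} (hA : gkm_Up o m A) (hB : gkm_Up o m B) :
    gkm_Up o m (A * B) := by
  constructor
  · intro i k hi hk
    rw [Matrix.mul_apply]
    refine Finset.sum_eq_zero fun j _ => ?_
    by_cases hj : (j : ℕ) < o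
    · rw [hA.1 i j hi hj, zero_mul]
    · rw [hB.1 j k (by omega) hk, mul_zero]
  · intro i k hi hk
    rw [Matrix.mul_apply]
    refine Finset.sum_eq_zero fun j _ => ?_
    by_cases hj : (j : ℕ) < o + m
    · rw [hA.2 i j hi hj, zero_mul]
    · rw [hB.2 j k (by omega) hk, mul_zero]

theorem gkm_mid_mul {o m : ℕ} {A B : gs_Mat N} (hA : gkm_Up o m A) (hB : gkm_Up o m B) :
    gr_midBlock o m (A * B) = gr_midBlock o m A * gr_midBlock o m B := gm_mid_mul hA.1 hB.2

theorem gkm_up_of_upper {o m : ℕ} {A : gs_Mat N} (h : ∀ i k : Fin N, k < i → A i k = 0) :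
    gkm_Up o m A :=
  ⟨fun i k h1 h2 => h i k (Fin.lt_def.mpr (by omega)), fun i k h1 h2 => h i k (Fin.lt_def.mpr (by omega))⟩

theorem gkm_up_one (o m : ℕ) : gkm_Up o m (1 : gs_Mat N) :=
  gkm_up_of_upper fun _ _ h => Matrix.one_apply_ne (ne_of_gt h)

theorem gkm_up_uni {o m n : ℕ} {K : Finset ℕ} {u : gs_Mat N} (hu : gs_IsUni n K u) :
    gkm_Up o m u := gkm_up_of_upper fun _ _ h => gm_uni_lower hu h

theorem gkm_up_bd {o m n : ℕ} {K : Finset ℕ} {d : gs_Mat N} (hd : gr_IsBD n K d) (ho : o ∈ K)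
    (hom : o + m ∈ K) : gkm_Up o m d := by
  constructor
  · intro i k hi hk
    by_contra h0
    have := hd.2 i k h0 o ho
    omega
  · intro i k hi hk
    by_contra h0
    have := hd.2 i k h0 (o + m) hom
    omega

theorem gkm_up_emb {o m : ℕ} {X : gs_Mat N} (hX : gs_IsCorner m X) : gkm_Up o m (gs_emb o X) := by
  constructor
  · intro i k hi hk
    rw [gm_emb_apply_lt_col o X i hk, Matrix.one_apply_ne]
    intro h
    rw [h] at hi
    omega
  · intro i k hi hk
    rw [gm_emb_corner o hX i k (Or.inl hi), Matrix.one_apply_ne]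
    intro h
    rw [h] at hi
    omega

theorem gkm_mid_inv {o m : ℕ} {A B : gs_Mat N} (hA : gkm_Up o m A) (hB : gkm_Up o m B)
    (h : A * B = 1) : gr_midBlock o m B = (gr_midBlock o m A)⁻¹ :=
  (Matrix.inv_eq_right_inv (by rw [← gkm_mid_mul hA hB, h, gm_mid_one])).symm

theorem gkm_mid_eq_one {o m : ℕ} {A : gs_Mat N}
    (h : ∀ i j : Fin N, o ≤ (i : ℕ) → (i : ℕ) < o + m → o ≤ (j : ℕ) → (j : ℕ) < o + m →
      A i j = (1 : gs_Mat N) i j) : gr_midBlock o m A = 1 := by
  rw [← gm_mid_one (N := N) o m]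
  ext i j
  unfold gr_midBlock
  split_ifs with hc
  · exact h _ _ (by simp) (by simp; omega) (by simp) (by simp; omega)
  · rfl

/-- the spectator part is trivial on the window -/
theorem gkm_mid_sp {n : ℕ} {K : Finset ℕ} (hn : n ∈ K) {o m : ℕ} (ho : o ∈ K) (hom : o + m ∈ K)
    {h : ℕ → gs_Mat N} (hh : gl_Cor n K h) : gr_midBlock o m (gl_bd n K (gl_sp o m h)) = 1 := by
  have key : ∀ L : List (gs_Mat N), (∀ A ∈ L, gkm_Up o m A ∧ gr_midBlock o m A = 1) →
      gkm_Up o m L.prod ∧ gr_midBlock o m L.prod = 1 := by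
    intro L
    induction L with
    | nil => intro _; exact ⟨gkm_up_one o m, gm_mid_one o m⟩
    | cons A L ih =>
      intro hL
      obtain ⟨h1, h2⟩ := hL A (List.mem_cons_self ..)
      obtain ⟨h3, h4⟩ := ih fun B hB => hL B (List.mem_cons_of_mem _ hB)
      rw [List.prod_cons]
      exact ⟨gkm_up_mul h1 h3, by rw [gkm_mid_mul h1 h3, h2, h4, one_mul]⟩
  refine (key _ ?_).2
  intro A hA
  obtain ⟨c, hc, rfl⟩ := List.mem_map.mp hA
  have hcn := List.mem_range.mp hc
  by_cases hcK : c ∈ K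
  · rw [if_pos hcK]
    unfold gl_sp
    by_cases hs : c < o ∨ o + m ≤ c
    · rw [if_pos hs]
      obtain ⟨_, g2, g3, g4⟩ := gl_nxt_spec hn hcn
      have hcor := hh c hcK hcn
      constructor
      · refine gkm_up_bd (n := n) (K := K) (gm_bd_emb hcor (by omega) ?_) ho hom
        intro e he
        by_cases hce : c < e
        · right; have := g4 e he hce; omega
        · left; omega
      · refine gkm_mid_eq_one fun i j hi1 hi2 hj1 hj2 => ?_
        rcases hs with hs | hs
        · have := g4 o ho hs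
          exact gm_emb_corner c hcor i j (Or.inl (by omega))
        · exact gm_emb_apply_lt_row c _ (by omega) j
    · rw [if_neg hs, gm_emb_one]
      exact ⟨gkm_up_one o m, gm_mid_one o m⟩
  · rw [if_neg hcK]
    exact ⟨gkm_up_one o m, gm_mid_one o m⟩

/-- the mid block of a block diagonal matrix -/
theorem gkm_mid_bd {n : ℕ} {K : Finset ℕ} (hnN : n ≤ N) (hn : n ∈ K) (hle : ∀ d ∈ K, d ≤ n)
    {o m a : ℕ} (hmid : gs_midOK K o m a) {h : ℕ → gs_Mat N} (hh : gl_Fam n K h) :
    gr_midBlock o m (gl_bd n K h) = gl_dmid o m a h := by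
  have hdm := gl_dmid_GL hnN hle hmid hh
  have homn : o + m ≤ n := hle _ hmid.2.2.1
  rw [gl_bd_split hnN hn hle hmid hh.cor,
    gkm_mid_mul (gkm_up_bd (gl_bd_BD hn (hh.cor.sp o m)) hmid.1 hmid.2.2.1) (gkm_up_emb hdm.2),
    gkm_mid_sp hn hmid.1 hmid.2.2.1 hh.cor, one_mul, gm_mid_emb hdm.2 (by omega)]

theorem gkm_one_add_uni {n : ℕ} {K : Finset ℕ} {c : ℕ → Bool} {z : gs_Mat N}
    (hz : ∀ r s : Fin N, z r s ≠ 0 → gp_zPos K n c r s) : gs_IsUni n K (1 + z) :=
  gm_uni_one_add fun r s h => ⟨(hz r s h).1, (hz r s h).2.2.2⟩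

theorem gkm_corner_transpose {m : ℕ} {A : gs_Mat N} (hA : gs_IsCorner m A) :
    gs_IsCorner m A.transpose := by
  intro i j h
  rw [Matrix.transpose_apply, hA j i (by omega), Matrix.one_apply, Matrix.one_apply]
  simp only [eq_comm]

/-- **MidNu** -/
theorem gk_midNu (N : ℕ) : StMidNu N := by
  intro n k o m a K cb h z hCF hmid hh hz
  have hnN := hCF.nN
  have hBD := gl_bd_BD hCF.top hh.cor
  have hU := gl_bd_isUnit hnN hCF.top hh
  have hz1 := gkm_one_add_uni hz
  have hnu := gm_bd_conj hBD hU hz1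
  have upd := gkm_up_bd (o := o) (m := m) hBD hmid.1 hmid.2.2.1
  have updi := gkm_up_bd (o := o) (m := m) (gm_bd_inv hBD hU) hmid.1 hmid.2.2.1
  have upz : gkm_Up o m (1 + z) := gkm_up_uni hz1
  have hmd := gkm_mid_bd hnN hCF.top hCF.le hmid hh
  refine ⟨hnu, ?_, ?_, ?_⟩
  · rw [gkm_mid_mul (gkm_up_mul upd upz) updi, gkm_mid_mul upd upz,
      gkm_mid_inv upd updi (Matrix.mul_nonsing_inv _ hU), hmd]
  · refine gm_uni_mono le_rfl ?_ (gm_mid_uni (o := o) (m := m) hnu)
    intro e he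
    unfold gm_midK at he
    obtain ⟨d, hd, rfl⟩ := Finset.mem_image.mp he
    obtain ⟨hdK, h1, h2⟩ := Finset.mem_filter.mp hd
    simp only [Finset.mem_insert, Finset.mem_singleton]
    by_cases e1 : d = o
    · left; omega
    · by_cases e2 : d = o + m
      · right; right; omega
      · have := hmid.2.2.2.2 d hdK (by omega) (by omega)
        right; left; omega
  · intro r s hrs
    rw [Matrix.sub_apply, sub_ne_zero] at hrs
    by_cases hc : (r : ℕ) < m ∧ (s : ℕ) < m ∧ o + m ≤ N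
    · rw [gm_mid_apply hc.2.2 _ hc.1 hc.2.1, Matrix.add_apply] at hrs
      have h1 : (1 : gs_Mat N) ⟨o + r, by omega⟩ ⟨o + s, by omega⟩ = (1 : gs_Mat N) r s := by
        rw [Matrix.one_apply, Matrix.one_apply]
        simp only [Fin.ext_iff, Nat.add_left_cancel_iff]
      have h2 : z ⟨o + r, by omega⟩ ⟨o + s, by omega⟩ ≠ 0 := by
        intro h0
        apply hrs
        rw [h0, add_zero, h1]
      obtain ⟨p1, p2, p3, d, hd, p4, p5⟩ := hz _ _ h2
      simp only at p1 p2 p3 p4 p5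
      have hda : d = o + a := hmid.2.2.2.2 d hd (by omega) (by omega)
      subst hda
      have homn : o + m ≤ n := hCF.le _ hmid.2.2.1
      have ham := hmid.2.2.2.1
      have b1 := gl_adapted_block hCF.ad (lo := o) (hi := o + a) (t := o + r) (by omega)
        (fun d hd h1 h2 => by have := hmid.2.2.2.2 d hd h1 (by omega); omega) (by omega) (by omega)
      have b2 := gl_adapted_block hCF.ad (lo := o + a) (hi := o + m) (t := o + s) (by omega)
        (fun d hd h1 h2 => by have := hmid.2.2.2.2 d hd (by omega) h2; omega) (by omega) (by omega)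
      have b3 := b2.mp p3
      have b4 : ¬ (o + r < o + gr_nU cb o (o + a)) := fun h => by
        rw [b1.mpr h] at p2
        exact absurd p2 (by simp)
      omega
    · exfalso
      apply hrs
      unfold gr_midBlock
      rw [dif_neg hc]

theorem gkm_colMid_apply (c : ℕ → Bool) (o : ℕ) {m t : ℕ} (ht : t < m) :
    gr_colMid c o m t = c (o + t) := by
  unfold gr_colMid
  simp [ht]

/-- **MidTri** -/
theorem gk_midTri (N : ℕ) : StMidTri N := by
  intro n k o m a c K cb ca h h' z z' X u hCF hCF' hmid hcm hcnt hh hh' hz hz' hX hu hT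
  have hnN := hCF.nN
  have hmid' : gs_midOK (gs_cutRepl K o m c) o m c := gl_midOK_cutRepl hmid hcm
  have homn : o + m ≤ n := hCF.le _ hmid.2.2.1
  set K' := gs_cutRepl K o m c with hK'
  set km := gr_nU cb o (o + m) with hkm
  set d := gl_bd n K h with hd
  set d' := gl_bd n K' h' with hd'
  set Sb : gs_Mat N := gr_sh cb n k with hSb
  set Sa : gs_Mat N := gr_sh ca n k with hSa
  set sb : gs_Mat N := gr_sh (gr_colMid cb o m) m km with hsb
  set sa : gs_Mat N := gr_sh (gr_colMid ca o m) m km with hsa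
  -- basic facts
  have hBD := gl_bd_BD hCF.top hh.cor
  have hBD' := gl_bd_BD hCF'.top hh'.cor
  have hU : IsUnit d.det := gl_bd_isUnit hnN hCF.top hh
  have hU' : IsUnit d'.det := gl_bd_isUnit hnN hCF'.top hh'
  have hz1 : gs_IsUni n K (1 + z) := gkm_one_add_uni hz
  have hz1' : gs_IsUni n K' (1 + z') := gkm_one_add_uni hz'
  have upd : gkm_Up o m d := gkm_up_bd hBD hmid.1 hmid.2.2.1
  have updi : gkm_Up o m d⁻¹ := gkm_up_bd (gm_bd_inv hBD hU) hmid.1 hmid.2.2.1
  have upd' : gkm_Up o m d' := gkm_up_bd hBD' hmid'.1 hmid'.2.2.1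
  have updi' : gkm_Up o m d'⁻¹ := gkm_up_bd (gm_bd_inv hBD' hU') hmid'.1 hmid'.2.2.1
  have upz : gkm_Up o m (1 + z) := gkm_up_uni hz1
  have upzi : gkm_Up o m (1 + z)⁻¹ := gkm_up_uni (gm_uni_inv hz1)
  have upz' : gkm_Up o m (1 + z') := gkm_up_uni hz1'
  have upu : gkm_Up o m u := gkm_up_uni hu
  have upX : gkm_Up o m (gs_emb o X) := gkm_up_emb hX.2
  have hmd : gr_midBlock o m d = gl_dmid o m a h := gkm_mid_bd hnN hCF.top hCF.le hmid hh
  have hmd' : gr_midBlock o m d' = gl_dmid o m c h' := gkm_mid_bd hnN hCF'.top hCF'.le hmid' hh'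
  have hSb1 : Sb * Sb.transpose = 1 := gm_sh_mul_transpose hnN hCF.cnt
  have hSbI : Sb⁻¹ = Sb.transpose := gm_sh_inv hnN hCF.cnt
  have hSa1 : Sa * Sa.transpose = 1 := gm_sh_mul_transpose hnN hCF'.cnt
  have hcb : gr_cU (gr_colMid cb o m) m = km := gl_colMid_cU cb o m
  have hca : gr_cU (gr_colMid ca o m) m = km := (gl_colMid_cU ca o m).trans hcnt
  have hmN : m ≤ N := by omega
  have hsbI : sb⁻¹ = sb.transpose := gm_sh_inv hmN hcb
  -- the matrix `W`
  obtain ⟨W, hW⟩ : ∃ W, W = (d * (1 + z))⁻¹ * gs_emb o X * u * (d' * (1 + z')) := ⟨_, rfl⟩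
  have hZW : (d * (1 + z) * Sb)⁻¹ * gs_emb o X * u * (d' * (1 + z') * Sa) =
      Sb.transpose * W * Sa := by
    rw [Matrix.mul_inv_rev, hSbI, hW]
    simp only [Matrix.mul_assoc]
  rw [hZW] at hT
  have hWZ : W = Sb * (Sb.transpose * W * Sa) * Sa.transpose := by
    calc W = (Sb * Sb.transpose) * W * (Sa * Sa.transpose) := by rw [hSb1, hSa1, one_mul, mul_one]
      _ = _ := by simp only [Matrix.mul_assoc]
  -- `W` vanishes at (row of colour `Q`, column of colour `U`)
  have F1 : ∀ r s : Fin N, (r : ℕ) < n → (s : ℕ) < n → cb r = false → ca s = true → W r s = 0 := by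
    intro r s hr hs hcr hcs
    rw [hWZ, hSb, hSa, gm_sh_eq, gm_sh_eq,
      gm_pm_mul_mul_transpose_apply (fun _ hr => gm_shFn_lt' hnN hCF.cnt hr)
        (fun _ hr => gm_shFn_lt' hnN hCF'.cnt hr)]
    refine hT.2 _ _ ?_ ?_
    · simp only
      rw [gm_shFn_Q hr hcr]
      omega
    · simp only
      exact (gm_shFn_lt_iff hCF'.cnt hs).mpr hcs
  -- the mid block of `W`
  have hinv : (d * (1 + z))⁻¹ = (1 + z)⁻¹ * d⁻¹ := Matrix.mul_inv_rev _ _
  have hdzU : IsUnit (d * (1 + z)).det := by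
    rw [Matrix.det_mul]
    exact hU.mul (gm_uni_isUnit hz1)
  have upA : gkm_Up o m (d * (1 + z)) := gkm_up_mul upd upz
  have upAi : gkm_Up o m (d * (1 + z))⁻¹ := by
    rw [hinv]
    exact gkm_up_mul upzi updi
  have hnu' : d' * (1 + z') = (d' * (1 + z') * d'⁻¹) * d' := by
    rw [Matrix.mul_assoc _ d'⁻¹, Matrix.nonsing_inv_mul _ hU', mul_one]
  have upnu' : gkm_Up o m (d' * (1 + z') * d'⁻¹) := gkm_up_mul (gkm_up_mul upd' upz') updi'
  have hmW : gr_midBlock o m W = (gl_dmid o m a h * gr_midBlock o m (1 + z))⁻¹ * X *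
      (gr_midBlock o m u * gr_midBlock o m (d' * (1 + z') * d'⁻¹)) * gl_dmid o m c h' := by
    rw [hW, gkm_mid_mul (gkm_up_mul (gkm_up_mul upAi upX) upu) (gkm_up_mul upd' upz'),
      gkm_mid_mul (gkm_up_mul upAi upX) upu, gkm_mid_mul upAi upX,
      gkm_mid_inv upA upAi (Matrix.mul_nonsing_inv _ hdzU), gkm_mid_mul upd upz, hmd,
      gm_mid_emb hX.2 (by omega), hnu', gkm_mid_mul upnu' upd', hmd', ← hnu']
    simp only [Matrix.mul_assoc]
  have hC : (gl_dmid o m a h * gr_midBlock o m (1 + z) * sb)⁻¹ * X *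
      (gr_midBlock o m u * gr_midBlock o m (d' * (1 + z') * d'⁻¹)) * (gl_dmid o m c h' * sa) =
      sb.transpose * gr_midBlock o m W * sa := by
    rw [hmW, Matrix.mul_inv_rev, hsbI]
    simp only [Matrix.mul_assoc]
  rw [hC]
  have hcorner : gs_IsCorner m (sb.transpose * gr_midBlock o m W * sa) :=
    gm_corner_mul (gm_corner_mul (gkm_corner_transpose (gm_sh_corner hcb)) (gm_mid_corner o m W))
      (gm_sh_corner hca)
  refine ⟨hcorner, fun i j hi hj => ?_⟩
  have hkmm : km ≤ m := hcb ▸ gct_cU_le _ m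
  by_cases him : (i : ℕ) < m
  · have e1 : sb.transpose = gm_pm (gm_shInvFn (gr_colMid cb o m) m km) := gm_sh_transpose hmN hcb
    have e2 : sa = (gm_pm (gm_shInvFn (gr_colMid ca o m) m km) : gs_Mat N).transpose := by
      rw [← gm_sh_transpose hmN hca, Matrix.transpose_transpose]
    rw [e1, e2, gm_pm_mul_mul_transpose_apply (fun _ hr => gm_shInvFn_lt' hmN hcb hr)
      (fun _ hr => gm_shInvFn_lt' hmN hca hr)]
    have q0 := gct_cU_add_cQ (gr_colMid cb o m) m
    have hi' : (i : ℕ) - km < gr_cQ (gr_colMid cb o m) m := by omega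
    have hj' : (j : ℕ) < gr_cU (gr_colMid ca o m) m := by omega
    have r1 : gm_shInvFn (gr_colMid cb o m) m km i =
        Nat.nth (fun t => gr_colMid cb o m t = false) (i - km) := by
      unfold gm_shInvFn
      rw [if_neg (by omega), if_pos him]
    have s1 : gm_shInvFn (gr_colMid ca o m) m km j =
        Nat.nth (fun t => gr_colMid ca o m t = true) j := by
      unfold gm_shInvFn
      rw [if_pos hj]
    have r2 := gm_nthQ_lt hi'
    have r3 := gm_nthQ_mem hi'
    have s2 := gm_nthU_lt hj'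
    have s3 := gm_nthU_mem hj'
    rw [← r1] at r2 r3
    rw [← s1] at s2 s3
    rw [gkm_colMid_apply cb o r2] at r3
    rw [gkm_colMid_apply ca o s2] at s3
    rw [gm_mid_apply (by omega) W r2 s2]
    exact F1 _ _ (by simp only; omega) (by simp only; omega) r3 s3
  · rw [hcorner i j (Or.inl (by omega)), Matrix.one_apply_ne]
    intro e
    rw [e] at him
    omega

end Claimed.Agent.R236
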