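import Mathlib
import Claimed.Agent.R236.GComplSt
import Claimed.Agent.R236.GComplMid

/-!
# Row 236, REDUCE, SB7, leaf K4: `Z_i` is block triangular, the product is `1` (owner helper162)

Tools (prefix `gkt_`): `gr_IsTri n k` is closed under products and inverses.
-/

set_option autoImplicit false

namespace Claimed.Agent.R236

open Matrix

variable {N : ℕ}

theorem gkt_tri_mul {n k : ℕ} {A B : gs_Mat N} (hA : gr_IsTri n k A) (hB : gr_IsTri n k B) :
    gr_IsTri n k (A * B) := by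
  refine ⟨gm_corner_mul hA.1 hB.1, fun i j hi hj => ?_⟩
  rw [Matrix.mul_apply]
  refine Finset.sum_eq_zero fun l _ => ?_
  by_cases hl : (l : ℕ) < k
  · rw [hA.2 i l hi hl, zero_mul]
  · rw [hB.2 l j (by omega) hj, mul_zero]

theorem gkt_tri_inv {n k : ℕ} {A : gs_Mat N} (hA : gr_IsTri n k A) (hu : IsUnit A.det) :
    gr_IsTri n k A⁻¹ := by
  refine ⟨gm_corner_inv hA.1 hu, ?_⟩
  let b : Fin N → ℕ := fun i => if (i : ℕ) < k then 0 else 1
  have h1 : A.BlockTriangular b := by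
    intro i j hij
    have hi : k ≤ (i : ℕ) := by
      by_contra h
      simp only [b, if_pos (not_le.mp h)] at hij
      omega
    have hj : (j : ℕ) < k := by
      by_contra h
      simp only [b, if_neg h] at hij
      split_ifs at hij <;> omega
    exact hA.2 i j hi hj
  have := Matrix.invertibleOfIsUnitDet A hu
  have h1' := Matrix.blockTriangular_inv_of_blockTriangular h1
  intro i j hi hj
  refine h1' ?_
  simp only [b, if_pos hj, if_neg (not_lt.mpr hi)]
  omega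

theorem gkt_tri_one (n k : ℕ) : gr_IsTri n k (1 : gs_Mat N) :=
  ⟨gm_corner_one n, fun i j hi hj => Matrix.one_apply_ne (by
    intro e
    rw [e] at hi
    omega)⟩

theorem gkt_telescope {M : Type*} [Monoid M] (T T' : ℕ → M) (h : ∀ i, T' i * T i = 1)
    (h0 : T 0 * T' 0 = 1) (m : ℕ) :
    ((List.range m).map fun i => T i * T' (i + 1)).prod = T 0 * T' m := by
  induction m with
  | zero => simpa using h0.symm
  | succ m ih =>
    rw [List.range_succ, List.map_append, List.prod_append, ih]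
    simp only [List.map_cons, List.map_nil, List.prod_cons, List.prod_nil, mul_one]
    calc T 0 * T' m * (T m * T' (m + 1)) = T 0 * (T' m * T m) * T' (m + 1) := by
          simp only [mul_assoc]
      _ = _ := by rw [h, mul_one]

theorem gk_k4 {R : Subring ℂ} (h1 : StK1 N R) (h3 : StK3 N R) : StK4 N R := by
  intro Y P p S e0 k x H
  obtain ⟨a1, a2, _, _, a5, a6, a7⟩ := h1 Y P p S e0 k x H
  obtain ⟨c1, c2, c3, _, _, _, c7, _, _, _⟩ := h3 Y P p S e0 k x H
  have hkn : k ≤ gk_n S e0 := H.hyp.ltn.le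
  have hBD : ∀ i, gr_IsBD (gk_n S e0) (gk_K S e0 i) (gk_d p S e0 k x i) := fun i =>
    gl_bd_BD (c1 i).top (c2 i).cor
  have hdU : ∀ i, IsUnit (gk_d p S e0 k x i).det := fun i =>
    gl_bd_isUnit (c1 i).nN (c1 i).top (c2 i)
  have hz1 : ∀ i, gs_IsUni (gk_n S e0) (gk_K S e0 i) (1 + gk_z p S e0 k x i) := fun i =>
    gkm_one_add_uni (c3 i)
  have hGU : ∀ i, IsUnit (gk_G p S e0 k x i).det := fun i => by
    unfold gk_G
    rw [Matrix.det_mul, Matrix.det_mul]
    exact ((hdU i).mul (gm_uni_isUnit (hz1 i))).mul (gm_sh_isUnit (c1 i).nN (c1 i).cnt)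
  -- `T_i`
  have hT : ∀ i, gr_IsTri (gk_n S e0) k ((gk_G p S e0 k x i)⁻¹ * gk_g S e0 x i) := fun i =>
    H.p_ok.tri (gk_K S e0 i) (gk_n S e0) k (gk_g S e0 x i) (a1 i) hkn (a6 i)
  have hTU : ∀ i, IsUnit ((gk_G p S e0 k x i)⁻¹ * gk_g S e0 x i).det := fun i => by
    rw [Matrix.det_mul, Matrix.det_nonsing_inv]
    exact (hGU i).ringInverse.mul (a6 i).1
  have hTinv : ∀ i, ((gk_G p S e0 k x i)⁻¹ * gk_g S e0 x i)⁻¹ =
      (gk_g S e0 x i)⁻¹ * gk_G p S e0 k x i := fun i => by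
    rw [Matrix.mul_inv_rev, Matrix.nonsing_inv_nonsing_inv _ (hGU i)]
  have hZ : ∀ i, gk_Z p S e0 k x i = ((gk_G p S e0 k x i)⁻¹ * gk_g S e0 x i) *
      ((gk_G p S e0 k x (i + 1))⁻¹ * gk_g S e0 x (i + 1))⁻¹ := fun i => by
    rw [hTinv, a7 i]
    unfold gk_Z
    calc _ = (gk_G p S e0 k x i)⁻¹ * gk_M S e0 x i * gk_u e0 x i *
          (gk_g S e0 x (i + 1) * (gk_g S e0 x (i + 1))⁻¹) * gk_G p S e0 k x (i + 1) := by
            rw [Matrix.mul_nonsing_inv _ (a6 (i + 1)).1, mul_one]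
      _ = _ := by simp only [Matrix.mul_assoc]
  refine ⟨fun i => ⟨hBD i, hdU i⟩, fun i => gm_bd_conj (hBD i) (hdU i) (hz1 i), fun i => ?_,
    fun i => ⟨?_, ?_⟩, ?_⟩
  · unfold gk_G gk_nu gk_D
    calc _ = gk_d p S e0 k x i * (1 + gk_z p S e0 k x i) *
          ((gk_d p S e0 k x i)⁻¹ * gk_d p S e0 k x i) *
          gr_sh (gk_col p S e0 k x i) (gk_n S e0) k := by
            rw [Matrix.nonsing_inv_mul _ (hdU i), mul_one]
      _ = _ := by simp only [Matrix.mul_assoc]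
  · rw [hZ]
    exact gkt_tri_mul (hT i) (gkt_tri_inv (hT (i + 1)) (hTU (i + 1)))
  · unfold gk_Z
    have hMu : IsUnit (gk_M S e0 x i * gk_u e0 x i).det := by
      have h := (a6 i).1
      rw [a7 i, Matrix.det_mul] at h
      exact isUnit_of_mul_isUnit_left h
    rw [Matrix.mul_assoc (gk_G p S e0 k x i)⁻¹, Matrix.det_mul, Matrix.det_mul,
      Matrix.det_nonsing_inv]
    exact ((hGU i).ringInverse.mul hMu).mul (hGU (i + 1))
  · simp only [hZ]
    rw [gkt_telescope (fun i => (gk_G p S e0 k x i)⁻¹ * gk_g S e0 x i)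
      (fun i => ((gk_G p S e0 k x i)⁻¹ * gk_g S e0 x i)⁻¹)
      (fun i => Matrix.nonsing_inv_mul _ (hTU i)) (Matrix.mul_nonsing_inv _ (hTU 0))]
    have hlen : (gk_G p S e0 k x (gk_len S e0))⁻¹ * gk_g S e0 x (gk_len S e0) =
        (gk_G p S e0 k x 0)⁻¹ * gk_g S e0 x 0 := by
      obtain ⟨e1, e2, e3⟩ := c7 (gk_len S e0) le_rfl
      have e4 := a2 (gk_len S e0) le_rfl
      have e5 : gk_g S e0 x (gk_len S e0) = gk_g S e0 x 0 := by
        unfold gk_g
        rw [a5 _ le_rfl]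
        simp [gk_P]
      unfold gk_G gk_d
      rw [e1, e2, e3, e4, e5]
    rw [hlen]
    exact Matrix.mul_nonsing_inv _ (hTU 0)

end Claimed.Agent.R236
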