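import Mathlib
import Claimed.Agent.R236.GComplSt
import Claimed.Agent.R236.GSoundB

/-!
# Row 236, REDUCE, SB7, leaf K5: the local data exist (owner helper162)
-/

set_option autoImplicit false

namespace Claimed.Agent.R236

open Matrix

variable {N : ℕ}

/-- the two blocks of the mid part -/
theorem gk5_parts {n : ℕ} {K : Finset ℕ} (hle : ∀ d ∈ K, d ≤ n) {o m a : ℕ}
    (hmid : gs_midOK K o m a) {h : ℕ → gs_Mat N} (hh : gl_Fam n K h) :
    gr_GL a (if 0 < a then h o else 1) ∧ gr_GL (m - a) (if a < m then h (o + a) else 1) := by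
  have hmid' := hmid
  obtain ⟨h1, h2, h3, h4, h5⟩ := hmid
  have homn : o + m ≤ n := hle _ h3
  constructor
  · by_cases ha : 0 < a
    · rw [if_pos ha]
      have := hh o h1 (by omega)
      rwa [gl_nxt_mid_left hmid' ha, Nat.add_sub_cancel_left] at this
    · rw [if_neg ha]; exact ⟨by simp, gm_corner_one _⟩
  · by_cases ha : a < m
    · rw [if_pos ha]
      have := hh (o + a) h2 (by omega)
      rwa [gl_nxt_mid_right hmid' ha, Nat.add_sub_add_left] at this
    · rw [if_neg ha]; exact ⟨by simp, gm_corner_one _⟩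

theorem gk_k5 {R : Subring ℂ} (h1b : StK1b N R) (h2 : StK2 N R) (h3 : StK3 N R) (h5m : StK5m N R)
    (hG : StGNum N R) (hF : StSwapFrames N R) : StK5 N R := by
  intro Y P p S e0 k x H i hi
  obtain ⟨b1, b2, b3, b4, _⟩ := h1b Y P p S e0 k x H i hi
  have hWF := h2 Y P p S e0 k x H
  obtain ⟨c1, c2, _, _, _, _, _, _, _, _⟩ := h3 Y P p S e0 k x H
  have hmid' : gs_midOK (gk_K S e0 (i + 1)) (gk_o S e0 i) (gk_m S e0 i) (gk_c S e0 i) := by
    rw [b3]
    exact gl_midOK_cutRepl b1 b2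
  have homN : gk_o S e0 i + gk_m S e0 i ≤ N := ((c1 i).le _ b1.2.2.1).trans (c1 i).nN
  obtain ⟨pa1, pa2⟩ := gk5_parts (c1 i).le b1 (c2 i)
  obtain ⟨pc1, pc2⟩ := gk5_parts (c1 (i + 1)).le hmid' (c2 (i + 1))
  constructor
  · intro inv y o hl
    have hnL : ∀ lam, gk_letter S e0 i ≠ .L lam := fun lam h => by rw [hl] at h; cases h
    obtain ⟨m1, m2, m3, m4⟩ := h5m Y P p S e0 k x H i hi hnL
    have eo : gk_o S e0 i = o := by unfold gk_o; rw [hl]; rfl
    have em : gk_m S e0 i = (S.sig y).rk := by unfold gk_m; rw [hl]; rfl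
    have ea : gk_a S e0 i = (S.sig y).src inv := by unfold gk_a; rw [hl]
    have ec : gk_c S e0 i = (S.sig y).tgt inv := by unfold gk_c; rw [hl]
    have eM : gk_Mmid S e0 x i = if inv then (x (.inl y))⁻¹ else x (.inl y) := by
      unfold gk_Mmid; rw [hl]
    simp only [eo, em, ea, ec, eM] at m1 m2 m3 m4 b4 pa1 pa2 pc1 pc2 homN
    obtain ⟨ν, hν⟩ : ∃ ν, ν = gk_gnum p S e0 k x i inv y o := ⟨_, rfl⟩
    have hν' : gr_gnum (gk_col p S e0 k x i) (gk_col p S e0 k x (i + 1)) o (S.sig y).rk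
      ((S.sig y).src inv) ((S.sig y).tgt inv) = ν := hν.symm
    have hnum : ν.Ok ∧ ν.m = (S.sig y).rk ∧ ν.a = (S.sig y).src inv ∧ ν.c = (S.sig y).tgt inv ∧
        ν.u2 + ν.q2 = (S.sig y).rk - (S.sig y).src inv ∧
        ν.v2 + ν.p2 = (S.sig y).rk - (S.sig y).tgt inv ∧
        ν.km = gr_nU (gk_col p S e0 k x i) o (o + (S.sig y).rk) ∧
        gr_colMid (gk_col p S e0 k x i) o (S.sig y).rk = ν.cb ∧
        gr_colMid (gk_col p S e0 k x (i + 1)) o (S.sig y).rk = ν.ca := by
      rw [hν]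
      exact hG Y S e0 k H.hyp (gk_col p S e0 k x) hWF i inv y o hi hl
    obtain ⟨n1, n2, n3, n4, n5, n6, n7, n8, n9⟩ := hnum
    have hu1 : ν.u1 = gr_nU (gk_col p S e0 k x i) o (o + (S.sig y).src inv) := by rw [← hν']; rfl
    have hu2 : ν.u2 = gr_nU (gk_col p S e0 k x i) (o + (S.sig y).src inv) (o + (S.sig y).rk) := by
      rw [← hν']; rfl
    have hcompl := (H.P_ok.G ν n1 (by omega)).2.2.2
    obtain ⟨w, hw, w1, w2, w3, w4, w5, w6⟩ := hcompl
      (if 0 < (S.sig y).src inv then gk_h p S e0 k x i o else 1)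
      (if (S.sig y).src inv < (S.sig y).rk then gk_h p S e0 k x i (o + (S.sig y).src inv) else 1)
      (if 0 < (S.sig y).tgt inv then gk_h p S e0 k x (i + 1) o else 1)
      (if (S.sig y).tgt inv < (S.sig y).rk then gk_h p S e0 k x (i + 1) (o + (S.sig y).tgt inv)
        else 1)
      (if inv then (x (.inl y))⁻¹ else x (.inl y))
      (gr_midBlock o (S.sig y).rk (1 + gk_z p S e0 k x i) - 1)
      (gr_midBlock o (S.sig y).rk (gk_u e0 x i) *
        gr_midBlock o (S.sig y).rk (gk_nu p S e0 k x (i + 1)))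
      (by rw [n3]; exact pa1) (by rw [n5]; exact pa2) (by rw [n4]; exact pc1)
      (by rw [n6]; exact pc2) (by rw [n2]; exact b4)
      (by
        intro r s hrs
        rw [n3, hu1, hu2]
        exact m4 r s hrs)
      (by rw [n2, n4]; exact m2)
      (by
        rw [n2, n3, n4, n7, ← n8, ← n9, add_sub_cancel]
        exact m1)
    have hspec : gk_specG P p S e0 k x i inv y o w := by
      refine ⟨hν ▸ hw, w1, w2, w3, w4, w5, ?_⟩
      rw [← hν, w6, n3, add_sub_cancel]
      exact m3.symm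
    exact Classical.epsilon_spec ⟨w, hspec⟩
  · intro o A B hl
    have hnL : ∀ lam, gk_letter S e0 i ≠ .L lam := fun lam h => by rw [hl] at h; cases h
    obtain ⟨m1, m2, m3, m4⟩ := h5m Y P p S e0 k x H i hi hnL
    have eo : gk_o S e0 i = o := by unfold gk_o; rw [hl]; rfl
    have em : gk_m S e0 i = A + B := by unfold gk_m; rw [hl]; rfl
    have ea : gk_a S e0 i = A := by unfold gk_a; rw [hl]
    have ec : gk_c S e0 i = B := by unfold gk_c; rw [hl]
    have eM : gk_Mmid S e0 x i = gs_swapMat 0 A B := by unfold gk_Mmid; rw [hl]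
    have e1 : A < A + B ↔ 0 < B := by omega
    have e2 : B < A + B ↔ 0 < A := by omega
    simp only [eo, em, ea, ec, eM, gl_dmid, e1, e2, Nat.add_sub_cancel_left, Nat.add_sub_cancel]
      at m1 m2 m3 m4 pa1 pa2 pc1 pc2 homN
    obtain ⟨ν, hν⟩ : ∃ ν, ν = gk_snum p S e0 k x i o A B := ⟨_, rfl⟩
    have hnum : ν.A = A ∧ ν.B = B ∧ gr_colMid (gk_col p S e0 k x i) o (A + B) = ν.cb ∧
        gr_colMid (gk_col p S e0 k x (i + 1)) o (A + B) = ν.ca ∧
        gr_nU (gk_col p S e0 k x i) o (o + (A + B)) = ν.km := by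
      rw [hν]
      obtain ⟨f1, f2, _, _, f5, f6, f7, _⟩ :=
        hF Y S e0 k H.hyp (gk_col p S e0 k x) hWF i o A B hi hl
      exact ⟨f1, f2, f5, f6, f7⟩
    obtain ⟨f1, f2, f5, f6, f7⟩ := hnum
    have hm : ν.m = A + B := by unfold gr_SNum.m; rw [f1, f2]
    have ha : ν.a = gr_nU (gk_col p S e0 k x i) o (o + A) := by rw [hν]; rfl
    have hkm : ν.km = ν.a + ν.b + ν.h := rfl
    have hadd := gct_nU_add (gk_col p S e0 k x i) (lo := o) (mid := o + A) (hi := o + (A + B))
      (by omega) (by omega)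
    have hcompl := (H.P_ok.S ν (by omega)).2.2.2
    obtain ⟨w, hw, w1, w2, w3, w4, w6⟩ := hcompl
      (if 0 < A then gk_h p S e0 k x i o else 1)
      (if 0 < B then gk_h p S e0 k x i (o + A) else 1)
      (if 0 < A then gk_h p S e0 k x (i + 1) (o + B) else 1)
      (if 0 < B then gk_h p S e0 k x (i + 1) o else 1)
      (gr_midBlock o (A + B) (1 + gk_z p S e0 k x i) - 1)
      (gr_midBlock o (A + B) (gk_u e0 x i) * gr_midBlock o (A + B) (gk_nu p S e0 k x (i + 1)))
      (by rw [f1]; exact pa1) (by rw [f2]; exact pa2) (by rw [f1]; exact pc2)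
      (by rw [f2]; exact pc1)
      (by
        intro r s hrs
        have := m4 r s hrs
        rw [f1]
        omega)
      (by rw [hm, f2]; exact m2)
      (by
        rw [hm, f1, f2, ← f7, ← f5, ← f6, add_sub_cancel]
        exact m1)
    have hspec : gk_specS P p S e0 k x i o A B w := by
      refine ⟨hν ▸ hw, w1, w2, w3, w4, ?_⟩
      rw [← hν, w6, f1, add_sub_cancel]
      exact m3.symm
    exact Classical.epsilon_spec ⟨w, hspec⟩

end Claimed.Agent.R236
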