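import Mathlib
import Claimed.Agent.R236.GComplSt
import Claimed.Agent.R236.GComplMid

/-!
# Row 236, REDUCE, SB7, leaf K5m: the hypotheses of the completeness clauses at mid level
(owner helper162)
-/

set_option autoImplicit false

namespace Claimed.Agent.R236

open Matrix

variable {N : ℕ}

theorem gkm_midK_sub {K : Finset ℕ} {o m a : ℕ} (hmid : gs_midOK K o m a) :
    gm_midK K o m ⊆ {0, a, m} := by
  intro e he
  unfold gm_midK at he
  obtain ⟨d, hd, rfl⟩ := Finset.mem_image.mp he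
  obtain ⟨hdK, h1, h2⟩ := Finset.mem_filter.mp hd
  simp only [Finset.mem_insert, Finset.mem_singleton]
  by_cases e1 : d = o
  · left; omega
  · by_cases e2 : d = o + m
    · right; right; omega
    · have := hmid.2.2.2.2 d hdK (by omega) (by omega)
      right; left; omega

theorem gk_k5m {R : Subring ℂ} (h1 : StK1 N R) (h1b : StK1b N R) (h3 : StK3 N R) (h4 : StK4 N R)
    (hT : StMidTri N) (hN : StMidNu N) : StK5m N R := by
  intro Y P p S e0 k x H i hi hL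
  obtain ⟨_, _, _, k1d, _, _, _⟩ := h1 Y P p S e0 k x H
  obtain ⟨b1, b2, b3, b4, b5⟩ := h1b Y P p S e0 k x H i hi
  obtain ⟨c1, c2, c3, _, _, c6, _, _, _, _⟩ := h3 Y P p S e0 k x H
  obtain ⟨_, _, _, d4, _⟩ := h4 Y P p S e0 k x H
  have hmid' : gs_midOK (gk_K S e0 (i + 1)) (gk_o S e0 i) (gk_m S e0 i) (gk_c S e0 i) := by
    rw [b3]
    exact gl_midOK_cutRepl b1 b2
  have hZ := (d4 i).1
  have n0 := hN (gk_n S e0) k (gk_o S e0 i) (gk_m S e0 i) (gk_a S e0 i) (gk_K S e0 i)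
    (gk_col p S e0 k x i) (gk_h p S e0 k x i) (gk_z p S e0 k x i) (c1 i) b1 (c2 i) (c3 i)
  have n1 := hN (gk_n S e0) k (gk_o S e0 i) (gk_m S e0 i) (gk_c S e0 i) (gk_K S e0 (i + 1))
    (gk_col p S e0 k x (i + 1)) (gk_h p S e0 k x (i + 1)) (gk_z p S e0 k x (i + 1)) (c1 (i + 1))
    hmid' (c2 (i + 1)) (c3 (i + 1))
  have t0 := hT (gk_n S e0) k (gk_o S e0 i) (gk_m S e0 i) (gk_a S e0 i) (gk_c S e0 i) (gk_K S e0 i)
    (gk_col p S e0 k x i) (gk_col p S e0 k x (i + 1)) (gk_h p S e0 k x i) (gk_h p S e0 k x (i + 1))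
    (gk_z p S e0 k x i) (gk_z p S e0 k x (i + 1)) (gk_Mmid S e0 x i) (gk_u e0 x i) (c1 i)
  rw [← b3] at t0
  have t1 := t0 (c1 (i + 1)) b1 b2 (c6 i hi) (c2 i) (c2 (i + 1)) (c3 i) (c3 (i + 1)) b4 (k1d i) (by
    have e : gk_Z p S e0 k x i = (gk_G p S e0 k x i)⁻¹ * gs_emb (gk_o S e0 i) (gk_Mmid S e0 x i) *
        gk_u e0 x i * gk_G p S e0 k x (i + 1) := by
      rw [← b5 hL]
      rfl
    rw [e] at hZ
    exact hZ)
  refine ⟨t1, ?_, n0.2.1, n0.2.2.2⟩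
  exact gm_uni_mul (gm_uni_mono le_rfl (gkm_midK_sub hmid') (gm_mid_uni (k1d i))) n1.2.2.1

end Claimed.Agent.R236
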