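import Mathlib
import Claimed.Agent.R236.GComplSt
import Claimed.Agent.R236.GMatRad
import Claimed.Agent.R236.GSoundC

/-!
# Row 236, REDUCE, SB7, leaf K6: reading the point `gk_pt` gives back the data (helper10)
-/

set_option autoImplicit false

namespace Claimed.Agent.R236

section pt

variable {Y : Type} {N : ℕ} (P : gr_Corr N) (p : gp_Pres N) (S : gs_Sys Y) (e0 k : ℕ)
  (x : gs_Pt Y N)

theorem gk_pt_old (y : Y) : (gk_pt P p S e0 k x).1 (.inl (.inl y)) = x (.inl y) := rfl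

theorem gk_pt_new (v : gr_Var) : (gk_pt P p S e0 k x).1 (.inl (.inr v)) = gk_var P p S e0 k x v := rfl

theorem gk_pt_par (q : ℕ × ℕ) : (gk_pt P p S e0 k x).2 q = gk_par P p S e0 k x q := rfl

theorem gk_pt_U {i r : ℕ} (hi : i < gk_len S e0) (hr : r < 4) :
    (gk_pt P p S e0 k x).1 (.inr (e0, 4 * i + r)) = gk_uU P p S e0 k x i r := by
  have e1 : (4 * i + r) / 4 = i := by omega
  have e2 : (4 * i + r) % 4 = r := by omega
  show (if e0 = e0 then (if (4 * i + r) / 4 < gk_len S e0 then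
    gk_uU P p S e0 k x ((4 * i + r) / 4) ((4 * i + r) % 4) else 1) else _) = _
  rw [if_pos rfl, e1, e2, if_pos hi]

theorem gk_pt_Q (he : e0 < S.eqs.length) {i r : ℕ} (hi : i < gk_len S e0) (hr : r < 4) :
    (gk_pt P p S e0 k x).1 (.inr (S.eqs.length, 4 * i + r)) = gk_uQ P p S e0 k x i r := by
  have e1 : (4 * i + r) / 4 = i := by omega
  have e2 : (4 * i + r) % 4 = r := by omega
  show (if S.eqs.length = e0 then _ else if S.eqs.length < S.eqs.length then _
    else if S.eqs.length = S.eqs.length then (if (4 * i + r) / 4 < gk_len S e0 then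
    gk_uQ P p S e0 k x ((4 * i + r) / 4) ((4 * i + r) % 4) else 1) else _) = _
  rw [if_neg (by omega), if_neg (by omega), if_pos rfl, e1, e2, if_pos hi]

theorem gk_pt_lk (he : e0 < S.eqs.length) {i s : ℕ} (hi : i < gk_len S e0) (hs : s < N + 2) (j : ℕ) :
    (gk_pt P p S e0 k x).1 (.inr (gr_lk N S.eqs.length i s, j)) = gk_lk P p S e0 k x i s j := by
  have e0' : gr_lk N S.eqs.length i s - S.eqs.length - 1 = i * (N + 2) + s := by
    unfold gr_lk; omega
  have e1 : (i * (N + 2) + s) / (N + 2) = i := by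
    rw [Nat.add_comm, Nat.add_mul_div_right _ _ (by omega), Nat.div_eq_of_lt hs, Nat.zero_add]
  have e2 : (i * (N + 2) + s) % (N + 2) = s := by
    rw [Nat.add_comm, Nat.add_mul_mod_self_right, Nat.mod_eq_of_lt hs]
  have e3 : S.eqs.length < gr_lk N S.eqs.length i s := by unfold gr_lk; omega
  show (if gr_lk N S.eqs.length i s = e0 then _ else if gr_lk N S.eqs.length i s < S.eqs.length then _
    else if gr_lk N S.eqs.length i s = S.eqs.length then _
    else if (gr_lk N S.eqs.length i s - S.eqs.length - 1) / (N + 2) < gk_len S e0 then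
      gk_lk P p S e0 k x ((gr_lk N S.eqs.length i s - S.eqs.length - 1) / (N + 2))
        ((gr_lk N S.eqs.length i s - S.eqs.length - 1) % (N + 2)) j
    else 1) = _
  rw [if_neg (by omega), if_neg (by omega), if_neg (by omega), e0', e1, e2, if_pos hi]

end pt

section read

variable {Y : Type} {N : ℕ} {R : Subring ℂ} {P : gr_Corr N} {p : gp_Pres N} {S : gs_Sys Y} {e0 k : ℕ}
  {x : gs_Pt Y N}

theorem gk_len_pos (H : gk_Hyp R P p S e0 k x) : 0 < gk_len S e0 :=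
  List.length_pos_iff.mpr H.hyp.ne

theorem gk_read_M (i : ℕ) :
    gr_M (gk_C p S e0 k x) (gk_pt P p S e0 k x) i = gk_M S e0 x i := by
  show gs_lmat (gk_pt P p S e0 k x).1 ((gk_letter S e0 i).map Sum.inl) = gs_lmat x (gk_letter S e0 i)
  cases gk_letter S e0 i with
  | G inv y o => cases inv <;> rfl
  | S o a b => rfl
  | L lam => rfl

theorem gk_read_h (H : gk_Hyp R P p S e0 k x) (h1 : StK1 N R) (h3 : StK3 N R) {i c : ℕ}
    (hi : i ≤ gk_len S e0) (hc : c ∈ gk_K S e0 i) (hcn : c < gk_n S e0) :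
    gr_hval (gk_C p S e0 k x) (gk_pt P p S e0 k x) i c = gk_h p S e0 k x i c := by
  have hpos := gk_len_pos H
  obtain ⟨-, hK, -⟩ := h1 Y P p S e0 k x H
  obtain ⟨-, -, -, -, -, -, hlen, -⟩ := h3 Y P p S e0 k x H
  show gk_var P p S e0 k x (.H (i % gk_len S e0) c) = _
  rcases Nat.lt_or_ge i (gk_len S e0) with h | h
  · rw [Nat.mod_eq_of_lt h]
    show (if i < gk_len S e0 ∧ c ∈ gk_K S e0 i ∧ c < gk_n S e0 then gk_h p S e0 k x i c else 1) = _
    rw [if_pos ⟨h, hc, hcn⟩]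
  · have e : i = gk_len S e0 := le_antisymm hi h
    subst e
    rw [Nat.mod_self]
    show (if 0 < gk_len S e0 ∧ c ∈ gk_K S e0 0 ∧ c < gk_n S e0 then gk_h p S e0 k x 0 c else 1) = _
    rw [if_pos ⟨hpos, (hK _ le_rfl) ▸ hc, hcn⟩, (hlen _ le_rfl).2.1]

theorem gk_read_D (H : gk_Hyp R P p S e0 k x) (h1 : StK1 N R) (h3 : StK3 N R) {i : ℕ}
    (hi : i ≤ gk_len S e0) :
    gr_D (gk_C p S e0 k x) (gk_pt P p S e0 k x) i = gk_D p S e0 k x i := by
  show gl_bd (gk_n S e0) (gk_K S e0 i) (gr_hval (gk_C p S e0 k x) (gk_pt P p S e0 k x) i) *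
      gr_sh (gk_col p S e0 k x i) (gk_n S e0) k =
    gl_bd (gk_n S e0) (gk_K S e0 i) (gk_h p S e0 k x i) * gr_sh (gk_col p S e0 k x i) (gk_n S e0) k
  rw [gl_bd_congr' fun c hc hcn => gk_read_h H h1 h3 hi hc hcn]

theorem gk_geo (H : gk_Hyp R P p S e0 k x) (h1 : StK1 N R) (h1b : StK1b N R) {i : ℕ}
    (hi : i < gk_len S e0) :
    gk_o S e0 i ∈ gk_K S e0 i ∧ gk_o S e0 i + gk_a S e0 i ∈ gk_K S e0 i ∧
      gk_o S e0 i + gk_m S e0 i ≤ gk_n S e0 ∧ gk_a S e0 i ≤ gk_m S e0 i ∧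
      gk_c S e0 i ≤ gk_m S e0 i ∧ gk_o S e0 i ∈ gk_K S e0 (i + 1) ∧
      gk_o S e0 i + gk_c S e0 i ∈ gk_K S e0 (i + 1) := by
  obtain ⟨hfr, -⟩ := h1 Y P p S e0 k x H
  obtain ⟨hmid, hc, hK, -⟩ := h1b Y P p S e0 k x H i hi
  refine ⟨hmid.1, hmid.2.1, (hfr i).le _ hmid.2.2.1, hmid.2.2.2.1, hc, ?_, ?_⟩
  · rw [hK]; exact gl_mem_cutRepl.2 (Or.inr ⟨hmid.1, Or.inl le_rfl⟩)
  · rw [hK]; exact gl_mem_cutRepl.2 (Or.inl rfl)

theorem gk_read_G (H : gk_Hyp R P p S e0 k x) (h1 : StK1 N R) (h1b : StK1b N R) (h3 : StK3 N R)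
    (h5 : StK5 N R) {i : ℕ} {inv : Bool} {y : Y} {o : ℕ} (hi : i < gk_len S e0)
    (hl : gk_letter S e0 i = .G inv y o) :
    gr_readG (gk_C p S e0 k x) S.eqs.length (gk_pt P p S e0 k x) i inv y o =
      gk_datG P p S e0 k x i inv y o := by
  obtain ⟨g1, g2, g3, g4, g5, g6, g7⟩ := gk_geo H h1 h1b hi
  have eo : gk_o S e0 i = o := by unfold gk_o; rw [hl]; rfl
  have em : gk_m S e0 i = (S.sig y).rk := by unfold gk_m; rw [hl]; rfl
  have ea : gk_a S e0 i = (S.sig y).src inv := by unfold gk_a; rw [hl]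
  have ec : gk_c S e0 i = (S.sig y).tgt inv := by unfold gk_c; rw [hl]
  rw [eo] at g1 g2 g3 g6 g7
  rw [em] at g3 g4 g5
  rw [ea] at g2 g4
  rw [ec] at g5 g7
  obtain ⟨-, s1, s2, s3, s4, s5, -⟩ := (h5 Y P p S e0 k x H i hi).1 inv y o hl
  have he := H.hyp.lt
  have hlk : ∀ j, (gk_pt P p S e0 k x).1 (.inr (gr_lk N S.eqs.length i 0, j)) =
      gk_wG (gk_datG P p S e0 k x i inv y o) j := by
    intro j
    rw [gk_pt_lk P p S e0 k x he hi (by omega) j]
    unfold gk_lk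
    rw [hl]
    rfl
  funext idx
  cases idx with
  | h1 =>
    rw [s1]
    show (if 0 < (S.sig y).src inv then gr_hval _ _ i o else 1) = _
    split_ifs with h
    · exact gk_read_h H h1 h3 hi.le g1 (by omega)
    · rfl
  | h2 =>
    rw [s2]
    show (if (S.sig y).src inv < (S.sig y).rk then gr_hval _ _ i (o + (S.sig y).src inv) else 1) = _
    split_ifs with h
    · exact gk_read_h H h1 h3 hi.le g2 (by omega)
    · rfl
  | k1 =>
    rw [s3]
    show (if 0 < (S.sig y).tgt inv then gr_hval _ _ (i + 1) o else 1) = _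
    split_ifs with h
    · exact gk_read_h H h1 h3 hi g6 (by omega)
    · rfl
  | k2 =>
    rw [s4]
    show (if (S.sig y).tgt inv < (S.sig y).rk then gr_hval _ _ (i + 1) (o + (S.sig y).tgt inv)
      else 1) = _
    split_ifs with h
    · exact gk_read_h H h1 h3 hi g7 (by omega)
    · rfl
  | yU =>
    show gk_var P p S e0 k x (.YU i) = _
    simp only [gk_var]
    rw [hl]
  | yQ =>
    show gk_var P p S e0 k x (.YQ i) = _
    simp only [gk_var]
    rw [hl]
  | m => rw [s5]; rfl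
  | w0 => exact hlk 0
  | w1 => exact hlk 1
  | w2 => exact hlk 2
  | w3 => exact hlk 3
  | w4 => exact hlk 4
  | w5 => exact hlk 5
  | w6 => exact hlk 6
  | w7 => exact hlk 7
  | w8 => exact hlk 8

/-- the facts on the numbers of a swap, at the colourings `gk_col` -/
theorem gk_swapFrames (H : gk_Hyp R P p S e0 k x) (h2 : StK2 N R) (hF : StSwapFrames N R) {i o A B : ℕ}
    (hi : i < gk_len S e0) (hl : gk_letter S e0 i = .S o A B) :
    (gk_snum p S e0 k x i o A B).A = A ∧ (gk_snum p S e0 k x i o A B).B = B ∧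
      gr_cU (gk_col p S e0 k x i) o + (gk_snum p S e0 k x i o A B).km ≤ k ∧
      gr_cQ (gk_col p S e0 k x i) o +
        ((gk_snum p S e0 k x i o A B).m - (gk_snum p S e0 k x i o A B).km) ≤ gk_n S e0 - k := by
  obtain ⟨f1, f2, f3, f4, -⟩ :=
    hF Y S e0 k H.hyp (gk_col p S e0 k x) (h2 Y P p S e0 k x H) i o A B hi hl
  exact ⟨f1, f2, f3, f4⟩

theorem gk_n_le (H : gk_Hyp R P p S e0 k x) : gk_n S e0 ≤ N := (gsd_hyp_eqn H.hyp).rk_le

theorem gk_read_S (H : gk_Hyp R P p S e0 k x) (h1 : StK1 N R) (h1b : StK1b N R) (h2 : StK2 N R)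
    (h3 : StK3 N R) (h5 : StK5 N R) (hF : StSwapFrames N R) {i o A B : ℕ} (hi : i < gk_len S e0)
    (hl : gk_letter S e0 i = .S o A B) :
    gr_readS (gk_C p S e0 k x) e0 S.eqs.length (gk_pt P p S e0 k x) i o A B =
      gk_datS P p S e0 k x i o A B := by
  obtain ⟨g1, g2, g3, g4, g5, g6, g7⟩ := gk_geo H h1 h1b hi
  have eo : gk_o S e0 i = o := by unfold gk_o; rw [hl]; rfl
  have em : gk_m S e0 i = A + B := by unfold gk_m; rw [hl]; rfl
  have ea : gk_a S e0 i = A := by unfold gk_a; rw [hl]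
  have ec : gk_c S e0 i = B := by unfold gk_c; rw [hl]
  rw [eo] at g1 g2 g3 g6 g7
  rw [em] at g3 g4 g5
  rw [ea] at g2 g4
  rw [ec] at g5 g7
  obtain ⟨sok, s1, s2, s3, s4, -⟩ := (h5 Y P p S e0 k x H i hi).2 o A B hl
  obtain ⟨f1, f2, f3, f4⟩ := gk_swapFrames H h2 hF hi hl
  have hnN := gk_n_le H
  have hkn : k < gk_n S e0 := H.hyp.ltn
  have he := H.hyp.lt
  have f3' : gr_cU (gk_col p S e0 k x i) o + (gk_snum p S e0 k x i o A B).km ≤ N := by omega
  have f4' : gr_cQ (gk_col p S e0 k x i) o +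
      ((gk_snum p S e0 k x i o A B).m - (gk_snum p S e0 k x i o A B).km) ≤ N := by omega
  have sok' : gr_SOk (gk_snum p S e0 k x i o A B) (gk_datS P p S e0 k x i o A B).1 := sok
  have hlkA : ∀ j, (gk_pt P p S e0 k x).1 (.inr (gr_lk N S.eqs.length i 0, j)) =
      gk_wA (gk_datS P p S e0 k x i o A B).1 j := by
    intro j
    rw [gk_pt_lk P p S e0 k x he hi (by omega) j]
    unfold gk_lk
    rw [hl]
    rfl
  have hlkB : ∀ j, (gk_pt P p S e0 k x).1 (.inr (gr_lk N S.eqs.length i 1, j)) =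
      gk_wB (gk_datS P p S e0 k x i o A B).1 j := by
    intro j
    rw [gk_pt_lk P p S e0 k x he hi (by omega) j]
    unfold gk_lk
    rw [hl]
    rfl
  have hU : ∀ r, r < 4 → gr_uU e0 (gk_pt P p S e0 k x) i r = gk_uU P p S e0 k x i r :=
    fun r hr => gk_pt_U P p S e0 k x hi hr
  have hQ : ∀ r, r < 4 → gr_uQ S.eqs.length (gk_pt P p S e0 k x) i r = gk_uQ P p S e0 k x i r :=
    fun r hr => gk_pt_Q P p S e0 k x he hi hr
  refine Prod.ext ?_ ?_
  · funext idx
    cases idx with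
    | hAm =>
      rw [s1]
      show (if 0 < A then gr_hval _ _ i o else 1) = _
      split_ifs with h
      · exact gk_read_h H h1 h3 hi.le g1 (by omega)
      · rfl
    | hBm =>
      rw [s2]
      show (if 0 < B then gr_hval _ _ i (o + A) else 1) = _
      split_ifs with h
      · exact gk_read_h H h1 h3 hi.le g2 (by omega)
      · rfl
    | hAp =>
      rw [s3]
      show (if 0 < A then gr_hval _ _ (i + 1) (o + B) else 1) = _
      split_ifs with h
      · exact gk_read_h H h1 h3 hi g7 (by omega)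
      · rfl
    | hBp =>
      rw [s4]
      show (if 0 < B then gr_hval _ _ (i + 1) o else 1) = _
      split_ifs with h
      · exact gk_read_h H h1 h3 hi g6 (by omega)
      · rfl
    | t =>
      show gk_var P p S e0 k x (.T i) = _
      simp only [gk_var]
      rw [hl]
    | s =>
      show gk_var P p S e0 k x (.S i) = _
      simp only [gk_var]
      rw [hl]
    | r =>
      show gk_var P p S e0 k x (.R i) = _
      simp only [gk_var]
      rw [hl]
    | v =>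
      show gk_var P p S e0 k x (.V i) = _
      simp only [gk_var]
      rw [hl]
    | c0 =>
      show gr_midBlock _ (gk_snum p S e0 k x i o A B).km (gr_uU e0 (gk_pt P p S e0 k x) i 0) = _
      rw [hU 0 (by omega)]
      unfold gk_uU
      rw [hl]
      simp only [OfNat.zero_ne_ofNat, if_false, if_true]
      exact gm_mid_emb (gm_uni_corner sok'.c0) f3'
    | c1 =>
      show gr_midBlock _ (gk_snum p S e0 k x i o A B).km (gr_uU e0 (gk_pt P p S e0 k x) i 1) = _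
      rw [hU 1 (by omega)]
      unfold gk_uU
      rw [hl]
      simp only [OfNat.one_ne_ofNat, one_ne_zero, if_false, if_true]
      exact gm_mid_emb (gm_uni_corner sok'.c1) f3'
    | e0 =>
      show gr_midBlock _ ((gk_snum p S e0 k x i o A B).m - (gk_snum p S e0 k x i o A B).km)
        (gr_uQ S.eqs.length (gk_pt P p S e0 k x) i 0) = _
      rw [hQ 0 (by omega)]
      unfold gk_uQ
      rw [hl]
      simp only [OfNat.zero_ne_ofNat, if_false, if_true]
      exact gm_mid_emb (gm_uni_corner sok'.e0) f4'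
    | e1 =>
      show gr_midBlock _ ((gk_snum p S e0 k x i o A B).m - (gk_snum p S e0 k x i o A B).km)
        (gr_uQ S.eqs.length (gk_pt P p S e0 k x) i 1) = _
      rw [hQ 1 (by omega)]
      unfold gk_uQ
      rw [hl]
      simp only [OfNat.one_ne_ofNat, one_ne_zero, if_false, if_true]
      exact gm_mid_emb (gm_uni_corner sok'.e1) f4'
    | e2 =>
      show gr_midBlock _ ((gk_snum p S e0 k x i o A B).m - (gk_snum p S e0 k x i o A B).km)
        (gr_uQ S.eqs.length (gk_pt P p S e0 k x) i 2) = _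
      rw [hQ 2 (by omega)]
      unfold gk_uQ
      rw [hl]
      simp only [show ¬ (2 = 3) by omega, show ¬ (2 = 0) by omega, show ¬ (2 = 1) by omega, if_false]
      exact gm_mid_emb (gm_uni_corner sok'.e2) f4'
    | wA0 => exact hlkA 0
    | wA1 => exact hlkA 1
    | wA2 => exact hlkA 2
    | wA3 => exact hlkA 3
    | wB0 => exact hlkB 0
    | wB1 => exact hlkB 1
    | wB2 => exact hlkB 2
    | wB3 => exact hlkB 3
  · funext j
    show gk_par P p S e0 k x (i, 2 + (j : ℕ)) = _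
    rw [Nat.add_comm]
    show (match gk_letter S e0 i with
      | .S o A B => if h : (j : ℕ) < 2 then (gk_datS P p S e0 k x i o A B).2 ⟨j, h⟩ else 0
      | _ => 0) = _
    rw [hl]
    simp only [j.2, dif_pos]

theorem gk_read_EL (H : gk_Hyp R P p S e0 k x) (h1 : StK1 N R) (h1b : StK1b N R) (h2 : StK2 N R)
    (h3 : StK3 N R) (h5 : StK5 N R) (hF : StSwapFrames N R) {i : ℕ} (hi : i < gk_len S e0) :
    gr_EL (gk_C p S e0 k x) e0 S.eqs.length P (gk_pt P p S e0 k x) i = gk_EL P p S e0 k x i := by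
  unfold gr_EL gk_EL
  have e : (gk_C p S e0 k x).letter i = gk_letter S e0 i := rfl
  rw [e]
  cases hl : gk_letter S e0 i with
  | L lam => rfl
  | G inv y o =>
    simp only []
    rw [gk_read_G H h1 h1b h3 h5 hi hl]
    rfl
  | S o A B =>
    simp only []
    rw [gk_read_S H h1 h1b h2 h3 h5 hF hi hl]
    rfl

/-- `emb` of the diagonal sign matrix -/
theorem gk_emb_sign (o h : ℕ) :
    gs_emb o (Matrix.diagonal (fun j : Fin N => if (j : ℕ) < h then (-1 : ℂ) else 1)) =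
      Matrix.diagonal (fun j : Fin N => if o ≤ (j : ℕ) ∧ (j : ℕ) < o + h then (-1 : ℂ) else 1) := by
  ext i j
  by_cases hij : o ≤ (i : ℕ) ∧ o ≤ (j : ℕ)
  · rw [gm_emb_apply_ge o _ hij.1 hij.2]
    by_cases e : i = j
    · subst e
      rw [Matrix.diagonal_apply_eq, Matrix.diagonal_apply_eq]
      by_cases h1 : (i : ℕ) < o + h
      · rw [if_pos (show (i : ℕ) - o < h by omega), if_pos ⟨hij.1, h1⟩]
      · rw [if_neg (show ¬ ((i : ℕ) - o < h) by omega), if_neg (fun h2 => h1 h2.2)]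
    · rw [Matrix.diagonal_apply_ne _ e, Matrix.diagonal_apply_ne]
      intro h2
      apply e
      have := congrArg Fin.val h2
      simp only [] at this
      exact Fin.ext (by omega)
  · have : gs_emb o (Matrix.diagonal (fun j : Fin N => if (j : ℕ) < h then (-1 : ℂ) else 1)) i j =
        (1 : gs_Mat N) i j := by
      unfold gs_emb
      rw [dif_neg hij]
    rw [this]
    by_cases e : i = j
    · subst e
      rw [Matrix.one_apply_eq, Matrix.diagonal_apply_eq, if_neg]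
      intro h2
      exact hij ⟨h2.1, h2.1⟩
    · rw [Matrix.one_apply_ne e, Matrix.diagonal_apply_ne _ e]

theorem gk_inv_GL {m : ℕ} {A : gs_Mat N} (hA : gr_GL m A) : gr_GL m A⁻¹ :=
  ⟨Matrix.isUnit_nonsing_inv_det _ hA.1, gm_corner_inv hA.2 hA.1⟩

theorem gk_mul_GL {m : ℕ} {A B : gs_Mat N} (hA : gr_GL m A) (hB : gr_GL m B) : gr_GL m (A * B) :=
  ⟨by rw [Matrix.det_mul]; exact hA.1.mul hB.1, gm_corner_mul hA.2 hB.2⟩

theorem gk_emb_GL {m m' : ℕ} (o : ℕ) {A : gs_Mat N} (hA : gr_GL m A) (h : o + m ≤ m') (h' : m' ≤ N) :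
    gr_GL m' (gs_emb o A) :=
  ⟨gm_emb_isUnit hA.2 hA.1 (by omega), gm_corner_mono h (gm_emb_corner o hA.2)⟩

theorem gk_uni_GL {m : ℕ} {K : Finset ℕ} {u : gs_Mat N} (hu : gs_IsUni m K u) : gr_GL m u :=
  ⟨gm_uni_isUnit hu, gm_uni_corner hu⟩

theorem gk_swap_GL {m o a b : ℕ} (h : o + a + b ≤ m) (h' : m ≤ N) :
    gr_GL m (gs_swapMat o a b : gs_Mat N) :=
  ⟨gm_swap_isUnit (by omega), gm_corner_mono h (gm_swap_corner o a b)⟩

/-- the `eU` gadget at frame level is `emb` of the gadget at mid level -/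
theorem gk_XU_emb {ν : gr_SNum} {w : gr_SIdx → gs_Mat N} (hw : gr_SOk ν w) {oU : ℕ}
    (h : oU + ν.km ≤ N) :
    gs_emb (oU + ν.a) (w .t) * gs_emb oU (w .c0) * gs_swapMat oU ν.a ν.b * gs_emb oU (w .c1) *
        gs_emb (oU + ν.b) (w .s)⁻¹ = gs_emb oU (gr_S_XU ν w) ∧ gr_GL ν.km (gr_S_XU ν w) := by
  have hk : ν.km = ν.a + ν.b + ν.h := rfl
  have hkN : ν.km ≤ N := by omega
  have c1 : gr_GL ν.km (gs_emb ν.a (w .t)) := gk_emb_GL _ hw.t (by omega) hkN
  have c2 : gr_GL ν.km (w .c0) := gk_uni_GL hw.c0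
  have c3 : gr_GL ν.km (gs_swapMat 0 ν.a ν.b : gs_Mat N) := gk_swap_GL (by omega) hkN
  have c4 : gr_GL ν.km (w .c1) := gk_uni_GL hw.c1
  have c5 : gr_GL ν.km (gs_emb ν.b (w .s)⁻¹) := gk_emb_GL _ (gk_inv_GL hw.s) (by omega) hkN
  have d1 := gk_mul_GL c1 c2
  have d2 := gk_mul_GL d1 c3
  have d3 := gk_mul_GL d2 c4
  refine ⟨?_, gk_mul_GL d3 c5⟩
  unfold gr_S_XU
  rw [gm_emb_mul d3.2 c5.2 h, gm_emb_mul d2.2 c4.2 h, gm_emb_mul d1.2 c3.2 h, gm_emb_mul c1.2 c2.2 h,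
    gm_emb_emb, gm_emb_emb, gm_emb_swap, Nat.add_zero]

/-- the `eQ` gadget at frame level is `emb` of the gadget at mid level -/
theorem gk_XQ_emb {ν : gr_SNum} {w : gr_SIdx → gs_Mat N} (hw : gr_SOk ν w) {oQ : ℕ}
    (h : oQ + (ν.m - ν.km) ≤ N) :
    gs_emb oQ (w .r) * gs_emb oQ (w .e0) *
        Matrix.diagonal (fun j : Fin N => if oQ ≤ (j : ℕ) ∧ (j : ℕ) < oQ + ν.h then (-1 : ℂ) else 1) *
        gs_emb oQ (w .e1) * gs_swapMat (oQ + ν.h) ν.x ν.y * gs_emb oQ (w .e2) *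
        gs_emb oQ (w .v)⁻¹ = gs_emb oQ (gr_S_XQ ν w) ∧ gr_GL (ν.m - ν.km) (gr_S_XQ ν w) := by
  have hk : ν.m - ν.km = ν.h + ν.x + ν.y := by
    unfold gr_SNum.m gr_SNum.km gr_SNum.A gr_SNum.B; omega
  have hkN : ν.m - ν.km ≤ N := by omega
  have c1 : gr_GL (ν.m - ν.km) (w .r) := ⟨hw.r.1, gm_corner_mono (by omega) hw.r.2⟩
  have c2 : gr_GL (ν.m - ν.km) (w .e0) := gk_uni_GL hw.e0
  have c3 : gr_GL (ν.m - ν.km)
      (Matrix.diagonal (fun j : Fin N => if (j : ℕ) < ν.h then (-1 : ℂ) else 1)) := by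
    refine ⟨gm_diagonal_isUnit fun j => by split_ifs <;> norm_num, ?_⟩
    intro i j hij
    by_cases e : i = j
    · subst e
      rw [Matrix.diagonal_apply_eq, Matrix.one_apply_eq, if_neg (by omega)]
    · rw [Matrix.diagonal_apply_ne _ e, Matrix.one_apply_ne e]
  have c4 : gr_GL (ν.m - ν.km) (w .e1) := gk_uni_GL hw.e1
  have c5 : gr_GL (ν.m - ν.km) (gs_swapMat ν.h ν.x ν.y : gs_Mat N) := gk_swap_GL (by omega) hkN
  have c6 : gr_GL (ν.m - ν.km) (w .e2) := gk_uni_GL hw.e2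
  have c7 : gr_GL (ν.m - ν.km) (w .v)⁻¹ :=
    ⟨(gk_inv_GL hw.v).1, gm_corner_mono (by omega) (gk_inv_GL hw.v).2⟩
  have d1 := gk_mul_GL c1 c2
  have d2 := gk_mul_GL d1 c3
  have d3 := gk_mul_GL d2 c4
  have d4 := gk_mul_GL d3 c5
  have d5 := gk_mul_GL d4 c6
  refine ⟨?_, gk_mul_GL d5 c7⟩
  unfold gr_S_XQ
  rw [gm_emb_mul d5.2 c7.2 h, gm_emb_mul d4.2 c6.2 h, gm_emb_mul d3.2 c5.2 h, gm_emb_mul d2.2 c4.2 h,
    gm_emb_mul d1.2 c3.2 h, gm_emb_mul c1.2 c2.2 h, gm_emb_swap, gk_emb_sign]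

theorem gk_D_unit (H : gk_Hyp R P p S e0 k x) (h3 : StK3 N R) (i : ℕ) :
    IsUnit (gk_D p S e0 k x i).det := by
  obtain ⟨hcf, hfam, -⟩ := h3 Y P p S e0 k x H
  unfold gk_D
  rw [Matrix.det_mul]
  exact (gl_bd_isUnit (hcf i).nN (hcf i).top (hfam i)).mul (gm_sh_isUnit (hcf i).nN (hcf i).cnt)

theorem gk_uU_S {i o A B : ℕ} (hl : gk_letter S e0 i = .S o A B) :
    gk_uU P p S e0 k x i 0 =
        gs_emb (gr_cU (gk_col p S e0 k x i) o) ((gk_datS P p S e0 k x i o A B).1 .c0) ∧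
      gk_uU P p S e0 k x i 1 =
        gs_emb (gr_cU (gk_col p S e0 k x i) o) ((gk_datS P p S e0 k x i o A B).1 .c1) ∧
      gk_uU P p S e0 k x i 2 = 1 := by
  unfold gk_uU
  rw [hl]
  refine ⟨?_, ?_, ?_⟩
  · simp only [OfNat.zero_ne_ofNat, if_false, if_true]
  · simp only [OfNat.one_ne_ofNat, one_ne_zero, if_false, if_true]
  · simp only [show ¬ (2 = 3) by omega, show ¬ (2 = 0) by omega, show ¬ (2 = 1) by omega, if_false]

theorem gk_uQ_S {i o A B : ℕ} (hl : gk_letter S e0 i = .S o A B) :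
    gk_uQ P p S e0 k x i 0 =
        gs_emb (gr_cQ (gk_col p S e0 k x i) o) ((gk_datS P p S e0 k x i o A B).1 .e0) ∧
      gk_uQ P p S e0 k x i 1 =
        gs_emb (gr_cQ (gk_col p S e0 k x i) o) ((gk_datS P p S e0 k x i o A B).1 .e1) ∧
      gk_uQ P p S e0 k x i 2 =
        gs_emb (gr_cQ (gk_col p S e0 k x i) o) ((gk_datS P p S e0 k x i o A B).1 .e2) := by
  unfold gk_uQ
  rw [hl]
  refine ⟨?_, ?_, ?_⟩
  · simp only [OfNat.zero_ne_ofNat, if_false, if_true]
  · simp only [OfNat.one_ne_ofNat, one_ne_zero, if_false, if_true]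
  · simp only [show ¬ (2 = 3) by omega, show ¬ (2 = 0) by omega, show ¬ (2 = 1) by omega, if_false]

/-- slots `< 3` are trivial for the letters `G`, `L` -/
theorem gk_uU_other {i r : ℕ} (hl : ∀ o A B, gk_letter S e0 i ≠ .S o A B) (hr : r ≠ 3) :
    gk_uU P p S e0 k x i r = 1 ∧ gk_uQ P p S e0 k x i r = 1 := by
  unfold gk_uU gk_uQ
  rw [if_neg hr, if_neg hr]
  cases h : gk_letter S e0 i with
  | S o A B => exact absurd h (hl o A B)
  | G inv y o => exact ⟨rfl, rfl⟩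
  | L lam => exact ⟨rfl, rfl⟩

theorem gk_var_S {i o A B : ℕ} (hl : gk_letter S e0 i = .S o A B) :
    gk_var P p S e0 k x (.T i) = (gk_datS P p S e0 k x i o A B).1 .t ∧
      gk_var P p S e0 k x (.S i) = (gk_datS P p S e0 k x i o A B).1 .s ∧
      gk_var P p S e0 k x (.R i) = (gk_datS P p S e0 k x i o A B).1 .r ∧
      gk_var P p S e0 k x (.V i) = (gk_datS P p S e0 k x i o A B).1 .v := by
  simp only [gk_var]
  rw [hl]
  exact ⟨rfl, rfl, rfl, rfl⟩

/-- the letter part of `eU` for a swap -/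
theorem gk_read_XU_S (H : gk_Hyp R P p S e0 k x) (h2 : StK2 N R) (h5 : StK5 N R)
    (hF : StSwapFrames N R) {i o A B : ℕ} (hi : i < gk_len S e0)
    (hl : gk_letter S e0 i = .S o A B) :
    gr_XUlet (gk_C p S e0 k x) e0 (gk_pt P p S e0 k x) i =
        gs_emb (gr_cU (gk_col p S e0 k x i) o)
          (gr_S_XU (gk_snum p S e0 k x i o A B) (gk_datS P p S e0 k x i o A B).1) ∧
      gr_GL (gk_snum p S e0 k x i o A B).km
        (gr_S_XU (gk_snum p S e0 k x i o A B) (gk_datS P p S e0 k x i o A B).1) := by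
  obtain ⟨sok, -⟩ := (h5 Y P p S e0 k x H i hi).2 o A B hl
  obtain ⟨f1, f2, f3, f4⟩ := gk_swapFrames H h2 hF hi hl
  have hnN := gk_n_le H
  have hkn : k < gk_n S e0 := H.hyp.ltn
  have f3' : gr_cU (gk_col p S e0 k x i) o + (gk_snum p S e0 k x i o A B).km ≤ N := by omega
  obtain ⟨a1, a2⟩ := gk_XU_emb (ν := gk_snum p S e0 k x i o A B) sok f3'
  refine ⟨?_, a2⟩
  rw [← a1]
  unfold gr_XUlet
  have e : (gk_C p S e0 k x).letter i = gk_letter S e0 i := rfl
  rw [e, hl]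
  obtain ⟨u0, u1, -⟩ := gk_uU_S (P := P) (p := p) (k := k) (x := x) hl
  obtain ⟨v1, v2, -, -⟩ := gk_var_S (P := P) (p := p) (k := k) (x := x) hl
  simp only []
  rw [show gr_uU e0 (gk_pt P p S e0 k x) i 0 = _ from gk_pt_U P p S e0 k x hi (by omega),
    show gr_uU e0 (gk_pt P p S e0 k x) i 1 = _ from gk_pt_U P p S e0 k x hi (by omega), u0, u1,
    show gr_nval (gk_pt P p S e0 k x) (.T i) = _ from v1,
    show gr_nval (gk_pt P p S e0 k x) (.S i) = _ from v2]
  rfl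

/-- the letter part of `eQ` for a swap -/
theorem gk_read_XQ_S (H : gk_Hyp R P p S e0 k x) (h2 : StK2 N R) (h5 : StK5 N R)
    (hF : StSwapFrames N R) {i o A B : ℕ} (hi : i < gk_len S e0)
    (hl : gk_letter S e0 i = .S o A B) :
    gr_XQlet (gk_C p S e0 k x) S.eqs.length (gk_pt P p S e0 k x) i =
        gs_emb (gr_cQ (gk_col p S e0 k x i) o)
          (gr_S_XQ (gk_snum p S e0 k x i o A B) (gk_datS P p S e0 k x i o A B).1) ∧
      gr_GL ((gk_snum p S e0 k x i o A B).m - (gk_snum p S e0 k x i o A B).km)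
        (gr_S_XQ (gk_snum p S e0 k x i o A B) (gk_datS P p S e0 k x i o A B).1) := by
  obtain ⟨sok, -⟩ := (h5 Y P p S e0 k x H i hi).2 o A B hl
  obtain ⟨f1, f2, f3, f4⟩ := gk_swapFrames H h2 hF hi hl
  have hnN := gk_n_le H
  have hkn : k < gk_n S e0 := H.hyp.ltn
  have he := H.hyp.lt
  have f4' : gr_cQ (gk_col p S e0 k x i) o +
      ((gk_snum p S e0 k x i o A B).m - (gk_snum p S e0 k x i o A B).km) ≤ N := by omega
  obtain ⟨a1, a2⟩ := gk_XQ_emb (ν := gk_snum p S e0 k x i o A B) sok f4'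
  refine ⟨?_, a2⟩
  rw [← a1]
  unfold gr_XQlet
  have e : (gk_C p S e0 k x).letter i = gk_letter S e0 i := rfl
  rw [e, hl]
  obtain ⟨u0, u1, u2⟩ := gk_uQ_S (P := P) (p := p) (k := k) (x := x) hl
  obtain ⟨-, -, v1, v2⟩ := gk_var_S (P := P) (p := p) (k := k) (x := x) hl
  simp only []
  rw [show gr_uQ S.eqs.length (gk_pt P p S e0 k x) i 0 = _ from gk_pt_Q P p S e0 k x he hi (by omega),
    show gr_uQ S.eqs.length (gk_pt P p S e0 k x) i 1 = _ from gk_pt_Q P p S e0 k x he hi (by omega),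
    show gr_uQ S.eqs.length (gk_pt P p S e0 k x) i 2 = _ from gk_pt_Q P p S e0 k x he hi (by omega),
    u0, u1, u2,
    show gr_nval (gk_pt P p S e0 k x) (.R i) = _ from v1,
    show gr_nval (gk_pt P p S e0 k x) (.V i) = _ from v2]
  rfl

theorem gk_asm_one (k : ℕ) : gr_asm k (1 : gs_Mat N) 1 0 = 1 := by
  unfold gr_asm
  rw [gm_emb_one, one_mul, add_zero]

theorem gk_read_ER (H : gk_Hyp R P p S e0 k x) (h1 : StK1 N R) (h1b : StK1b N R) (h2 : StK2 N R)
    (h3 : StK3 N R) (h5 : StK5 N R) (hF : StSwapFrames N R) {i : ℕ} (hi : i < gk_len S e0) :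
    gr_ER (gk_C p S e0 k x) e0 S.eqs.length P (gk_pt P p S e0 k x) i = gk_ER P p S e0 k x i := by
  cases hl : gk_letter S e0 i with
  | L lam =>
    unfold gr_ER gk_ER
    have e : (gk_C p S e0 k x).letter i = gk_letter S e0 i := rfl
    rw [e, hl]
  | G inv y o =>
    unfold gr_ER gk_ER
    have e : (gk_C p S e0 k x).letter i = gk_letter S e0 i := rfl
    rw [e, hl]
    simp only []
    rw [gk_read_G H h1 h1b h3 h5 hi hl]
    rfl
  | S o A B =>
    obtain ⟨a1, a2⟩ := gk_read_XU_S H h2 h5 hF hi hl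
    obtain ⟨b1, b2⟩ := gk_read_XQ_S H h2 h5 hF hi hl
    obtain ⟨f1, f2, f3, f4⟩ := gk_swapFrames H h2 hF hi hl
    have hnN := gk_n_le H
    have hkn : k < gk_n S e0 := H.hyp.ltn
    have f3' : gr_cU (gk_col p S e0 k x i) o + (gk_snum p S e0 k x i o A B).km ≤ N := by omega
    have f4' : gr_cQ (gk_col p S e0 k x i) o +
        ((gk_snum p S e0 k x i o A B).m - (gk_snum p S e0 k x i o A B).km) ≤ N := by omega
    have uU := gm_emb_isUnit a2.2 a2.1 f3'
    have uQ := gm_emb_isUnit b2.2 b2.1 f4'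
    have hD := gk_D_unit H h3 (i + 1)
    unfold gr_ER gk_ER
    have e : (gk_C p S e0 k x).letter i = gk_letter S e0 i := rfl
    rw [e, hl]
    simp only []
    rw [gk_read_S H h1 h1b h2 h3 h5 hF hi hl, a1, b1, gk_read_D H h1 h3 hi]
    have r1 : (gs_emb (gr_cU ((gk_C p S e0 k x).col i) o)
        (gr_S_XU (gr_snum ((gk_C p S e0 k x).col i) ((gk_C p S e0 k x).col (i + 1)) o A B)
          (gk_datS P p S e0 k x i o A B).1))⁻¹ *
        gs_emb (gr_cU (gk_col p S e0 k x i) o)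
          (gr_S_XU (gk_snum p S e0 k x i o A B) (gk_datS P p S e0 k x i o A B).1) = 1 :=
      Matrix.nonsing_inv_mul _ uU
    have r2 : (gs_emb (gr_cQ ((gk_C p S e0 k x).col i) o)
        (gr_S_XQ (gr_snum ((gk_C p S e0 k x).col i) ((gk_C p S e0 k x).col (i + 1)) o A B)
          (gk_datS P p S e0 k x i o A B).1))⁻¹ *
        gs_emb (gr_cQ (gk_col p S e0 k x i) o)
          (gr_S_XQ (gk_snum p S e0 k x i o A B) (gk_datS P p S e0 k x i o A B).1) = 1 :=
      Matrix.nonsing_inv_mul _ uQ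
    rw [r1, r2, gk_asm_one, inv_one, mul_one, Matrix.mul_nonsing_inv _ hD, one_mul]
    rfl

theorem gk_read_Zlet (H : gk_Hyp R P p S e0 k x) (h1 : StK1 N R) (h1b : StK1b N R) (h2 : StK2 N R)
    (h3 : StK3 N R) (h5 : StK5 N R) (hF : StSwapFrames N R) {i : ℕ} (hi : i < gk_len S e0) :
    gr_Zlet (gk_C p S e0 k x) e0 S.eqs.length P (gk_pt P p S e0 k x) i = gk_Zlet P p S e0 k x i := by
  unfold gr_Zlet gk_Zlet
  rw [gk_read_D H h1 h3 hi.le, gk_read_D H h1 h3 hi, gk_read_EL H h1 h1b h2 h3 h5 hF hi,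
    gk_read_ER H h1 h1b h2 h3 h5 hF hi, gk_read_M]

end read

/-- **K6** -/
theorem gk_k6 (N : ℕ) (R : Subring ℂ) (h1 : StK1 N R) (h1b : StK1b N R) (h2 : StK2 N R)
    (h3 : StK3 N R) (h5 : StK5 N R) (hF : StSwapFrames N R) : StK6 N R := by
  intro Y P p S e0 k x H
  refine ⟨fun i => gk_read_M i, fun i c hi hc hcn => gk_read_h H h1 h3 hi hc hcn,
    fun i hi => gk_read_D H h1 h3 hi,
    fun i r hi hr => ⟨gk_pt_U P p S e0 k x hi hr, gk_pt_Q P p S e0 k x H.hyp.lt hi hr⟩,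
    fun i inv y o hi hl => gk_read_G H h1 h1b h3 h5 hi hl,
    fun i o A B hi hl => gk_read_S H h1 h1b h2 h3 h5 hF hi hl,
    fun i hi => ⟨gk_read_EL H h1 h1b h2 h3 h5 hF hi, gk_read_ER H h1 h1b h2 h3 h5 hF hi,
      gk_read_Zlet H h1 h1b h2 h3 h5 hF hi⟩⟩

end Claimed.Agent.R236
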