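import Mathlib
import Claimed.Agent.R236.GComplSt
import Claimed.Agent.R236.GComplK1

/-!
# Row 236, REDUCE, SB7: `StK7` (owner helper183, prefix gk7_)

The point `gk_pt` is locally admissible at every letter.
-/

set_option autoImplicit false

namespace Claimed.Agent.R236

section k7
variable {Y : Type} {N : ℕ} {R : Subring ℂ} {P : gr_Corr N} {p : gp_Pres N} {S : gs_Sys Y}
  {e0 k : ℕ} {x : gs_Pt Y N}

/-- the value of `gk_pt` at the unipotents of a link -/
theorem gk7_pt_link (he0 : e0 < S.eqs.length) {i s : ℕ} (hi : i < gk_len S e0) (hs : s < N + 2)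
    (j : ℕ) :
    (gk_pt P p S e0 k x).1 (.inr (gr_lk N S.eqs.length i s, j)) = gk_lk P p S e0 k x i s j := by
  have h1 : gr_lk N S.eqs.length i s - S.eqs.length - 1 = s + i * (N + 2) := by
    unfold gr_lk; omega
  have h2 : (s + i * (N + 2)) / (N + 2) = i := by
    rw [Nat.add_mul_div_right _ _ (by omega), Nat.div_eq_of_lt hs, Nat.zero_add]
  have h3 : (s + i * (N + 2)) % (N + 2) = s := by
    rw [Nat.add_mul_mod_self_right, Nat.mod_eq_of_lt hs]
  have h4 : gr_lk N S.eqs.length i s ≠ e0 := by unfold gr_lk; omega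
  have h5 : ¬ gr_lk N S.eqs.length i s < S.eqs.length := by unfold gr_lk; omega
  have h6 : gr_lk N S.eqs.length i s ≠ S.eqs.length := by unfold gr_lk; omega
  simp only [gk_pt]
  rw [if_neg h4, if_neg h5, if_neg h6, h1, h2, h3, if_pos hi]

theorem gk7_lk_G0 {i : ℕ} {inv : Bool} {y : Y} {o : ℕ} (hl : gk_letter S e0 i = .G inv y o)
    (j : ℕ) : gk_lk P p S e0 k x i 0 j = gk_wG (gk_datG P p S e0 k x i inv y o) j := by
  unfold gk_lk
  rw [hl]
  rfl

theorem gk7_lk_S0 {i o A B : ℕ} (hl : gk_letter S e0 i = .S o A B) (j : ℕ) :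
    gk_lk P p S e0 k x i 0 j = gk_wA (gk_datS P p S e0 k x i o A B).1 j := by
  unfold gk_lk
  rw [hl]
  rfl

theorem gk7_lk_S1 {i o A B : ℕ} (hl : gk_letter S e0 i = .S o A B) (j : ℕ) :
    gk_lk P p S e0 k x i 1 j = gk_wB (gk_datS P p S e0 k x i o A B).1 j := by
  unfold gk_lk
  rw [hl]
  rfl

theorem gk7_lk_G1 {i : ℕ} {inv : Bool} {y : Y} {o : ℕ} (hl : gk_letter S e0 i = .G inv y o)
    (j : ℕ) : gk_lk P p S e0 k x i 1 j = 1 := by
  unfold gk_lk
  rw [hl]
  rfl

theorem gk7_lk_L {i : ℕ} {lam : ℕ → ℂ} (hl : gk_letter S e0 i = .L lam) (s j : ℕ) :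
    gk_lk P p S e0 k x i s j = 1 := by
  unfold gk_lk
  rw [hl]

theorem gk7_lk_ge2 (i c j : ℕ) : gk_lk P p S e0 k x i (c + 2) j = 1 := by
  unfold gk_lk
  cases gk_letter S e0 i <;> rfl

theorem gk7_get {i : ℕ} (hi : i < gk_len S e0) :
    (gk_C p S e0 k x).E.ls[i]? = some (gk_letter S e0 i) := by
  rw [gk1_letter_lt hi]
  exact List.getElem?_eq_getElem hi

theorem gk7_get_ge {i : ℕ} (hi : gk_len S e0 ≤ i) : (gk_C p S e0 k x).E.ls[i]? = none :=
  List.getElem?_eq_none hi

theorem gk7_triv_sat {Y' : Type} (sig : Y' → gs_Sig) (z : gs_Pt Y' N) (e : ℕ)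
    (h : ∀ j, z (.inr (e, j)) = 1) : gs_EqnSat sig z e (gs_Eqn.triv Y') := by
  refine ⟨fun j => ?_, rfl⟩
  rw [h j]
  exact gm_uni_one _ _

/-- the shapes of the new variables -/
theorem gk7_new (hyp : gr_Hyp N R S e0 k) (hGN : StGNum N R) (k2 : (gk_C p S e0 k x).WF)
    (k3 : ∀ i, gl_Fam (gk_n S e0) (gk_K S e0 i) (gk_h p S e0 k x i))
    (k5 : ∀ i, i < gk_len S e0 →
      (∀ inv y o, gk_letter S e0 i = .G inv y o →
        gk_specG P p S e0 k x i inv y o (gk_datG P p S e0 k x i inv y o)) ∧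
      (∀ o A B, gk_letter S e0 i = .S o A B →
        gk_specS P p S e0 k x i o A B (gk_datS P p S e0 k x i o A B)))
    (v : gr_Var) : gr_GL ((gk_C p S e0 k x).nsig v).rk (gk_var P p S e0 k x v) := by
  cases v with
  | H i c =>
    by_cases h : i < gk_len S e0 ∧ c ∈ gk_K S e0 i ∧ c < gk_n S e0
    · have e1 : (gk_C p S e0 k x).nsig (.H i c) = _ := if_pos h
      have e2 : gk_var P p S e0 k x (.H i c) = _ := if_pos h
      rw [e1, e2]
      exact k3 i c h.2.1 h.2.2
    · have e1 : (gk_C p S e0 k x).nsig (.H i c) = _ := if_neg h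
      have e2 : gk_var P p S e0 k x (.H i c) = _ := if_neg h
      rw [e1, e2]
      exact gl_GL_one _
  | YU i =>
    by_cases hi : i < gk_len S e0
    · cases hl : gk_letter S e0 i with
      | G inv y o =>
        simp only [gr_Ctx.nsig, gk_var, gk7_get hi, hl]
        have h := ((k5 i hi).1 inv y o hl).1.yU
        have hn := hGN Y S e0 k hyp (gk_col p S e0 k x) k2 i inv y o hi hl
        have e : (gk_gnum p S e0 k x i inv y o).km =
            gr_nU ((gk_C p S e0 k x).col i) o (o + ((gk_C p S e0 k x).sig y).rk) :=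
          hn.2.2.2.2.2.2.1
        rw [← e]
        exact h
      | S o A B =>
        simp only [gr_Ctx.nsig, gk_var, gk7_get hi, hl]
        exact gl_GL_one _
      | L lam =>
        simp only [gr_Ctx.nsig, gk_var, gk7_get hi, hl]
        exact gl_GL_one _
    · simp only [gr_Ctx.nsig, gk_var, gk7_get_ge (Nat.not_lt.1 hi), gk1_letter_ge (Nat.not_lt.1 hi)]
      exact gl_GL_one _
  | YQ i =>
    by_cases hi : i < gk_len S e0
    · cases hl : gk_letter S e0 i with
      | G inv y o =>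
        simp only [gr_Ctx.nsig, gk_var, gk7_get hi, hl]
        have h := ((k5 i hi).1 inv y o hl).1.yQ
        have hn := hGN Y S e0 k hyp (gk_col p S e0 k x) k2 i inv y o hi hl
        have e : (gk_gnum p S e0 k x i inv y o).km =
            gr_nU ((gk_C p S e0 k x).col i) o (o + ((gk_C p S e0 k x).sig y).rk) :=
          hn.2.2.2.2.2.2.1
        have e' : (gk_gnum p S e0 k x i inv y o).m = ((gk_C p S e0 k x).sig y).rk := hn.2.1
        have e'' := gf_nU_add_nQ ((gk_C p S e0 k x).col i)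
          (Nat.le_add_right o ((gk_C p S e0 k x).sig y).rk)
        have e3 : gr_nQ ((gk_C p S e0 k x).col i) o (o + ((gk_C p S e0 k x).sig y).rk) =
            (gk_gnum p S e0 k x i inv y o).m - (gk_gnum p S e0 k x i inv y o).km := by
          rw [e, e']; omega
        rw [e3]
        exact h
      | S o A B =>
        simp only [gr_Ctx.nsig, gk_var, gk7_get hi, hl]
        exact gl_GL_one _
      | L lam =>
        simp only [gr_Ctx.nsig, gk_var, gk7_get hi, hl]
        exact gl_GL_one _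
    · simp only [gr_Ctx.nsig, gk_var, gk7_get_ge (Nat.not_lt.1 hi), gk1_letter_ge (Nat.not_lt.1 hi)]
      exact gl_GL_one _
  | T i =>
    by_cases hi : i < gk_len S e0
    · cases hl : gk_letter S e0 i with
      | G inv y o =>
        simp only [gr_Ctx.nsig, gk_var, gk7_get hi, hl]
        exact gl_GL_one _
      | S o A B =>
        simp only [gr_Ctx.nsig, gk_var, gk7_get hi, hl]
        exact ((k5 i hi).2 o A B hl).1.t
      | L lam =>
        simp only [gr_Ctx.nsig, gk_var, gk7_get hi, hl]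
        exact gl_GL_one _
    · simp only [gr_Ctx.nsig, gk_var, gk7_get_ge (Nat.not_lt.1 hi), gk1_letter_ge (Nat.not_lt.1 hi)]
      exact gl_GL_one _
  | S i =>
    by_cases hi : i < gk_len S e0
    · cases hl : gk_letter S e0 i with
      | G inv y o =>
        simp only [gr_Ctx.nsig, gk_var, gk7_get hi, hl]
        exact gl_GL_one _
      | S o A B =>
        simp only [gr_Ctx.nsig, gk_var, gk7_get hi, hl]
        exact ((k5 i hi).2 o A B hl).1.s
      | L lam =>
        simp only [gr_Ctx.nsig, gk_var, gk7_get hi, hl]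
        exact gl_GL_one _
    · simp only [gr_Ctx.nsig, gk_var, gk7_get_ge (Nat.not_lt.1 hi), gk1_letter_ge (Nat.not_lt.1 hi)]
      exact gl_GL_one _
  | R i =>
    by_cases hi : i < gk_len S e0
    · cases hl : gk_letter S e0 i with
      | G inv y o =>
        simp only [gr_Ctx.nsig, gk_var, gk7_get hi, hl]
        exact gl_GL_one _
      | S o A B =>
        simp only [gr_Ctx.nsig, gk_var, gk7_get hi, hl]
        exact ((k5 i hi).2 o A B hl).1.r
      | L lam =>
        simp only [gr_Ctx.nsig, gk_var, gk7_get hi, hl]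
        exact gl_GL_one _
    · simp only [gr_Ctx.nsig, gk_var, gk7_get_ge (Nat.not_lt.1 hi), gk1_letter_ge (Nat.not_lt.1 hi)]
      exact gl_GL_one _
  | V i =>
    by_cases hi : i < gk_len S e0
    · cases hl : gk_letter S e0 i with
      | G inv y o =>
        simp only [gr_Ctx.nsig, gk_var, gk7_get hi, hl]
        exact gl_GL_one _
      | S o A B =>
        simp only [gr_Ctx.nsig, gk_var, gk7_get hi, hl]
        exact ((k5 i hi).2 o A B hl).1.v
      | L lam =>
        simp only [gr_Ctx.nsig, gk_var, gk7_get hi, hl]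
        exact gl_GL_one _
    · simp only [gr_Ctx.nsig, gk_var, gk7_get_ge (Nat.not_lt.1 hi), gk1_letter_ge (Nat.not_lt.1 hi)]
      exact gl_GL_one _

theorem gk7_wG_ge (w : gr_GIdx → gs_Mat N) {j : ℕ} (hj : 9 ≤ j) : gk_wG w j = 1 := by
  obtain ⟨t, rfl⟩ : ∃ t, j = t + 9 := ⟨j - 9, by omega⟩
  rfl

theorem gk7_wA_ge (w : gr_SIdx → gs_Mat N) {j : ℕ} (hj : 4 ≤ j) : gk_wA w j = 1 := by
  obtain ⟨t, rfl⟩ : ∃ t, j = t + 4 := ⟨j - 4, by omega⟩
  rfl

theorem gk7_wB_ge (w : gr_SIdx → gs_Mat N) {j : ℕ} (hj : 4 ≤ j) : gk_wB w j = 1 := by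
  obtain ⟨t, rfl⟩ : ∃ t, j = t + 4 := ⟨j - 4, by omega⟩
  rfl

end k7

/-- **K7** -/
theorem gk_k7 (N : ℕ) (R : Subring ℂ) (h1b : StK1b N R) (h2 : StK2 N R) (h3 : StK3 N R)
    (h5 : StK5 N R) (h6 : StK6 N R) (hUG : StUnpackG N R) (hUA : StUnpackA N R)
    (hUB : StUnpackB N R) (hUn : StUnpackUn N R) (hF : StSwapFrames N R) (hGN : StGNum N R) :
    StK7 N R := by
  intro Y P p S e0 k x H i hi
  have k1b := h1b Y P p S e0 k x H i hi
  have k2 := h2 Y P p S e0 k x H
  obtain ⟨k3cf, k3fam, k3z, k3h, k3col, k3nU, k3ge, k3base, k3h0, k3z0⟩ := h3 Y P p S e0 k x H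
  have k5 := h5 Y P p S e0 k x H
  obtain ⟨k6M, k6h, k6D, k6u, k6G, k6S, k6E⟩ := h6 Y P p S e0 k x H
  have hold : ∀ y, gr_GL ((gk_C p S e0 k x).sig y).rk ((gk_pt P p S e0 k x).1 (.inl (.inl y))) :=
    fun y => H.sol.1 y
  have hnew : ∀ v, gr_GL ((gk_C p S e0 k x).nsig v).rk (gr_nval (gk_pt P p S e0 k x) v) :=
    gk7_new H.hyp hGN k2 k3fam k5
  have hC : gr_ctx S e0 k (gk_col p S e0 k x) = gk_C p S e0 k x := rfl
  refine ⟨hold, hnew, ?_, ?_, ?_⟩
  · intro s hs
    rcases s with _ | _ | c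
    · cases hl : gk_letter S e0 i with
      | G inv y o =>
        have e : (gk_C p S e0 k x).link i 0 = (gk_C p S e0 k x).linkG i inv y o := by
          simp only [gr_Ctx.link, gk7_get hi, hl]
        rw [e]
        refine (hUG Y S e0 k H.hyp (gk_col p S e0 k x) k2 S.eqs.length (gk_pt P p S e0 k x) hold
          hnew i inv y o hi hl).2 ⟨?_, ?_⟩
        · rw [hC, k6G i inv y o hi hl]
          exact ((k5 i hi).1 inv y o hl).1
        · intro j hj
          rw [gk7_pt_link H.hyp.lt hi hs, gk7_lk_G0 hl, gk7_wG_ge _ hj]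
      | S o A B =>
        have e : (gk_C p S e0 k x).link i 0 = (gk_C p S e0 k x).linkA i o A B := by
          simp only [gr_Ctx.link, gk7_get hi, hl]
        rw [e]
        have ok := ((k5 i hi).2 o A B hl).1
        refine (hUA Y S e0 k H.hyp (gk_col p S e0 k x) k2 e0 S.eqs.length (gk_pt P p S e0 k x)
          hnew i o A B hi hl).2 ?_
        simp only [hC, k6S i o A B hi hl]
        refine ⟨ok.wA0, ok.wA1, ok.wA2, ok.wA3, ?_, ok.linkA⟩
        intro j hj
        rw [gk7_pt_link H.hyp.lt hi hs, gk7_lk_S0 hl, gk7_wA_ge _ hj]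
      | L lam =>
        have e : (gk_C p S e0 k x).link i 0 = gs_Eqn.triv _ := by
          simp only [gr_Ctx.link, gk7_get hi, hl]
        rw [e]
        refine gk7_triv_sat _ _ _ fun j => ?_
        rw [gk7_pt_link H.hyp.lt hi hs, gk7_lk_L hl]
    · cases hl : gk_letter S e0 i with
      | G inv y o =>
        have e : (gk_C p S e0 k x).link i (0 + 1) = gs_Eqn.triv _ := by
          simp only [gr_Ctx.link, gk7_get hi, hl]
        rw [e]
        refine gk7_triv_sat _ _ _ fun j => ?_
        rw [gk7_pt_link H.hyp.lt hi hs, gk7_lk_G1 hl]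
      | S o A B =>
        have e : (gk_C p S e0 k x).link i (0 + 1) = (gk_C p S e0 k x).linkB i o A B := by
          simp only [gr_Ctx.link, gk7_get hi, hl]
        rw [e]
        have ok := ((k5 i hi).2 o A B hl).1
        refine (hUB Y S e0 k H.hyp (gk_col p S e0 k x) k2 e0 S.eqs.length (gk_pt P p S e0 k x)
          hnew i o A B hi hl).2 ?_
        simp only [hC, k6S i o A B hi hl]
        refine ⟨ok.wB0, ok.wB1, ok.wB2, ok.wB3, ?_, ok.linkB⟩
        intro j hj
        rw [gk7_pt_link H.hyp.lt hi hs, gk7_lk_S1 hl, gk7_wB_ge _ hj]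
      | L lam =>
        have e : (gk_C p S e0 k x).link i (0 + 1) = gs_Eqn.triv _ := by
          simp only [gr_Ctx.link, gk7_get hi, hl]
        rw [e]
        refine gk7_triv_sat _ _ _ fun j => ?_
        rw [gk7_pt_link H.hyp.lt hi hs, gk7_lk_L hl]
    · by_cases hc : c ∈ gk_K S e0 i ∧ c < gk_n S e0 ∧
          (c < gk_o S e0 i ∨ gk_o S e0 i + gk_m S e0 i ≤ c)
      · have e : (gk_C p S e0 k x).link i (c + 1 + 1) = (gk_C p S e0 k x).linkUn i c := by
          simp only [gr_Ctx.link, gk7_get hi]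
          exact if_pos hc
        rw [e]
        refine (hUn Y S e0 k H.hyp (gk_col p S e0 k x) k2 _ (gk_pt P p S e0 k x)
          hnew i c hi hc.1 hc.2.1 hc.2.2).2 ⟨?_, ?_, ?_⟩
        · rw [gk7_pt_link H.hyp.lt hi hs, gk7_lk_ge2]
          exact gm_uni_one _ _
        · intro j _
          rw [gk7_pt_link H.hyp.lt hi hs, gk7_lk_ge2]
        · have hmem : c ∈ gk_K S e0 (i + 1) := by
            rw [k1b.2.2.1]
            refine (gl_spect_mem_iff k1b.1 k1b.2.1 ?_).2 hc.1
            rcases hc.2.2 with h | h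
            · exact Or.inl h.le
            · exact Or.inr h
          rw [gk7_pt_link H.hyp.lt hi hs, gk7_lk_ge2, mul_one, hC, k6h i c hi.le hc.1 hc.2.1,
            k6h (i + 1) c hi hmem hc.2.1]
          exact k3h i c hi ⟨hc.1, hc.2.1, hc.2.2⟩
      · have e : (gk_C p S e0 k x).link i (c + 1 + 1) = gs_Eqn.triv _ := by
          simp only [gr_Ctx.link, gk7_get hi]
          exact if_neg hc
        rw [e]
        refine gk7_triv_sat _ _ _ fun j => ?_
        rw [gk7_pt_link H.hyp.lt hi hs, gk7_lk_ge2]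
  · intro j hj
    rw [(k6u i j hi (by omega)).1]
    unfold gk_uU
    rw [if_neg (by omega)]
    cases hl : gk_letter S e0 i with
    | G inv y o => exact gm_uni_one _ _
    | L lam => exact gm_uni_one _ _
    | S o A B =>
      have ok := ((k5 i hi).2 o A B hl).1
      obtain ⟨-, -, f1, f2, -, -, -, f3, f4, f5, f6, f7⟩ :=
        hF Y S e0 k H.hyp (gk_col p S e0 k x) k2 i o A B hi hl
      simp only
      split_ifs with g0 g1
      · subst g0
        exact gm_uni_emb ok.c0 f3 f1
      · subst g1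
        exact gm_uni_emb ok.c1 f4 f1
      · exact gm_uni_one _ _
  · intro j hj
    rw [(k6u i j hi (by omega)).2]
    unfold gk_uQ
    rw [if_neg (by omega)]
    cases hl : gk_letter S e0 i with
    | G inv y o => exact gm_uni_one _ _
    | L lam => exact gm_uni_one _ _
    | S o A B =>
      have ok := ((k5 i hi).2 o A B hl).1
      obtain ⟨-, -, f1, f2, -, -, -, f3, f4, f5, f6, f7⟩ :=
        hF Y S e0 k H.hyp (gk_col p S e0 k x) k2 i o A B hi hl
      simp only
      split_ifs with g0 g1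
      · subst g0
        exact gm_uni_emb ok.e0 f5 f2
      · subst g1
        exact gm_uni_emb ok.e1 f6 f2
      · obtain rfl : j = 2 := by omega
        exact gm_uni_emb ok.e2 f7 f2

end Claimed.Agent.R236
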