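import Mathlib
import Claimed.Agent.R236.GComplK10

/-!
# Row 236, REDUCE, SB7, leaf K9: the point lies in the domain (owner helper188, prefix gk9_)
-/

set_option autoImplicit false

namespace Claimed.Agent.R236

section data
variable {Y : Type} {N : ℕ} {R : Subring ℂ} {P : gr_Corr N} {p : gp_Pres N} {S : gs_Sys Y}
  {e0 k : ℕ} {x : gs_Pt Y N}

/-- values of the point at the unipotents -/
theorem gk9_pt_inr (e j : ℕ) :
    (gk_pt P p S e0 k x).1 (.inr (e, j)) =
      if e = e0 then (if j / 4 < gk_len S e0 then gk_uU P p S e0 k x (j / 4) (j % 4) else 1)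
      else if e < S.eqs.length then x (.inr (e, j))
      else if e = S.eqs.length then
        (if j / 4 < gk_len S e0 then gk_uQ P p S e0 k x (j / 4) (j % 4) else 1)
      else if (e - S.eqs.length - 1) / (N + 2) < gk_len S e0 then
        gk_lk P p S e0 k x ((e - S.eqs.length - 1) / (N + 2)) ((e - S.eqs.length - 1) % (N + 2)) j
      else 1 := rfl

/-- the products of the segments are `1` -/
theorem gk9_prod (h1 : StK1 N R) (h2 : StK2 N R) (h3 : StK3 N R)
    (h4 : StK4 N R) (h5 : StK5 N R) (h6 : StK6 N R) (h7 : StK7 N R) (hLoc : StLoc N R)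
    (H : gk_Hyp R P p S e0 k x) :
    ((List.range (gk_len S e0)).map fun i =>
      gr_XUlet (gk_C p S e0 k x) e0 (gk_pt P p S e0 k x) i *
        gr_sU (gk_C p S e0 k x) e0 (gk_pt P p S e0 k x) i).prod = 1 ∧
    ((List.range (gk_len S e0)).map fun i =>
      gr_XQlet (gk_C p S e0 k x) S.eqs.length (gk_pt P p S e0 k x) i *
        gr_sQ (gk_C p S e0 k x) S.eqs.length (gk_pt P p S e0 k x) i).prod = 1 := by
  have hkn := gk8_kn H
  have hnN := gk8_nN h1 H
  have key := gsd_tri_prod (gc_StTriMul N) hkn hnN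
    (fun i => gr_XUlet (gk_C p S e0 k x) e0 (gk_pt P p S e0 k x) i *
        gr_sU (gk_C p S e0 k x) e0 (gk_pt P p S e0 k x) i)
    (fun i => gr_XQlet (gk_C p S e0 k x) S.eqs.length (gk_pt P p S e0 k x) i *
        gr_sQ (gk_C p S e0 k x) S.eqs.length (gk_pt P p S e0 k x) i)
    (fun i => gk_Z p S e0 k x i) (gk_len S e0) (fun i hi => by
      obtain ⟨-, t, c1, c2⟩ := gk8_loc h2 h6 h7 hLoc H hi
      have tz := gk8_tri_mid hkn hnN (gk8_Zfr_tri h1 h2 h3 h4 h5 h6 h7 hLoc H hi)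
      have hZ : gk_Z p S e0 k x i = gk_Zlet P p S e0 k x i * gk_Zfr P p S e0 k x i := by
        unfold gk_Zfr
        rw [← mul_assoc, Matrix.mul_nonsing_inv _ (gk8_Zlet_unit h1 h2 h3 h4 h5 h6 h7 hLoc H hi),
          one_mul]
      rw [gk8_sU h6 H hi, gk8_sQ h6 H hi, hZ]
      exact ⟨gm_corner_mul c1 (gm_mid_corner _ _ _), gm_corner_mul c2 (gm_mid_corner _ _ _),
        gc_StTriMul N _ _ _ _ _ _ _ _ hkn hnN c1 c2 (gm_mid_corner _ _ _) (gm_mid_corner _ _ _) t tz⟩)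
  obtain ⟨c1, c2, t⟩ := key
  rw [(h4 Y P p S e0 k x H).2.2.2.2] at t
  exact gc_tri_unique hnN c1 c2 (gm_corner_one _) (gm_corner_one _) t (gsd_tri_one _ _)

theorem gk9_frU3 (C : gr_Ctx Y) (i : ℕ) : C.frU i 3 = C.KU (i + 1) := by
  unfold gr_Ctx.frU
  cases C.letter i <;> rfl

theorem gk9_frQ3 (C : gr_Ctx Y) (i : ℕ) : C.frQ i 3 = C.KQ (i + 1) := by
  unfold gr_Ctx.frQ
  cases C.letter i <;> rfl

/-- `eU` and `eQ` are satisfied -/
theorem gk9_eUQ (h1 : StK1 N R) (h1b : StK1b N R) (h2 : StK2 N R) (h3 : StK3 N R)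
    (h4 : StK4 N R) (h5 : StK5 N R) (h6 : StK6 N R) (h7 : StK7 N R) (hLoc : StLoc N R)
    (hUQ : StUnpackUQ N R) (H : gk_Hyp R P p S e0 k x) :
    gs_EqnSat (gk_C p S e0 k x).sig' (gk_pt P p S e0 k x).1 e0 (gk_C p S e0 k x).eU ∧
    gs_EqnSat (gk_C p S e0 k x).sig' (gk_pt P p S e0 k x).1 S.eqs.length
      (gk_C p S e0 k x).eQ := by
  obtain ⟨a, b⟩ := hUQ Y S e0 k H.hyp (gk_col p S e0 k x) (h2 Y P p S e0 k x H) e0 S.eqs.length
    (gk_pt P p S e0 k x)
  obtain ⟨-, -, -, hu, -⟩ := h6 Y P p S e0 k x H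
  have hlt := H.hyp.lt
  refine ⟨a.2 ⟨fun i j hi hj => ?_, fun t ht => ?_, (gk9_prod h1 h2 h3 h4 h5 h6 h7 hLoc H).1⟩,
    b.2 ⟨fun i j hi hj => ?_, fun t ht => ?_, (gk9_prod h1 h2 h3 h4 h5 h6 h7 hLoc H).2⟩⟩
  · rcases Nat.lt_succ_iff_lt_or_eq.1 hj with h | h
    · exact (h7 Y P p S e0 k x H i hi).uU j h
    · rw [h, gk9_frU3, (hu i 3 hi (by omega)).1]
      have : gk_uU P p S e0 k x i 3 = gr_midBlock 0 k (gk_Zfr P p S e0 k x i) := if_pos rfl
      rw [this]
      exact (gk8_parts h1 h1b h2 h3 h4 h5 h6 h7 hLoc H hi).1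
  · rw [gk9_pt_inr, if_pos rfl, if_neg]
    have ht' : 4 * gk_len S e0 ≤ t := ht
    omega
  · rcases Nat.lt_succ_iff_lt_or_eq.1 hj with h | h
    · exact (h7 Y P p S e0 k x H i hi).uQ j h
    · rw [h, gk9_frQ3, (hu i 3 hi (by omega)).2]
      have : gk_uQ P p S e0 k x i 3 =
        gr_midBlock k (gk_n S e0 - k) (gk_Zfr P p S e0 k x i) := if_pos rfl
      rw [this]
      exact (gk8_parts h1 h1b h2 h3 h4 h5 h6 h7 hLoc H hi).2.1
  · rw [gk9_pt_inr, if_neg (by omega), if_neg (by omega), if_pos rfl, if_neg]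
    have ht' : 4 * gk_len S e0 ≤ t := ht
    omega

end data

/-- **K9** -/
theorem gk_k9 {N : ℕ} {R : Subring ℂ} (h1 : StK1 N R) (h1b : StK1b N R) (h2 : StK2 N R)
    (h3 : StK3 N R) (h4 : StK4 N R) (h5 : StK5 N R) (h6 : StK6 N R) (h7 : StK7 N R)
    (hLoc : StLoc N R) (hEq : StUnpackEq) (hUQ : StUnpackUQ N R) : StK9 N R := by
  intro Y P p S e0 k x H
  have hlt := H.hyp.lt
  have hlen : 0 < gk_len S e0 := List.length_pos_iff.2 H.hyp.ne
  obtain ⟨q1, q2, q3, q4, q5⟩ := hEq N Y S e0 k (gk_col p S e0 k x) hlt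
  obtain ⟨sU, sQ⟩ := gk9_eUQ h1 h1b h2 h3 h4 h5 h6 h7 hLoc hUQ H
  have hA := h7 Y P p S e0 k x H 0 hlen
  have hsig : ∀ y, (gr_reduce N S e0 k (gk_col p S e0 k x)).sig (Sum.inl y) = S.sig y :=
    fun _ => rfl
  -- every equation is satisfied
  have hsat : ∀ e, gs_EqnSat (gr_reduce N S e0 k (gk_col p S e0 k x)).sig (gk_pt P p S e0 k x).1 e
      ((gr_reduce N S e0 k (gk_col p S e0 k x)).eq e) := by
    intro e
    by_cases he : e = e0
    · rw [he, q1]; exact sU
    by_cases hE : e < S.eqs.length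
    · rw [q3 e hE he]
      have hinr : ∀ j, x (.inr (e, j)) = (gk_pt P p S e0 k x).1 (.inr (e, j)) := by
        intro j
        rw [gk9_pt_inr, if_neg he, if_pos hE]
      refine ⟨fun j => ?_, ?_⟩
      · have h := H.sol.2.1 e j
        unfold gs_Sys.urk gs_Sys.frame at h
        simp only [gs_Eqn.map, List.length_map]
        rw [gsd_frame_map Sum.inl S.sig _ hsig, ← hinr]
        exact h
      · have h := H.sol.2.2 e
        rw [gsd_val_map Sum.inl x (gk_pt P p S e0 k x).1 (fun _ => rfl) e hinr] at h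
        exact h
    by_cases hE' : e = S.eqs.length
    · rw [hE', q2]; exact sQ
    by_cases hr : (e - S.eqs.length - 1) / (N + 2) < gk_len S e0
    · have hee : e = gr_lk N S.eqs.length ((e - S.eqs.length - 1) / (N + 2))
          ((e - S.eqs.length - 1) % (N + 2)) := by
        unfold gr_lk
        have := Nat.div_add_mod' (e - S.eqs.length - 1) (N + 2)
        omega
      have hs : (e - S.eqs.length - 1) % (N + 2) < N + 2 := Nat.mod_lt _ (by omega)
      rw [hee, q4 _ _ hr hs]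
      exact (h7 Y P p S e0 k x H _ hr).link _ hs
    · have hge : S.eqs.length + 1 + gk_len S e0 * (N + 2) ≤ e := by
        have := (Nat.le_div_iff_mul_le (by omega : 0 < N + 2)).1 (not_lt.1 hr)
        omega
      rw [q5 e hge]
      refine ⟨fun j => ?_, rfl⟩
      rw [gk9_pt_inr, if_neg he, if_neg hE, if_neg hE', if_neg hr]
      exact gm_uni_one _ _
  refine ⟨fun y => ?_, fun e i => (hsat e).1 i, fun e => (hsat e).2⟩
  rcases y with y | v
  · exact hA.old y
  · exact hA.new v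

end Claimed.Agent.R236
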