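import Mathlib
import Claimed.Agent.R236.GLiftL

/-!
# Row 236, REDUCE, SB3 (LIFT), part R: radical extraction (owner helper58, prefix `gl_`)

* `gl_RE` : `u * emb o x = emb o (midBlock o m u * x) * ρ`, `ρ ∈ U(K')`;
* `gl_extractU`, `gl_extractQ` : the segments of `eU`, `eQ` of a swap are
  `emb oU (mid level value) * ρ`;
* `gl_img_local`, `gl_img_agree` : the frames `KU`, `KQ` near the interval of a letter.
-/

set_option autoImplicit false

namespace Claimed.Agent.R236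

open Matrix

variable {N : ℕ}

/-- **radical extraction** -/
theorem gl_RE (hRS : StRadSplit N) (hRC : StRadConj N) {n o m : ℕ} {K K' : Finset ℕ}
    {u x : gs_Mat N} (hnN : n ≤ N) (hom : o + m ≤ n) (ho : o ∈ K) (hom' : o + m ∈ K)
    (hag : ∀ d, d ≤ o ∨ o + m ≤ d → (d ∈ K ↔ d ∈ K')) (hu : gs_IsUni n K u) (hx : gr_GL m x) :
    ∃ ρ, gs_IsUni n K' ρ ∧ u * gs_emb o x = gs_emb o (gr_midBlock o m u * x) * ρ := by
  obtain ⟨hmU, p, hp⟩ := hRS n o m K u hnN hom ho hom' hu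
  have hg : gr_GL m (gr_midBlock o m u * x) := gl_GL_mul (gl_GL_uni hmU) hx
  refine ⟨_, hRC n o m K K' _ p hnN hom ho hom' hag hg, ?_⟩
  have hunit : IsUnit (gs_emb o (gr_midBlock o m u * x)).det :=
    gm_emb_isUnit hg.2 hg.1 (by omega)
  rw [← mul_assoc, ← mul_assoc, Matrix.mul_nonsing_inv _ hunit, one_mul,
    gm_emb_mul (gm_mid_corner o m u) hx.2 (by omega), ← mul_assoc, ← hp]

/-- the segment of `eU` of a swap -/
theorem gl_extractU (hRS : StRadSplit N) (hRC : StRadConj N) {k oU a b h : ℕ}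
    {F0 F1 F : Finset ℕ} (hkN : k ≤ N) (hok : oU + (a + b + h) ≤ k)
    (h00 : oU ∈ F0) (h01 : oU + (a + b + h) ∈ F0) (h10 : oU ∈ F1) (h11 : oU + (a + b + h) ∈ F1)
    (hag0 : ∀ d, d ≤ oU ∨ oU + (a + b + h) ≤ d → (d ∈ F0 ↔ d ∈ F))
    (hag1 : ∀ d, d ≤ oU ∨ oU + (a + b + h) ≤ d → (d ∈ F1 ↔ d ∈ F))
    {T Sv u0 u1 : gs_Mat N} (hT : gr_GL (b + h) T) (hS : gr_GL (a + h) Sv)
    (hu0 : gs_IsUni k F0 u0) (hu1 : gs_IsUni k F1 u1) :
    ∃ ρ, gs_IsUni k F ρ ∧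
      gs_emb (oU + a) T * u0 * gs_swapMat oU a b * u1 * gs_emb (oU + b) Sv⁻¹ =
        gs_emb oU (gs_emb a T * gr_midBlock oU (a + b + h) u0 * gs_swapMat 0 a b *
          gr_midBlock oU (a + b + h) u1 * gs_emb b Sv⁻¹) * ρ := by
  set km := a + b + h with hkm
  have hkmN : oU + km ≤ N := by omega
  have hx1 : gr_GL km (gs_emb b Sv⁻¹) := by
    have := gl_GL_emb (o := b) (gl_GL_inv hS) (by omega)
    exact gl_GL_mono (by omega) this
  obtain ⟨ρ1, hρ1, e1⟩ := gl_RE hRS hRC hkN hok h10 h11 hag1 hu1 hx1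
  have hc1 : gr_GL km (gr_midBlock oU km u1 * gs_emb b Sv⁻¹) :=
    gl_GL_mul (gl_GL_uni (hRS k oU km F1 u1 hkN hok h10 h11 hu1).1) hx1
  have hsw : gr_GL km (gs_swapMat 0 a b : gs_Mat N) :=
    ⟨gm_swap_isUnit (by omega), gm_corner_mono (by omega) (gm_swap_corner 0 a b)⟩
  have hx0 : gr_GL km (gs_swapMat 0 a b * (gr_midBlock oU km u1 * gs_emb b Sv⁻¹)) :=
    gl_GL_mul hsw hc1
  obtain ⟨ρ0, hρ0, e0⟩ := gl_RE hRS hRC hkN hok h00 h01 hag0 hu0 hx0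
  have hc0 : gr_GL km (gr_midBlock oU km u0 *
      (gs_swapMat 0 a b * (gr_midBlock oU km u1 * gs_emb b Sv⁻¹))) :=
    gl_GL_mul (gl_GL_uni (hRS k oU km F0 u0 hkN hok h00 h01 hu0).1) hx0
  have hT' : gs_IsCorner km (gs_emb a T) := gm_corner_mono (by omega) (gm_emb_corner a hT.2)
  refine ⟨ρ0 * ρ1, gm_uni_mul hρ0 hρ1, ?_⟩
  have esw : (gs_swapMat oU a b : gs_Mat N) = gs_emb oU (gs_swapMat 0 a b) := by
    rw [gm_emb_swap, Nat.add_zero]
  calc gs_emb (oU + a) T * u0 * gs_swapMat oU a b * u1 * gs_emb (oU + b) Sv⁻¹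
      = gs_emb (oU + a) T * (u0 * (gs_swapMat oU a b * (u1 * gs_emb oU (gs_emb b Sv⁻¹)))) := by
        rw [gm_emb_emb]; simp only [mul_assoc]
    _ = gs_emb (oU + a) T * (u0 * (gs_emb oU (gs_swapMat 0 a b) *
          gs_emb oU (gr_midBlock oU km u1 * gs_emb b Sv⁻¹))) * ρ1 := by
        rw [e1, esw]; simp only [mul_assoc]
    _ = gs_emb oU (gs_emb a T) * (gs_emb oU (gr_midBlock oU km u0 *
          (gs_swapMat 0 a b * (gr_midBlock oU km u1 * gs_emb b Sv⁻¹))) * ρ0) * ρ1 := by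
        rw [← gm_emb_mul hsw.2 hc1.2 hkmN, e0, gm_emb_emb]
    _ = _ := by
        rw [← mul_assoc, ← gm_emb_mul hT' hc0.2 hkmN]
        simp only [mul_assoc]

/-- the segment of `eQ` of a swap -/
theorem gl_extractQ (hRS : StRadSplit N) (hRC : StRadConj N) {k oQ h x y : ℕ}
    {F0 F1 F2 F : Finset ℕ} (hkN : k ≤ N) (hok : oQ + (h + x + y) ≤ k)
    (h00 : oQ ∈ F0) (h01 : oQ + (h + x + y) ∈ F0) (h10 : oQ ∈ F1) (h11 : oQ + (h + x + y) ∈ F1)
    (h20 : oQ ∈ F2) (h21 : oQ + (h + x + y) ∈ F2)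
    (hag0 : ∀ d, d ≤ oQ ∨ oQ + (h + x + y) ≤ d → (d ∈ F0 ↔ d ∈ F))
    (hag1 : ∀ d, d ≤ oQ ∨ oQ + (h + x + y) ≤ d → (d ∈ F1 ↔ d ∈ F))
    (hag2 : ∀ d, d ≤ oQ ∨ oQ + (h + x + y) ≤ d → (d ∈ F2 ↔ d ∈ F))
    {Rv Vv u0 u1 u2 : gs_Mat N} (hR : gr_GL (h + x) Rv) (hV : gr_GL (h + y) Vv)
    (hu0 : gs_IsUni k F0 u0) (hu1 : gs_IsUni k F1 u1) (hu2 : gs_IsUni k F2 u2) :
    ∃ ρ, gs_IsUni k F ρ ∧
      gs_emb oQ Rv * u0 *
          Matrix.diagonal (fun j : Fin N => if oQ ≤ (j : ℕ) ∧ (j : ℕ) < oQ + h then (-1 : ℂ) else 1) *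
          u1 * gs_swapMat (oQ + h) x y * u2 * gs_emb oQ Vv⁻¹ =
        gs_emb oQ (Rv * gr_midBlock oQ (h + x + y) u0 *
          Matrix.diagonal (fun j : Fin N => if (j : ℕ) < h then (-1 : ℂ) else 1) *
          gr_midBlock oQ (h + x + y) u1 * gs_swapMat h x y *
          gr_midBlock oQ (h + x + y) u2 * Vv⁻¹) * ρ := by
  set mQ := h + x + y with hmQ
  have hmN : oQ + mQ ≤ N := by omega
  have hx2 : gr_GL mQ Vv⁻¹ := gl_GL_mono (by omega) (gl_GL_inv hV)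
  obtain ⟨ρ2, hρ2, e2⟩ := gl_RE hRS hRC hkN hok h20 h21 hag2 hu2 hx2
  have hc2 : gr_GL mQ (gr_midBlock oQ mQ u2 * Vv⁻¹) :=
    gl_GL_mul (gl_GL_uni (hRS k oQ mQ F2 u2 hkN hok h20 h21 hu2).1) hx2
  have hsw : gr_GL mQ (gs_swapMat h x y : gs_Mat N) :=
    ⟨gm_swap_isUnit (by omega), gm_corner_mono (by omega) (gm_swap_corner h x y)⟩
  have hx1 : gr_GL mQ (gs_swapMat h x y * (gr_midBlock oQ mQ u2 * Vv⁻¹)) := gl_GL_mul hsw hc2
  obtain ⟨ρ1, hρ1, e1⟩ := gl_RE hRS hRC hkN hok h10 h11 hag1 hu1 hx1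
  have hc1 : gr_GL mQ (gr_midBlock oQ mQ u1 *
      (gs_swapMat h x y * (gr_midBlock oQ mQ u2 * Vv⁻¹))) :=
    gl_GL_mul (gl_GL_uni (hRS k oQ mQ F1 u1 hkN hok h10 h11 hu1).1) hx1
  have hdg : gr_GL mQ (Matrix.diagonal (fun j : Fin N => if (j : ℕ) < h then (-1 : ℂ) else 1)) := by
    refine ⟨gm_diagonal_isUnit fun j => by split_ifs <;> norm_num, ?_⟩
    intro i j hij
    by_cases e : i = j
    · subst e
      rw [Matrix.diagonal_apply_eq, Matrix.one_apply_eq, if_neg (by omega)]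
    · rw [Matrix.diagonal_apply_ne _ e, Matrix.one_apply_ne e]
  have hx0 : gr_GL mQ (Matrix.diagonal (fun j : Fin N => if (j : ℕ) < h then (-1 : ℂ) else 1) *
      (gr_midBlock oQ mQ u1 * (gs_swapMat h x y * (gr_midBlock oQ mQ u2 * Vv⁻¹)))) :=
    gl_GL_mul hdg hc1
  obtain ⟨ρ0, hρ0, e0⟩ := gl_RE hRS hRC hkN hok h00 h01 hag0 hu0 hx0
  have hc0 : gr_GL mQ (gr_midBlock oQ mQ u0 *
      (Matrix.diagonal (fun j : Fin N => if (j : ℕ) < h then (-1 : ℂ) else 1) *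
      (gr_midBlock oQ mQ u1 * (gs_swapMat h x y * (gr_midBlock oQ mQ u2 * Vv⁻¹))))) :=
    gl_GL_mul (gl_GL_uni (hRS k oQ mQ F0 u0 hkN hok h00 h01 hu0).1) hx0
  have hR' : gs_IsCorner mQ Rv := gm_corner_mono (by omega) hR.2
  refine ⟨ρ0 * ρ1 * ρ2, gm_uni_mul (gm_uni_mul hρ0 hρ1) hρ2, ?_⟩
  have esw : (gs_swapMat (oQ + h) x y : gs_Mat N) = gs_emb oQ (gs_swapMat h x y) := by
    rw [gm_emb_swap]
  have edg : (Matrix.diagonal (fun j : Fin N =>
      if oQ ≤ (j : ℕ) ∧ (j : ℕ) < oQ + h then (-1 : ℂ) else 1) : gs_Mat N) =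
      gs_emb oQ (Matrix.diagonal (fun j : Fin N => if (j : ℕ) < h then (-1 : ℂ) else 1)) := by
    ext i j
    by_cases hi : oQ ≤ (i : ℕ)
    · by_cases hj : oQ ≤ (j : ℕ)
      · rw [gm_emb_apply_ge oQ _ hi hj]
        by_cases e : i = j
        · subst e
          rw [Matrix.diagonal_apply_eq, Matrix.diagonal_apply_eq]
          simp only
          by_cases h3 : (i : ℕ) < oQ + h
          · rw [if_pos ⟨hi, h3⟩, if_pos (by omega)]
          · rw [if_neg (by omega), if_neg (by omega)]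
        · rw [Matrix.diagonal_apply_ne _ e, Matrix.diagonal_apply_ne]
          intro h4
          have := congrArg Fin.val h4
          simp only at this
          exact e (Fin.ext (by omega))
      · rw [gm_emb_apply_lt_col oQ _ i (by omega)]
        have e : i ≠ j := fun h4 => hj (h4 ▸ hi)
        rw [Matrix.diagonal_apply_ne _ e, Matrix.one_apply_ne e]
    · rw [gm_emb_apply_lt_row oQ _ (by omega) j]
      by_cases e : i = j
      · subst e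
        rw [Matrix.diagonal_apply_eq, Matrix.one_apply_eq, if_neg (by omega)]
      · rw [Matrix.diagonal_apply_ne _ e, Matrix.one_apply_ne e]
  rw [esw, edg]
  set Dg : gs_Mat N := Matrix.diagonal (fun j : Fin N => if (j : ℕ) < h then (-1 : ℂ) else 1)
  calc gs_emb oQ Rv * u0 * gs_emb oQ Dg * u1 * gs_emb oQ (gs_swapMat h x y) * u2 * gs_emb oQ Vv⁻¹
      = gs_emb oQ Rv * (u0 * (gs_emb oQ Dg * (u1 * (gs_emb oQ (gs_swapMat h x y) *
          (u2 * gs_emb oQ Vv⁻¹))))) := by simp only [mul_assoc]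
    _ = gs_emb oQ Rv * (u0 * (gs_emb oQ Dg * (u1 * gs_emb oQ (gs_swapMat h x y *
          (gr_midBlock oQ mQ u2 * Vv⁻¹))))) * ρ2 := by
        rw [e2, gm_emb_mul hsw.2 hc2.2 hmN]; simp only [mul_assoc]
    _ = gs_emb oQ Rv * (u0 * gs_emb oQ (Dg * (gr_midBlock oQ mQ u1 * (gs_swapMat h x y *
          (gr_midBlock oQ mQ u2 * Vv⁻¹))))) * ρ1 * ρ2 := by
        rw [e1, gm_emb_mul hdg.2 hc1.2 hmN]; simp only [mul_assoc]
    _ = gs_emb oQ (Rv * (gr_midBlock oQ mQ u0 * (Dg * (gr_midBlock oQ mQ u1 * (gs_swapMat h x y *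
          (gr_midBlock oQ mQ u2 * Vv⁻¹)))))) * ρ0 * ρ1 * ρ2 := by
        rw [e0, gm_emb_mul hR' hc0.2 hmN]; simp only [mul_assoc]
    _ = _ := by simp only [mul_assoc]

/-! ## the frames `KU`, `KQ` near the interval of a letter -/

theorem gl_img_local {K : Finset ℕ} {φ : ℕ → ℕ} (hφ : Monotone φ) {o m a : ℕ}
    (hmid : gs_midOK K o m a) {d : ℕ} (hd : d ∈ K.image φ) (h1 : φ o ≤ d) (h2 : d ≤ φ (o + m)) :
    d = φ o ∨ d = φ (o + a) ∨ d = φ (o + m) := by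
  obtain ⟨e, he, rfl⟩ := Finset.mem_image.mp hd
  by_cases h3 : e ≤ o
  · left; exact le_antisymm (hφ h3) h1
  · by_cases h4 : o + m ≤ e
    · right; right; exact le_antisymm h2 (hφ h4)
    · right; left; rw [hmid.2.2.2.2 e he (by omega) (by omega)]

theorem gl_img_agree {K : Finset ℕ} {φ φ' : ℕ → ℕ} (hφ : Monotone φ) (hφ' : Monotone φ')
    {o m a c : ℕ} (hmid : gs_midOK K o m a) (hc : c ≤ m)
    (hag : ∀ e, e ≤ o ∨ o + m ≤ e → φ' e = φ e) {d : ℕ} (hd : d ≤ φ o ∨ φ (o + m) ≤ d) :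
    d ∈ K.image φ ↔ d ∈ (gs_cutRepl K o m c).image φ' := by
  have hmid' := gl_midOK_cutRepl hmid hc
  have ho : φ' o = φ o := hag o (Or.inl le_rfl)
  have hom : φ' (o + m) = φ (o + m) := hag _ (Or.inr le_rfl)
  constructor
  · intro h
    obtain ⟨e, he, rfl⟩ := Finset.mem_image.mp h
    by_cases h3 : e ≤ o ∨ o + m ≤ e
    · exact Finset.mem_image.mpr ⟨e, (gl_spect_mem_iff hmid hc h3).2 he, hag e h3⟩
    · rcases hd with hd | hd
      · exact Finset.mem_image.mpr ⟨o, hmid'.1, by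
          rw [ho]; exact le_antisymm (hφ (by omega)) hd⟩
      · exact Finset.mem_image.mpr ⟨o + m, hmid'.2.2.1, by
          rw [hom]; exact le_antisymm hd (hφ (by omega))⟩
  · intro h
    obtain ⟨e, he, rfl⟩ := Finset.mem_image.mp h
    by_cases h3 : e ≤ o ∨ o + m ≤ e
    · exact Finset.mem_image.mpr ⟨e, (gl_spect_mem_iff hmid hc h3).1 he, (hag e h3).symm⟩
    · rcases hd with hd | hd
      · exact Finset.mem_image.mpr ⟨o, hmid.1, by
          rw [← ho] at hd ⊢; exact le_antisymm (hφ' (by omega)) hd⟩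
      · exact Finset.mem_image.mpr ⟨o + m, hmid.2.2.1, by
          rw [← hom] at hd ⊢; exact le_antisymm hd (hφ' (by omega))⟩

/-- a replacement of cuts inside `[p, p+r]` does not change the frame outside of `(p, p+r)` -/
theorem gl_cutRepl_agree {F : Finset ℕ} {p r o' m' c' : ℕ} (hp : p ∈ F) (hpr : p + r ∈ F)
    (h1 : p ≤ o') (h2 : o' + m' ≤ p + r) (h3 : c' ≤ m') {d : ℕ} (hd : d ≤ p ∨ p + r ≤ d) :
    d ∈ gs_cutRepl F o' m' c' ↔ d ∈ F := by
  rw [gl_mem_cutRepl]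
  constructor
  · rintro (h | h)
    · rcases hd with hd | hd
      · have : d = p := by omega
        rw [this]; exact hp
      · have : d = p + r := by omega
        rw [this]; exact hpr
    · exact h.1
  · intro h
    exact Or.inr ⟨h, by omega⟩

end Claimed.Agent.R236
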