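import Mathlib
import Claimed.Agent.R236.GLiftR

/-!
# Row 236, REDUCE, SB3 (LIFT), part S1: numbers and frames of a swap (owner helper58, prefix `gl_`)
-/

set_option autoImplicit false

namespace Claimed.Agent.R236

open Matrix

variable {N : ℕ}

/-! ## the numbers of a swap -/

section snum
variable (cb ca : ℕ → Bool) (o A B : ℕ)

theorem gl_snum_facts (h1 : gr_nU cb o (o + A) ≤ gr_nU ca (o + B) (o + B + A))
    (h2 : gr_nU cb (o + A) (o + A + B) =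
      gr_nU ca o (o + B) + (gr_nU ca (o + B) (o + B + A) - gr_nU cb o (o + A))) :
    (gr_snum cb ca o A B).a = gr_nU cb o (o + A) ∧ (gr_snum cb ca o A B).b = gr_nU ca o (o + B) ∧
    (gr_snum cb ca o A B).a + (gr_snum cb ca o A B).h = gr_nU ca (o + B) (o + B + A) ∧
    (gr_snum cb ca o A B).b + (gr_snum cb ca o A B).h = gr_nU cb (o + A) (o + A + B) ∧
    (gr_snum cb ca o A B).a + (gr_snum cb ca o A B).h + (gr_snum cb ca o A B).x = A ∧
    (gr_snum cb ca o A B).b + (gr_snum cb ca o A B).h + (gr_snum cb ca o A B).y = B := by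
  have e1 : gr_nU ca (o + B) (o + B + A) ≤ A := by
    have := gct_nU_le ca (lo := o + B) (hi := o + B + A) (by omega); omega
  have e2 : gr_nU cb (o + A) (o + A + B) ≤ B := by
    have := gct_nU_le cb (lo := o + A) (hi := o + A + B) (by omega); omega
  show gr_nU cb o (o + A) = gr_nU cb o (o + A) ∧ gr_nU ca o (o + B) = gr_nU ca o (o + B) ∧
    gr_nU cb o (o + A) + (gr_nU ca (o + B) (o + B + A) - gr_nU cb o (o + A)) =
      gr_nU ca (o + B) (o + B + A) ∧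
    gr_nU ca o (o + B) + (gr_nU ca (o + B) (o + B + A) - gr_nU cb o (o + A)) =
      gr_nU cb (o + A) (o + A + B) ∧
    gr_nU cb o (o + A) + (gr_nU ca (o + B) (o + B + A) - gr_nU cb o (o + A)) +
      (A - gr_nU cb o (o + A) - (gr_nU ca (o + B) (o + B + A) - gr_nU cb o (o + A))) = A ∧
    gr_nU ca o (o + B) + (gr_nU ca (o + B) (o + B + A) - gr_nU cb o (o + A)) +
      (B - gr_nU ca o (o + B) - (gr_nU ca (o + B) (o + B + A) - gr_nU cb o (o + A))) = B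
  generalize gr_nU cb o (o + A) = p1 at *
  generalize gr_nU ca (o + B) (o + B + A) = p2 at *
  generalize gr_nU cb (o + A) (o + A + B) = p3 at *
  generalize gr_nU ca o (o + B) = p4 at *
  omega

theorem gl_snum_cnt (h1 : gr_nU cb o (o + A) ≤ gr_nU ca (o + B) (o + B + A))
    (h2 : gr_nU cb (o + A) (o + A + B) =
      gr_nU ca o (o + B) + (gr_nU ca (o + B) (o + B + A) - gr_nU cb o (o + A))) :
    gr_nU ca o (o + (A + B)) = gr_nU cb o (o + (A + B)) ∧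
      (gr_snum cb ca o A B).km = gr_nU cb o (o + (A + B)) := by
  obtain ⟨f1, f2, f3, f4, f5, f6⟩ := gl_snum_facts cb ca o A B h1 h2
  have e1 := gct_nU_add cb (lo := o) (mid := o + A) (hi := o + A + B) (by omega) (by omega)
  have e2 := gct_nU_add ca (lo := o) (mid := o + B) (hi := o + B + A) (by omega) (by omega)
  have e3 : o + (A + B) = o + A + B := by omega
  have e4 : o + B + A = o + A + B := by omega
  rw [e3]
  rw [e4] at e2 f3
  unfold gr_SNum.km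
  omega

end snum

theorem gl_snum_cb {n : ℕ} {K : Finset ℕ} {cb : ℕ → Bool} (ca : ℕ → Bool)
    (had : gr_Adapted n K cb) {o A B : ℕ} (hmid : gs_midOK K o (A + B) A) (homn : o + (A + B) ≤ n)
    (h1 : gr_nU cb o (o + A) ≤ gr_nU ca (o + B) (o + B + A))
    (h2 : gr_nU cb (o + A) (o + A + B) =
      gr_nU ca o (o + B) + (gr_nU ca (o + B) (o + B + A) - gr_nU cb o (o + A))) :
    (gr_snum cb ca o A B).cb = gr_colMid cb o (A + B) := by
  obtain ⟨f1, f2, f3, f4, f5, f6⟩ := gl_snum_facts cb ca o A B h1 h2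
  rw [gl_colMid_two had hmid homn]
  funext j
  unfold gr_SNum.cb gr_SNum.A
  rw [decide_eq_decide]
  have e3 : o + (A + B) = o + A + B := by omega
  rw [e3]
  omega

theorem gl_snum_ca {n : ℕ} {K' : Finset ℕ} (cb : ℕ → Bool) {ca : ℕ → Bool}
    (had : gr_Adapted n K' ca) {o A B : ℕ} (hmid : gs_midOK K' o (A + B) B)
    (homn : o + (A + B) ≤ n)
    (h1 : gr_nU cb o (o + A) ≤ gr_nU ca (o + B) (o + B + A))
    (h2 : gr_nU cb (o + A) (o + A + B) =
      gr_nU ca o (o + B) + (gr_nU ca (o + B) (o + B + A) - gr_nU cb o (o + A))) :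
    (gr_snum cb ca o A B).ca = gr_colMid ca o (A + B) := by
  obtain ⟨f1, f2, f3, f4, f5, f6⟩ := gl_snum_facts cb ca o A B h1 h2
  rw [gl_colMid_two had hmid homn]
  funext j
  unfold gr_SNum.ca gr_SNum.B
  rw [decide_eq_decide]
  have e3 : o + (A + B) = o + B + A := by omega
  rw [e3]
  omega

/-! ## the frames inside the segments of a swap (abstract form) -/

/-- the frames of the segment of `eU` -/
theorem gl_frU_abs {F F' : Finset ℕ} {p a b h : ℕ} (hp : p ∈ F) (hpr : p + (a + b + h) ∈ F)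
    (hloc : ∀ d ∈ F, p ≤ d → d ≤ p + (a + b + h) → d = p ∨ d = p + a ∨ d = p + (a + b + h))
    (hag : ∀ d, d ≤ p ∨ p + (a + b + h) ≤ d → (d ∈ F ↔ d ∈ F')) :
    let f0 := gs_cutRepl F (p + a) (b + h) b
    let f1 := gs_cutRepl f0 p (a + b) b
    (p ∈ f0 ∧ p + (a + b + h) ∈ f0 ∧ p ∈ f1 ∧ p + (a + b + h) ∈ f1) ∧
    (∀ d, d ≤ p ∨ p + (a + b + h) ≤ d → (d ∈ f0 ↔ d ∈ F')) ∧
    (∀ d, d ≤ p ∨ p + (a + b + h) ≤ d → (d ∈ f1 ↔ d ∈ F')) ∧
    ((f0.filter fun d => p ≤ d ∧ d ≤ p + (a + b + h)).image (fun d => d - p) ⊆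
      {0, a, a + b, a + b + h}) ∧
    ((f1.filter fun d => p ≤ d ∧ d ≤ p + (a + b + h)).image (fun d => d - p) ⊆
      {0, b, a + b, a + b + h}) := by
  intro f0 f1
  have a0 : ∀ d, d ≤ p ∨ p + (a + b + h) ≤ d → (d ∈ f0 ↔ d ∈ F) := fun d hd =>
    gl_cutRepl_agree hp hpr (by omega) (by omega) (by omega) hd
  have hp0 : p ∈ f0 := (a0 p (Or.inl le_rfl)).2 hp
  have hpr0 : p + (a + b + h) ∈ f0 := (a0 _ (Or.inr le_rfl)).2 hpr
  have a1 : ∀ d, d ≤ p ∨ p + (a + b + h) ≤ d → (d ∈ f1 ↔ d ∈ f0) := fun d hd =>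
    gl_cutRepl_agree hp0 hpr0 (by omega) (by omega) (by omega) hd
  have hp1 : p ∈ f1 := (a1 p (Or.inl le_rfl)).2 hp0
  have hpr1 : p + (a + b + h) ∈ f1 := (a1 _ (Or.inr le_rfl)).2 hpr0
  have l0 : ∀ d ∈ f0, p ≤ d → d ≤ p + (a + b + h) →
      d = p ∨ d = p + a ∨ d = p + (a + b) ∨ d = p + (a + b + h) := by
    intro d hd h1 h2
    rcases gl_mem_cutRepl.1 hd with h3 | ⟨h3, _⟩
    · omega
    · have := hloc d h3 h1 h2; omega
  refine ⟨⟨hp0, hpr0, hp1, hpr1⟩, fun d hd => (a0 d hd).trans (hag d hd),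
    fun d hd => ((a1 d hd).trans (a0 d hd)).trans (hag d hd), ?_, ?_⟩
  · intro e he
    obtain ⟨d, hd, rfl⟩ := Finset.mem_image.mp he
    obtain ⟨hd1, hd2, hd3⟩ := Finset.mem_filter.mp hd
    have := l0 d hd1 hd2 hd3
    simp only [Finset.mem_insert, Finset.mem_singleton]
    omega
  · intro e he
    obtain ⟨d, hd, rfl⟩ := Finset.mem_image.mp he
    obtain ⟨hd1, hd2, hd3⟩ := Finset.mem_filter.mp hd
    simp only [Finset.mem_insert, Finset.mem_singleton]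
    rcases gl_mem_cutRepl.1 hd1 with h3 | ⟨h3, h4⟩
    · omega
    · have := l0 d h3 hd2 hd3; omega

/-- the frames of the segment of `eQ` -/
theorem gl_frQ_abs {F F' : Finset ℕ} {p h x y : ℕ} (hp : p ∈ F) (hpr : p + (h + x + y) ∈ F)
    (hloc : ∀ d ∈ F, p ≤ d → d ≤ p + (h + x + y) → d = p ∨ d = p + (h + x) ∨ d = p + (h + x + y))
    (hag : ∀ d, d ≤ p ∨ p + (h + x + y) ≤ d → (d ∈ F ↔ d ∈ F')) :
    let g0 := gs_cutRepl F p (h + x) h
    let g2 := gs_cutRepl g0 (p + h) (x + y) y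
    (p ∈ g0 ∧ p + (h + x + y) ∈ g0 ∧ p ∈ g2 ∧ p + (h + x + y) ∈ g2) ∧
    (∀ d, d ≤ p ∨ p + (h + x + y) ≤ d → (d ∈ g0 ↔ d ∈ F')) ∧
    (∀ d, d ≤ p ∨ p + (h + x + y) ≤ d → (d ∈ g2 ↔ d ∈ F')) ∧
    ((g0.filter fun d => p ≤ d ∧ d ≤ p + (h + x + y)).image (fun d => d - p) ⊆
      {0, h, h + x, h + x + y}) ∧
    ((g2.filter fun d => p ≤ d ∧ d ≤ p + (h + x + y)).image (fun d => d - p) ⊆
      {0, h, h + y, h + x + y}) := by
  intro g0 g2
  have a0 : ∀ d, d ≤ p ∨ p + (h + x + y) ≤ d → (d ∈ g0 ↔ d ∈ F) := fun d hd =>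
    gl_cutRepl_agree hp hpr (by omega) (by omega) (by omega) hd
  have hp0 : p ∈ g0 := (a0 p (Or.inl le_rfl)).2 hp
  have hpr0 : p + (h + x + y) ∈ g0 := (a0 _ (Or.inr le_rfl)).2 hpr
  have a1 : ∀ d, d ≤ p ∨ p + (h + x + y) ≤ d → (d ∈ g2 ↔ d ∈ g0) := fun d hd =>
    gl_cutRepl_agree hp0 hpr0 (by omega) (by omega) (by omega) hd
  have hp1 : p ∈ g2 := (a1 p (Or.inl le_rfl)).2 hp0
  have hpr1 : p + (h + x + y) ∈ g2 := (a1 _ (Or.inr le_rfl)).2 hpr0
  have l0 : ∀ d ∈ g0, p ≤ d → d ≤ p + (h + x + y) →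
      d = p ∨ d = p + h ∨ d = p + (h + x) ∨ d = p + (h + x + y) := by
    intro d hd h1 h2
    rcases gl_mem_cutRepl.1 hd with h3 | ⟨h3, _⟩
    · omega
    · have := hloc d h3 h1 h2; omega
  refine ⟨⟨hp0, hpr0, hp1, hpr1⟩, fun d hd => (a0 d hd).trans (hag d hd),
    fun d hd => ((a1 d hd).trans (a0 d hd)).trans (hag d hd), ?_, ?_⟩
  · intro e he
    obtain ⟨d, hd, rfl⟩ := Finset.mem_image.mp he
    obtain ⟨hd1, hd2, hd3⟩ := Finset.mem_filter.mp hd
    have := l0 d hd1 hd2 hd3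
    simp only [Finset.mem_insert, Finset.mem_singleton]
    omega
  · intro e he
    obtain ⟨d, hd, rfl⟩ := Finset.mem_image.mp he
    obtain ⟨hd1, hd2, hd3⟩ := Finset.mem_filter.mp hd
    simp only [Finset.mem_insert, Finset.mem_singleton]
    rcases gl_mem_cutRepl.1 hd1 with h3 | ⟨h3, h4⟩
    · omega
    · have := l0 d h3 hd2 hd3; omega

end Claimed.Agent.R236
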