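import Mathlib
import Claimed.Agent.R236.GLiftS

/-!
# Row 236, REDUCE, SB3 (LIFT), part S2: the local data of a swap are admissible
(owner helper58, prefix `gl_`)
-/

set_option autoImplicit false

namespace Claimed.Agent.R236

open Matrix

variable {N : ℕ}

section ctx

variable {Y : Type} {R : Subring ℂ} {S : gs_Sys Y} {e0 k : ℕ}

/-- basic facts about a swap letter -/
structure gl_SwB (n k : ℕ) (K K' : Finset ℕ) (cb ca : ℕ → Bool) (o A B : ℕ) : Prop where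
  mid : gs_midOK K o (A + B) A
  mid' : gs_midOK K' o (A + B) B
  Ks : K' = gs_cutRepl K o (A + B) B
  homn : o + (A + B) ≤ n
  col : ∀ j, j < o ∨ o + (A + B) ≤ j → ca j = cb j
  h1 : gr_nU cb o (o + A) ≤ gr_nU ca (o + B) (o + B + A)
  h2 : gr_nU cb (o + A) (o + A + B) =
      gr_nU ca o (o + B) + (gr_nU ca (o + B) (o + B + A) - gr_nU cb o (o + A))
  cnt : gr_nU ca o (o + (A + B)) = gr_nU cb o (o + (A + B))
  km : (gr_snum cb ca o A B).km = gr_nU cb o (o + (A + B))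
  eA : (gr_snum cb ca o A B).A = A
  eB : (gr_snum cb ca o A B).B = B
  em : (gr_snum cb ca o A B).m = A + B
  emk : (gr_snum cb ca o A B).m - (gr_snum cb ca o A B).km =
    (gr_snum cb ca o A B).h + (gr_snum cb ca o A B).x + (gr_snum cb ca o A B).y
  ecb : (gr_snum cb ca o A B).cb = gr_colMid cb o (A + B)
  eca : (gr_snum cb ca o A B).ca = gr_colMid ca o (A + B)
  cUA : gr_cU cb (o + A) = gr_cU cb o + (gr_snum cb ca o A B).a
  cUm : gr_cU cb (o + (A + B)) = gr_cU cb o +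
    ((gr_snum cb ca o A B).a + (gr_snum cb ca o A B).b + (gr_snum cb ca o A B).h)
  cQA : gr_cQ cb (o + A) = gr_cQ cb o + ((gr_snum cb ca o A B).h + (gr_snum cb ca o A B).x)
  cQm : gr_cQ cb (o + (A + B)) = gr_cQ cb o +
    ((gr_snum cb ca o A B).h + (gr_snum cb ca o A B).x + (gr_snum cb ca o A B).y)
  oUk : gr_cU cb o +
    ((gr_snum cb ca o A B).a + (gr_snum cb ca o A B).b + (gr_snum cb ca o A B).h) ≤ k
  oQk : gr_cQ cb o +
    ((gr_snum cb ca o A B).h + (gr_snum cb ca o A B).x + (gr_snum cb ca o A B).y) ≤ n - k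

theorem gl_swB (hyp : gr_Hyp N R S e0 k) {col : ℕ → ℕ → Bool}
    (hC : (gr_ctx S e0 k col).WF) {i : ℕ} (hi : i < (gr_ctx S e0 k col).len) {o A B : ℕ}
    (hl : (gr_ctx S e0 k col).letter i = .S o A B) :
    gl_SwB (gr_ctx S e0 k col).n k ((gr_ctx S e0 k col).K i) ((gr_ctx S e0 k col).K (i + 1))
      (col i) (col (i + 1)) o A B := by
  have happ := gsd_app hyp col hi
  have hKs := gsd_K_succ (S := S) (e0 := e0) (k := k) col hi
  have hst := gsd_stepOK hC hi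
  rw [hl] at happ hKs hst
  have hmid : gs_midOK ((gr_ctx S e0 k col).K i) o (A + B) A := happ
  have hKs' : (gr_ctx S e0 k col).K (i + 1) = gs_cutRepl ((gr_ctx S e0 k col).K i) o (A + B) B :=
    hKs
  have hmid' : gs_midOK ((gr_ctx S e0 k col).K (i + 1)) o (A + B) B := by
    rw [hKs']; exact gl_midOK_cutRepl hmid (by omega)
  have hK := gsd_K_ok hyp col i hi.le
  have hCF := gsd_CF hyp hC i hi.le
  have hCF' := gsd_CF hyp hC (i + 1) (Nat.succ_le_of_lt hi)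
  have homn : o + (A + B) ≤ (gr_ctx S e0 k col).n := hK.le _ hmid.2.2.1
  obtain ⟨hcol, h1, h2⟩ : (∀ j, j < o ∨ o + (A + B) ≤ j → col (i + 1) j = col i j) ∧
      gr_nU (col i) o (o + A) ≤ gr_nU (col (i + 1)) (o + B) (o + B + A) ∧
      gr_nU (col i) (o + A) (o + A + B) =
        gr_nU (col (i + 1)) o (o + B) +
          (gr_nU (col (i + 1)) (o + B) (o + B + A) - gr_nU (col i) o (o + A)) := hst
  obtain ⟨f1, f2, f3, f4, f5, f6⟩ := gl_snum_facts (col i) (col (i + 1)) o A B h1 h2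
  obtain ⟨g1, g2⟩ := gl_snum_cnt (col i) (col (i + 1)) o A B h1 h2
  have hkm : (gr_snum (col i) (col (i + 1)) o A B).km =
      (gr_snum (col i) (col (i + 1)) o A B).a + (gr_snum (col i) (col (i + 1)) o A B).b +
        (gr_snum (col i) (col (i + 1)) o A B).h := rfl
  have c1 := gct_cU_eq_add (col i) (lo := o) (hi := o + A) (by omega)
  have c2 := gct_cU_eq_add (col i) (lo := o) (hi := o + (A + B)) (by omega)
  have c3 := gct_cU_add_cQ (col i) o
  have c4 := gct_cU_add_cQ (col i) (o + A)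
  have c5 := gct_cU_add_cQ (col i) (o + (A + B))
  have c6 := gct_cU_mono (col i) homn
  have c7 := gct_cQ_mono (col i) homn
  have c8 := gct_cU_add_cQ (col i) (gr_ctx S e0 k col).n
  have c9 := hCF.cnt
  refine ⟨hmid, hmid', hKs', homn, hcol, h1, h2, g1, g2, f5, f6, ?_, ?_,
    gl_snum_cb _ hCF.ad hmid homn h1 h2, gl_snum_ca _ hCF'.ad hmid' homn h1 h2, ?_, ?_, ?_, ?_,
    ?_, ?_⟩
  · unfold gr_SNum.m gr_SNum.A gr_SNum.B; omega
  · unfold gr_SNum.m gr_SNum.A gr_SNum.B gr_SNum.km; omega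
  · omega
  · omega
  · omega
  · omega
  · omega
  · omega

end ctx

/-- the frames of the segment of `eU` of a swap -/
theorem gl_swU {n k : ℕ} {K K' : Finset ℕ} {cb ca : ℕ → Bool} {o A B : ℕ}
    (h : gl_SwB n k K K' cb ca o A B) :
    let ν := gr_snum cb ca o A B
    let p := gr_cU cb o
    let f0 := gs_cutRepl (K.image (gr_cU cb)) (p + ν.a) (ν.b + ν.h) ν.b
    let f1 := gs_cutRepl f0 p (ν.a + ν.b) ν.b
    (p ∈ f0 ∧ p + (ν.a + ν.b + ν.h) ∈ f0 ∧ p ∈ f1 ∧ p + (ν.a + ν.b + ν.h) ∈ f1) ∧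
    (∀ d, d ≤ p ∨ p + (ν.a + ν.b + ν.h) ≤ d → (d ∈ f0 ↔ d ∈ K'.image (gr_cU ca))) ∧
    (∀ d, d ≤ p ∨ p + (ν.a + ν.b + ν.h) ≤ d → (d ∈ f1 ↔ d ∈ K'.image (gr_cU ca))) ∧
    ((f0.filter fun d => p ≤ d ∧ d ≤ p + (ν.a + ν.b + ν.h)).image (fun d => d - p) ⊆
      {0, ν.a, ν.a + ν.b, ν.a + ν.b + ν.h}) ∧
    ((f1.filter fun d => p ≤ d ∧ d ≤ p + (ν.a + ν.b + ν.h)).image (fun d => d - p) ⊆
      {0, ν.b, ν.a + ν.b, ν.a + ν.b + ν.h}) := by
  intro ν p
  have hmono : Monotone (gr_cU cb) := fun _ _ hab => gct_cU_mono cb hab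
  have hmono' : Monotone (gr_cU ca) := fun _ _ hab => gct_cU_mono ca hab
  refine gl_frU_abs (F := K.image (gr_cU cb)) (F' := K'.image (gr_cU ca))
    (Finset.mem_image_of_mem _ h.mid.1) ?_ ?_ ?_
  · have := Finset.mem_image_of_mem (gr_cU cb) h.mid.2.2.1
    rwa [h.cUm] at this
  · intro d hd h1 h2
    have := gl_img_local hmono h.mid hd h1 (by rw [h.cUm]; exact h2)
    rwa [h.cUA, h.cUm] at this
  · intro d hd
    rw [h.Ks]
    refine gl_img_agree hmono hmono' h.mid (by omega)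
      (fun e he => gct_cU_eq_of_agree (by omega) h.col h.cnt e he) ?_
    rw [h.cUm]; exact hd

/-- the frames of the segment of `eQ` of a swap -/
theorem gl_swQ {n k : ℕ} {K K' : Finset ℕ} {cb ca : ℕ → Bool} {o A B : ℕ}
    (h : gl_SwB n k K K' cb ca o A B) :
    let ν := gr_snum cb ca o A B
    let p := gr_cQ cb o
    let g0 := gs_cutRepl (K.image (gr_cQ cb)) p (ν.h + ν.x) ν.h
    let g2 := gs_cutRepl g0 (p + ν.h) (ν.x + ν.y) ν.y
    (p ∈ g0 ∧ p + (ν.h + ν.x + ν.y) ∈ g0 ∧ p ∈ g2 ∧ p + (ν.h + ν.x + ν.y) ∈ g2) ∧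
    (∀ d, d ≤ p ∨ p + (ν.h + ν.x + ν.y) ≤ d → (d ∈ g0 ↔ d ∈ K'.image (gr_cQ ca))) ∧
    (∀ d, d ≤ p ∨ p + (ν.h + ν.x + ν.y) ≤ d → (d ∈ g2 ↔ d ∈ K'.image (gr_cQ ca))) ∧
    ((g0.filter fun d => p ≤ d ∧ d ≤ p + (ν.h + ν.x + ν.y)).image (fun d => d - p) ⊆
      {0, ν.h, ν.h + ν.x, ν.h + ν.x + ν.y}) ∧
    ((g2.filter fun d => p ≤ d ∧ d ≤ p + (ν.h + ν.x + ν.y)).image (fun d => d - p) ⊆
      {0, ν.h, ν.h + ν.y, ν.h + ν.x + ν.y}) := by
  intro ν p
  have hmono : Monotone (gr_cQ cb) := fun _ _ hab => gct_cQ_mono cb hab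
  have hmono' : Monotone (gr_cQ ca) := fun _ _ hab => gct_cQ_mono ca hab
  refine gl_frQ_abs (F := K.image (gr_cQ cb)) (F' := K'.image (gr_cQ ca))
    (Finset.mem_image_of_mem _ h.mid.1) ?_ ?_ ?_
  · have := Finset.mem_image_of_mem (gr_cQ cb) h.mid.2.2.1
    rwa [h.cQm] at this
  · intro d hd h1 h2
    have := gl_img_local hmono h.mid hd h1 (by rw [h.cQm]; exact h2)
    rwa [h.cQA, h.cQm] at this
  · intro d hd
    rw [h.Ks]
    refine gl_img_agree hmono hmono' h.mid (by omega)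
      (fun e he => gct_cQ_eq_of_agree (by omega) h.col h.cnt e he) ?_
    rw [h.cQm]; exact hd

section ctx2

variable {Y : Type} {R : Subring ℂ} {S : gs_Sys Y} {e0 k : ℕ}

/-- the unipotents in the segments of a swap, with explicit frames -/
theorem gl_sw_uni {col : ℕ → ℕ → Bool} {z : gr_Z Y N} {i : ℕ}
    (hadm : gr_LocAdm (gr_ctx S e0 k col) e0 S.eqs.length z i) {o A B : ℕ}
    (hl : (gr_ctx S e0 k col).letter i = .S o A B) :
    let ν := gr_snum (col i) (col (i + 1)) o A B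
    let C := gr_ctx S e0 k col
    let f0 := gs_cutRepl ((C.K i).image (gr_cU (col i))) (gr_cU (col i) o + ν.a) (ν.b + ν.h) ν.b
    let f1 := gs_cutRepl f0 (gr_cU (col i) o) (ν.a + ν.b) ν.b
    let g0 := gs_cutRepl ((C.K i).image (gr_cQ (col i))) (gr_cQ (col i) o) (ν.h + ν.x) ν.h
    let g2 := gs_cutRepl g0 (gr_cQ (col i) o + ν.h) (ν.x + ν.y) ν.y
    gs_IsUni k f0 (gr_uU e0 z i 0) ∧ gs_IsUni k f1 (gr_uU e0 z i 1) ∧
    gs_IsUni (C.n - k) g0 (gr_uQ S.eqs.length z i 0) ∧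
    gs_IsUni (C.n - k) g0 (gr_uQ S.eqs.length z i 1) ∧
    gs_IsUni (C.n - k) g2 (gr_uQ S.eqs.length z i 2) := by
  intro ν C f0 f1 g0 g2
  have u0 := hadm.uU 0 (by omega)
  have u1 := hadm.uU 1 (by omega)
  have q0 := hadm.uQ 0 (by omega)
  have q1 := hadm.uQ 1 (by omega)
  have q2 := hadm.uQ 2 (by omega)
  simp only [gr_Ctx.frU, hl] at u0 u1
  simp only [gr_Ctx.frQ, hl] at q0 q1 q2
  exact ⟨u0, u1, q0, q1, q2⟩

/-- the local data of a swap are admissible -/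
theorem gl_SOk (hRS : StRadSplit N) (hLS : StLinkS N R) (hyp : gr_Hyp N R S e0 k)
    {col : ℕ → ℕ → Bool} (hC : (gr_ctx S e0 k col).WF) (z : gr_Z Y N) {i : ℕ}
    (hi : i < (gr_ctx S e0 k col).len)
    (hadm : gr_LocAdm (gr_ctx S e0 k col) e0 S.eqs.length z i) {o A B : ℕ}
    (hl : (gr_ctx S e0 k col).letter i = .S o A B) :
    gr_SOk (gr_snum (col i) (col (i + 1)) o A B)
      (gr_readS (gr_ctx S e0 k col) e0 S.eqs.length z i o A B).1 := by
  have hlk := hLS Y S e0 k hyp col hC z i hi hadm o A B hl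
  have hB := gl_swB hyp hC hi hl
  have hF := gl_hval_fam hyp col z hadm.new hi.le
  have hF' := gl_hval_fam hyp col z hadm.new (Nat.succ_le_of_lt hi)
  have hK := gsd_K_ok hyp col i hi.le
  have hK' := gsd_K_ok hyp col (i + 1) (Nat.succ_le_of_lt hi)
  have hls := gl_ls_get (S := S) (e0 := e0) (k := k) col hi
  rw [hl] at hls
  have hnN := gsd_n_le hyp col
  have hkn : k ≤ (gr_ctx S e0 k col).n := hyp.ltn.le
  obtain ⟨u0, u1, q0, q1, q2⟩ := gl_sw_uni hadm hl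
  obtain ⟨⟨a1, a2, a3, a4⟩, -, -, a5, a6⟩ := gl_swU hB
  obtain ⟨⟨b1, b2, b3, b4⟩, -, -, b5, b6⟩ := gl_swQ hB
  refine ⟨?_, ?_, ?_, ?_, ?_, ?_, ?_, ?_, ?_, ?_, ?_, ?_, ?_, hlk.wA0, hlk.wA1, hlk.wA2, hlk.wA3,
    hlk.wB0, hlk.wB1, hlk.wB2, hlk.wB3, hlk.linkA, hlk.linkB⟩
  · rw [hB.eA]; exact gl_fam_left hK.le hB.mid hF
  · rw [hB.eB]
    have := gl_fam_right hK.le hB.mid hF
    rw [Nat.add_sub_cancel_left, if_congr (show A < A + B ↔ 0 < B by omega) rfl rfl] at this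
    exact this
  · rw [hB.eA]
    have := gl_fam_right hK'.le hB.mid' hF'
    rw [Nat.add_sub_cancel, if_congr (show B < A + B ↔ 0 < A by omega) rfl rfl] at this
    exact this
  · rw [hB.eB]; exact gl_fam_left hK'.le hB.mid' hF'
  · have h1 := hadm.new (.T i)
    simp only [gr_Ctx.nsig, hls] at h1
    exact h1
  · have h1 := hadm.new (.S i)
    simp only [gr_Ctx.nsig, hls] at h1
    exact h1
  · have h1 := hadm.new (.R i)
    simp only [gr_Ctx.nsig, hls] at h1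
    exact h1
  · have h1 := hadm.new (.V i)
    simp only [gr_Ctx.nsig, hls] at h1
    exact h1
  · exact gm_uni_mono le_rfl a5 (hRS k _ _ _ _ (by omega) hB.oUk a1 a2 u0).1
  · exact gm_uni_mono le_rfl a6 (hRS k _ _ _ _ (by omega) hB.oUk a3 a4 u1).1
  · show gs_IsUni _ _ (gr_midBlock (gr_cQ (col i) o) ((gr_snum (col i) (col (i + 1)) o A B).m -
      (gr_snum (col i) (col (i + 1)) o A B).km) (gr_uQ S.eqs.length z i 0))
    rw [hB.emk]
    exact gm_uni_mono le_rfl b5 (hRS _ _ _ _ _ (by omega) hB.oQk b1 b2 q0).1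
  · show gs_IsUni _ _ (gr_midBlock (gr_cQ (col i) o) ((gr_snum (col i) (col (i + 1)) o A B).m -
      (gr_snum (col i) (col (i + 1)) o A B).km) (gr_uQ S.eqs.length z i 1))
    rw [hB.emk]
    exact gm_uni_mono le_rfl b5 (hRS _ _ _ _ _ (by omega) hB.oQk b1 b2 q1).1
  · show gs_IsUni _ _ (gr_midBlock (gr_cQ (col i) o) ((gr_snum (col i) (col (i + 1)) o A B).m -
      (gr_snum (col i) (col (i + 1)) o A B).km) (gr_uQ S.eqs.length z i 2))
    rw [hB.emk]
    exact gm_uni_mono le_rfl b6 (hRS _ _ _ _ _ (by omega) hB.oQk b3 b4 q2).1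

end ctx2

end Claimed.Agent.R236
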