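import Mathlib
import Claimed.Agent.R236.GLiftT

/-!
# Row 236, REDUCE, SB3 (LIFT), part S3: the case of a swap (owner helper58, prefix `gl_`)
-/

set_option autoImplicit false

namespace Claimed.Agent.R236

open Matrix

variable {N : ℕ}

/-! ## mid level: the values of the gadgets are invertible -/

theorem gl_diag_GL (h m : ℕ) (hm : h ≤ m) :
    gr_GL m (Matrix.diagonal (fun j : Fin N => if (j : ℕ) < h then (-1 : ℂ) else 1)) := by
  refine ⟨gm_diagonal_isUnit fun j => by split_ifs <;> norm_num, ?_⟩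
  intro i j hij
  by_cases e : i = j
  · subst e
    rw [Matrix.diagonal_apply_eq, Matrix.one_apply_eq, if_neg (by omega)]
  · rw [Matrix.diagonal_apply_ne _ e, Matrix.one_apply_ne e]

theorem gl_swap_GL {o a b m : ℕ} (hm : o + a + b ≤ m) (hN : o + a + b ≤ N) :
    gr_GL m (gs_swapMat o a b : gs_Mat N) :=
  ⟨gm_swap_isUnit hN, gm_corner_mono hm (gm_swap_corner o a b)⟩

theorem gl_S_XU_GL {ν : gr_SNum} {z : gr_SIdx → gs_Mat N} (h : gr_SOk ν z) (hN : ν.m ≤ N) :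
    gr_GL ν.km (gr_S_XU ν z) := by
  have e : ν.m = ν.a + ν.h + ν.x + (ν.b + ν.h + ν.y) := rfl
  have ek : ν.km = ν.a + ν.b + ν.h := rfl
  unfold gr_S_XU
  refine gl_GL_mul (gl_GL_mul (gl_GL_mul (gl_GL_mul ?_ (gl_GL_uni h.c0)) ?_) (gl_GL_uni h.c1)) ?_
  · exact gl_GL_mono (by omega) (gl_GL_emb h.t (by omega))
  · exact gl_swap_GL (by omega) (by omega)
  · exact gl_GL_mono (by omega) (gl_GL_emb (gl_GL_inv h.s) (by omega))

theorem gl_S_XQ_GL {ν : gr_SNum} {z : gr_SIdx → gs_Mat N} (h : gr_SOk ν z) (hN : ν.m ≤ N) :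
    gr_GL (ν.m - ν.km) (gr_S_XQ ν z) := by
  have e : ν.m = ν.a + ν.h + ν.x + (ν.b + ν.h + ν.y) := rfl
  have ek : ν.km = ν.a + ν.b + ν.h := rfl
  unfold gr_S_XQ
  refine gl_GL_mul (gl_GL_mul (gl_GL_mul (gl_GL_mul (gl_GL_mul (gl_GL_mul ?_ (gl_GL_uni h.e0)) ?_)
    (gl_GL_uni h.e1)) ?_) (gl_GL_uni h.e2)) ?_
  · exact gl_GL_mono (by omega) h.r
  · exact gl_diag_GL _ _ (by omega)
  · exact gl_swap_GL (by omega) (by omega)
  · exact gl_GL_mono (by omega) (gl_GL_inv h.v)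

/-! ## the final assembly (abstract) -/

section fin
variable {n k : ℕ} {K' : Finset ℕ} {ca : ℕ → Bool} {d' ρU ρQ ers : gs_Mat N}

theorem gl_asm_unit (hkn : k ≤ n) (hnN : n ≤ N) {F G : Finset ℕ} (hρU : gs_IsUni k F ρU)
    (hρQ : gs_IsUni (n - k) G ρQ) : IsUnit (gr_asm k ρU ρQ 0).det := by
  unfold gr_asm
  rw [add_zero, Matrix.det_mul]
  exact (gm_uni_isUnit hρU).mul (gm_emb_isUnit (gm_uni_corner hρQ) (gm_uni_isUnit hρQ) (by omega))

theorem gl_sh_unit (hSh : StShInv N) {c : ℕ → Bool} (hnN : n ≤ N)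
    (hb : ∀ j, n ≤ j → c j = false) (hk : gr_cU c n = k) :
    IsUnit (gr_sh c n k : gs_Mat N).det :=
  Matrix.isUnit_det_of_right_inverse (hSh c n k hnN hb hk).1

/-- the right correction of a swap lies in `U(K')` -/
theorem gl_fin_ER (hSh : StShInv N) (hGap : StGap N) (hCF' : gr_CF N n k K' ca)
    (hd' : gr_IsBD n K' d') (hd'u : IsUnit d'.det)
    (hρU : gs_IsUni k (K'.image (gr_cU ca)) ρU) (hρQ : gs_IsUni (n - k) (K'.image (gr_cQ ca)) ρQ)
    (hers : gs_IsUni n K' ers) :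
    gs_IsUni n K' (d' * gr_sh ca n k * (gr_asm k ρU ρQ 0)⁻¹ * (d' * gr_sh ca n k)⁻¹ * ers) := by
  have hW := (hGap n k K' ca hCF' ρU ρQ 0 (gm_uni_corner hρU) (gm_uni_corner hρQ)
    (fun i j h => absurd (Matrix.zero_apply i j) h)).2
    ⟨hρU, hρQ, fun i j h => absurd (Matrix.zero_apply i j) h⟩
  have hs := hSh ca n k hCF'.nN hCF'.ad.1 hCF'.cnt
  have e1 : (gr_sh ca n k : gs_Mat N)⁻¹ = (gr_sh ca n k : gs_Mat N).transpose :=
    Matrix.inv_eq_right_inv hs.1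
  have e2 : ((gr_sh ca n k : gs_Mat N).transpose)⁻¹ = gr_sh ca n k :=
    Matrix.inv_eq_right_inv hs.2.1
  have e3 : d' * gr_sh ca n k * (gr_asm k ρU ρQ 0)⁻¹ * (d' * gr_sh ca n k)⁻¹ =
      d' * (gr_sh ca n k * gr_asm k ρU ρQ 0 * (gr_sh ca n k : gs_Mat N).transpose)⁻¹ * d'⁻¹ := by
    rw [Matrix.mul_inv_rev, Matrix.mul_inv_rev, Matrix.mul_inv_rev, e1, e2]
    simp only [mul_assoc]
  rw [e3]
  exact gm_uni_mul (gm_bd_conj hd' hd'u (gm_uni_inv hW)) hers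

theorem gl_fin_alg {Pre D' a ers : gs_Mat N} (hDu : IsUnit D'.det) (hau : IsUnit a.det) :
    Pre * (D' * a⁻¹ * D'⁻¹ * ers)⁻¹ * D' = Pre * ers⁻¹ * D' * a := by
  rw [Matrix.mul_inv_rev, Matrix.mul_inv_rev, Matrix.mul_inv_rev,
    Matrix.nonsing_inv_nonsing_inv _ hDu, Matrix.nonsing_inv_nonsing_inv _ hau]
  calc Pre * (ers⁻¹ * (D' * (a * D'⁻¹))) * D'
      = Pre * ers⁻¹ * D' * a * (D'⁻¹ * D') := by simp only [mul_assoc]
    _ = _ := by rw [Matrix.nonsing_inv_mul _ hDu, mul_one]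

/-- the letter part of a swap -/
theorem gl_fin_Tri (hSh : StShInv N) (hTM : StTriMul N) (hCF' : gr_CF N n k K' ca) (hkn : k ≤ n)
    (hd'u : IsUnit d'.det) {F G : Finset ℕ}
    (hρU : gs_IsUni k F ρU) (hρQ : gs_IsUni (n - k) G ρQ)
    {XU XQ Pre : gs_Mat N} (hXU : gs_IsCorner k XU)
    (hXQ : gs_IsCorner (n - k) XQ)
    (hT : gr_Tri n k XU XQ (Pre * ers⁻¹ * (d' * gr_sh ca n k))) :
    gr_Tri n k (XU * ρU) (XQ * ρQ)
      (Pre * (d' * gr_sh ca n k * (gr_asm k ρU ρQ 0)⁻¹ * (d' * gr_sh ca n k)⁻¹ * ers)⁻¹ *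
        (d' * gr_sh ca n k)) := by
  have hDu : IsUnit (d' * gr_sh ca n k : gs_Mat N).det := by
    rw [Matrix.det_mul]
    exact hd'u.mul (gl_sh_unit hSh hCF'.nN hCF'.ad.1 hCF'.cnt)
  have hau := gl_asm_unit hkn hCF'.nN hρU hρQ
  have e := gl_fin_alg (Pre := Pre) (ers := ers) hDu hau
  rw [e]
  exact hTM n k XU XQ _ ρU ρQ _ hkn hCF'.nN hXU hXQ (gm_uni_corner hρU) (gm_uni_corner hρQ) hT
    ⟨0, fun i j h => absurd (Matrix.zero_apply i j) h, rfl⟩

end fin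

section ctx

variable {Y : Type} {R : Subring ℂ} {S : gs_Sys Y} {e0 k : ℕ}

/-- **the case of a swap** -/
theorem gl_loc_S (hSh : StShInv N) (hLoc : StLocality N) (hTM : StTriMul N) (hGap : StGap N)
    (hRS : StRadSplit N) (hRC : StRadConj N)
    (hUn : StUnpackUn N R) (hLS : StLinkS N R) (P : gr_Corr N) (hP : P.OK R)
    (hyp : gr_Hyp N R S e0 k) {col : ℕ → ℕ → Bool}
    (hC : (gr_ctx S e0 k col).WF) (z : gr_Z Y N) {i : ℕ} (hi : i < (gr_ctx S e0 k col).len)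
    (hadm : gr_LocAdm (gr_ctx S e0 k col) e0 S.eqs.length z i) {o A B : ℕ}
    (hl : (gr_ctx S e0 k col).letter i = .S o A B) :
    gs_IsUni (gr_ctx S e0 k col).n ((gr_ctx S e0 k col).K i)
      (gr_EL (gr_ctx S e0 k col) e0 S.eqs.length P z i) ∧
    gs_IsUni (gr_ctx S e0 k col).n ((gr_ctx S e0 k col).K (i + 1))
      (gr_ER (gr_ctx S e0 k col) e0 S.eqs.length P z i) ∧
    gr_Tri (gr_ctx S e0 k col).n (gr_ctx S e0 k col).k (gr_XUlet (gr_ctx S e0 k col) e0 z i)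
      (gr_XQlet (gr_ctx S e0 k col) S.eqs.length z i)
      (gr_Zlet (gr_ctx S e0 k col) e0 S.eqs.length P z i) := by
  have hOk := gl_SOk hRS hLS hyp hC z hi hadm hl
  have hB := gl_swB hyp hC hi hl
  have hK := gsd_K_ok hyp col i hi.le
  have hK' := gsd_K_ok hyp col (i + 1) (Nat.succ_le_of_lt hi)
  have hCF := gsd_CF hyp hC i hi.le
  have hCF' := gsd_CF hyp hC (i + 1) (Nat.succ_le_of_lt hi)
  have hnN := gsd_n_le hyp col
  have hkn : k ≤ (gr_ctx S e0 k col).n := hyp.ltn.le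
  have hF' := gl_hval_fam hyp col z hadm.new (Nat.succ_le_of_lt hi)
  obtain ⟨u0, u1, q0, q1, q2⟩ := gl_sw_uni hadm hl
  obtain ⟨⟨a1, a2, a3, a4⟩, a7, a8, -, -⟩ := gl_swU hB
  obtain ⟨⟨b1, b2, b3, b4⟩, b7, b8, -, -⟩ := gl_swQ hB
  have homn := hB.homn
  set ν := gr_snum (col i) (col (i + 1)) o A B with hν
  set dat := gr_readS (gr_ctx S e0 k col) e0 S.eqs.length z i o A B with hdat
  have hνm : ν.m ≤ N := by rw [hB.em]; omega
  obtain ⟨hEL, hER, hT⟩ := (hP.S ν hνm).2.2.1 dat hOk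
  have hXU := gl_S_XU_GL hOk hνm
  have hXQ := gl_S_XQ_GL hOk hνm
  rw [hB.em, hB.eA] at hEL
  rw [hB.em, hB.eB] at hER
  set el := P.ELS ν dat with hel
  set er := P.ERS ν dat with her
  have hoN : o + (A + B) ≤ N := by omega
  -- extraction of the radical parts
  obtain ⟨ρU, hρU, eU⟩ := gl_extractU hRS hRC (by omega) hB.oUk a1 a2 a3 a4 a7 a8 hOk.t hOk.s u0 u1
  obtain ⟨ρQ, hρQ, eQ⟩ := gl_extractQ hRS hRC (by omega) hB.oQk b1 b2 b1 b2 b3 b4 b7 b7 b8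
    hOk.r hOk.v q0 q1 q2
  have hXUeq : gr_XUlet (gr_ctx S e0 k col) e0 z i =
      gs_emb (gr_cU (col i) o) (gr_S_XU ν dat.1) * ρU := by
    refine Eq.trans ?_ eU
    simp only [gr_XUlet, hl]; rfl
  have hXQeq : gr_XQlet (gr_ctx S e0 k col) S.eqs.length z i =
      gs_emb (gr_cQ (col i) o) (gr_S_XQ ν dat.1) * ρQ := by
    have e : gr_S_XQ ν dat.1 = gr_nval z (.R i) *
        gr_midBlock (gr_cQ (col i) o) (ν.h + ν.x + ν.y) (gr_uQ S.eqs.length z i 0) *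
        Matrix.diagonal (fun j : Fin N => if (j : ℕ) < ν.h then (-1 : ℂ) else 1) *
        gr_midBlock (gr_cQ (col i) o) (ν.h + ν.x + ν.y) (gr_uQ S.eqs.length z i 1) *
        gs_swapMat ν.h ν.x ν.y *
        gr_midBlock (gr_cQ (col i) o) (ν.h + ν.x + ν.y) (gr_uQ S.eqs.length z i 2) *
        (gr_nval z (.V i))⁻¹ := by
      rw [← hB.emk]; rfl
    rw [e]
    refine Eq.trans ?_ eQ
    simp only [gr_XQlet, hl]; rfl
  have hXUe : gr_GL k (gs_emb (gr_cU (col i) o) (gr_S_XU ν dat.1)) :=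
    gl_GL_mono hB.oUk (gl_GL_emb hXU (by have := hB.oUk; have : ν.km = ν.a + ν.b + ν.h := rfl; omega))
  have hXQe : gr_GL ((gr_ctx S e0 k col).n - k) (gs_emb (gr_cQ (col i) o) (gr_S_XQ ν dat.1)) := by
    rw [hB.emk] at hXQ
    exact gl_GL_mono hB.oQk (gl_GL_emb hXQ (by have := hB.oQk; omega))
  have hELeq : gr_EL (gr_ctx S e0 k col) e0 S.eqs.length P z i = gs_emb o el := by
    simp only [gr_EL, hl]; rfl
  have hEReq : gr_ER (gr_ctx S e0 k col) e0 S.eqs.length P z i =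
      gr_d (gr_ctx S e0 k col) z (i + 1) * gr_sh (col (i + 1)) (gr_ctx S e0 k col).n k *
        (gr_asm k ρU ρQ 0)⁻¹ *
        (gr_d (gr_ctx S e0 k col) z (i + 1) * gr_sh (col (i + 1)) (gr_ctx S e0 k col).n k)⁻¹ *
        gs_emb o er := by
    have r1 : (gs_emb (gr_cU (col i) o) (gr_S_XU ν dat.1))⁻¹ *
        gr_XUlet (gr_ctx S e0 k col) e0 z i = ρU := by
      rw [hXUeq, ← mul_assoc, Matrix.nonsing_inv_mul _ hXUe.1, one_mul]
    have r2 : (gs_emb (gr_cQ (col i) o) (gr_S_XQ ν dat.1))⁻¹ *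
        gr_XQlet (gr_ctx S e0 k col) S.eqs.length z i = ρQ := by
      rw [hXQeq, ← mul_assoc, Matrix.nonsing_inv_mul _ hXQe.1, one_mul]
    rw [← r1, ← r2]
    simp only [gr_ER, hl]; rfl
  have hMeq : gr_M (gr_ctx S e0 k col) z i = gs_emb o (gs_swapMat 0 A B) := by
    simp only [gr_M, hl, gs_Letter.map]
    rw [gm_emb_swap, Nat.add_zero]; rfl
  have hersU : gs_IsUni (gr_ctx S e0 k col).n ((gr_ctx S e0 k col).K (i + 1)) (gs_emb o er) := by
    refine gm_uni_emb hER ?_ homn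
    intro c hc
    simp only [Finset.mem_insert, Finset.mem_singleton] at hc
    rcases hc with rfl | rfl | rfl
    · exact hB.mid'.1
    · exact hB.mid'.2.1
    · exact hB.mid'.2.2.1
  have hd'BD : gr_IsBD (gr_ctx S e0 k col).n ((gr_ctx S e0 k col).K (i + 1))
      (gr_d (gr_ctx S e0 k col) z (i + 1)) := by
    rw [gl_d_eq]; exact gl_bd_BD hK'.top hF'.cor
  have hd'u : IsUnit (gr_d (gr_ctx S e0 k col) z (i + 1)).det := by
    rw [gl_d_eq]; exact gl_bd_isUnit hnN hK'.top hF'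
  refine ⟨?_, ?_, ?_⟩
  · rw [hELeq]
    refine gm_uni_emb hEL ?_ homn
    intro c hc
    simp only [Finset.mem_insert, Finset.mem_singleton] at hc
    rcases hc with rfl | rfl | rfl
    · exact hB.mid.1
    · exact hB.mid.2.1
    · exact hB.mid.2.2.1
  · rw [hEReq]
    exact gl_fin_ER hSh hGap hCF' hd'BD hd'u hρU hρQ hersU
  · have hel' := gl_GL_inv (gl_GL_uni hEL)
    have her' := gl_GL_inv (gl_GL_uni hER)
    have hsw : gr_GL (A + B) (gs_swapMat 0 A B : gs_Mat N) := gl_swap_GL (by omega) (by omega)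
    have hX : gs_IsCorner (A + B) (el⁻¹ * gs_swapMat 0 A B * er⁻¹) :=
      gm_corner_mul (gm_corner_mul hel'.2 hsw.2) her'.2
    have hT' : gr_Tri (A + B) (gr_nU (col i) o (o + (A + B))) (gr_S_XU ν dat.1) (gr_S_XQ ν dat.1)
        ((gl_dmid o (A + B) A (gr_hval (gr_ctx S e0 k col) z i) *
            gr_sh (gr_colMid (col i) o (A + B)) (A + B) (gr_nU (col i) o (o + (A + B))))⁻¹ *
          (el⁻¹ * gs_swapMat 0 A B * er⁻¹) *
          (gl_dmid o (A + B) B (gr_hval (gr_ctx S e0 k col) z (i + 1)) *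
            gr_sh (gr_colMid (col (i + 1)) o (A + B)) (A + B)
              (gr_nU (col i) o (o + (A + B))))) := by
      have e1 : gr_S_Dm ν dat.1 =
          gl_dmid o (A + B) A (gr_hval (gr_ctx S e0 k col) z i) *
            gr_sh (gr_colMid (col i) o (A + B)) (A + B) (gr_nU (col i) o (o + (A + B))) := by
        unfold gr_S_Dm gr_S_dm gl_dmid
        rw [hB.ecb, hB.em, hB.km, hB.eA, if_congr (show A < A + B ↔ 0 < B by omega) rfl rfl]; rfl
      have e2 : gr_S_Dp ν dat.1 =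
          gl_dmid o (A + B) B (gr_hval (gr_ctx S e0 k col) z (i + 1)) *
            gr_sh (gr_colMid (col (i + 1)) o (A + B)) (A + B)
              (gr_nU (col i) o (o + (A + B))) := by
        unfold gr_S_Dp gr_S_dp gl_dmid
        rw [hB.eca, hB.em, hB.km, hB.eB, if_congr (show B < A + B ↔ 0 < A by omega) rfl rfl]; rfl
      rw [hB.em, hB.km, hB.eA, hB.eB, e1, e2] at hT
      simpa only [mul_assoc] using hT
    rw [hB.km] at hXU
    rw [hB.em, hB.km] at hXQ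
    have hlift := gl_lift_ctx hSh hLoc hTM hUn hyp hC z hi hadm (by rw [hl]; rfl) hB.mid hB.Ks
      (by omega) hB.col hB.cnt hX hXU.2 hXQ.2 hT'
    rw [hXUeq, hXQeq]
    unfold gr_Zlet
    rw [hEReq]
    refine gl_fin_Tri hSh hTM hCF' hkn hd'u hρU hρQ hXUe.2 hXQe.2 ?_
    have hZ : (gr_D (gr_ctx S e0 k col) z i)⁻¹ *
        (gr_EL (gr_ctx S e0 k col) e0 S.eqs.length P z i)⁻¹ * gr_M (gr_ctx S e0 k col) z i *
        (gs_emb o er)⁻¹ *
        (gr_d (gr_ctx S e0 k col) z (i + 1) * gr_sh (col (i + 1)) (gr_ctx S e0 k col).n k) =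
        (gr_D (gr_ctx S e0 k col) z i)⁻¹ * gs_emb o (el⁻¹ * gs_swapMat 0 A B * er⁻¹) *
          gr_D (gr_ctx S e0 k col) z (i + 1) := by
      rw [hELeq, hMeq, gm_emb_mul (gm_corner_mul hel'.2 hsw.2) her'.2 hoN,
        gm_emb_mul hel'.2 hsw.2 hoN, gm_emb_inv (gm_uni_corner hEL) (gm_uni_isUnit hEL) hoN,
        gm_emb_inv (gm_uni_corner hER) (gm_uni_isUnit hER) hoN]
      simp only [mul_assoc]; rfl
    rw [hZ]
    exact hlift

end ctx

end Claimed.Agent.R236
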