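import Mathlib
import Claimed.Agent.R236.GChain
import Claimed.Agent.R236.GMatRad

/-!
# Row 236, REDUCE, SB5 (REG), part A: calculus of regular invertible corner matrices
(owner helper188, prefix grg_)

`grg_On R c S m f` : the matrix valued map `f` is regular over `R` on `S`, so is its inverse, and all
values on `S` are invertible of rank `m`.
-/

set_option autoImplicit false

namespace Claimed.Agent.R236

universe u v

section calculus
variable {P : Type u} {κ : Type v} {R : Subring ℂ} {c : κ → P → ℂ} {S : Set P} {N : ℕ}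

theorem grg_emb_matOn (o : ℕ) {f : P → gs_Mat N} (hf : rg_MatOn R c S f) :
    rg_MatOn R c S (fun x => gs_emb o (f x)) := by
  intro i j
  by_cases h : o ≤ (i : ℕ) ∧ o ≤ (j : ℕ)
  · exact (hf ⟨i - o, by omega⟩ ⟨j - o, by omega⟩).congr fun x _ => by
      simp only [gs_emb, dif_pos h]
  · exact ((rg_MatOn.one (R := R) (c := c) (S := S) (n := Fin N)) i j).congr fun x _ => by
      simp only [gs_emb, dif_neg h]

theorem grg_mask_matOn (Q : ℕ → ℕ → Prop) {f : P → gs_Mat N} (hf : rg_MatOn R c S f) :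
    rg_MatOn R c S (fun x => gr_mask Q (f x)) := by
  intro i j
  by_cases h : Q i j
  · exact (hf i j).congr fun x _ => gm_mask_apply_pos _ h
  · exact rg_RegOn.zero.congr fun x _ => gm_mask_apply_neg _ h

theorem grg_mid_matOn (o m : ℕ) {f : P → gs_Mat N} (hf : rg_MatOn R c S f) :
    rg_MatOn R c S (fun x => gr_midBlock o m (f x)) := by
  intro i j
  by_cases h : (i : ℕ) < m ∧ (j : ℕ) < m ∧ o + m ≤ N
  · exact (hf ⟨o + i, by omega⟩ ⟨o + j, by omega⟩).congr fun x _ => by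
      simp only [gr_midBlock, dif_pos h]
  · exact ((rg_MatOn.one (R := R) (c := c) (S := S) (n := Fin N)) i j).congr fun x _ => by
      simp only [gr_midBlock, dif_neg h]

theorem grg_pm_matOn (f : ℕ → ℕ) : rg_MatOn R c S (fun _ => (gm_pm f : gs_Mat N)) :=
  .const fun a b => by
    rw [gm_pm_apply]
    split_ifs
    · exact R.one_mem
    · exact R.zero_mem

theorem grg_ite_matOn {p : Prop} [Decidable p] {f g : P → gs_Mat N} (hf : rg_MatOn R c S f)
    (hg : rg_MatOn R c S g) : rg_MatOn R c S (fun x => if p then f x else g x) := by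
  split_ifs
  · exact hf
  · exact hg

theorem grg_asm_matOn (k : ℕ) {f g h : P → gs_Mat N} (hf : rg_MatOn R c S f)
    (hg : rg_MatOn R c S g) (hh : rg_MatOn R c S h) :
    rg_MatOn R c S (fun x => gr_asm k (f x) (g x) (h x)) :=
  (hf.mul (grg_emb_matOn k hg)).add hh

/-- the inverse of a regular unipotent matrix is regular -/
theorem grg_inv_of_uni {f : P → gs_Mat N} (hf : rg_MatOn R c S f) {n : ℕ} {K : Finset ℕ}
    (h : ∀ x ∈ S, gs_IsUni n K (f x)) : rg_MatOn R c S (fun x => (f x)⁻¹) :=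
  hf.inv_of_det_eq_one fun x hx => gm_uni_det (h x hx)

/-- regular, with regular inverse, invertible of rank `m` on `S` -/
structure grg_On (R : Subring ℂ) (c : κ → P → ℂ) (S : Set P) (m : ℕ) (f : P → gs_Mat N) : Prop where
  mat : rg_MatOn R c S f
  inv : rg_MatOn R c S (fun x => (f x)⁻¹)
  gl : ∀ x ∈ S, gr_GL m (f x)

theorem grg_On.one (m : ℕ) : grg_On R c S m (fun _ => (1 : gs_Mat N)) :=
  ⟨.one, by simpa using (rg_MatOn.one : rg_MatOn R c S (fun _ => (1 : gs_Mat N))),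
    fun _ _ => ⟨by simp, gm_corner_one m⟩⟩

theorem grg_On.mul {m : ℕ} {f g : P → gs_Mat N} (hf : grg_On R c S m f) (hg : grg_On R c S m g) :
    grg_On R c S m (fun x => f x * g x) :=
  ⟨hf.mat.mul hg.mat, (hg.inv.mul hf.inv).congr fun x _ => Matrix.mul_inv_rev _ _,
    fun x hx => ⟨by rw [Matrix.det_mul]; exact (hf.gl x hx).1.mul (hg.gl x hx).1,
      gm_corner_mul (hf.gl x hx).2 (hg.gl x hx).2⟩⟩

theorem grg_On.inv' {m : ℕ} {f : P → gs_Mat N} (hf : grg_On R c S m f) :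
    grg_On R c S m (fun x => (f x)⁻¹) :=
  ⟨hf.inv, hf.mat.congr fun x hx => Matrix.nonsing_inv_nonsing_inv _ (hf.gl x hx).1,
    fun x hx => ⟨Matrix.isUnit_nonsing_inv_det _ (hf.gl x hx).1,
      gm_corner_inv (hf.gl x hx).2 (hf.gl x hx).1⟩⟩

theorem grg_On.mono {m m' : ℕ} (h : m ≤ m') {f : P → gs_Mat N} (hf : grg_On R c S m f) :
    grg_On R c S m' f :=
  ⟨hf.mat, hf.inv, fun x hx => ⟨(hf.gl x hx).1, gm_corner_mono h (hf.gl x hx).2⟩⟩

theorem grg_On.congr {m : ℕ} {f g : P → gs_Mat N} (hf : grg_On R c S m f)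
    (h : ∀ x ∈ S, g x = f x) : grg_On R c S m g :=
  ⟨hf.mat.congr h, hf.inv.congr fun x hx => by rw [h x hx], fun x hx => by
    rw [h x hx]; exact hf.gl x hx⟩

theorem grg_On.emb {m : ℕ} {f : P → gs_Mat N} (hf : grg_On R c S m f) {o : ℕ} (h : o + m ≤ N) :
    grg_On R c S (o + m) (fun x => gs_emb o (f x)) :=
  ⟨grg_emb_matOn o hf.mat,
    (grg_emb_matOn o hf.inv).congr fun x hx => (gm_emb_inv (hf.gl x hx).2 (hf.gl x hx).1 h).symm,
    fun x hx => ⟨gm_emb_isUnit (hf.gl x hx).2 (hf.gl x hx).1 h, gm_emb_corner o (hf.gl x hx).2⟩⟩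

theorem grg_On.emb_le {m m' : ℕ} {f : P → gs_Mat N} (hf : grg_On R c S m f) {o : ℕ}
    (h : o + m ≤ m') (h' : m' ≤ N) : grg_On R c S m' (fun x => gs_emb o (f x)) :=
  (hf.emb (h.trans h')).mono h

theorem grg_On.of_uni {f : P → gs_Mat N} (hf : rg_MatOn R c S f) {n : ℕ} {K : Finset ℕ}
    (h : ∀ x ∈ S, gs_IsUni n K (f x)) : grg_On R c S n f :=
  ⟨hf, grg_inv_of_uni hf h, fun x hx => ⟨gm_uni_isUnit (h x hx), gm_uni_corner (h x hx)⟩⟩

theorem grg_On.ite {p : Prop} [Decidable p] {m : ℕ} {f g : P → gs_Mat N} (hf : grg_On R c S m f)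
    (hg : grg_On R c S m g) : grg_On R c S m (fun x => if p then f x else g x) := by
  split_ifs
  · exact hf
  · exact hg

theorem grg_On.listProd {m : ℕ} {ι : Type} (l : List ι) {f : ι → P → gs_Mat N}
    (h : ∀ i ∈ l, grg_On R c S m (f i)) : grg_On R c S m (fun x => (l.map fun i => f i x).prod) := by
  induction l with
  | nil => simpa using grg_On.one (R := R) (c := c) (S := S) (N := N) m
  | cons a l ih =>
    simp only [List.map_cons, List.prod_cons]
    exact (h a (by simp)).mul (ih fun i hi => h i (by simp [hi]))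

theorem grg_On.swap {o a b m : ℕ} (h : o + a + b ≤ m) (h' : m ≤ N) :
    grg_On R c S m (fun _ => (gs_swapMat o a b : gs_Mat N)) :=
  ⟨grg_pm_matOn _, by
    rw [gm_swap_inv (h.trans h')]
    exact grg_pm_matOn _,
    fun _ _ => ⟨gm_swap_isUnit (h.trans h'), gm_corner_mono h (gm_swap_corner o a b)⟩⟩

theorem grg_On.sh {col : ℕ → Bool} {n k : ℕ} (hn : n ≤ N) (hk : gr_cU col n = k) :
    grg_On R c S n (fun _ => (gr_sh col n k : gs_Mat N)) :=
  ⟨grg_pm_matOn _, by
    rw [gm_sh_inv hn hk]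
    exact (grg_pm_matOn (R := R) (c := c) (S := S) (N := N) (gr_shFn col n k)).transpose,
    fun _ _ => ⟨gm_sh_isUnit hn hk, gm_sh_corner hk⟩⟩

theorem grg_On.diag {m : ℕ} {d : Fin N → ℂ} (h0 : ∀ j, d j ≠ 0) (h1 : ∀ j, d j ∈ R)
    (h2 : ∀ j, (d j)⁻¹ ∈ R) (h3 : ∀ j : Fin N, m ≤ (j : ℕ) → d j = 1) :
    grg_On R c S m (fun _ => Matrix.diagonal d) := by
  refine ⟨.diagonal fun a => .const (h1 a), ?_, fun _ _ => ⟨?_, ?_⟩⟩
  · have : (Matrix.diagonal d)⁻¹ = Matrix.diagonal fun j => (d j)⁻¹ := by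
      apply Matrix.inv_eq_right_inv
      rw [Matrix.diagonal_mul_diagonal]
      have : (fun i => d i * (d i)⁻¹) = fun _ => (1 : ℂ) := funext fun i => mul_inv_cancel₀ (h0 i)
      rw [this, Matrix.diagonal_one]
    rw [this]
    exact .diagonal fun a => .const (h2 a)
  · rw [Matrix.det_diagonal, isUnit_iff_ne_zero]
    exact Finset.prod_ne_zero_iff.2 fun j _ => h0 j
  · intro i j hij
    by_cases hne : i = j
    · subst hne
      rw [Matrix.diagonal_apply_eq, Matrix.one_apply_eq]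
      exact h3 i (by omega)
    · rw [Matrix.diagonal_apply_ne _ hne, Matrix.one_apply_ne hne]

end calculus

/-! ### the basic regular matrices on `gr_Z` -/

section basic
variable {Y : Type} {N : ℕ} {R : Subring ℂ} {S : Set (gr_Z Y N)}

theorem grg_pt_mat (q : (Y ⊕ gr_Var) ⊕ ℕ × ℕ) :
    rg_MatOn R (gr_Zcoord Y N) S (fun z => z.1 q) :=
  fun a b => rg_RegOn.coord (c := gr_Zcoord Y N) (Sum.inl (q, false, a, b))

theorem grg_pt_inv (q : (Y ⊕ gr_Var) ⊕ ℕ × ℕ) :
    rg_MatOn R (gr_Zcoord Y N) S (fun z => (z.1 q)⁻¹) :=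
  fun a b => rg_RegOn.coord (c := gr_Zcoord Y N) (Sum.inl (q, true, a, b))

theorem grg_par_mat (q : ℕ × ℕ) : rg_MatOn R (gr_Zcoord Y N) S (fun z => z.2 q) :=
  fun a b => rg_RegOn.coord (c := gr_Zcoord Y N) (Sum.inr (q, a, b))

theorem grg_pt_on (q : (Y ⊕ gr_Var) ⊕ ℕ × ℕ) {m : ℕ} (h : ∀ z ∈ S, gr_GL m (z.1 q)) :
    grg_On R (gr_Zcoord Y N) S m (fun z => z.1 q) := ⟨grg_pt_mat q, grg_pt_inv q, h⟩

end basic

end Claimed.Agent.R236
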