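import Mathlib
import Claimed.Agent.R236.GRegA
import Claimed.Agent.R236.GSoundG

/-!
# Row 236, REDUCE, SB5 (REG), part B: letters, adapted bases, frame parts (owner helper188, prefix grg_)
-/

set_option autoImplicit false

namespace Claimed.Agent.R236

section ctx
variable {Y : Type} {N : ℕ} {R : Subring ℂ} {S : gs_Sys Y} {e0 k : ℕ} {col : ℕ → ℕ → Bool}
variable {Dm : Set (gr_Z Y N)}

theorem grg_listProd_matOn {P : Type} {κ : Type} {c : κ → P → ℂ} {T : Set P} (l : List ℕ)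
    {f : ℕ → P → gs_Mat N} (h : ∀ i ∈ l, rg_MatOn R c T (f i)) :
    rg_MatOn R c T (fun x => (l.map fun i => f i x).prod) := by
  induction l with
  | nil => simpa using (rg_MatOn.one : rg_MatOn R c T (fun _ => (1 : gs_Mat N)))
  | cons a l ih =>
    simp only [List.map_cons, List.prod_cons]
    exact (h a (by simp)).mul (ih fun i hi => h i (by simp [hi]))

/-- the matrix of a letter -/
theorem grg_M (hyp : gr_Hyp N R S e0 k)
    (hold : ∀ z ∈ Dm, ∀ y, gr_GL (S.sig y).rk (z.1 (.inl (.inl y)))) {i : ℕ} (hi : i < (gr_ctx S e0 k col).len) :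
    grg_On R (gr_Zcoord Y N) Dm (gr_ctx S e0 k col).n (fun z => gr_M (gr_ctx S e0 k col) z i) := by
  have hle := gsd_mid_le (col := col) hyp hi
  have hn := gsd_n_le hyp col
  have happ := gsd_app hyp col hi
  unfold gr_M
  cases hl : (gr_ctx S e0 k col).letter i with
  | G inv y o =>
    rw [hl] at hle
    simp only [gs_mid] at hle
    have h1 : grg_On R (gr_Zcoord Y N) Dm (S.sig y).rk (fun z => z.1 (.inl (.inl y))) :=
      grg_pt_on _ fun z hz => hold z hz y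
    cases inv
    · exact h1.emb_le hle hn
    · exact h1.inv'.emb_le hle hn
  | S o a b =>
    rw [hl] at hle
    simp only [gs_mid] at hle
    exact grg_On.swap (by omega) hn
  | L lam =>
    rw [hl] at happ
    have hmem : gs_Letter.L lam ∈ (S.eq e0).ls := by
      rw [← hl, gsd_letter_eq col hi]
      exact List.getElem_mem hi
    have hu := (gsd_hyp_eqn hyp).unit lam hmem
    exact grg_On.diag (fun j => (hu j).1) (fun j => (hu j).2.1) (fun j => (hu j).2.2)
      (fun j hj => happ.2 j hj)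

/-- the block diagonal part -/
theorem grg_d (hyp : gr_Hyp N R S e0 k)
    (hnew : ∀ z ∈ Dm, ∀ v, gr_GL ((gr_ctx S e0 k col).nsig v).rk (gr_nval z v)) {i : ℕ} (hi : i ≤ (gr_ctx S e0 k col).len) :
    grg_On R (gr_Zcoord Y N) Dm (gr_ctx S e0 k col).n (fun z => gr_d (gr_ctx S e0 k col) z i) := by
  unfold gr_d
  apply grg_On.listProd
  intro c hc
  rw [List.mem_range] at hc
  by_cases hcK : c ∈ (gr_ctx S e0 k col).K i
  · simp only [if_pos hcK]
    obtain ⟨h1, h2, h3, h4⟩ := gsd_nxt_spec (gsd_K_ok hyp col i hi) hc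
    have : grg_On R (gr_Zcoord Y N) Dm (gr_nxt ((gr_ctx S e0 k col).K i) c - c) (fun z => gr_hval (gr_ctx S e0 k col) z i c) :=
      grg_pt_on _ fun z hz => gsd_hval_GL hyp (hnew z hz) hi hcK hc
    exact this.emb_le (by omega) (gsd_n_le hyp col)
  · simp only [if_neg hcK]
    exact grg_On.one _

/-- the adapted basis -/
theorem grg_D (hyp : gr_Hyp N R S e0 k) (hC : (gr_ctx S e0 k col).WF)
    (hnew : ∀ z ∈ Dm, ∀ v, gr_GL ((gr_ctx S e0 k col).nsig v).rk (gr_nval z v)) {i : ℕ} (hi : i ≤ (gr_ctx S e0 k col).len) :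
    grg_On R (gr_Zcoord Y N) Dm (gr_ctx S e0 k col).n (fun z => gr_D (gr_ctx S e0 k col) z i) := by
  unfold gr_D
  exact (grg_d hyp hnew hi).mul (grg_On.sh (gsd_n_le hyp col) (gsd_col_cnt hyp hC i hi))

/-- the free radical part -/
theorem grg_nuRad (hyp : gr_Hyp N R S e0 k) (i : ℕ) :
    grg_On R (gr_Zcoord Y N) Dm (gr_ctx S e0 k col).n (fun z => gr_nuRad (gr_ctx S e0 k col) z i) := by
  refine grg_On.of_uni (K := (gr_ctx S e0 k col).K ((gr_ctx S e0 k col).w i)) ?_ fun z _ => ?_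
  · unfold gr_nuRad
    exact rg_MatOn.one.add (grg_mask_matOn _ (grg_par_mat _))
  · rw [← gsd_nuRad_w]
    exact gsd_rad z (gsd_ctx_w_lt hyp i)

theorem grg_uU (e1 i j : ℕ) : rg_MatOn R (gr_Zcoord Y N) Dm (fun z => gr_uU e1 z i j) :=
  grg_pt_mat _

theorem grg_uQ (e2 i j : ℕ) : rg_MatOn R (gr_Zcoord Y N) Dm (fun z => gr_uQ e2 z i j) :=
  grg_pt_mat _

theorem grg_sU (e1 i : ℕ) : rg_MatOn R (gr_Zcoord Y N) Dm (fun z => gr_sU (gr_ctx S e0 k col) e1 z i) := by
  unfold gr_sU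
  cases (gr_ctx S e0 k col).letter i with
  | G inv y o => exact (((grg_uU e1 i 0).mul (grg_uU e1 i 1)).mul (grg_uU e1 i 2)).mul (grg_uU e1 i 3)
  | S o a b => exact (grg_uU e1 i 2).mul (grg_uU e1 i 3)
  | L lam => exact (((grg_uU e1 i 0).mul (grg_uU e1 i 1)).mul (grg_uU e1 i 2)).mul (grg_uU e1 i 3)

theorem grg_sQ (e2 i : ℕ) : rg_MatOn R (gr_Zcoord Y N) Dm (fun z => gr_sQ (gr_ctx S e0 k col) e2 z i) := by
  unfold gr_sQ
  cases (gr_ctx S e0 k col).letter i with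
  | G inv y o => exact (((grg_uQ e2 i 0).mul (grg_uQ e2 i 1)).mul (grg_uQ e2 i 2)).mul (grg_uQ e2 i 3)
  | S o a b => exact grg_uQ e2 i 3
  | L lam => exact (((grg_uQ e2 i 0).mul (grg_uQ e2 i 1)).mul (grg_uQ e2 i 2)).mul (grg_uQ e2 i 3)

theorem grg_Zfr (e1 e2 i : ℕ) : rg_MatOn R (gr_Zcoord Y N) Dm (fun z => gr_Zfr (gr_ctx S e0 k col) e1 e2 z i) := by
  unfold gr_Zfr
  exact grg_asm_matOn _ (grg_sU e1 i) (grg_sQ e2 i) (grg_mask_matOn _ (grg_par_mat _))

/-- a new variable -/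
theorem grg_nval (hnew : ∀ z ∈ Dm, ∀ v, gr_GL ((gr_ctx S e0 k col).nsig v).rk (gr_nval z v)) (v : gr_Var) :
    grg_On R (gr_Zcoord Y N) Dm ((gr_ctx S e0 k col).nsig v).rk (fun z => gr_nval z v) :=
  grg_pt_on _ fun z hz => hnew z hz v

end ctx

end Claimed.Agent.R236
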