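import Mathlib
import Claimed.Agent.R236.GRegB

/-!
# Row 236, REDUCE, SB5 (REG), part C: segments, reading maps (owner helper188, prefix grg_)
-/

set_option autoImplicit false

namespace Claimed.Agent.R236

/-- the data read at a `G` letter are admissible local data -/
def StReadG (N : ℕ) (R : Subring ℂ) : Prop :=
  ∀ (Y : Type) (S : gs_Sys Y) (e0 k : ℕ), gr_Hyp N R S e0 k →
    ∀ col, (gr_ctx S e0 k col).WF → ∀ z : gr_Z Y N,
      ∀ i, i < (gr_ctx S e0 k col).len → gr_LocAdm (gr_ctx S e0 k col) e0 S.eqs.length z i →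
        ∀ inv y o, (gr_ctx S e0 k col).letter i = .G inv y o →
          (gr_gnum (col i) (col (i + 1)) o (S.sig y).rk ((S.sig y).src inv)
            ((S.sig y).tgt inv)).Ok ∧
          (gr_gnum (col i) (col (i + 1)) o (S.sig y).rk ((S.sig y).src inv)
            ((S.sig y).tgt inv)).m ≤ N ∧
          gr_GOk (gr_gnum (col i) (col (i + 1)) o (S.sig y).rk ((S.sig y).src inv)
            ((S.sig y).tgt inv)) (gr_readG (gr_ctx S e0 k col) S.eqs.length z i inv y o)

/-- the data read at a swap are admissible local data -/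
def StReadS (N : ℕ) (R : Subring ℂ) : Prop :=
  ∀ (Y : Type) (S : gs_Sys Y) (e0 k : ℕ), gr_Hyp N R S e0 k →
    ∀ col, (gr_ctx S e0 k col).WF → ∀ z : gr_Z Y N,
      ∀ i, i < (gr_ctx S e0 k col).len → gr_LocAdm (gr_ctx S e0 k col) e0 S.eqs.length z i →
        ∀ o A B, (gr_ctx S e0 k col).letter i = .S o A B →
          (gr_snum (col i) (col (i + 1)) o A B).m ≤ N ∧
          gr_SOk (gr_snum (col i) (col (i + 1)) o A B)
            (gr_readS (gr_ctx S e0 k col) e0 S.eqs.length z i o A B).1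

section ctx
variable {Y : Type} {N : ℕ} {R : Subring ℂ} {S : gs_Sys Y} {e0 k : ℕ} {col : ℕ → ℕ → Bool}
variable {Dm : Set (gr_Z Y N)}

theorem grg_On.corner {P : Type} {κ : Type} {c : κ → P → ℂ} {T : Set P} {m m' : ℕ}
    {f : P → gs_Mat N} (hf : grg_On R c T m f) (h : ∀ x ∈ T, gs_IsCorner m' (f x)) :
    grg_On R c T m' f := ⟨hf.mat, hf.inv, fun x hx => ⟨(hf.gl x hx).1, h x hx⟩⟩

/-- every coordinate matrix is invertible on the domain -/
theorem grg_pt_on' (hunit : ∀ z ∈ Dm, ∀ q, IsUnit (z.1 q).det) (q : (Y ⊕ gr_Var) ⊕ ℕ × ℕ) :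
    grg_On R (gr_Zcoord Y N) Dm N (fun z => z.1 q) :=
  grg_pt_on q fun z hz => ⟨hunit z hz q, gm_corner_of_le le_rfl _⟩

theorem grg_readS (hunit : ∀ z ∈ Dm, ∀ q, IsUnit (z.1 q).det) {E0 i o A B : ℕ}
    (hS : ∀ z ∈ Dm, gr_SOk (gr_snum (col i) (col (i + 1)) o A B)
      (gr_readS (gr_ctx S e0 k col) e0 E0 z i o A B).1) (idx : gr_SIdx) :
    grg_On R (gr_Zcoord Y N) Dm N (fun z => (gr_readS (gr_ctx S e0 k col) e0 E0 z i o A B).1 idx) := by
  have hN : ∀ m, ∀ f : gr_Z Y N → gs_Mat N, grg_On R (gr_Zcoord Y N) Dm m f →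
      grg_On R (gr_Zcoord Y N) Dm N f := fun m f h => h.corner fun _ _ => gm_corner_of_le le_rfl _
  cases idx
  case hAm => exact (grg_pt_on' hunit _).ite (grg_On.one _)
  case hBm => exact (grg_pt_on' hunit _).ite (grg_On.one _)
  case hAp => exact (grg_pt_on' hunit _).ite (grg_On.one _)
  case hBp => exact (grg_pt_on' hunit _).ite (grg_On.one _)
  case t => exact grg_pt_on' hunit _
  case s => exact grg_pt_on' hunit _
  case r => exact grg_pt_on' hunit _
  case v => exact grg_pt_on' hunit _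
  case c0 => exact hN _ _ (grg_On.of_uni (grg_mid_matOn _ _ (grg_uU _ _ _)) fun z hz => (hS z hz).c0)
  case c1 => exact hN _ _ (grg_On.of_uni (grg_mid_matOn _ _ (grg_uU _ _ _)) fun z hz => (hS z hz).c1)
  case e0 => exact hN _ _ (grg_On.of_uni (grg_mid_matOn _ _ (grg_uQ _ _ _)) fun z hz => (hS z hz).e0)
  case e1 => exact hN _ _ (grg_On.of_uni (grg_mid_matOn _ _ (grg_uQ _ _ _)) fun z hz => (hS z hz).e1)
  case e2 => exact hN _ _ (grg_On.of_uni (grg_mid_matOn _ _ (grg_uQ _ _ _)) fun z hz => (hS z hz).e2)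
  all_goals exact grg_pt_on' hunit _

theorem grg_readG (hunit : ∀ z ∈ Dm, ∀ q, IsUnit (z.1 q).det) {E0 i o : ℕ} {inv : Bool} {y : Y}
    (idx : gr_GIdx) :
    grg_On R (gr_Zcoord Y N) Dm N (fun z => gr_readG (gr_ctx S e0 k col) E0 z i inv y o idx) := by
  cases idx
  case h1 => exact (grg_pt_on' hunit _).ite (grg_On.one _)
  case h2 => exact (grg_pt_on' hunit _).ite (grg_On.one _)
  case k1 => exact (grg_pt_on' hunit _).ite (grg_On.one _)
  case k2 => exact (grg_pt_on' hunit _).ite (grg_On.one _)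
  case m => exact (grg_pt_on' hunit _).inv'.ite (grg_pt_on' hunit _)
  all_goals exact grg_pt_on' hunit _

end ctx

end Claimed.Agent.R236
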