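import Mathlib
import Claimed.Agent.R236.GLiftU
import Claimed.Agent.R236.GChain2
import Claimed.Agent.R236.GRegC
import Claimed.Agent.R236.GColorA
import Claimed.Agent.R236.GColorB
import Claimed.Agent.R236.GColorC
import Claimed.Agent.R236.GColorD

/-!
# Row 236, REDUCE, SB3 (LIFT): the exported theorems (owner helper58, prefix `gl_`)

* `gl_linkG`, `gl_linkS` : the interface `StLinkG`, `StLinkS` from the unpacking statements of SB1;
* `gl_loc`   : `StLoc N R`;
* `gl_readG`, `gl_readS` : `StReadG N R`, `StReadS N R` (interfaces of SB5);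
* `gl_gNum` : `StGNum N R`.
-/

set_option autoImplicit false

namespace Claimed.Agent.R236

open Matrix

variable {N : ℕ} {R : Subring ℂ}

theorem gl_linkG (hUG : StUnpackG N R) : StLinkG N R := by
  intro Y S e0 k hyp col hC z C i hi hadm inv y o hl
  have h1 := hadm.link 0 (by omega)
  have hls := gl_ls_get (S := S) (e0 := e0) (k := k) col hi
  have hlk : (gr_ctx S e0 k col).link i 0 = (gr_ctx S e0 k col).linkG i inv y o := by
    unfold gr_Ctx.link
    rw [hls, hl]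
  rw [hlk] at h1
  have h2 : gr_GOk _ _ :=
    ((hUG Y S e0 k hyp col hC S.eqs.length z hadm.old hadm.new i inv y o hi hl).1 h1).1
  exact ⟨h2.w0, h2.w1, h2.w2, h2.w3, h2.w4, h2.w5, h2.w6, h2.w7, h2.w8, h2.link⟩

theorem gl_linkS (hUA : StUnpackA N R) (hUB : StUnpackB N R) : StLinkS N R := by
  intro Y S e0 k hyp col hC z C i hi hadm o A B hl
  have h0 := hadm.link 0 (by omega)
  have h1 := hadm.link 1 (by omega)
  have hls := gl_ls_get (S := S) (e0 := e0) (k := k) col hi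
  have hlk0 : (gr_ctx S e0 k col).link i 0 = (gr_ctx S e0 k col).linkA i o A B := by
    unfold gr_Ctx.link
    rw [hls, hl]
  have hlk1 : (gr_ctx S e0 k col).link i 1 = (gr_ctx S e0 k col).linkB i o A B := by
    unfold gr_Ctx.link
    rw [hls, hl]
  rw [hlk0] at h0
  rw [hlk1] at h1
  obtain ⟨a0, a1, a2, a3, -, a5⟩ :=
    (hUA Y S e0 k hyp col hC e0 S.eqs.length z hadm.new i o A B hi hl).1 h0
  obtain ⟨b0, b1, b2, b3, -, b5⟩ :=
    (hUB Y S e0 k hyp col hC e0 S.eqs.length z hadm.new i o A B hi hl).1 h1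
  exact ⟨a0, a1, a2, a3, b0, b1, b2, b3, a5, b5⟩

/-- **SB3**: the local packages at frame level -/
theorem gl_loc' (hUn : StUnpackUn N R) (hLG : StLinkG N R) (hLS : StLinkS N R) : StLoc N R := by
  intro P hP Y S e0 k hyp col hC z C i hi hadm
  rcases hl : (gr_ctx S e0 k col).letter i with ⟨inv, y, o⟩ | ⟨o, A, B⟩ | lam
  · exact gl_loc_G (gc_StShInv N) (gc_StLocality N) (gc_StTriMul N) hUn hLG P hP hyp hC z hi hadm hl
  · exact gl_loc_S (gc_StShInv N) (gc_StLocality N) (gc_StTriMul N) (gc_StGap N) (gm_StRadSplit N)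
      (gm_StRadConj N) hUn hLS P hP hyp hC z hi hadm hl
  · exact gl_loc_L (gc_StShInv N) (gc_StLocality N) (gc_StTriMul N) hUn P hyp hC z hi hadm hl

/-- **SB3** from the unpacking statements of SB1 -/
theorem gl_loc (hUn : StUnpackUn N R) (hUG : StUnpackG N R) (hUA : StUnpackA N R)
    (hUB : StUnpackB N R) : StLoc N R :=
  gl_loc' hUn (gl_linkG hUG) (gl_linkS hUA hUB)

/-! ## numbers -/

theorem gl_gNum (N : ℕ) (R : Subring ℂ) : StGNum N R := by
  intro Y S e0 k hyp col hC C i inv y o hi hl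
  have happ := gsd_app hyp col hi
  have hKs := gsd_K_succ (S := S) (e0 := e0) (k := k) col hi
  have hst := gsd_stepOK hC hi
  rw [hl] at happ hKs hst
  have hmid : gs_midOK ((gr_ctx S e0 k col).K i) o (S.sig y).rk ((S.sig y).src inv) := happ
  have hct : (S.sig y).tgt inv ≤ (S.sig y).rk := gsd_tgt_le (gsd_hyp_sig hyp y) inv
  have hKs' : (gr_ctx S e0 k col).K (i + 1) =
      gs_cutRepl ((gr_ctx S e0 k col).K i) o (S.sig y).rk ((S.sig y).tgt inv) := hKs
  have hmid' : gs_midOK ((gr_ctx S e0 k col).K (i + 1)) o (S.sig y).rk ((S.sig y).tgt inv) := by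
    rw [hKs']; exact gl_midOK_cutRepl hmid hct
  have hK := gsd_K_ok hyp col i hi.le
  have hCF := gsd_CF hyp hC i hi.le
  have hCF' := gsd_CF hyp hC (i + 1) (Nat.succ_le_of_lt hi)
  have homn : o + (S.sig y).rk ≤ (gr_ctx S e0 k col).n := hK.le _ hmid.2.2.1
  have ha := hmid.2.2.2.1
  obtain ⟨hcol, hcnt⟩ : (∀ j, j < o ∨ o + (S.sig y).rk ≤ j → col (i + 1) j = col i j) ∧
      gr_nU (col (i + 1)) o (o + (S.sig y).rk) = gr_nU (col i) o (o + (S.sig y).rk) := hst
  exact ⟨gl_gnum_ok _ _ _ _ _ _ ha hct hcnt, gl_gnum_m _ _ _ _ _ _ ha, gl_gnum_a _ _ _ _ _ _,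
    gl_gnum_c _ _ _ _ _ _, gl_gnum_uq2 _ _ _ _ _ _ ha, gl_gnum_vp2 _ _ _ _ _ _ hct,
    gl_gnum_km _ _ _ _ _ _ ha, (gl_gnum_cb _ hCF.ad _ hmid homn).symm,
    (gl_gnum_ca _ hCF'.ad _ hmid' homn).symm⟩

theorem gl_readG (hUG : StUnpackG N R) : StReadG N R := by
  intro Y S e0 k hyp col hC z i hi hadm inv y o hl
  obtain ⟨h1, h2, -⟩ := gl_gNum N R Y S e0 k hyp col hC i inv y o hi hl
  have happ := gsd_app hyp col hi
  rw [hl] at happ
  have hmid : gs_midOK ((gr_ctx S e0 k col).K i) o (S.sig y).rk ((S.sig y).src inv) := happ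
  have homn : o + (S.sig y).rk ≤ (gr_ctx S e0 k col).n :=
    (gsd_K_ok hyp col i hi.le).le _ hmid.2.2.1
  have hnN := gsd_n_le hyp col
  refine ⟨h1, ?_, gl_GOk (gl_linkG hUG) hyp hC z hi hadm hl⟩
  have h2' : (gr_gnum (col i) (col (i + 1)) o (S.sig y).rk ((S.sig y).src inv)
      ((S.sig y).tgt inv)).m = (S.sig y).rk := h2
  rw [h2']; omega

theorem gl_readS (hUA : StUnpackA N R) (hUB : StUnpackB N R) : StReadS N R := by
  intro Y S e0 k hyp col hC z i hi hadm o A B hl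
  have hB := gl_swB hyp hC hi hl
  have hnN := gsd_n_le hyp col
  refine ⟨?_, gl_SOk (gm_StRadSplit N) (gl_linkS hUA hUB) hyp hC z hi hadm hl⟩
  rw [hB.em]; have := hB.homn; omega

end Claimed.Agent.R236
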