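import Mathlib
import Claimed.Agent.R236.GLoc
import Claimed.Agent.R236.GMat

/-!
# Row 236, G-LOCG, file 0: support calculus for `N × N` matrices (owner helper299)

* `glg_Sup r x` : the nonzero entries of `x` sit at positions `(i,j)` with `r i j`.
* `glg_U r u`   : `u - 1` has support in `r` ("pattern unipotent").
* pattern groups: `r` transitive, `r i j → i < j`  ⟹  closed under products and inverses, `det = 1`.
* `gs_IsUni n K u ↔ glg_U (glg_rel n K) u`.
* Levi part `glg_lev k u` and the parabolic decomposition.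
-/

set_option autoImplicit false

namespace Claimed.Agent.R236

variable {N : ℕ}

/-- the nonzero entries of `x` sit at positions `(i,j)` with `r i j` -/
def glg_Sup (r : ℕ → ℕ → Prop) (x : gs_Mat N) : Prop := ∀ i j : Fin N, x i j ≠ 0 → r i j

namespace glg_Sup

variable {r s t : ℕ → ℕ → Prop} {x y : gs_Mat N}

theorem mono (hx : glg_Sup r x) (h : ∀ i j, i < N → j < N → r i j → s i j) : glg_Sup s x :=
  fun i j hij => h i j i.2 j.2 (hx i j hij)

theorem zero : glg_Sup r (0 : gs_Mat N) := fun _ _ h => absurd rfl h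

theorem add (hx : glg_Sup r x) (hy : glg_Sup r y) : glg_Sup r (x + y) := by
  intro i j h
  by_cases h1 : x i j = 0
  · by_cases h2 : y i j = 0
    · exact absurd (by rw [Matrix.add_apply, h1, h2, add_zero]) h
    · exact hy i j h2
  · exact hx i j h1

theorem neg (hx : glg_Sup r x) : glg_Sup r (-x) := by
  intro i j h
  exact hx i j (by simpa using h)

theorem sub (hx : glg_Sup r x) (hy : glg_Sup r y) : glg_Sup r (x - y) := by
  rw [sub_eq_add_neg]
  exact hx.add hy.neg

theorem mul (hx : glg_Sup r x) (hy : glg_Sup s y)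
    (h : ∀ i k j, i < N → k < N → j < N → r i k → s k j → t i j) : glg_Sup t (x * y) := by
  intro i j hij
  rw [Matrix.mul_apply] at hij
  obtain ⟨k, -, hk⟩ := Finset.exists_ne_zero_of_sum_ne_zero hij
  exact h i k j i.2 k.2 j.2 (hx i k (left_ne_zero_of_mul hk)) (hy k j (right_ne_zero_of_mul hk))

theorem eq_zero (hx : glg_Sup r x) (h : ∀ i j, i < N → j < N → ¬ r i j) : x = 0 := by
  ext i j
  by_contra hij
  exact h i j i.2 j.2 (hx i j hij)

theorem mul_eq_zero (hx : glg_Sup r x) (hy : glg_Sup s y)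
    (h : ∀ i k j, i < N → k < N → j < N → r i k → s k j → False) : x * y = 0 :=
  (hx.mul (t := fun _ _ => False) hy h).eq_zero fun _ _ _ _ h => h

theorem one : glg_Sup (fun i j => i = j) (1 : gs_Mat N) := by
  intro i j h
  by_contra hij
  exact h (Matrix.one_apply_ne fun e => hij (congrArg Fin.val e))

end glg_Sup

/-- pattern unipotent: `u - 1` has support in `r` -/
def glg_U (r : ℕ → ℕ → Prop) (u : gs_Mat N) : Prop := glg_Sup r (u - 1)

/-- the relation of `gs_IsUni` -/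
def glg_rel (n : ℕ) (K : Finset ℕ) (i j : ℕ) : Prop := j < n ∧ ∃ c ∈ K, i < c ∧ c ≤ j

theorem glg_isUni_iff {n : ℕ} {K : Finset ℕ} {u : gs_Mat N} :
    gs_IsUni n K u ↔ glg_U (glg_rel n K) u := by
  constructor
  · intro h i j hij
    exact h i j (fun e => hij (by rw [Matrix.sub_apply, e, sub_self]))
  · intro h i j hij
    exact h i j (by rw [Matrix.sub_apply]; exact sub_ne_zero.2 hij)

theorem glg_rel_trans {n : ℕ} {K : Finset ℕ} {i k j : ℕ} (h1 : glg_rel n K i k)
    (h2 : glg_rel n K k j) : glg_rel n K i j := by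
  obtain ⟨-, c, hc, h3, h4⟩ := h1
  obtain ⟨h5, c', -, h6, h7⟩ := h2
  exact ⟨h5, c, hc, h3, by omega⟩

theorem glg_rel_lt {n : ℕ} {K : Finset ℕ} {i j : ℕ} (h : glg_rel n K i j) : i < j := by
  obtain ⟨-, c, -, h3, h4⟩ := h
  omega

namespace glg_U

variable {r s t : ℕ → ℕ → Prop} {u v : gs_Mat N}

theorem mono (hu : glg_U r u) (h : ∀ i j, i < N → j < N → r i j → s i j) : glg_U s u :=
  glg_Sup.mono hu h

theorem one : glg_U r (1 : gs_Mat N) := by
  unfold glg_U
  rw [sub_self]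
  exact glg_Sup.zero

theorem of_add {x : gs_Mat N} (hx : glg_Sup r x) : glg_U r (1 + x) := by
  unfold glg_U
  rwa [add_sub_cancel_left]

/-- the support of the matrix itself -/
theorem sup (hu : glg_U r u) : glg_Sup (fun i j => i = j ∨ r i j) u := by
  have h : u = 1 + (u - 1) := by abel
  rw [h]
  exact (glg_Sup.one.mono fun _ _ _ _ h => Or.inl h).add (glg_Sup.mono hu fun _ _ _ _ h => Or.inr h)

theorem mul (hu : glg_U r u) (hv : glg_U r v)
    (h : ∀ i k j, i < N → k < N → j < N → r i k → r k j → r i j) : glg_U r (u * v) := by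
  have e : u * v - 1 = (u - 1) + (v - 1) + (u - 1) * (v - 1) := by noncomm_ring
  unfold glg_U
  rw [e]
  exact (glg_Sup.add hu hv).add (glg_Sup.mul hu hv h)

theorem apply_eq_zero (hu : glg_U r u) (hlt : ∀ i j, i < N → j < N → r i j → i < j) {i j : Fin N}
    (h : j < i) : u i j = 0 := by
  by_contra hij
  have h1 : (u - 1) i j ≠ 0 := by
    rw [Matrix.sub_apply, Matrix.one_apply_ne (ne_of_gt h), sub_zero]
    exact hij
  have := hlt i j i.2 j.2 (hu i j h1)
  exact absurd h (not_lt.2 (le_of_lt this))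

theorem apply_diag (hu : glg_U r u) (hlt : ∀ i j, i < N → j < N → r i j → i < j) (i : Fin N) :
    u i i = 1 := by
  by_contra hij
  have h1 : (u - 1) i i ≠ 0 := by
    rw [Matrix.sub_apply, Matrix.one_apply_eq]
    exact sub_ne_zero.2 hij
  exact absurd (hlt i i i.2 i.2 (hu i i h1)) (lt_irrefl _)

theorem det (hu : glg_U r u) (hlt : ∀ i j, i < N → j < N → r i j → i < j) : u.det = 1 := by
  have h1 : u.BlockTriangular id := fun i j h => hu.apply_eq_zero hlt h
  rw [Matrix.det_of_isUpperTriangular h1]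
  exact Finset.prod_eq_one fun i _ => hu.apply_diag hlt i

theorem isUnit_det (hu : glg_U r u) (hlt : ∀ i j, i < N → j < N → r i j → i < j) :
    IsUnit u.det := by
  rw [hu.det hlt]
  exact isUnit_one

theorem inv (hu : glg_U r u) (hlt : ∀ i j, i < N → j < N → r i j → i < j)
    (h : ∀ i k j, i < N → k < N → j < N → r i k → r k j → r i j) : glg_U r u⁻¹ := by
  have hdet := hu.isUnit_det hlt
  have e : u⁻¹ - 1 = -((u - 1) * u⁻¹) := by
    rw [sub_mul, Matrix.mul_nonsing_inv u hdet, one_mul]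
    abel
  -- downward induction on the row
  have key : ∀ (d : ℕ) (i j : Fin N), N - (i : ℕ) ≤ d → (u⁻¹ - 1) i j ≠ 0 → r i j := by
    intro d
    induction d with
    | zero =>
      intro i j hd
      have := i.2
      omega
    | succ d ih =>
      intro i j hd hij
      rw [e, Matrix.neg_apply, neg_ne_zero, Matrix.mul_apply] at hij
      obtain ⟨k, -, hk⟩ := Finset.exists_ne_zero_of_sum_ne_zero hij
      have h1 := hu i k (left_ne_zero_of_mul hk)
      have h2 := right_ne_zero_of_mul hk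
      have hik := hlt i k i.2 k.2 h1
      by_cases hkj : k = j
      · rw [← hkj]; exact h1
      · have h3 : (u⁻¹ - 1) k j ≠ 0 := by
          rw [Matrix.sub_apply, Matrix.one_apply_ne hkj, sub_zero]
          exact h2
        exact h i k j i.2 k.2 j.2 h1 (ih k j (by omega) h3)
  exact fun i j hij => key N i j (by omega) hij

/-- conjugation -/
theorem conj {ρ ρ' : ℕ → ℕ → Prop} {d d' : gs_Mat N} (hu : glg_U r u) (hd : glg_Sup ρ d)
    (hd' : glg_Sup ρ' d') (hdd : d * d' = 1)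
    (h : ∀ i k l j, i < N → k < N → l < N → j < N → ρ i k → r k l → ρ' l j → s i j) :
    glg_U s (d * u * d') := by
  have e : d * u * d' - 1 = d * (u - 1) * d' := by
    rw [mul_sub, sub_mul, mul_one, hdd]
  unfold glg_U
  rw [e]
  refine glg_Sup.mul (r := fun i l => ∃ k, k < N ∧ ρ i k ∧ r k l) (glg_Sup.mul hd hu ?_) hd' ?_
  · intro i k j _ hk _ h1 h2
    exact ⟨k, hk, h1, h2⟩
  · rintro i l j hi hl hj ⟨k, hk, h1, h2⟩ h3
    exact h i k l j hi hk hl hj h1 h2 h3

end glg_U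

/-! ## `gs_IsUni` -/

theorem glg_isUni_one (n : ℕ) (K : Finset ℕ) : gs_IsUni n K (1 : gs_Mat N) :=
  glg_isUni_iff.2 glg_U.one

theorem glg_isUni_mul {n : ℕ} {K : Finset ℕ} {u v : gs_Mat N} (hu : gs_IsUni n K u)
    (hv : gs_IsUni n K v) : gs_IsUni n K (u * v) :=
  glg_isUni_iff.2 ((glg_isUni_iff.1 hu).mul (glg_isUni_iff.1 hv)
    fun _ _ _ _ _ _ h1 h2 => glg_rel_trans h1 h2)

theorem glg_isUni_det {n : ℕ} {K : Finset ℕ} {u : gs_Mat N} (hu : gs_IsUni n K u) : u.det = 1 :=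
  (glg_isUni_iff.1 hu).det fun _ _ _ _ h => glg_rel_lt h

theorem glg_isUni_isUnit {n : ℕ} {K : Finset ℕ} {u : gs_Mat N} (hu : gs_IsUni n K u) :
    IsUnit u.det := by
  rw [glg_isUni_det hu]; exact isUnit_one

theorem glg_isUni_inv {n : ℕ} {K : Finset ℕ} {u : gs_Mat N} (hu : gs_IsUni n K u) :
    gs_IsUni n K u⁻¹ :=
  glg_isUni_iff.2 ((glg_isUni_iff.1 hu).inv (fun _ _ _ _ h => glg_rel_lt h)
    fun _ _ _ _ _ _ h1 h2 => glg_rel_trans h1 h2)

theorem glg_isUni_mono {n : ℕ} {K K' : Finset ℕ} (h : K ⊆ K') {u : gs_Mat N}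
    (hu : gs_IsUni n K u) : gs_IsUni n K' u := by
  intro i j hij
  obtain ⟨h1, c, hc, h2⟩ := hu i j hij
  exact ⟨h1, c, h hc, h2⟩

/-- conjugation by block diagonal matrices -/
theorem glg_isUni_conj {n : ℕ} {K : Finset ℕ} {d d' u : gs_Mat N} (hd : gr_IsBD n K d)
    (hd' : gr_IsBD n K d') (hdd : d * d' = 1) (hu : gs_IsUni n K u) :
    gs_IsUni n K (d * u * d') := by
  refine glg_isUni_iff.2 (glg_U.conj (ρ := fun i k => ∀ c ∈ K, (i < c ↔ k < c))
    (ρ' := fun l j => (l < n → j < n) ∧ ∀ c ∈ K, (l < c ↔ j < c)) (glg_isUni_iff.1 hu)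
    (fun i j h => hd.2 i j h) ?_ hdd ?_)
  · intro i j h
    refine ⟨fun hi => ?_, hd'.2 i j h⟩
    by_contra hj
    have h1 := hd'.1 i j (Or.inr (not_lt.1 hj))
    rw [Matrix.one_apply_ne (fun e => by rw [e] at hi; exact hj hi)] at h1
    exact h h1
  · rintro i k l j - - - - h1 ⟨h2, c, hc, h3, h4⟩ ⟨h5, h6⟩
    refine ⟨h5 h2, c, hc, (h1 c hc).2 h3, ?_⟩
    by_contra h7
    have := (h6 c hc).2 (not_le.1 h7)
    omega

/-! ## the Levi part for one cut -/

/-- the block diagonal part for the cut `k` -/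
def glg_lev (k : ℕ) (A : gs_Mat N) : gs_Mat N := fun i j =>
  if ((i : ℕ) < k ↔ (j : ℕ) < k) then A i j else 0

theorem glg_lev_one (k : ℕ) : glg_lev k (1 : gs_Mat N) = 1 := by
  ext i j
  unfold glg_lev
  split_ifs with h
  · rfl
  · rw [Matrix.one_apply_ne]
    rintro rfl
    exact h Iff.rfl

theorem glg_lev_U {r : ℕ → ℕ → Prop} {u : gs_Mat N} (k : ℕ) (hu : glg_U r u) :
    glg_U (fun i j => r i j ∧ (i < k ↔ j < k)) (glg_lev k u) := by
  intro i j hij
  by_cases h : ((i : ℕ) < k ↔ (j : ℕ) < k)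
  · refine ⟨hu i j ?_, h⟩
    rw [Matrix.sub_apply] at hij ⊢
    simpa [glg_lev, h] using hij
  · exfalso
    apply hij
    rw [Matrix.sub_apply, Matrix.one_apply_ne (by rintro rfl; exact h Iff.rfl)]
    simp [glg_lev, h]

theorem glg_sub_lev_Sup {r : ℕ → ℕ → Prop} {u : gs_Mat N} (k : ℕ) (hu : glg_U r u) :
    glg_Sup (fun i j => r i j ∧ ¬ (i < k ↔ j < k)) (u - glg_lev k u) := by
  intro i j hij
  by_cases h : ((i : ℕ) < k ↔ (j : ℕ) < k)
  · exfalso
    apply hij
    simp [glg_lev, h]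
  · refine ⟨hu i j ?_, h⟩
    rw [Matrix.sub_apply] at hij ⊢
    rw [Matrix.one_apply_ne (by rintro rfl; exact h Iff.rfl), sub_zero]
    simpa [glg_lev, h] using hij

/-- parabolic decomposition, right version -/
theorem glg_mul_lev_inv {r : ℕ → ℕ → Prop} {u : gs_Mat N} (k : ℕ) (hu : glg_U r u)
    (hlt : ∀ i j, i < N → j < N → r i j → i < j)
    (htr : ∀ i k j, i < N → k < N → j < N → r i k → r k j → r i j) :
    glg_U (fun i j => r i j ∧ i < k ∧ k ≤ j) (u * (glg_lev k u)⁻¹) := by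
  have hδ := glg_lev_U k hu
  have hlt' : ∀ i j, i < N → j < N → (r i j ∧ (i < k ↔ j < k)) → i < j :=
    fun i j hi hj h => hlt i j hi hj h.1
  have htr' : ∀ i l j, i < N → l < N → j < N → (r i l ∧ (i < k ↔ l < k)) →
      (r l j ∧ (l < k ↔ j < k)) → (r i j ∧ (i < k ↔ j < k)) :=
    fun i l j hi hl hj h1 h2 => ⟨htr i l j hi hl hj h1.1 h2.1, h1.2.trans h2.2⟩
  have hinv := (hδ.inv hlt' htr').sup
  have e : u * (glg_lev k u)⁻¹ - 1 = (u - glg_lev k u) * (glg_lev k u)⁻¹ := by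
    rw [sub_mul, Matrix.mul_nonsing_inv _ (hδ.isUnit_det hlt')]
  unfold glg_U
  rw [e]
  refine glg_Sup.mul (glg_sub_lev_Sup k hu) hinv ?_
  rintro i l j hi hl hj ⟨h1, h2⟩ h3
  have h4 := hlt i l hi hl h1
  rcases h3 with rfl | ⟨h3, h5⟩
  · exact ⟨h1, by omega, by omega⟩
  · exact ⟨htr i l j hi hl hj h1 h3, by omega, by omega⟩

/-- parabolic decomposition, left version -/
theorem glg_lev_inv_mul {r : ℕ → ℕ → Prop} {u : gs_Mat N} (k : ℕ) (hu : glg_U r u)
    (hlt : ∀ i j, i < N → j < N → r i j → i < j)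
    (htr : ∀ i k j, i < N → k < N → j < N → r i k → r k j → r i j) :
    glg_U (fun i j => r i j ∧ i < k ∧ k ≤ j) ((glg_lev k u)⁻¹ * u) := by
  have hδ := glg_lev_U k hu
  have hlt' : ∀ i j, i < N → j < N → (r i j ∧ (i < k ↔ j < k)) → i < j :=
    fun i j hi hj h => hlt i j hi hj h.1
  have htr' : ∀ i l j, i < N → l < N → j < N → (r i l ∧ (i < k ↔ l < k)) →
      (r l j ∧ (l < k ↔ j < k)) → (r i j ∧ (i < k ↔ j < k)) :=
    fun i l j hi hl hj h1 h2 => ⟨htr i l j hi hl hj h1.1 h2.1, h1.2.trans h2.2⟩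
  have hinv := (hδ.inv hlt' htr').sup
  have e : (glg_lev k u)⁻¹ * u - 1 = (glg_lev k u)⁻¹ * (u - glg_lev k u) := by
    rw [mul_sub, Matrix.nonsing_inv_mul _ (hδ.isUnit_det hlt')]
  unfold glg_U
  rw [e]
  refine glg_Sup.mul hinv (glg_sub_lev_Sup k hu) ?_
  rintro i l j hi hl hj h3 ⟨h1, h2⟩
  have h4 := hlt l j hl hj h1
  rcases h3 with rfl | ⟨h3, h5⟩
  · exact ⟨h1, by omega, by omega⟩
  · exact ⟨htr i l j hi hl hj h3 h1, by omega, by omega⟩

/-! ## commutation -/

/-- a matrix living in the `k`-corner commutes with a matrix living in the complementary corner -/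
theorem glg_commute {k : ℕ} {A B : gs_Mat N} (hA : glg_U (fun i j => i < k ∧ j < k) A)
    (hB : glg_U (fun i j => k ≤ i ∧ k ≤ j) B) : A * B = B * A := by
  have h1 : (A - 1) * (B - 1) = 0 := glg_Sup.mul_eq_zero hA hB (by intros; omega)
  have h2 : (B - 1) * (A - 1) = 0 := glg_Sup.mul_eq_zero hB hA (by intros; omega)
  have e1 : A * B = (A - 1) * (B - 1) + A + B - 1 := by noncomm_ring
  have e2 : B * A = (B - 1) * (A - 1) + A + B - 1 := by noncomm_ring
  rw [e1, e2, h1, h2]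

/-! ## corners and embeddings -/

theorem glg_corner_U {m : ℕ} {A : gs_Mat N} (hA : gs_IsCorner m A) :
    glg_U (fun i j => i < m ∧ j < m) A := by
  intro i j hij
  by_contra h
  apply hij
  rw [Matrix.sub_apply, hA i j (by omega), sub_self]

theorem glg_emb_U {m : ℕ} (o : ℕ) {A : gs_Mat N} (hA : gs_IsCorner m A) :
    glg_U (fun i j => o ≤ i ∧ i < o + m ∧ o ≤ j ∧ j < o + m) (gs_emb o A) := by
  intro i j hij
  by_contra h
  apply hij
  rw [Matrix.sub_apply]
  by_cases h1 : o ≤ (i : ℕ) ∧ o ≤ (j : ℕ)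
  · rw [gm_emb_apply_ge o A h1.1 h1.2, hA _ _ (by simp only []; omega),
      gm_one_apply_sub o h1.1 h1.2, sub_self]
  · simp [gs_emb, h1]

/-! ## swaps -/

theorem glg_swapFn_lt {o a b r : ℕ} (h : o + a + b ≤ N) (hr : r < N) : gs_swapFn o a b r < N := by
  unfold gs_swapFn
  split_ifs <;> omega

theorem glg_swapFn_swapFn (o a b r : ℕ) : gs_swapFn o b a (gs_swapFn o a b r) = r := by
  unfold gs_swapFn
  split_ifs <;> omega

theorem glg_swapMat_Sup (o a b : ℕ) :
    glg_Sup (fun i j => gs_swapFn o a b i = j) (gs_swapMat o a b : gs_Mat N) := by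
  intro i j hij
  by_contra h
  exact hij (by simp [gs_swapMat, h])

theorem glg_swapMat_mul {o a b : ℕ} (h : o + a + b ≤ N) :
    (gs_swapMat o a b : gs_Mat N) * gs_swapMat o b a = 1 := by
  ext i j
  rw [Matrix.mul_apply, Finset.sum_eq_single (⟨gs_swapFn o a b i, glg_swapFn_lt h i.2⟩ : Fin N)]
  · simp only [gs_swapMat, if_true, one_mul, glg_swapFn_swapFn]
    by_cases hij : i = j
    · subst hij; simp
    · rw [Matrix.one_apply_ne hij, if_neg (fun e => hij (Fin.ext e))]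
  · intro k _ hk
    have : gs_swapFn o a b i ≠ (k : ℕ) := fun e => hk (Fin.ext e.symm)
    simp [gs_swapMat, this]
  · intro h1
    exact absurd (Finset.mem_univ _) h1

/-! ## the shuffle of a two-block colouring is a swap -/

/-- the colouring `(u1 | q1)(u2 | q2)` -/
def glg_col (u1 q1 u2 : ℕ) : ℕ → Bool := fun j => decide (j < u1 ∨ (u1 + q1 ≤ j ∧ j < u1 + q1 + u2))

theorem glg_cU (u1 q1 u2 r : ℕ) : gr_cU (glg_col u1 q1 u2) r =
    if r ≤ u1 then r else if r ≤ u1 + q1 then u1 else if r ≤ u1 + q1 + u2 then r - q1 else u1 + u2 := by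
  induction r with
  | zero => simp [gr_cU]
  | succ r ih =>
    unfold gr_cU at ih ⊢
    rw [Nat.count_succ, ih]
    simp only [glg_col, decide_eq_true_eq]
    split_ifs <;> omega

theorem glg_cQ (u1 q1 u2 r : ℕ) : gr_cQ (glg_col u1 q1 u2) r =
    if r ≤ u1 then 0 else if r ≤ u1 + q1 then r - u1 else if r ≤ u1 + q1 + u2 then q1
      else r - (u1 + u2) := by
  induction r with
  | zero => simp [gr_cQ]
  | succ r ih =>
    unfold gr_cQ at ih ⊢
    rw [Nat.count_succ, ih]
    simp only [glg_col, decide_eq_false_iff_not]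
    split_ifs <;> omega

theorem glg_shFn (u1 q1 u2 q2 r : ℕ) :
    gr_shFn (glg_col u1 q1 u2) (u1 + q1 + u2 + q2) (u1 + u2) r = gs_swapFn u1 q1 u2 r := by
  unfold gr_shFn gs_swapFn
  rw [glg_cU, glg_cQ]
  simp only [glg_col, decide_eq_true_eq]
  split_ifs <;> omega

theorem glg_sh (u1 q1 u2 q2 : ℕ) :
    (gr_sh (glg_col u1 q1 u2) (u1 + q1 + u2 + q2) (u1 + u2) : gs_Mat N) = gs_swapMat u1 q1 u2 := by
  ext i j
  simp only [gr_sh, gs_swapMat, glg_shFn]

end Claimed.Agent.R236
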