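import Mathlib
import Claimed.Agent.R236.GLocG0

/-!
# Row 236, G-LOCG, file 1: the core factorisation (owner helper299)

Blocks `(u1 | q1)(u2 | q2)` (refined order), `(u1 | u2)(q1 | q2)` (standard order), `S` = the swap of the two middle
blocks (rows refined, columns standard), `a = u1 + q1`, `k = u1 + u2`, `m = u1 + q1 + u2 + q2`.

`d` block diagonal for the cut `a`, `n` unitriangular for the refined frame, `w` unitriangular for the standard frame:

  `d * n * S * w = E * (d * S) * b`,   `E ∈ U(a | m - a)`,  `b ∈ U(k | m - k)`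

with `E = d (n l⁻¹) (S δ S⁻¹) d⁻¹`, `b = δ⁻¹ (S⁻¹ l S) w`, `l = glg_lev a n`, `δ = glg_lev k w`.
-/

set_option autoImplicit false

namespace Claimed.Agent.R236

variable {N : ℕ}

/-- block diagonal for the cut `a` inside the `m`-corner -/
def glg_bd (a m i j : ℕ) : Prop := (i < a ∧ j < a) ∨ (a ≤ i ∧ i < m ∧ a ≤ j ∧ j < m) ∨ i = j

/-- the radical of the cut `a` -/
def glg_rad (a m i j : ℕ) : Prop := i < a ∧ a ≤ j ∧ j < m

theorem glg_isUni_rad_iff {a m : ℕ} {u : gs_Mat N} :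
    gs_IsUni m {0, a, m} u ↔ glg_U (glg_rad a m) u := by
  rw [glg_isUni_iff]
  constructor
  · intro h
    refine h.mono fun i j _ _ h1 => ?_
    simp only [glg_rel, Finset.mem_insert, Finset.mem_singleton, exists_eq_or_imp,
      exists_eq_left] at h1
    unfold glg_rad
    omega
  · intro h
    refine h.mono fun i j _ _ h1 => ?_
    simp only [glg_rel, Finset.mem_insert, Finset.mem_singleton, exists_eq_or_imp, exists_eq_left]
    unfold glg_rad at h1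
    omega

theorem glg_rad_mul {a m : ℕ} {u v : gs_Mat N} (hu : glg_U (glg_rad a m) u)
    (hv : glg_U (glg_rad a m) v) : glg_U (glg_rad a m) (u * v) :=
  hu.mul hv (by unfold glg_rad; intros; omega)

theorem glg_rad_inv {a m : ℕ} {u : gs_Mat N} (hu : glg_U (glg_rad a m) u) :
    glg_U (glg_rad a m) u⁻¹ :=
  hu.inv (by unfold glg_rad; intros; omega) (by unfold glg_rad; intros; omega)

theorem glg_rad_isUnit {a m : ℕ} {u : gs_Mat N} (hu : glg_U (glg_rad a m) u) : IsUnit u.det :=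
  hu.isUnit_det (by unfold glg_rad; intros; omega)

theorem glg_rad_conj {a m : ℕ} {d d' u : gs_Mat N} (hd : glg_Sup (glg_bd a m) d)
    (hd' : glg_Sup (glg_bd a m) d') (hdd : d * d' = 1) (hu : glg_U (glg_rad a m) u) :
    glg_U (glg_rad a m) (d * u * d') :=
  hu.conj hd hd' hdd (by unfold glg_rad glg_bd; intros; omega)

theorem glg_bd_mul {a m : ℕ} {d e : gs_Mat N} (hd : glg_Sup (glg_bd a m) d)
    (he : glg_Sup (glg_bd a m) e) : glg_Sup (glg_bd a m) (d * e) :=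
  hd.mul he (by unfold glg_bd; intros; omega)

section core

variable (u1 q1 u2 q2 : ℕ)

/-- the left correction -/
noncomputable def glg_E (d d' n w : gs_Mat N) : gs_Mat N :=
  d * (n * (glg_lev (u1 + q1) n)⁻¹) *
    (gs_swapMat u1 q1 u2 * glg_lev (u1 + u2) w * gs_swapMat u1 u2 q1) * d'

/-- the remainder -/
noncomputable def glg_B (n w : gs_Mat N) : gs_Mat N :=
  (glg_lev (u1 + u2) w)⁻¹ *
    (gs_swapMat u1 u2 q1 * glg_lev (u1 + q1) n * gs_swapMat u1 q1 u2) * w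

variable {u1 q1 u2 q2}
variable {d d' n w : gs_Mat N}

theorem glg_lev_isUnit {m k : ℕ} {K : Finset ℕ} {u : gs_Mat N} (hu : gs_IsUni m K u) :
    IsUnit (glg_lev k u).det :=
  (glg_lev_U k (glg_isUni_iff.1 hu)).isUnit_det fun _ _ _ _ h => glg_rel_lt h.1

theorem glg_lev_det {m k : ℕ} {K : Finset ℕ} {u : gs_Mat N} (hu : gs_IsUni m K u) :
    (glg_lev k u).det = 1 :=
  (glg_lev_U k (glg_isUni_iff.1 hu)).det fun _ _ _ _ h => glg_rel_lt h.1

theorem glg_E_rad (hN : u1 + q1 + u2 + q2 ≤ N) (hdd : d * d' = 1)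
    (hd : glg_Sup (glg_bd (u1 + q1) (u1 + q1 + u2 + q2)) d)
    (hd' : glg_Sup (glg_bd (u1 + q1) (u1 + q1 + u2 + q2)) d')
    (hn : gs_IsUni (u1 + q1 + u2 + q2) {0, u1, u1 + q1, u1 + q1 + u2, u1 + q1 + u2 + q2} n)
    (hw : gs_IsUni (u1 + q1 + u2 + q2) {0, u1, u1 + u2, u1 + u2 + q1, u1 + q1 + u2 + q2} w) :
    glg_U (glg_rad (u1 + q1) (u1 + q1 + u2 + q2)) (glg_E u1 q1 u2 d d' n w) := by
  have h1 : glg_U (glg_rad (u1 + q1) (u1 + q1 + u2 + q2)) (n * (glg_lev (u1 + q1) n)⁻¹) := by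
    refine (glg_mul_lev_inv (u1 + q1) (glg_isUni_iff.1 hn) (fun _ _ _ _ h => glg_rel_lt h)
      fun _ _ _ _ _ _ h1 h2 => glg_rel_trans h1 h2).mono fun i j _ _ h => ?_
    obtain ⟨⟨h1, -⟩, h2, h3⟩ := h
    exact ⟨h2, h3, h1⟩
  have h2 : glg_U (glg_rad (u1 + q1) (u1 + q1 + u2 + q2))
      (gs_swapMat u1 q1 u2 * glg_lev (u1 + u2) w * gs_swapMat u1 u2 q1) := by
    refine (glg_lev_U (u1 + u2) (glg_isUni_iff.1 hw)).conj (glg_swapMat_Sup u1 q1 u2)
      (glg_swapMat_Sup u1 u2 q1) (glg_swapMat_mul (by omega)) ?_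
    intro i k l j _ _ _ _ h1 h2 h3
    simp only [glg_rel, Finset.mem_insert, Finset.mem_singleton, exists_eq_or_imp,
      exists_eq_left] at h2
    unfold gs_swapFn at h1 h3
    unfold glg_rad
    split_ifs at h1 h3 <;> omega
  have e : glg_E u1 q1 u2 d d' n w = d * ((n * (glg_lev (u1 + q1) n)⁻¹) *
      (gs_swapMat u1 q1 u2 * glg_lev (u1 + u2) w * gs_swapMat u1 u2 q1)) * d' := by
    unfold glg_E
    simp only [Matrix.mul_assoc]
  rw [e]
  exact glg_rad_conj hd hd' hdd (glg_rad_mul h1 h2)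

theorem glg_B_rad (hN : u1 + q1 + u2 + q2 ≤ N)
    (hn : gs_IsUni (u1 + q1 + u2 + q2) {0, u1, u1 + q1, u1 + q1 + u2, u1 + q1 + u2 + q2} n)
    (hw : gs_IsUni (u1 + q1 + u2 + q2) {0, u1, u1 + u2, u1 + u2 + q1, u1 + q1 + u2 + q2} w) :
    glg_U (glg_rad (u1 + u2) (u1 + q1 + u2 + q2)) (glg_B u1 q1 u2 n w) := by
  have hδ := glg_lev_U (u1 + u2) (glg_isUni_iff.1 hw)
  have hlt' : ∀ i j, i < N → j < N → (glg_rel (u1 + q1 + u2 + q2)
      {0, u1, u1 + u2, u1 + u2 + q1, u1 + q1 + u2 + q2} i j ∧ (i < u1 + u2 ↔ j < u1 + u2)) → i < j :=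
    fun i j _ _ h => glg_rel_lt h.1
  have hδi := hδ.inv hlt' fun i l j _ _ _ h1 h2 => ⟨glg_rel_trans h1.1 h2.1, h1.2.trans h2.2⟩
  have hδu := hδ.isUnit_det hlt'
  have h1 : glg_U (glg_rad (u1 + u2) (u1 + q1 + u2 + q2))
      (gs_swapMat u1 u2 q1 * glg_lev (u1 + q1) n * gs_swapMat u1 q1 u2) := by
    refine (glg_lev_U (u1 + q1) (glg_isUni_iff.1 hn)).conj (glg_swapMat_Sup u1 u2 q1)
      (glg_swapMat_Sup u1 q1 u2) (glg_swapMat_mul (by omega)) ?_
    intro i k l j _ _ _ _ h1 h2 h3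
    simp only [glg_rel, Finset.mem_insert, Finset.mem_singleton, exists_eq_or_imp,
      exists_eq_left] at h2
    unfold gs_swapFn at h1 h3
    unfold glg_rad
    split_ifs at h1 h3 <;> omega
  have h2 : glg_U (glg_rad (u1 + u2) (u1 + q1 + u2 + q2)) ((glg_lev (u1 + u2) w)⁻¹ *
      (gs_swapMat u1 u2 q1 * glg_lev (u1 + q1) n * gs_swapMat u1 q1 u2) * glg_lev (u1 + u2) w) := by
    refine h1.conj hδi.sup hδ.sup (Matrix.nonsing_inv_mul _ hδu) ?_
    intro i k l j _ _ _ _ h1 h2 h3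
    simp only [glg_rel, Finset.mem_insert, Finset.mem_singleton, exists_eq_or_imp,
      exists_eq_left] at h1 h3
    unfold glg_rad at h2 ⊢
    omega
  have h3 : glg_U (glg_rad (u1 + u2) (u1 + q1 + u2 + q2)) ((glg_lev (u1 + u2) w)⁻¹ * w) := by
    refine (glg_lev_inv_mul (u1 + u2) (glg_isUni_iff.1 hw) (fun _ _ _ _ h => glg_rel_lt h)
      fun _ _ _ _ _ _ h1 h2 => glg_rel_trans h1 h2).mono fun i j _ _ h => ?_
    obtain ⟨⟨h1, -⟩, h2, h3⟩ := h
    exact ⟨h2, h3, h1⟩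
  have e : glg_B u1 q1 u2 n w = ((glg_lev (u1 + u2) w)⁻¹ *
      (gs_swapMat u1 u2 q1 * glg_lev (u1 + q1) n * gs_swapMat u1 q1 u2) * glg_lev (u1 + u2) w) *
      ((glg_lev (u1 + u2) w)⁻¹ * w) := by
    unfold glg_B
    have c : ∀ x : gs_Mat N, glg_lev (u1 + u2) w * ((glg_lev (u1 + u2) w)⁻¹ * x) = x := fun x => by
      rw [← Matrix.mul_assoc, Matrix.mul_nonsing_inv _ hδu, Matrix.one_mul]
    simp only [Matrix.mul_assoc, c]
  rw [e]
  exact glg_rad_mul h2 h3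

theorem glg_core_eq (hN : u1 + q1 + u2 + q2 ≤ N) (hdd : d * d' = 1)
    (hn : gs_IsUni (u1 + q1 + u2 + q2) {0, u1, u1 + q1, u1 + q1 + u2, u1 + q1 + u2 + q2} n)
    (hw : gs_IsUni (u1 + q1 + u2 + q2) {0, u1, u1 + u2, u1 + u2 + q1, u1 + q1 + u2 + q2} w) :
    d * n * gs_swapMat u1 q1 u2 * w =
      glg_E u1 q1 u2 d d' n w * (d * gs_swapMat u1 q1 u2) * glg_B u1 q1 u2 n w := by
  have hl := glg_lev_isUnit (k := u1 + q1) hn
  have hδ := glg_lev_isUnit (k := u1 + u2) hw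
  have hd'd : d' * d = 1 := mul_eq_one_comm.1 hdd
  have c1 : ∀ x : gs_Mat N, d' * (d * x) = x := fun x => by
    rw [← Matrix.mul_assoc, hd'd, Matrix.one_mul]
  have c2 : ∀ x : gs_Mat N, gs_swapMat u1 u2 q1 * (gs_swapMat u1 q1 u2 * x) = x := fun x => by
    rw [← Matrix.mul_assoc, glg_swapMat_mul (by omega), Matrix.one_mul]
  have c3 : ∀ x : gs_Mat N, gs_swapMat u1 q1 u2 * (gs_swapMat u1 u2 q1 * x) = x := fun x => by
    rw [← Matrix.mul_assoc, glg_swapMat_mul (by omega), Matrix.one_mul]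
  have c4 : ∀ x : gs_Mat N, glg_lev (u1 + u2) w * ((glg_lev (u1 + u2) w)⁻¹ * x) = x := fun x => by
    rw [← Matrix.mul_assoc, Matrix.mul_nonsing_inv _ hδ, Matrix.one_mul]
  have c5 : ∀ x : gs_Mat N, (glg_lev (u1 + q1) n)⁻¹ * (glg_lev (u1 + q1) n * x) = x := fun x => by
    rw [← Matrix.mul_assoc, Matrix.nonsing_inv_mul _ hl, Matrix.one_mul]
  unfold glg_E glg_B
  simp only [Matrix.mul_assoc, c1, c2, c3, c4, c5]

end core

end Claimed.Agent.R236
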