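import Mathlib
import Claimed.Agent.R236.GLocG1

/-!
# Row 236, G-LOCG, file 2: the corrections `EL`, `ER` of a `G` letter and their soundness (owner helper299)
-/

set_option autoImplicit false

namespace Claimed.Agent.R236

variable {N : ℕ}

/-! ## group theory -/

theorem glg_group {G : Type*} [Group G]
    (M w0 w1 w2 w3 w4 w5 w6 w7 w8 h1 H2 k1 K2 yU YQ Sa Sb UU QQ EL E' b b' : G)
    (link : M * w0 * k1 * w1 * K2 * w2 * Sa * w3 * yU⁻¹ * w4 * YQ⁻¹ * w5 * Sb⁻¹ * w6 * h1⁻¹ * w7 *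
      H2⁻¹ * w8 = 1)
    (hL : w8⁻¹ * H2 * w7⁻¹ * h1 * w6⁻¹ * Sb * w5⁻¹ * UU = EL * (H2 * h1 * Sb) * b)
    (hR : w0 * k1 * w1 * K2 * w2 * Sa * w3 * QQ⁻¹ = E' * (k1 * K2 * Sa) * b') :
    (H2 * h1 * Sb)⁻¹ * EL⁻¹ * M * E' * (k1 * K2 * Sa) =
      b * UU⁻¹ * YQ * w4⁻¹ * yU * QQ⁻¹ * b'⁻¹ := by
  have hM : M = (w0 * k1 * w1 * K2 * w2 * Sa * w3 * yU⁻¹ * w4 * YQ⁻¹ * w5 * Sb⁻¹ * w6 * h1⁻¹ * w7 *
      H2⁻¹ * w8)⁻¹ := by
    apply eq_inv_of_mul_eq_one_left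
    rw [← link]
    group
  have hEL : EL = w8⁻¹ * H2 * w7⁻¹ * h1 * w6⁻¹ * Sb * w5⁻¹ * UU * b⁻¹ * (H2 * h1 * Sb)⁻¹ := by
    rw [hL]; group
  have hE' : E' = w0 * k1 * w1 * K2 * w2 * Sa * w3 * QQ⁻¹ * b'⁻¹ * (k1 * K2 * Sa)⁻¹ := by
    rw [hR]; group
  rw [hM, hEL, hE']
  group

/-- a matrix with invertible determinant as a unit -/
noncomputable def glg_unit (A : gs_Mat N) (h : IsUnit A.det) : (gs_Mat N)ˣ :=
  ⟨A, A⁻¹, Matrix.mul_nonsing_inv A h, Matrix.nonsing_inv_mul A h⟩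

theorem glg_unit_val (A : gs_Mat N) (h : IsUnit A.det) : ((glg_unit A h : (gs_Mat N)ˣ) : gs_Mat N) = A :=
  rfl

theorem glg_unit_inv_val (A : gs_Mat N) (h : IsUnit A.det) :
    (((glg_unit A h)⁻¹ : (gs_Mat N)ˣ) : gs_Mat N) = A⁻¹ := rfl

/-! ## corner part and tail part -/

/-- the part in the `k`-corner -/
def glg_cor (k : ℕ) (A : gs_Mat N) : gs_Mat N := fun i j =>
  if (i : ℕ) < k ∧ (j : ℕ) < k then A i j else (1 : gs_Mat N) i j

/-- the part in the complementary corner -/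
def glg_tl (k : ℕ) (A : gs_Mat N) : gs_Mat N := fun i j =>
  if k ≤ (i : ℕ) ∧ k ≤ (j : ℕ) then A i j else (1 : gs_Mat N) i j

theorem glg_cor_one (k : ℕ) : glg_cor k (1 : gs_Mat N) = 1 := by
  ext i j; simp [glg_cor]

theorem glg_tl_one (k : ℕ) : glg_tl k (1 : gs_Mat N) = 1 := by
  ext i j; simp [glg_tl]

theorem glg_cor_U {r : ℕ → ℕ → Prop} {u : gs_Mat N} (k : ℕ) (hu : glg_U r u) :
    glg_U (fun i j => r i j ∧ i < k ∧ j < k) (glg_cor k u) := by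
  intro i j hij
  by_cases h : (i : ℕ) < k ∧ (j : ℕ) < k
  · refine ⟨hu i j ?_, h⟩
    rw [Matrix.sub_apply] at hij ⊢
    simpa [glg_cor, h] using hij
  · exfalso
    apply hij
    rw [Matrix.sub_apply]
    simp [glg_cor, h]

theorem glg_tl_U {r : ℕ → ℕ → Prop} {u : gs_Mat N} (k : ℕ) (hu : glg_U r u) :
    glg_U (fun i j => r i j ∧ k ≤ i ∧ k ≤ j) (glg_tl k u) := by
  intro i j hij
  by_cases h : k ≤ (i : ℕ) ∧ k ≤ (j : ℕ)
  · refine ⟨hu i j ?_, h⟩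
    rw [Matrix.sub_apply] at hij ⊢
    simpa [glg_tl, h] using hij
  · exfalso
    apply hij
    rw [Matrix.sub_apply]
    simp [glg_tl, h]

theorem glg_cor_mul_tl (k : ℕ) (u : gs_Mat N) :
    glg_cor k u * glg_tl k u = glg_cor k u + glg_tl k u - 1 := by
  have h1 : glg_U (fun i j => True ∧ i < k ∧ j < k) (glg_cor k u) :=
    glg_cor_U k (r := fun _ _ => True) (fun _ _ _ => trivial)
  have h2 : glg_U (fun i j => True ∧ k ≤ i ∧ k ≤ j) (glg_tl k u) :=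
    glg_tl_U k (r := fun _ _ => True) (fun _ _ _ => trivial)
  have h3 : (glg_cor k u - 1) * (glg_tl k u - 1) = 0 :=
    glg_Sup.mul_eq_zero h1 h2 (by intros; omega)
  have e : glg_cor k u * glg_tl k u =
      (glg_cor k u - 1) * (glg_tl k u - 1) + (glg_cor k u + glg_tl k u - 1) := by noncomm_ring
  rw [e, h3, zero_add]

theorem glg_sub_cor_mul_tl {r : ℕ → ℕ → Prop} {u : gs_Mat N} (k : ℕ) (hu : glg_U r u) :
    glg_Sup (fun i j => r i j ∧ ¬ (i < k ↔ j < k)) (u - glg_cor k u * glg_tl k u) := by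
  rw [glg_cor_mul_tl]
  intro i j hij
  by_cases h : ((i : ℕ) < k ↔ (j : ℕ) < k)
  · exfalso
    apply hij
    by_cases h1 : (i : ℕ) < k
    · have h2 := h.1 h1
      have h3 : ¬ (k ≤ (i : ℕ) ∧ k ≤ (j : ℕ)) := by omega
      simp [glg_cor, glg_tl, h1, h2, h3]
    · have h2 : ¬ (j : ℕ) < k := fun h2 => h1 (h.2 h2)
      have h3 : k ≤ (i : ℕ) ∧ k ≤ (j : ℕ) := by omega
      simp [glg_cor, glg_tl, h1, h3]
  · refine ⟨hu i j ?_, h⟩
    have h1 : ¬ ((i : ℕ) < k ∧ (j : ℕ) < k) := by omega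
    have h2 : ¬ (k ≤ (i : ℕ) ∧ k ≤ (j : ℕ)) := by omega
    have h3 : i ≠ j := by rintro rfl; exact h Iff.rfl
    simp only [Matrix.sub_apply, Matrix.add_apply, glg_cor, glg_tl, if_neg h1, if_neg h2,
      Matrix.one_apply_ne h3] at hij ⊢
    simpa using hij

/-! ## conjugation by a matrix living in one block -/

theorem glg_isUni_conj_block {m lo hi : ℕ} {K : Finset ℕ} {d d' u : gs_Mat N}
    (hd : glg_U (fun i j => lo ≤ i ∧ i < hi ∧ lo ≤ j ∧ j < hi) d)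
    (hd' : glg_U (fun i j => lo ≤ i ∧ i < hi ∧ lo ≤ j ∧ j < hi) d') (hdd : d * d' = 1)
    (hhi : hi ≤ m) (hK : ∀ c ∈ K, c ≤ lo ∨ hi ≤ c) (hu : gs_IsUni m K u) :
    gs_IsUni m K (d * u * d') := by
  refine glg_isUni_iff.2 ((glg_isUni_iff.1 hu).conj hd.sup hd'.sup hdd ?_)
  rintro i k l j - - - - h1 ⟨h2, c, hc, h3, h4⟩ h5
  have h6 := hK c hc
  exact ⟨by omega, c, hc, by omega, by omega⟩

theorem glg_corner_block {a : ℕ} {A : gs_Mat N} (hA : gs_IsCorner a A) :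
    glg_U (fun i j => 0 ≤ i ∧ i < a ∧ 0 ≤ j ∧ j < a) A :=
  (glg_corner_U hA).mono (by intros; omega)

/-- flexible form of the core factorisation -/
theorem glg_core_flex {u1 q1 u2 q2 a k m : ℕ} {d d' n w : gs_Mat N} (ha : a = u1 + q1)
    (hk : k = u1 + u2) (hm : m = u1 + q1 + u2 + q2) (hN : m ≤ N) (hdd : d * d' = 1)
    (hd : glg_Sup (glg_bd a m) d) (hd' : glg_Sup (glg_bd a m) d')
    (hn : gs_IsUni m {0, u1, a, a + u2, m} n) (hw : gs_IsUni m {0, u1, k, k + q1, m} w) :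
    glg_U (glg_rad a m) (glg_E u1 q1 u2 d d' n w) ∧ glg_U (glg_rad k m) (glg_B u1 q1 u2 n w) ∧
      d * n * gs_swapMat u1 q1 u2 * w =
        glg_E u1 q1 u2 d d' n w * (d * gs_swapMat u1 q1 u2) * glg_B u1 q1 u2 n w := by
  subst ha hk hm
  exact ⟨glg_E_rad hN hdd hd hd' hn hw, glg_B_rad hN hn hw, glg_core_eq hN hdd hn hw⟩

end Claimed.Agent.R236
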