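import Mathlib
import Claimed.Agent.R236.GLocG2

/-!
# Row 236, G-LOCG, file 3: half links and the triangular product (owner helper299)
-/

set_option autoImplicit false

namespace Claimed.Agent.R236

variable {N : ℕ}

/-- a unit from an explicit pair of inverse matrices -/
def glg_pair (A B : gs_Mat N) (h : A * B = 1) : (gs_Mat N)ˣ := ⟨A, B, h, mul_eq_one_comm.1 h⟩

theorem glg_pair_val (A B : gs_Mat N) (h : A * B = 1) :
    ((glg_pair A B h : (gs_Mat N)ˣ) : gs_Mat N) = A := rfl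

theorem glg_pair_inv_val (A B : gs_Mat N) (h : A * B = 1) :
    (((glg_pair A B h)⁻¹ : (gs_Mat N)ˣ) : gs_Mat N) = B := rfl

/-- the unitriangular part of a half link `A0 * x * A1 * y * A2` -/
def glg_n (x y x' y' A0 A1 A2 : gs_Mat N) : gs_Mat N :=
  ((y' * x') * A0 * (x * y)) * (y' * A1 * y) * A2

theorem glg_n_eq {x y x' y' : gs_Mat N} (A0 A1 A2 : gs_Mat N) (hx : x * x' = 1) (hy : y * y' = 1) :
    (x * y) * glg_n x y x' y' A0 A1 A2 = A0 * x * A1 * y * A2 := by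
  have c1 : ∀ t : gs_Mat N, x * (x' * t) = t := fun t => by
    rw [← Matrix.mul_assoc, hx, Matrix.one_mul]
  have c2 : ∀ t : gs_Mat N, y * (y' * t) = t := fun t => by
    rw [← Matrix.mul_assoc, hy, Matrix.one_mul]
  unfold glg_n
  simp only [Matrix.mul_assoc, c1, c2]

theorem glg_half {u1 q1 u2 q2 a k m : ℕ} {x y x' y' A0 A1 A2 w : gs_Mat N} (ha : a = u1 + q1)
    (hk : k = u1 + u2) (hm : m = u1 + q1 + u2 + q2) (hN : m ≤ N) (hx : x * x' = 1)
    (hy : y * y' = 1) (sx : glg_Sup (glg_bd a m) x) (sx' : glg_Sup (glg_bd a m) x')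
    (sy : glg_Sup (glg_bd a m) y) (sy' : glg_Sup (glg_bd a m) y')
    (h0 : gs_IsUni m {0, a, m} A0) (h1 : gs_IsUni m {0, u1, a, a + u2, m} (y' * A1 * y))
    (h2 : gs_IsUni m {0, u1, a, a + u2, m} A2) (hw : gs_IsUni m {0, u1, k, k + q1, m} w) :
    gs_IsUni m {0, u1, a, a + u2, m} (glg_n x y x' y' A0 A1 A2) ∧
    glg_U (glg_rad a m) (glg_E u1 q1 u2 (x * y) (y' * x') (glg_n x y x' y' A0 A1 A2) w) ∧
    glg_U (glg_rad k m) (glg_B u1 q1 u2 (glg_n x y x' y' A0 A1 A2) w) ∧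
    A0 * x * A1 * y * A2 * gs_swapMat u1 q1 u2 * w =
      glg_E u1 q1 u2 (x * y) (y' * x') (glg_n x y x' y' A0 A1 A2) w *
        (x * y * gs_swapMat u1 q1 u2) * glg_B u1 q1 u2 (glg_n x y x' y' A0 A1 A2) w := by
  have hdd : (x * y) * (y' * x') = 1 := by
    rw [Matrix.mul_assoc, ← Matrix.mul_assoc y, hy, Matrix.one_mul, hx]
  have hdd' : (y' * x') * (x * y) = 1 := mul_eq_one_comm.1 hdd
  have h0' : gs_IsUni m {0, u1, a, a + u2, m} ((y' * x') * A0 * (x * y)) := by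
    have := glg_isUni_rad_iff.2
      (glg_rad_conj (glg_bd_mul sy' sx') (glg_bd_mul sx sy) hdd' (glg_isUni_rad_iff.1 h0))
    refine glg_isUni_mono ?_ this
    intro c hc
    simp only [Finset.mem_insert, Finset.mem_singleton] at hc ⊢
    omega
  have hn : gs_IsUni m {0, u1, a, a + u2, m} (glg_n x y x' y' A0 A1 A2) :=
    glg_isUni_mul (glg_isUni_mul h0' h1) h2
  obtain ⟨e1, e2, e3⟩ := glg_core_flex (q2 := q2) ha hk hm hN hdd (glg_bd_mul sx sy)
    (glg_bd_mul sy' sx') hn hw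
  refine ⟨hn, e1, e2, ?_⟩
  rw [← e3, glg_n_eq A0 A1 A2 hx hy]

/-! ## the triangular product -/

/-- block upper triangular for the cut `k` inside the `m`-corner -/
def glg_tri (k m i j : ℕ) : Prop :=
  i = j ∨ (i < k ∧ j < k) ∨ (k ≤ i ∧ i < m ∧ k ≤ j ∧ j < m) ∨ (i < k ∧ k ≤ j ∧ j < m)

theorem glg_tri_mul {k m : ℕ} {x y : gs_Mat N} (hx : glg_Sup (glg_tri k m) x)
    (hy : glg_Sup (glg_tri k m) y) : glg_Sup (glg_tri k m) (x * y) :=
  hx.mul hy (by unfold glg_tri; intros; omega)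

theorem glg_tri_mul_rad {k m : ℕ} {x y : gs_Mat N} (hx : glg_Sup (glg_tri k m) x)
    (hy : glg_Sup (glg_rad k m) y) : glg_Sup (glg_rad k m) (x * y) :=
  hx.mul hy (by unfold glg_tri glg_rad; intros; omega)

theorem glg_rad_mul_tri {k m : ℕ} {x y : gs_Mat N} (hx : glg_Sup (glg_rad k m) x)
    (hy : glg_Sup (glg_tri k m) y) : glg_Sup (glg_rad k m) (x * y) :=
  hx.mul hy (by unfold glg_tri glg_rad; intros; omega)

theorem glg_tri_of_rad {k m : ℕ} {b : gs_Mat N} (h : glg_U (glg_rad k m) b) :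
    glg_Sup (glg_tri k m) b :=
  h.sup.mono (by unfold glg_tri glg_rad; intros; omega)

theorem glg_tri_of_cor {k m : ℕ} {P : gs_Mat N} (h : glg_U (fun i j => i < k ∧ j < k) P) :
    glg_Sup (glg_tri k m) P :=
  h.sup.mono (by unfold glg_tri; intros; omega)

theorem glg_tri_of_tl {k m : ℕ} {Q : gs_Mat N}
    (h : glg_U (fun i j => k ≤ i ∧ i < m ∧ k ≤ j ∧ j < m) Q) : glg_Sup (glg_tri k m) Q :=
  h.sup.mono (by unfold glg_tri; intros; omega)

theorem glg_tri_prod {k m : ℕ} {b1 b2 b3 P Q : gs_Mat N} (h1 : glg_U (glg_rad k m) b1)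
    (h2 : glg_U (glg_rad k m) b2) (h3 : glg_U (glg_rad k m) b3)
    (hP : glg_U (fun i j => i < k ∧ j < k) P)
    (hQ : glg_U (fun i j => k ≤ i ∧ i < m ∧ k ≤ j ∧ j < m) Q) :
    glg_Sup (glg_rad k m) (b1 * Q * b2 * P * b3 - P * Q) := by
  have hc : P * Q = Q * P := glg_commute hP (hQ.mono (by intros; omega))
  have e : b1 * Q * b2 * P * b3 - P * Q =
      (b1 - 1) * (Q * b2 * P * b3) + Q * ((b2 - 1) * (P * b3)) + Q * P * (b3 - 1) := by
    rw [hc]; noncomm_ring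
  rw [e]
  have tP := glg_tri_of_cor (m := m) hP
  have tQ := glg_tri_of_tl hQ
  have t2 := glg_tri_of_rad h2
  have t3 := glg_tri_of_rad h3
  exact ((glg_rad_mul_tri h1 (glg_tri_mul (glg_tri_mul (glg_tri_mul tQ t2) tP) t3)).add
    (glg_tri_mul_rad tQ (glg_rad_mul_tri h2 (glg_tri_mul tP t3)))).add
    (glg_tri_mul_rad (glg_tri_mul tQ tP) h3)

end Claimed.Agent.R236
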