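import Mathlib
import Claimed.Agent.R236.GLocG3

/-!
# Row 236, G-LOCG, file 4: the corrections `EL`, `ER` of a `G` letter; soundness (owner helper299)
-/

set_option autoImplicit false

namespace Claimed.Agent.R236

variable {N : ℕ}

section defs
variable (ν : gr_GNum) (z : gr_GIdx → gs_Mat N)

/-- unitriangular part of the left half link -/
noncomputable def glg_nL : gs_Mat N :=
  glg_n (gs_emb ν.a (z .h2)) (z .h1) (gs_emb ν.a (z .h2)⁻¹) (z .h1)⁻¹ (z .w8)⁻¹ (z .w7)⁻¹ (z .w6)⁻¹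

/-- standard unitriangular part of the left half link -/
noncomputable def glg_wL : gs_Mat N := (z .w5)⁻¹ * glg_cor ν.km (z .w4)⁻¹

/-- the left correction -/
noncomputable def glg_EL : gs_Mat N :=
  glg_E ν.u1 ν.q1 ν.u2 (gs_emb ν.a (z .h2) * z .h1) ((z .h1)⁻¹ * gs_emb ν.a (z .h2)⁻¹)
    (glg_nL ν z) (glg_wL ν z)

/-- unitriangular part of the right half link -/
noncomputable def glg_nR : gs_Mat N :=
  glg_n (z .k1) (gs_emb ν.c (z .k2)) (z .k1)⁻¹ (gs_emb ν.c (z .k2)⁻¹) (z .w0) (z .w1) (z .w2)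

/-- standard unitriangular part of the right half link -/
noncomputable def glg_wR : gs_Mat N := z .w3 * (glg_tl ν.km (z .w4)⁻¹)⁻¹

/-- the inverse of the right correction -/
noncomputable def glg_ER' : gs_Mat N :=
  glg_E ν.v1 ν.p1 ν.v2 (z .k1 * gs_emb ν.c (z .k2)) (gs_emb ν.c (z .k2)⁻¹ * (z .k1)⁻¹)
    (glg_nR ν z) (glg_wR ν z)

/-- the right correction -/
noncomputable def glg_ER : gs_Mat N := (glg_ER' ν z)⁻¹

end defs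

/-! ## shapes -/

theorem glg_GL_pair {m : ℕ} {A : gs_Mat N} (h : gr_GL m A) : A * A⁻¹ = 1 :=
  Matrix.mul_nonsing_inv A h.1

theorem glg_GL_emb_pair {m o : ℕ} {A : gs_Mat N} (h : gr_GL m A) (ho : o + m ≤ N) :
    gs_emb o A * gs_emb o A⁻¹ = 1 := by
  rw [gm_emb_inv h.2 h.1 ho]
  exact Matrix.mul_nonsing_inv _ (gm_emb_isUnit h.2 h.1 ho)

theorem glg_GL_inv {m : ℕ} {A : gs_Mat N} (h : gr_GL m A) : gr_GL m A⁻¹ :=
  ⟨Matrix.isUnit_nonsing_inv_det A h.1, gm_corner_inv h.2 h.1⟩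

theorem glg_bd_of_corner {a m : ℕ} {A : gs_Mat N} (h : gs_IsCorner a A) :
    glg_Sup (glg_bd a m) A :=
  (glg_corner_U h).sup.mono (by unfold glg_bd; intros; omega)

theorem glg_bd_of_emb {a m r : ℕ} {A : gs_Mat N} (h : gs_IsCorner r A) (hr : a + r ≤ m) :
    glg_Sup (glg_bd a m) (gs_emb a A) :=
  (glg_emb_U a h).sup.mono (by unfold glg_bd; intros; omega)

/-! ## the two halves -/

section sound
variable {ν : gr_GNum} {z : gr_GIdx → gs_Mat N}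

theorem glg_wL_uni (hz : gr_GOk ν z) :
    gs_IsUni ν.m {0, ν.u1, ν.km, ν.km + ν.q1, ν.m} (glg_wL ν z) := by
  have hk : ν.km = ν.u1 + ν.u2 := rfl
  refine glg_isUni_mul (glg_isUni_inv hz.w5) (glg_isUni_iff.2
    ((glg_cor_U ν.km (glg_isUni_iff.1 (glg_isUni_inv hz.w4))).mono ?_))
  rintro i j - - ⟨h1, h2, h3⟩
  simp only [glg_rel, Finset.mem_insert, Finset.mem_singleton, exists_eq_or_imp,
    exists_eq_left] at h1 ⊢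
  omega

theorem glg_tl_uni (hz : gr_GOk ν z) :
    gs_IsUni ν.m {0, ν.v1, ν.km, ν.km + ν.p1, ν.m} (glg_tl ν.km (z .w4)⁻¹) := by
  have hk : ν.km = ν.u1 + ν.u2 := rfl
  refine glg_isUni_iff.2 ((glg_tl_U ν.km (glg_isUni_iff.1 (glg_isUni_inv hz.w4))).mono ?_)
  rintro i j - - ⟨h1, h2, h3⟩
  simp only [glg_rel, Finset.mem_insert, Finset.mem_singleton, exists_eq_or_imp,
    exists_eq_left] at h1 ⊢
  omega

theorem glg_wR_uni (hz : gr_GOk ν z) :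
    gs_IsUni ν.m {0, ν.v1, ν.km, ν.km + ν.p1, ν.m} (glg_wR ν z) :=
  glg_isUni_mul hz.w3 (glg_isUni_inv (glg_tl_uni hz))

theorem glg_left (hN : ν.m ≤ N) (hz : gr_GOk ν z) :
    gs_IsUni ν.m {0, ν.u1, ν.a, ν.a + ν.u2, ν.m} (glg_nL ν z) ∧
    glg_U (glg_rad ν.a ν.m) (glg_EL ν z) ∧
    glg_U (glg_rad ν.km ν.m) (glg_B ν.u1 ν.q1 ν.u2 (glg_nL ν z) (glg_wL ν z)) ∧
    (z .w8)⁻¹ * gs_emb ν.a (z .h2) * (z .w7)⁻¹ * z .h1 * (z .w6)⁻¹ *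
        gs_swapMat ν.u1 ν.q1 ν.u2 * glg_wL ν z =
      glg_EL ν z * (gs_emb ν.a (z .h2) * z .h1 * gs_swapMat ν.u1 ν.q1 ν.u2) *
        glg_B ν.u1 ν.q1 ν.u2 (glg_nL ν z) (glg_wL ν z) := by
  have ha : ν.a = ν.u1 + ν.q1 := rfl
  have hk : ν.km = ν.u1 + ν.u2 := rfl
  have hm : ν.m = ν.u1 + ν.q1 + ν.u2 + ν.q2 := rfl
  refine glg_half (q2 := ν.q2) ha hk hm hN (glg_GL_emb_pair hz.h2 (by omega)) (glg_GL_pair hz.h1)
    (glg_bd_of_emb hz.h2.2 (by omega)) (glg_bd_of_emb (glg_GL_inv hz.h2).2 (by omega))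
    (glg_bd_of_corner hz.h1.2) (glg_bd_of_corner (glg_GL_inv hz.h1).2)
    (glg_isUni_inv hz.w8) ?_ (glg_isUni_inv hz.w6) (glg_wL_uni hz)
  refine glg_isUni_mono ?_ (glg_isUni_conj_block (lo := 0) (hi := ν.a)
    (glg_corner_block (glg_GL_inv hz.h1).2) (glg_corner_block hz.h1.2)
    (Matrix.nonsing_inv_mul _ hz.h1.1) (by omega) ?_ (glg_isUni_inv hz.w7))
  · intro c hc
    simp only [Finset.mem_insert, Finset.mem_singleton] at hc ⊢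
    omega
  · intro c hc
    simp only [Finset.mem_insert, Finset.mem_singleton] at hc
    omega

theorem glg_right (hOk : ν.Ok) (hN : ν.m ≤ N) (hz : gr_GOk ν z) :
    gs_IsUni ν.m {0, ν.v1, ν.c, ν.c + ν.v2, ν.m} (glg_nR ν z) ∧
    glg_U (glg_rad ν.c ν.m) (glg_ER' ν z) ∧
    glg_U (glg_rad ν.km ν.m) (glg_B ν.v1 ν.p1 ν.v2 (glg_nR ν z) (glg_wR ν z)) ∧
    z .w0 * z .k1 * z .w1 * gs_emb ν.c (z .k2) * z .w2 *
        gs_swapMat ν.v1 ν.p1 ν.v2 * glg_wR ν z =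
      glg_ER' ν z * (z .k1 * gs_emb ν.c (z .k2) * gs_swapMat ν.v1 ν.p1 ν.v2) *
        glg_B ν.v1 ν.p1 ν.v2 (glg_nR ν z) (glg_wR ν z) := by
  have hc : ν.c = ν.v1 + ν.p1 := rfl
  have hk0 : ν.km = ν.u1 + ν.u2 := rfl
  have hm0 : ν.m = ν.u1 + ν.q1 + ν.u2 + ν.q2 := rfl
  obtain ⟨o1, o2⟩ := hOk
  have hk : ν.km = ν.v1 + ν.v2 := by omega
  have hm : ν.m = ν.v1 + ν.p1 + ν.v2 + ν.p2 := by omega
  refine glg_half (q2 := ν.p2) hc hk hm hN (glg_GL_pair hz.k1) (glg_GL_emb_pair hz.k2 (by omega))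
    (glg_bd_of_corner hz.k1.2) (glg_bd_of_corner (glg_GL_inv hz.k1).2)
    (glg_bd_of_emb hz.k2.2 (by omega)) (glg_bd_of_emb (glg_GL_inv hz.k2).2 (by omega))
    hz.w0 ?_ hz.w2 (glg_wR_uni hz)
  refine glg_isUni_mono ?_ (glg_isUni_conj_block (lo := ν.c) (hi := ν.c + (ν.v2 + ν.p2))
    (glg_emb_U ν.c (glg_GL_inv hz.k2).2) (glg_emb_U ν.c hz.k2.2)
    (mul_eq_one_comm.1 (glg_GL_emb_pair hz.k2 (by omega))) (by omega) ?_ hz.w1)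
  · intro c hc
    simp only [Finset.mem_insert, Finset.mem_singleton] at hc ⊢
    omega
  · intro c hc
    simp only [Finset.mem_insert, Finset.mem_singleton] at hc
    omega

end sound

/-! ## the middle unipotent -/

theorem glg_cor_isUnit {m k : ℕ} {K : Finset ℕ} {W : gs_Mat N} (hW : gs_IsUni m K W) :
    IsUnit (glg_cor k W).det :=
  (glg_cor_U k (glg_isUni_iff.1 hW)).isUnit_det fun _ _ _ _ h => glg_rel_lt h.1

theorem glg_tl_isUnit {m k : ℕ} {K : Finset ℕ} {W : gs_Mat N} (hW : gs_IsUni m K W) :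
    IsUnit (glg_tl k W).det :=
  (glg_tl_U k (glg_isUni_iff.1 hW)).isUnit_det fun _ _ _ _ h => glg_rel_lt h.1

theorem glg_tl_det {m k : ℕ} {K : Finset ℕ} {W : gs_Mat N} (hW : gs_IsUni m K W) :
    (glg_tl k W).det = 1 :=
  (glg_tl_U k (glg_isUni_iff.1 hW)).det fun _ _ _ _ h => glg_rel_lt h.1

theorem glg_cor_inv_U {m k : ℕ} {K : Finset ℕ} {W : gs_Mat N} (hW : gs_IsUni m K W) :
    glg_U (fun i j => glg_rel m K i j ∧ i < k ∧ j < k) (glg_cor k W)⁻¹ :=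
  (glg_cor_U k (glg_isUni_iff.1 hW)).inv (fun _ _ _ _ h => glg_rel_lt h.1)
    fun _ _ _ _ _ _ h1 h2 => ⟨glg_rel_trans h1.1 h2.1, h1.2.1, h2.2.2⟩

theorem glg_tl_inv_U {m k : ℕ} {K : Finset ℕ} {W : gs_Mat N} (hW : gs_IsUni m K W) :
    glg_U (fun i j => glg_rel m K i j ∧ k ≤ i ∧ k ≤ j) (glg_tl k W)⁻¹ :=
  (glg_tl_U k (glg_isUni_iff.1 hW)).inv (fun _ _ _ _ h => glg_rel_lt h.1)
    fun _ _ _ _ _ _ h1 h2 => ⟨glg_rel_trans h1.1 h2.1, h1.2.1, h2.2.2⟩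

theorem glg_b4 {m : ℕ} (k : ℕ) {K : Finset ℕ} {W : gs_Mat N} (hW : gs_IsUni m K W) :
    glg_U (glg_rad k m) ((glg_cor k W)⁻¹ * W * (glg_tl k W)⁻¹) := by
  have e : (glg_cor k W)⁻¹ * W * (glg_tl k W)⁻¹ - 1 =
      (glg_cor k W)⁻¹ * ((W - glg_cor k W * glg_tl k W) * (glg_tl k W)⁻¹) := by
    have e1 : (glg_cor k W)⁻¹ * (glg_cor k W * glg_tl k W * (glg_tl k W)⁻¹) = 1 := by
      rw [Matrix.mul_assoc, Matrix.mul_nonsing_inv _ (glg_tl_isUnit hW), Matrix.mul_one,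
        Matrix.nonsing_inv_mul _ (glg_cor_isUnit hW)]
    rw [sub_mul, mul_sub, e1, Matrix.mul_assoc]
  unfold glg_U
  rw [e]
  have h1 : glg_Sup (glg_tri k m) (glg_cor k W)⁻¹ :=
    (glg_cor_inv_U hW).sup.mono (by unfold glg_tri; intros; omega)
  have h2 : glg_Sup (glg_tri k m) (glg_tl k W)⁻¹ := by
    refine (glg_tl_inv_U hW).sup.mono ?_
    intro i j _ _ h
    rcases h with h | ⟨h, h3, h4⟩
    · exact Or.inl h
    · have h5 := glg_rel_lt h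
      have h6 := h.1
      unfold glg_tri
      omega
  have h3 : glg_Sup (glg_rad k m) (W - glg_cor k W * glg_tl k W) := by
    refine (glg_sub_cor_mul_tl k (glg_isUni_iff.1 hW)).mono ?_
    rintro i j - - ⟨h, h3⟩
    have h5 := glg_rel_lt h
    have h6 := h.1
    unfold glg_rad
    omega
  exact glg_tri_mul_rad h1 (glg_rad_mul_tri h3 h2)

/-! ## the group identity for matrices -/

theorem glg_group_mat
    {M w0 w1 w2 w3 w4 w5 w6 w7 w8 h1 H2 k1 K2 yU YQ Sa Sb UU QQ EL E' b b' : gs_Mat N}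
    {M_ w0_ w1_ w2_ w3_ w4_ w5_ w6_ w7_ w8_ h1_ H2_ k1_ K2_ yU_ YQ_ Sa_ Sb_ UU_ QQ_ EL_ E'_ b_
      b'_ : gs_Mat N}
    (pM : M * M_ = 1) (p0 : w0 * w0_ = 1) (p1 : w1 * w1_ = 1) (p2 : w2 * w2_ = 1)
    (p3 : w3 * w3_ = 1) (p4 : w4 * w4_ = 1) (p5 : w5 * w5_ = 1) (p6 : w6 * w6_ = 1)
    (p7 : w7 * w7_ = 1) (p8 : w8 * w8_ = 1) (ph1 : h1 * h1_ = 1) (pH2 : H2 * H2_ = 1)
    (pk1 : k1 * k1_ = 1) (pK2 : K2 * K2_ = 1) (pyU : yU * yU_ = 1) (pYQ : YQ * YQ_ = 1)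
    (pSa : Sa * Sa_ = 1) (pSb : Sb * Sb_ = 1) (pUU : UU * UU_ = 1) (pQQ : QQ * QQ_ = 1)
    (pEL : EL * EL_ = 1) (pE' : E' * E'_ = 1) (pb : b * b_ = 1) (pb' : b' * b'_ = 1)
    (link : M * w0 * k1 * w1 * K2 * w2 * Sa * w3 * yU_ * w4 * YQ_ * w5 * Sb_ * w6 * h1_ * w7 *
      H2_ * w8 = 1)
    (hL : w8_ * H2 * w7_ * h1 * w6_ * Sb * w5_ * UU = EL * (H2 * h1 * Sb) * b)
    (hR : w0 * k1 * w1 * K2 * w2 * Sa * w3 * QQ_ = E' * (k1 * K2 * Sa) * b') :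
    (Sb_ * (h1_ * H2_)) * EL_ * M * E' * (k1 * K2 * Sa) =
      b * UU_ * YQ * w4_ * yU * QQ_ * b'_ :=
  congrArg Units.val (glg_group (glg_pair M M_ pM) (glg_pair w0 w0_ p0) (glg_pair w1 w1_ p1)
    (glg_pair w2 w2_ p2) (glg_pair w3 w3_ p3) (glg_pair w4 w4_ p4) (glg_pair w5 w5_ p5)
    (glg_pair w6 w6_ p6) (glg_pair w7 w7_ p7) (glg_pair w8 w8_ p8) (glg_pair h1 h1_ ph1)
    (glg_pair H2 H2_ pH2) (glg_pair k1 k1_ pk1) (glg_pair K2 K2_ pK2) (glg_pair yU yU_ pyU)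
    (glg_pair YQ YQ_ pYQ) (glg_pair Sa Sa_ pSa) (glg_pair Sb Sb_ pSb) (glg_pair UU UU_ pUU)
    (glg_pair QQ QQ_ pQQ) (glg_pair EL EL_ pEL) (glg_pair E' E'_ pE') (glg_pair b b_ pb)
    (glg_pair b' b'_ pb') (Units.ext link) (Units.ext hL) (Units.ext hR))

/-! ## soundness -/

section sound2
variable {ν : gr_GNum} {z : gr_GIdx → gs_Mat N}

theorem glg_sh_b (ν : gr_GNum) : (gr_sh ν.cb ν.m ν.km : gs_Mat N) = gs_swapMat ν.u1 ν.q1 ν.u2 :=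
  glg_sh ν.u1 ν.q1 ν.u2 ν.q2

theorem glg_sh_a (hOk : ν.Ok) : (gr_sh ν.ca ν.m ν.km : gs_Mat N) = gs_swapMat ν.v1 ν.p1 ν.v2 := by
  have hk0 : ν.km = ν.u1 + ν.u2 := rfl
  have hm0 : ν.m = ν.u1 + ν.q1 + ν.u2 + ν.q2 := rfl
  obtain ⟨o1, o2⟩ := hOk
  have hk : ν.km = ν.v1 + ν.v2 := by omega
  have hm : ν.m = ν.v1 + ν.p1 + ν.v2 + ν.p2 := by omega
  rw [hk, hm]
  exact glg_sh ν.v1 ν.p1 ν.v2 ν.p2

theorem glg_sound (hOk : ν.Ok) (hN : ν.m ≤ N) (hz : gr_GOk ν z) :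
    gs_IsUni ν.m {0, ν.a, ν.m} (glg_EL ν z) ∧ gs_IsUni ν.m {0, ν.c, ν.m} (glg_ER ν z) ∧
      gr_Tri ν.m ν.km (z .yU) (z .yQ)
        ((gr_G_Dm ν z)⁻¹ * (glg_EL ν z)⁻¹ * z .m * (glg_ER ν z)⁻¹ * gr_G_Dp ν z) := by
  have ha : ν.a = ν.u1 + ν.q1 := rfl
  have hc : ν.c = ν.v1 + ν.p1 := rfl
  have hk0 : ν.km = ν.u1 + ν.u2 := rfl
  have hm0 : ν.m = ν.u1 + ν.q1 + ν.u2 + ν.q2 := rfl
  have hOk' := hOk
  obtain ⟨o1, o2⟩ := hOk'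
  obtain ⟨-, L1, L2, L3⟩ := glg_left hN hz
  obtain ⟨-, R1, R2, R3⟩ := glg_right hOk hN hz
  have hW4 := glg_isUni_inv hz.w4
  refine ⟨glg_isUni_rad_iff.2 L1, glg_isUni_rad_iff.2 (glg_rad_inv R1), ?_⟩
  have pU : ∀ {n : ℕ} {K : Finset ℕ} {u : gs_Mat N}, gs_IsUni n K u → u * u⁻¹ = 1 :=
    fun h => Matrix.mul_nonsing_inv _ (glg_isUni_isUnit h)
  have pR : ∀ {a m : ℕ} {u : gs_Mat N}, glg_U (glg_rad a m) u → u * u⁻¹ = 1 :=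
    fun h => Matrix.mul_nonsing_inv _ (glg_rad_isUnit h)
  have pH2 := glg_GL_emb_pair hz.h2 (o := ν.a) (by omega)
  have pSb : (gs_swapMat ν.u1 ν.q1 ν.u2 : gs_Mat N) * gs_swapMat ν.u1 ν.u2 ν.q1 = 1 :=
    glg_swapMat_mul (by omega)
  have key := glg_group_mat (glg_GL_pair hz.m) (pU hz.w0) (pU hz.w1) (pU hz.w2) (pU hz.w3)
    (pU hz.w4) (pU hz.w5) (pU hz.w6) (pU hz.w7) (pU hz.w8) (glg_GL_pair hz.h1) pH2
    (glg_GL_pair hz.k1) (glg_GL_emb_pair hz.k2 (o := ν.c) (by omega)) (glg_GL_pair hz.yU)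
    (glg_GL_emb_pair hz.yQ (o := ν.km) (by omega))
    (glg_swapMat_mul (o := ν.v1) (a := ν.p1) (b := ν.v2) (by omega)) pSb
    (Matrix.mul_nonsing_inv _ (glg_cor_isUnit (k := ν.km) hW4))
    (Matrix.mul_nonsing_inv _ (glg_tl_isUnit (k := ν.km) hW4)) (pR L1) (pR R1) (pR L2) (pR R2)
    hz.link (by rw [← L3, glg_wL, ← Matrix.mul_assoc]) (by rw [← R3, glg_wR, ← Matrix.mul_assoc])
  -- the left hand side
  have hcomm : z .h1 * gs_emb ν.a (z .h2) = gs_emb ν.a (z .h2) * z .h1 :=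
    gm_emb_commute hz.h1.2 le_rfl _
  have hDm : (gr_G_Dm ν z)⁻¹ =
      gs_swapMat ν.u1 ν.u2 ν.q1 * ((z .h1)⁻¹ * gs_emb ν.a (z .h2)⁻¹) := by
    apply Matrix.inv_eq_right_inv
    rw [gr_G_Dm, gr_G_dm, glg_sh_b, hcomm]
    have c1 : ∀ t : gs_Mat N, gs_swapMat ν.u1 ν.q1 ν.u2 * (gs_swapMat ν.u1 ν.u2 ν.q1 * t) = t :=
      fun t => by rw [← Matrix.mul_assoc, pSb, Matrix.one_mul]
    have c2 : ∀ t : gs_Mat N, z .h1 * ((z .h1)⁻¹ * t) = t :=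
      fun t => by rw [← Matrix.mul_assoc, glg_GL_pair hz.h1, Matrix.one_mul]
    simp only [Matrix.mul_assoc, c1, c2, pH2]
  have hER : (glg_ER ν z)⁻¹ = glg_ER' ν z := by
    rw [glg_ER, Matrix.nonsing_inv_nonsing_inv _ (glg_rad_isUnit R1)]
  have hDp : gr_G_Dp ν z = z .k1 * gs_emb ν.c (z .k2) * gs_swapMat ν.v1 ν.p1 ν.v2 := by
    rw [gr_G_Dp, gr_G_dp, glg_sh_a hOk]
  rw [hDm, hER, hDp, key]
  -- the right hand side
  have hyU := glg_corner_U hz.yU.2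
  have hYQ := glg_emb_U ν.km hz.yQ.2
  have c1 : (glg_cor ν.km (z .w4)⁻¹)⁻¹ * gs_emb ν.km (z .yQ) =
      gs_emb ν.km (z .yQ) * (glg_cor ν.km (z .w4)⁻¹)⁻¹ :=
    glg_commute ((glg_cor_inv_U hW4).mono fun _ _ _ _ h => h.2) (hYQ.mono (by intros; omega))
  have c2 : z .yU * (glg_tl ν.km (z .w4)⁻¹)⁻¹ = (glg_tl ν.km (z .w4)⁻¹)⁻¹ * z .yU :=
    glg_commute hyU ((glg_tl_inv_U hW4).mono fun _ _ _ _ h => h.2)
  have e : glg_B ν.u1 ν.q1 ν.u2 (glg_nL ν z) (glg_wL ν z) * (glg_cor ν.km (z .w4)⁻¹)⁻¹ *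
      gs_emb ν.km (z .yQ) * (z .w4)⁻¹ * z .yU * (glg_tl ν.km (z .w4)⁻¹)⁻¹ *
      (glg_B ν.v1 ν.p1 ν.v2 (glg_nR ν z) (glg_wR ν z))⁻¹ =
      glg_B ν.u1 ν.q1 ν.u2 (glg_nL ν z) (glg_wL ν z) * gs_emb ν.km (z .yQ) *
      ((glg_cor ν.km (z .w4)⁻¹)⁻¹ * (z .w4)⁻¹ * (glg_tl ν.km (z .w4)⁻¹)⁻¹) * z .yU *
      (glg_B ν.v1 ν.p1 ν.v2 (glg_nR ν z) (glg_wR ν z))⁻¹ := by
    rw [Matrix.mul_assoc (glg_B ν.u1 ν.q1 ν.u2 (glg_nL ν z) (glg_wL ν z)) _ (gs_emb ν.km (z .yQ)),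
      c1]
    simp only [Matrix.mul_assoc]
    rw [← Matrix.mul_assoc (z .yU), c2]
    simp only [Matrix.mul_assoc]
  rw [e]
  refine ⟨_, glg_tri_prod L2 (glg_b4 ν.km hW4) (glg_rad_inv R2) hyU (hYQ.mono ?_), ?_⟩
  · intros; omega
  · unfold gr_asm
    abel

end sound2

end Claimed.Agent.R236
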