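import Mathlib
import Claimed.Agent.R236.GLocG4

/-!
# Row 236, G-LOCG, file 5: the corrections are regular (owner helper299)
-/

set_option autoImplicit false

namespace Claimed.Agent.R236

universe u v

variable {N : ℕ}

section reg
variable {P : Type u} {κ : Type v} {R : Subring ℂ} {c : κ → P → ℂ} {S : Set P}

theorem glg_one_apply_mem (R : Subring ℂ) (i j : Fin N) : (1 : gs_Mat N) i j ∈ R := by
  by_cases h : i = j
  · subst h; simp
  · simp [Matrix.one_apply_ne h]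

theorem glg_emb_reg (o : ℕ) {f : P → gs_Mat N} (hf : rg_MatOn R c S f) :
    rg_MatOn R c S (fun p => gs_emb o (f p)) := by
  intro i j
  by_cases h : o ≤ (i : ℕ) ∧ o ≤ (j : ℕ)
  · simp only [gs_emb, dif_pos h]
    exact hf _ _
  · simp only [gs_emb, dif_neg h]
    exact rg_RegOn.const (glg_one_apply_mem R i j)

theorem glg_lev_reg (k : ℕ) {f : P → gs_Mat N} (hf : rg_MatOn R c S f) :
    rg_MatOn R c S (fun p => glg_lev k (f p)) :=
  fun i j => rg_RegOn.ite (hf i j) rg_RegOn.zero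

theorem glg_cor_reg (k : ℕ) {f : P → gs_Mat N} (hf : rg_MatOn R c S f) :
    rg_MatOn R c S (fun p => glg_cor k (f p)) :=
  fun i j => rg_RegOn.ite (hf i j) (rg_RegOn.const (glg_one_apply_mem R i j))

theorem glg_tl_reg (k : ℕ) {f : P → gs_Mat N} (hf : rg_MatOn R c S f) :
    rg_MatOn R c S (fun p => glg_tl k (f p)) :=
  fun i j => rg_RegOn.ite (hf i j) (rg_RegOn.const (glg_one_apply_mem R i j))

theorem glg_swapMat_reg (o a b : ℕ) : rg_MatOn R c S (fun _ => (gs_swapMat o a b : gs_Mat N)) :=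
  rg_MatOn.const fun i j => by
    unfold gs_swapMat
    split_ifs
    · exact R.one_mem
    · exact R.zero_mem

theorem glg_n_reg {x y x' y' A0 A1 A2 : P → gs_Mat N} (hx : rg_MatOn R c S x)
    (hy : rg_MatOn R c S y) (hx' : rg_MatOn R c S x') (hy' : rg_MatOn R c S y')
    (h0 : rg_MatOn R c S A0) (h1 : rg_MatOn R c S A1) (h2 : rg_MatOn R c S A2) :
    rg_MatOn R c S (fun p => glg_n (x p) (y p) (x' p) (y' p) (A0 p) (A1 p) (A2 p)) :=
  ((((hy'.mul hx').mul h0).mul (hx.mul hy)).mul ((hy'.mul h1).mul hy)).mul h2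

theorem glg_E_reg (u1 q1 u2 : ℕ) {d d' n w : P → gs_Mat N} (hd : rg_MatOn R c S d)
    (hd' : rg_MatOn R c S d') (hn : rg_MatOn R c S n) (hw : rg_MatOn R c S w)
    (hdet : ∀ p ∈ S, (glg_lev (u1 + q1) (n p)).det = 1) :
    rg_MatOn R c S (fun p => glg_E u1 q1 u2 (d p) (d' p) (n p) (w p)) :=
  ((hd.mul (hn.mul ((glg_lev_reg (u1 + q1) hn).inv_of_det_eq_one hdet))).mul
    (((glg_swapMat_reg u1 q1 u2).mul (glg_lev_reg (u1 + u2) hw)).mul
      (glg_swapMat_reg u1 u2 q1))).mul hd'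

end reg

theorem glg_EL_reg (R : Subring ℂ) {ν : gr_GNum} (hN : ν.m ≤ N) :
    rg_MatOn R (rg_matCoord gr_GIdx (Fin N)) (gr_GSet N ν) (glg_EL ν) := by
  have X : ∀ i, rg_MatOn R (rg_matCoord gr_GIdx (Fin N)) (gr_GSet N ν) (fun x => x i) :=
    fun i => rg_matCoord_mat i
  have Y : ∀ i, rg_MatOn R (rg_matCoord gr_GIdx (Fin N)) (gr_GSet N ν) (fun x => (x i)⁻¹) :=
    fun i => rg_matCoord_inv i
  exact glg_E_reg ν.u1 ν.q1 ν.u2 ((glg_emb_reg ν.a (X .h2)).mul (X .h1))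
    ((Y .h1).mul (glg_emb_reg ν.a (Y .h2)))
    (glg_n_reg (glg_emb_reg ν.a (X .h2)) (X .h1) (glg_emb_reg ν.a (Y .h2)) (Y .h1) (Y .w8) (Y .w7)
      (Y .w6))
    ((Y .w5).mul (glg_cor_reg ν.km (Y .w4)))
    fun z hz => glg_lev_det (glg_left hN hz).1

theorem glg_ER_reg (R : Subring ℂ) {ν : gr_GNum} (hOk : ν.Ok) (hN : ν.m ≤ N) :
    rg_MatOn R (rg_matCoord gr_GIdx (Fin N)) (gr_GSet N ν) (glg_ER ν) := by
  have X : ∀ i, rg_MatOn R (rg_matCoord gr_GIdx (Fin N)) (gr_GSet N ν) (fun x => x i) :=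
    fun i => rg_matCoord_mat i
  have Y : ∀ i, rg_MatOn R (rg_matCoord gr_GIdx (Fin N)) (gr_GSet N ν) (fun x => (x i)⁻¹) :=
    fun i => rg_matCoord_inv i
  have h : rg_MatOn R (rg_matCoord gr_GIdx (Fin N)) (gr_GSet N ν) (glg_ER' ν) :=
    glg_E_reg ν.v1 ν.p1 ν.v2 ((X .k1).mul (glg_emb_reg ν.c (X .k2)))
      ((glg_emb_reg ν.c (Y .k2)).mul (Y .k1))
      (glg_n_reg (X .k1) (glg_emb_reg ν.c (X .k2)) (Y .k1) (glg_emb_reg ν.c (Y .k2)) (X .w0) (X .w1)
        (X .w2))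
      ((X .w3).mul ((glg_tl_reg ν.km (Y .w4)).inv_of_det_eq_one
        fun z hz => glg_tl_det (glg_isUni_inv (gr_GOk.w4 hz))))
      fun z hz => glg_lev_det (glg_right hOk hN hz).1
  exact h.inv_of_det_eq_one fun z hz =>
    glg_isUni_det (glg_isUni_rad_iff.2 (glg_right hOk hN hz).2.1)

end Claimed.Agent.R236
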