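import Mathlib
import Claimed.Agent.R236.GLocG5

/-!
# Row 236, G-LOCG, file 6: completeness and the final statement `StLocG` (owner helper299)
-/

set_option autoImplicit false

namespace Claimed.Agent.R236

variable {N : ℕ}

/-! ## decomposition of a block triangular matrix -/

/-- the upper right block for the cut `k` -/
def glg_ur (k : ℕ) (A : gs_Mat N) : gs_Mat N := fun i j =>
  if (i : ℕ) < k ∧ k ≤ (j : ℕ) then A i j else 0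

theorem glg_ur_Sup {m : ℕ} (k : ℕ) {T : gs_Mat N} (hT : gs_IsCorner m T) :
    glg_Sup (glg_rad k m) (glg_ur k T) := by
  intro i j hij
  by_cases h : (i : ℕ) < k ∧ k ≤ (j : ℕ)
  · refine ⟨h.1, h.2, ?_⟩
    by_contra hj
    apply hij
    have hne : i ≠ j := by rintro rfl; omega
    simp only [glg_ur, if_pos h]
    rw [hT i j (Or.inr (not_lt.1 hj)), Matrix.one_apply_ne hne]
  · exact absurd (by simp only [glg_ur, if_neg h]) hij

theorem glg_tri_decomp {m k : ℕ} {T : gs_Mat N} (hT : gr_IsTri m k T) :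
    T = glg_tl k T * (1 + glg_ur k T) * glg_cor k T := by
  have h1 : glg_U (fun i j => True ∧ i < k ∧ j < k) (glg_cor k T) :=
    glg_cor_U k (r := fun _ _ => True) (fun _ _ _ => trivial)
  have h2 : glg_U (fun i j => True ∧ k ≤ i ∧ k ≤ j) (glg_tl k T) :=
    glg_tl_U k (r := fun _ _ => True) (fun _ _ _ => trivial)
  have h3 := glg_ur_Sup k hT.1
  have z1 : (glg_tl k T - 1) * glg_ur k T = 0 :=
    glg_Sup.mul_eq_zero h2 h3 (by unfold glg_rad; intros; omega)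
  have z2 : (glg_tl k T - 1) * (glg_cor k T - 1) = 0 :=
    glg_Sup.mul_eq_zero h2 h1 (by intros; omega)
  have z3 : glg_ur k T * (glg_cor k T - 1) = 0 :=
    glg_Sup.mul_eq_zero h3 h1 (by unfold glg_rad; intros; omega)
  have e : glg_tl k T * (1 + glg_ur k T) * glg_cor k T =
      (glg_tl k T - 1) * glg_ur k T * glg_cor k T + (glg_tl k T - 1) * (glg_cor k T - 1) +
        glg_ur k T * (glg_cor k T - 1) + (glg_tl k T + glg_ur k T + glg_cor k T - 1) := by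
    noncomm_ring
  rw [e, z1, z2, z3, Matrix.zero_mul, add_zero, add_zero, zero_add]
  ext i j
  simp only [Matrix.sub_apply, Matrix.add_apply, glg_tl, glg_ur, glg_cor]
  by_cases hi : (i : ℕ) < k <;> by_cases hj : (j : ℕ) < k
  · have a1 : ¬ (k ≤ (i : ℕ) ∧ k ≤ (j : ℕ)) := by omega
    have a2 : ¬ ((i : ℕ) < k ∧ k ≤ (j : ℕ)) := by omega
    rw [if_neg a1, if_neg a2, if_pos ⟨hi, hj⟩]
    ring
  · have a1 : ¬ (k ≤ (i : ℕ) ∧ k ≤ (j : ℕ)) := by omega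
    have a2 : ((i : ℕ) < k ∧ k ≤ (j : ℕ)) := by omega
    have a3 : ¬ ((i : ℕ) < k ∧ (j : ℕ) < k) := by omega
    have hne : i ≠ j := by rintro rfl; omega
    rw [if_neg a1, if_pos a2, if_neg a3, Matrix.one_apply_ne hne]
    ring
  · have a1 : ¬ (k ≤ (i : ℕ) ∧ k ≤ (j : ℕ)) := by omega
    have a2 : ¬ ((i : ℕ) < k ∧ k ≤ (j : ℕ)) := by omega
    have a3 : ¬ ((i : ℕ) < k ∧ (j : ℕ) < k) := by omega
    have hne : i ≠ j := by rintro rfl; omega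
    rw [if_neg a1, if_neg a2, if_neg a3, hT.2 i j (not_lt.1 hi) hj, Matrix.one_apply_ne hne]
    ring
  · have a1 : (k ≤ (i : ℕ) ∧ k ≤ (j : ℕ)) := by omega
    have a2 : ¬ ((i : ℕ) < k ∧ k ≤ (j : ℕ)) := by omega
    have a3 : ¬ ((i : ℕ) < k ∧ (j : ℕ) < k) := by omega
    rw [if_pos a1, if_neg a2, if_neg a3]
    ring

theorem glg_tri_units {m k : ℕ} {T : gs_Mat N} (hT : gr_IsTri m k T) (hu : IsUnit T.det) :
    IsUnit (glg_tl k T).det ∧ IsUnit (glg_cor k T).det := by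
  rw [glg_tri_decomp hT, Matrix.det_mul, Matrix.det_mul, IsUnit.mul_iff, IsUnit.mul_iff] at hu
  exact ⟨hu.1.1, hu.2⟩

theorem glg_cor_corner (k : ℕ) (T : gs_Mat N) : gs_IsCorner k (glg_cor k T) := by
  intro i j h
  have a : ¬ ((i : ℕ) < k ∧ (j : ℕ) < k) := by omega
  simp only [glg_cor, if_neg a]

theorem glg_mid_corner (o m : ℕ) (A : gs_Mat N) : gs_IsCorner m (gr_midBlock o m A) := by
  intro i j h
  have a : ¬ ((i : ℕ) < m ∧ (j : ℕ) < m ∧ o + m ≤ N) := by omega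
  simp only [gr_midBlock, dif_neg a]

theorem glg_emb_mid {m k : ℕ} {T : gs_Mat N} (hT : gs_IsCorner m T) (hk : k ≤ m) (hm : m ≤ N) :
    gs_emb k (gr_midBlock k (m - k) T) = glg_tl k T := by
  ext i j
  by_cases h : k ≤ (i : ℕ) ∧ k ≤ (j : ℕ)
  · rw [gm_emb_apply_ge k _ h.1 h.2]
    simp only [glg_tl, if_pos h]
    by_cases h' : (i : ℕ) < m ∧ (j : ℕ) < m
    · have a : ((i : ℕ) - k < m - k ∧ (j : ℕ) - k < m - k ∧ k + (m - k) ≤ N) := by omega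
      simp only [gr_midBlock, dif_pos a]
      congr 1 <;> exact Fin.ext (by simp only []; omega)
    · have a : ¬ ((i : ℕ) - k < m - k ∧ (j : ℕ) - k < m - k ∧ k + (m - k) ≤ N) := by omega
      simp only [gr_midBlock, dif_neg a]
      rw [gm_one_apply_sub k h.1 h.2, hT i j (by omega)]
  · simp only [gs_emb, dif_neg h, glg_tl, if_neg h]

/-! ## the link of the completeness datum -/

theorem glg_group2 {G : Type*} [Group G] (M g k1 K2 Sa yU Bt YQ Sb h1 H2 Z C : G)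
    (e : H2 * h1 * Z * Sb * (YQ * Bt * yU) = M * g * (k1 * K2 * Sa))
    (hC : C = H2 * h1 * Z * (h1⁻¹ * H2⁻¹)) :
    M * g * k1 * K2 * Sa * (yU⁻¹ * Bt⁻¹ * yU) * yU⁻¹ * YQ⁻¹ * Sb⁻¹ * h1⁻¹ * H2⁻¹ * C⁻¹ = 1 := by
  have hM : M = H2 * h1 * Z * Sb * (YQ * Bt * yU) * (k1 * K2 * Sa)⁻¹ * g⁻¹ := by
    rw [e]; group
  rw [hM, hC]
  group

theorem glg_group2_mat {M g k1 K2 Sa yU Bt YQ Sb h1 H2 Z C : gs_Mat N}
    {M_ g_ k1_ K2_ Sa_ yU_ Bt_ YQ_ Sb_ h1_ H2_ Z_ C_ : gs_Mat N}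
    (pM : M * M_ = 1) (pg : g * g_ = 1) (pk1 : k1 * k1_ = 1) (pK2 : K2 * K2_ = 1)
    (pSa : Sa * Sa_ = 1) (pyU : yU * yU_ = 1) (pBt : Bt * Bt_ = 1) (pYQ : YQ * YQ_ = 1)
    (pSb : Sb * Sb_ = 1) (ph1 : h1 * h1_ = 1) (pH2 : H2 * H2_ = 1) (pZ : Z * Z_ = 1)
    (pC : C * C_ = 1)
    (e : H2 * h1 * Z * Sb * (YQ * Bt * yU) = M * g * (k1 * K2 * Sa))
    (hC : C = H2 * h1 * Z * (h1_ * H2_)) :
    M * g * k1 * K2 * Sa * (yU_ * Bt_ * yU) * yU_ * YQ_ * Sb_ * h1_ * H2_ * C_ = 1 :=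
  congrArg Units.val (glg_group2 (glg_pair M M_ pM) (glg_pair g g_ pg) (glg_pair k1 k1_ pk1)
    (glg_pair K2 K2_ pK2) (glg_pair Sa Sa_ pSa) (glg_pair yU yU_ pyU) (glg_pair Bt Bt_ pBt)
    (glg_pair YQ YQ_ pYQ) (glg_pair Sb Sb_ pSb) (glg_pair h1 h1_ ph1) (glg_pair H2 H2_ pH2)
    (glg_pair Z Z_ pZ) (glg_pair C C_ pC) (Units.ext e) (Units.ext hC))

/-! ## the completeness datum -/

/-- the datum attaining a prescribed left correction -/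
noncomputable def glg_z (ν : gr_GNum) (h1 h2 k1 k2 m z0 g T : gs_Mat N) : gr_GIdx → gs_Mat N
  | .h1 => h1
  | .h2 => h2
  | .k1 => k1
  | .k2 => k2
  | .yU => glg_cor ν.km T
  | .yQ => gr_midBlock ν.km (ν.m - ν.km) T
  | .m => m
  | .w0 => g
  | .w3 => (glg_cor ν.km T)⁻¹ * (1 + glg_ur ν.km T)⁻¹ * glg_cor ν.km T
  | .w8 => (gs_emb ν.a h2 * h1 * (1 + z0) * (h1⁻¹ * gs_emb ν.a h2⁻¹))⁻¹
  | _ => 1

theorem glg_lev_one_add {a m : ℕ} {z0 : gs_Mat N} (h : glg_Sup (glg_rad a m) z0) :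
    glg_lev a (1 + z0) = 1 := by
  ext i j
  by_cases hij : ((i : ℕ) < a ↔ (j : ℕ) < a)
  · simp only [glg_lev, if_pos hij, Matrix.add_apply]
    have : z0 i j = 0 := by
      by_contra h0
      have := h i j h0
      unfold glg_rad at this
      omega
    rw [this, add_zero]
  · simp only [glg_lev, if_neg hij]
    rw [Matrix.one_apply_ne]
    rintro rfl
    exact hij Iff.rfl

theorem glg_complete {ν : gr_GNum} (hOk : ν.Ok) (hN : ν.m ≤ N) (h1 h2 k1 k2 m z0 g : gs_Mat N)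
    (H1 : gr_GL ν.a h1) (H2 : gr_GL (ν.u2 + ν.q2) h2) (K1 : gr_GL ν.c k1)
    (K2 : gr_GL (ν.v2 + ν.p2) k2) (Mm : gr_GL ν.m m)
    (hz0 : ∀ i j : Fin N, z0 i j ≠ 0 →
      ν.u1 ≤ (i : ℕ) ∧ (i : ℕ) < ν.a ∧ ν.a ≤ (j : ℕ) ∧ (j : ℕ) < ν.a + ν.u2)
    (hg : gs_IsUni ν.m {0, ν.c, ν.m} g)
    (hT : gr_IsTri ν.m ν.km
      ((h1 * gs_emb ν.a h2 * (1 + z0) * gr_sh ν.cb ν.m ν.km)⁻¹ * m * g *
        (k1 * gs_emb ν.c k2 * gr_sh ν.ca ν.m ν.km))) :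
    ∃ z ∈ gr_GSet N ν, z .h1 = h1 ∧ z .h2 = h2 ∧ z .k1 = k1 ∧ z .k2 = k2 ∧ z .m = m ∧
      glg_EL ν z = (h1 * gs_emb ν.a h2) * (1 + z0) * (h1 * gs_emb ν.a h2)⁻¹ := by
  have ha : ν.a = ν.u1 + ν.q1 := rfl
  have hc : ν.c = ν.v1 + ν.p1 := rfl
  have hk0 : ν.km = ν.u1 + ν.u2 := rfl
  have hm0 : ν.m = ν.u1 + ν.q1 + ν.u2 + ν.q2 := rfl
  have hOk' := hOk
  obtain ⟨o1, o2⟩ := hOk'
  have hcomm : h1 * gs_emb ν.a h2 = gs_emb ν.a h2 * h1 := gm_emb_commute H1.2 le_rfl _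
  rw [glg_sh_b, glg_sh_a hOk, hcomm] at hT
  rw [hcomm]
  generalize hTdef : (gs_emb ν.a h2 * h1 * (1 + z0) * gs_swapMat ν.u1 ν.q1 ν.u2)⁻¹ * m * g *
        (k1 * gs_emb ν.c k2 * gs_swapMat ν.v1 ν.p1 ν.v2) = T at hT
  have sz0 : glg_Sup (glg_rad ν.a ν.m) z0 := fun i j h => by
    have := hz0 i j h
    unfold glg_rad
    omega
  have uZ : glg_U (glg_rad ν.a ν.m) (1 + z0) := glg_U.of_add sz0
  have pH2 := glg_GL_emb_pair H2 (o := ν.a) (by omega)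
  have ph1 := glg_GL_pair H1
  have pK2 := glg_GL_emb_pair K2 (o := ν.c) (by omega)
  have pk1 := glg_GL_pair K1
  have pSb : (gs_swapMat ν.u1 ν.q1 ν.u2 : gs_Mat N) * gs_swapMat ν.u1 ν.u2 ν.q1 = 1 :=
    glg_swapMat_mul (by omega)
  have pSa : (gs_swapMat ν.v1 ν.p1 ν.v2 : gs_Mat N) * gs_swapMat ν.v1 ν.v2 ν.p1 = 1 :=
    glg_swapMat_mul (by omega)
  have pd : (gs_emb ν.a h2 * h1) * (h1⁻¹ * gs_emb ν.a h2⁻¹) = 1 := by
    rw [Matrix.mul_assoc, ← Matrix.mul_assoc h1, ph1, Matrix.one_mul, pH2]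
  have uC : glg_U (glg_rad ν.a ν.m) (gs_emb ν.a h2 * h1 * (1 + z0) * (h1⁻¹ * gs_emb ν.a h2⁻¹)) :=
    glg_rad_conj (glg_bd_mul (glg_bd_of_emb H2.2 (by omega)) (glg_bd_of_corner H1.2))
      (glg_bd_mul (glg_bd_of_corner (glg_GL_inv H1).2) (glg_bd_of_emb (glg_GL_inv H2).2 (by omega)))
      pd uZ
  -- invertibility
  have uDz : IsUnit (gs_emb ν.a h2 * h1 * (1 + z0) * gs_swapMat ν.u1 ν.q1 ν.u2).det := by
    rw [Matrix.det_mul, Matrix.det_mul, Matrix.det_mul]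
    exact (((gm_emb_isUnit H2.2 H2.1 (by omega)).mul H1.1).mul (glg_rad_isUnit uZ)).mul
      (Matrix.isUnit_det_of_right_inverse pSb)
  have uT : IsUnit T.det := by
    rw [← hTdef]
    simp only [Matrix.det_mul]
    exact (((Matrix.isUnit_nonsing_inv_det _ uDz).mul Mm.1).mul (glg_isUni_isUnit hg)).mul
      ((K1.1.mul (gm_emb_isUnit K2.2 K2.1 (by omega))).mul (Matrix.isUnit_det_of_right_inverse pSa))
  obtain ⟨utl, ucor⟩ := glg_tri_units hT uT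
  have hemb := glg_emb_mid hT.1 (k := ν.km) (by omega) hN
  have gyU : gr_GL ν.km (glg_cor ν.km T) := ⟨ucor, glg_cor_corner _ _⟩
  have gyQ : gr_GL (ν.m - ν.km) (gr_midBlock ν.km (ν.m - ν.km) T) := by
    refine ⟨?_, glg_mid_corner _ _ _⟩
    rw [← gm_emb_det (o := ν.km) (glg_mid_corner _ _ _) (by omega), hemb]
    exact utl
  have uB : glg_U (glg_rad ν.km ν.m) (1 + glg_ur ν.km T) := glg_U.of_add (glg_ur_Sup _ hT.1)
  have e : gs_emb ν.a h2 * h1 * (1 + z0) * gs_swapMat ν.u1 ν.q1 ν.u2 *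
      (gs_emb ν.km (gr_midBlock ν.km (ν.m - ν.km) T) * (1 + glg_ur ν.km T) * glg_cor ν.km T) =
      m * g * (k1 * gs_emb ν.c k2 * gs_swapMat ν.v1 ν.p1 ν.v2) := by
    rw [hemb, ← glg_tri_decomp hT, ← hTdef]
    simp only [← Matrix.mul_assoc]
    rw [Matrix.mul_nonsing_inv _ uDz, Matrix.one_mul]
  have u3 : glg_U (glg_rad ν.km ν.m)
      ((glg_cor ν.km T)⁻¹ * (1 + glg_ur ν.km T)⁻¹ * glg_cor ν.km T) :=
    glg_rad_conj (glg_bd_of_corner (glg_GL_inv gyU).2) (glg_bd_of_corner gyU.2)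
      (Matrix.nonsing_inv_mul _ ucor) (glg_rad_inv uB)
  refine ⟨glg_z ν h1 h2 k1 k2 m z0 g T, ?_, rfl, rfl, rfl, rfl, rfl, ?_⟩
  · refine ⟨H1, H2, K1, K2, gyU, gyQ, Mm, hg, glg_isUni_one _ _, glg_isUni_one _ _, ?_,
      glg_isUni_one _ _, glg_isUni_one _ _, glg_isUni_one _ _, glg_isUni_one _ _,
      glg_isUni_rad_iff.2 (glg_rad_inv uC), ?_⟩
    · refine glg_isUni_mono ?_ (glg_isUni_rad_iff.2 u3)
      intro c hc
      simp only [Finset.mem_insert, Finset.mem_singleton] at hc ⊢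
      omega
    · show m * g * k1 * 1 * gs_emb ν.c k2 * 1 * gs_swapMat ν.v1 ν.p1 ν.v2 *
        ((glg_cor ν.km T)⁻¹ * (1 + glg_ur ν.km T)⁻¹ * glg_cor ν.km T) * (glg_cor ν.km T)⁻¹ * 1 *
        gs_emb ν.km (gr_midBlock ν.km (ν.m - ν.km) T)⁻¹ * 1 * gs_swapMat ν.u1 ν.u2 ν.q1 * 1 *
        h1⁻¹ * 1 * gs_emb ν.a h2⁻¹ *
        (gs_emb ν.a h2 * h1 * (1 + z0) * (h1⁻¹ * gs_emb ν.a h2⁻¹))⁻¹ = 1
      simp only [Matrix.mul_one]
      exact glg_group2_mat (glg_GL_pair Mm) (Matrix.mul_nonsing_inv _ (glg_isUni_isUnit hg)) pk1 pK2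
        pSa (glg_GL_pair gyU) (Matrix.mul_nonsing_inv _ (glg_rad_isUnit uB))
        (glg_GL_emb_pair gyQ (o := ν.km) (by omega)) pSb ph1 pH2
        (Matrix.mul_nonsing_inv _ (glg_rad_isUnit uZ)) (Matrix.mul_nonsing_inv _ (glg_rad_isUnit uC))
        e rfl
  · show glg_E ν.u1 ν.q1 ν.u2 (gs_emb ν.a h2 * h1) (h1⁻¹ * gs_emb ν.a h2⁻¹)
      (glg_n (gs_emb ν.a h2) h1 (gs_emb ν.a h2⁻¹) h1⁻¹
        ((gs_emb ν.a h2 * h1 * (1 + z0) * (h1⁻¹ * gs_emb ν.a h2⁻¹))⁻¹)⁻¹ 1⁻¹ 1⁻¹)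
      (1⁻¹ * glg_cor ν.km 1⁻¹) = _
    rw [inv_one, glg_cor_one, Matrix.mul_one, Matrix.nonsing_inv_nonsing_inv _ (glg_rad_isUnit uC)]
    have hn : glg_n (gs_emb ν.a h2) h1 (gs_emb ν.a h2⁻¹) h1⁻¹
        (gs_emb ν.a h2 * h1 * (1 + z0) * (h1⁻¹ * gs_emb ν.a h2⁻¹)) 1 1 = 1 + z0 := by
      have ph1' : h1⁻¹ * h1 = 1 := mul_eq_one_comm.1 ph1
      have pH2' : gs_emb ν.a h2⁻¹ * gs_emb ν.a h2 = 1 := mul_eq_one_comm.1 pH2
      have c1 : ∀ t : gs_Mat N, gs_emb ν.a h2⁻¹ * (gs_emb ν.a h2 * t) = t := fun t => by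
        rw [← Matrix.mul_assoc, pH2', Matrix.one_mul]
      have c2 : ∀ t : gs_Mat N, h1⁻¹ * (h1 * t) = t := fun t => by
        rw [← Matrix.mul_assoc, ph1', Matrix.one_mul]
      unfold glg_n
      simp only [Matrix.mul_assoc, Matrix.mul_one, c1, c2, ph1']
    rw [hn]
    unfold glg_E
    rw [glg_lev_one_add (a := ν.u1 + ν.q1) (m := ν.m) sz0, inv_one, Matrix.mul_one, glg_lev_one,
      Matrix.mul_one, pSb, Matrix.mul_one, Matrix.inv_eq_right_inv pd]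

/-- **Local package of a `G` letter.** -/
theorem glg_StLocG (N : ℕ) (R : Subring ℂ) : StLocG N R := by
  intro ν hOk hN
  exact ⟨glg_EL ν, glg_ER ν, glg_EL_reg R hN, glg_ER_reg R hOk hN,
    fun z hz => glg_sound hOk hN hz, glg_complete hOk hN⟩

end Claimed.Agent.R236
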