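import Mathlib
import Claimed.Agent.R236.GFrame

/-!
# Row 236, REDUCE: typed words with explicit frames, the abstract gadgets (owner helper148, prefix `gf_`)

* `gf_TypedF` : a word together with the frame after every letter;
* `gf_swapU_frames`, `gf_swapQ_frames` : the gadgets of a swap inside `eU`, `eQ` (relative to a frame);
* `gf_linkG_typed`, `gf_linkA_typed`, `gf_linkB_typed`, `gf_linkUn_typed` : the link words (explicit frames).
-/

set_option autoImplicit false
set_option linter.unusedSimpArgs false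
set_option linter.unreachableTactic false
set_option linter.unusedTactic false
set_option linter.unnecessarySeqFocus false

namespace Claimed.Agent.R236

section typedF
variable {Y : Type}

/-- a word with the frame after every letter -/
def gf_TypedF (sig : Y → gs_Sig) (n : ℕ) : Finset ℕ → List (gs_Letter Y × Finset ℕ) → Prop
  | _, [] => True
  | K, (l, K1) :: w => gs_app sig n K l ∧ gs_step sig K l = K1 ∧ gf_TypedF sig n K1 w

/-- the last frame -/
def gf_last : Finset ℕ → List (gs_Letter Y × Finset ℕ) → Finset ℕ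
  | K, [] => K
  | _, p :: w => gf_last p.2 w

theorem gf_last_cons (K : Finset ℕ) (p : gs_Letter Y × Finset ℕ)
    (w : List (gs_Letter Y × Finset ℕ)) : gf_last K (p :: w) = gf_last p.2 w := rfl

theorem gf_TypedF.typed {sig : Y → gs_Sig} {n : ℕ} {K : Finset ℕ}
    {w : List (gs_Letter Y × Finset ℕ)} (h : gf_TypedF sig n K w) :
    gf_Typed sig n K (w.map Prod.fst) (gf_last K w) := by
  induction w generalizing K with
  | nil => simp [gf_Typed, gf_last]
  | cons p w ih =>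
    obtain ⟨l, K1⟩ := p
    obtain ⟨h1, h2, h3⟩ := h
    rw [gf_last_cons]
    refine ⟨h1, ?_⟩
    rw [h2]
    exact ih h3

theorem gf_TypedF.frame {sig : Y → gs_Sig} {n : ℕ} {K : Finset ℕ}
    {w : List (gs_Letter Y × Finset ℕ)} (h : gf_TypedF sig n K w) (j : ℕ) (hj : j < w.length) :
    gs_frame sig K (w.map Prod.fst) (j + 1) = w[j].2 := by
  induction w generalizing K j with
  | nil => simp at hj
  | cons p w ih =>
    obtain ⟨l, K1⟩ := p
    obtain ⟨h1, h2, h3⟩ := h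
    rw [List.map_cons, gf_frame_cons_succ, h2]
    cases j with
    | zero => simp [gf_frame_zero]
    | succ j => simpa using ih h3 j (by simpa using hj)

theorem gf_app_one (sig : Y ⊕ gr_Var → gs_Sig) (n : ℕ) (K : Finset ℕ) :
    gs_app sig n K (gr_one Y) := ⟨fun _ _ _ => rfl, fun _ _ => rfl⟩

theorem gf_step_one (sig : Y ⊕ gr_Var → gs_Sig) (K : Finset ℕ) :
    gs_step sig K (gr_one Y) = K := rfl

end typedF

/-! ## abstract gadgets -/

section gadgets

/-- the three frames of the `eU` gadget of a swap -/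
theorem gf_swapU_frames {K : Finset ℕ} {p a b h : ℕ} (hK : gs_midOK K p (a + (b + h)) a) :
    gs_midOK K (p + a) (b + h) 0 ∧
    gs_midOK (gs_cutRepl K (p + a) (b + h) b) p (a + b) a ∧
    gs_midOK (gs_cutRepl (gs_cutRepl K (p + a) (b + h) b) p (a + b) b) (p + b) (a + h) a ∧
    gs_cutRepl (gs_cutRepl (gs_cutRepl K (p + a) (b + h) b) p (a + b) b) (p + b) (a + h) 0
      = gs_cutRepl K p (a + (b + h)) b := by
  obtain ⟨hp, hpa, hpm, -, hin⟩ := hK
  have hpm' : p + a + (b + h) ∈ K := by rwa [Nat.add_assoc]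
  refine ⟨⟨hpa, hpa, hpm', Nat.zero_le _, fun d hd h1 h2 => ?_⟩,
    ⟨?_, ?_, ?_, Nat.le_add_right _ _, fun d hd h1 h2 => ?_⟩,
    ⟨?_, ?_, ?_, Nat.le_add_right _ _, fun d hd h1 h2 => ?_⟩, ?_⟩
  · have := hin d hd (by omega) (by omega)
    omega
  · exact gf_mem_cutRepl.2 (Or.inr ⟨hp, Or.inl (by omega)⟩)
  · exact gf_mem_cutRepl.2 (Or.inr ⟨hpa, Or.inl (by omega)⟩)
  · exact gf_mem_cutRepl.2 (Or.inl (by omega))
  · rcases gf_mem_cutRepl.1 hd with rfl | ⟨hd, h'⟩
    · omega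
    · have := hin d hd (by omega) (by omega)
      omega
  · exact gf_mem_cutRepl.2 (Or.inl rfl)
  · exact gf_mem_cutRepl.2 (Or.inr ⟨gf_mem_cutRepl.2 (Or.inl (by omega)), Or.inr (by omega)⟩)
  · have hpm'' : p + b + (a + h) ∈ K := by
      have : p + b + (a + h) = p + (a + (b + h)) := by omega
      rwa [this]
    exact gf_mem_cutRepl.2 (Or.inr ⟨gf_mem_cutRepl.2 (Or.inr ⟨hpm'', Or.inr (by omega)⟩),
      Or.inr (by omega)⟩)
  · rcases gf_mem_cutRepl.1 hd with rfl | ⟨hd, h'⟩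
    · omega
    · rcases gf_mem_cutRepl.1 hd with rfl | ⟨hd, h''⟩
      · omega
      · have := hin d hd (by omega) (by omega)
        omega
  · ext d
    simp only [gf_mem_cutRepl]
    constructor
    · rintro (rfl | ⟨rfl | ⟨rfl | ⟨hd, h1⟩, h2⟩, h3⟩)
      · exact Or.inl (by omega)
      · exact Or.inl rfl
      · rcases h3 with h3 | h3
        · exact Or.inl (by omega)
        · have : h = 0 := by omega
          subst this
          exact Or.inr ⟨by simpa [Nat.add_assoc] using hpm, Or.inr (by omega)⟩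
      · by_cases hdp : d ≤ p
        · exact Or.inr ⟨hd, Or.inl hdp⟩
        · by_cases hdm : p + (a + (b + h)) ≤ d
          · exact Or.inr ⟨hd, Or.inr hdm⟩
          · have := hin d hd (by omega) (by omega)
            omega
    · rintro (rfl | ⟨hd, h1⟩)
      · exact Or.inl (by omega)
      · exact Or.inr ⟨Or.inr ⟨Or.inr ⟨hd, by omega⟩, by omega⟩, by omega⟩

theorem gf_swapQ_frames {K : Finset ℕ} {p h x y : ℕ} (hK : gs_midOK K p (h + x + y) (h + x)) :
    gs_midOK K p (h + x) 0 ∧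
    p ∈ gs_cutRepl K p (h + x) h ∧ p + h ∈ gs_cutRepl K p (h + x) h ∧
    gs_midOK (gs_cutRepl K p (h + x) h) (p + h) (x + y) x ∧
    gs_midOK (gs_cutRepl (gs_cutRepl K p (h + x) h) (p + h) (x + y) y) p (h + y) h ∧
    gs_cutRepl (gs_cutRepl (gs_cutRepl K p (h + x) h) (p + h) (x + y) y) p (h + y) 0
      = gs_cutRepl K p (h + x + y) (h + y) := by
  obtain ⟨hp, hpa, hpm, -, hin⟩ := hK
  refine ⟨⟨hp, hp, hpa, Nat.zero_le _, fun d hd h1 h2 => ?_⟩, ?_, ?_,
    ⟨?_, ?_, ?_, Nat.le_add_right _ _, fun d hd h1 h2 => ?_⟩,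
    ⟨?_, ?_, ?_, Nat.le_add_right _ _, fun d hd h1 h2 => ?_⟩, ?_⟩
  · have := hin d hd (by omega) (by omega)
    omega
  · exact gf_mem_cutRepl.2 (Or.inr ⟨hp, Or.inl le_rfl⟩)
  · exact gf_mem_cutRepl.2 (Or.inl rfl)
  · exact gf_mem_cutRepl.2 (Or.inl rfl)
  · exact gf_mem_cutRepl.2 (Or.inr ⟨by rwa [Nat.add_assoc], Or.inr (by omega)⟩)
  · have : p + h + (x + y) = p + (h + x + y) := by omega
    exact gf_mem_cutRepl.2 (Or.inr ⟨by rwa [this], Or.inr (by omega)⟩)
  · rcases gf_mem_cutRepl.1 hd with rfl | ⟨hd, h'⟩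
    · omega
    · have := hin d hd (by omega) (by omega)
      omega
  · exact gf_mem_cutRepl.2 (Or.inr ⟨gf_mem_cutRepl.2 (Or.inr ⟨hp, Or.inl le_rfl⟩),
      Or.inl (by omega)⟩)
  · exact gf_mem_cutRepl.2 (Or.inr ⟨gf_mem_cutRepl.2 (Or.inl rfl), Or.inl le_rfl⟩)
  · exact gf_mem_cutRepl.2 (Or.inl (by omega))
  · rcases gf_mem_cutRepl.1 hd with rfl | ⟨hd, h'⟩
    · omega
    · rcases gf_mem_cutRepl.1 hd with rfl | ⟨hd, h''⟩
      · rfl
      · have := hin d hd (by omega) (by omega)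
        omega
  · ext d
    simp only [gf_mem_cutRepl]
    constructor
    · rintro (rfl | ⟨rfl | ⟨rfl | ⟨hd, h1⟩, h2⟩, h3⟩)
      · exact Or.inr ⟨hp, Or.inl (by omega)⟩
      · exact Or.inl (by omega)
      · rcases h3 with h3 | h3
        · have : h = 0 := by omega
          subst this
          exact Or.inr ⟨hp, Or.inl (by omega)⟩
        · exact Or.inl (by omega)
      · by_cases hdp : d ≤ p
        · exact Or.inr ⟨hd, Or.inl hdp⟩
        · by_cases hdm : p + (h + x + y) ≤ d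
          · exact Or.inr ⟨hd, Or.inr hdm⟩
          · have := hin d hd (by omega) (by omega)
            omega
    · rintro (rfl | ⟨hd, h1⟩)
      · exact Or.inr ⟨Or.inl (by omega), Or.inr (by omega)⟩
      · exact Or.inr ⟨Or.inr ⟨Or.inr ⟨hd, by omega⟩, by omega⟩, by omega⟩


end gadgets

/-! ## explicit frames -/

/-- membership in explicit cut sets -/
macro "gf_fin" : tactic =>
  `(tactic| first
    | (simp only [gf_mem_cutRepl, Finset.mem_insert, Finset.mem_singleton, true_or, or_true]; done)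
    | (simp only [gf_mem_cutRepl, Finset.mem_insert, Finset.mem_singleton]; omega)
    | omega)

/-- one step between explicit frames: `gs_midOK K o m a ∧ gs_cutRepl K o m c = K1` -/
macro "gf_expl" : tactic =>
  `(tactic|
    (refine ⟨⟨?_, ?_, ?_, ?_, ?_⟩, ?_⟩
     · gf_fin
     · gf_fin
     · gf_fin
     · omega
     · intro d hd h1 h2
       simp only [Finset.mem_insert, Finset.mem_singleton] at hd
       omega
     · ext d
       simp only [gf_mem_cutRepl, Finset.mem_insert, Finset.mem_singleton]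
       omega))

section cons
variable {Y : Type}

theorem gf_TypedF_cons_G {sig : Y → gs_Sig} {n : ℕ} {K K1 : Finset ℕ} {inv : Bool} {y : Y} {o : ℕ}
    {w : List (gs_Letter Y × Finset ℕ)} {m a c : ℕ} (hrk : (sig y).rk = m)
    (hsrc : (sig y).src inv = a) (htgt : (sig y).tgt inv = c)
    (h : gs_midOK K o m a ∧ gs_cutRepl K o m c = K1) (hw : gf_TypedF sig n K1 w) :
    gf_TypedF sig n K ((.G inv y o, K1) :: w) := by
  subst hrk hsrc htgt
  exact ⟨h.1, h.2, hw⟩

theorem gf_TypedF_cons_S {sig : Y → gs_Sig} {n : ℕ} {K K1 : Finset ℕ} {o a b : ℕ}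
    {w : List (gs_Letter Y × Finset ℕ)}
    (h : gs_midOK K o (a + b) a ∧ gs_cutRepl K o (a + b) b = K1) (hw : gf_TypedF sig n K1 w) :
    gf_TypedF sig n K ((.S o a b, K1) :: w) := ⟨h.1, h.2, hw⟩

theorem gf_TypedF_cons_one {sig : Y ⊕ gr_Var → gs_Sig} {n : ℕ} {K K1 : Finset ℕ}
    {w : List (gr_Let Y × Finset ℕ)} (h : K = K1) (hw : gf_TypedF sig n K1 w) :
    gf_TypedF sig n K ((gr_one Y, K1) :: w) := ⟨gf_app_one sig n K, h, hw⟩

/-- an optional letter -/
theorem gf_TypedF_cons_opt {sig : Y ⊕ gr_Var → gs_Sig} {n : ℕ} {K K1 : Finset ℕ} {p : Prop}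
    [Decidable p] {inv : Bool} {y : Y ⊕ gr_Var} {o : ℕ} {w : List (gr_Let Y × Finset ℕ)} {m a c : ℕ}
    (hsig : p → (sig y).rk = m ∧ (sig y).src inv = a ∧ (sig y).tgt inv = c)
    (h : p → gs_midOK K o m a ∧ gs_cutRepl K o m c = K1) (h' : ¬ p → K = K1)
    (hw : gf_TypedF sig n K1 w) :
    gf_TypedF sig n K ((if p then .G inv y o else gr_one Y, K1) :: w) := by
  by_cases hp : p
  · rw [if_pos hp]
    exact gf_TypedF_cons_G (hsig hp).1 (hsig hp).2.1 (hsig hp).2.2 (h hp) hw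
  · rw [if_neg hp]
    exact gf_TypedF_cons_one (h' hp) hw

end cons

section links
variable {Y : Type} (sig : Y ⊕ gr_Var → gs_Sig)

/-- the link of a letter `G` -/
theorem gf_linkG_typed (inv : Bool) (y hp1 hp2 yU yQ hm1 hm2 : Y ⊕ gr_Var)
    {m a c u1 q1 u2 q2 v1 p1 v2 p2 : ℕ} (ha : a = u1 + q1) (hm : m = a + (u2 + q2))
    (hc : c = v1 + p1) (hm' : m = c + (v2 + p2)) (hU : v1 + v2 = u1 + u2)
    (hy : (sig y).rk = m ∧ (sig y).src inv = a ∧ (sig y).tgt inv = c)
    (h1 : 0 < c → (sig hp1).rk = c ∧ (sig hp1).src false = 0 ∧ (sig hp1).tgt false = v1)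
    (h2 : c < m → (sig hp2).rk = m - c ∧ (sig hp2).src false = 0 ∧ (sig hp2).tgt false = v2)
    (h3 : (sig yU).rk = u1 + u2 ∧ (sig yU).src true = v1 ∧ (sig yU).tgt true = u1)
    (h4 : (sig yQ).rk = q1 + q2 ∧ (sig yQ).src true = p1 ∧ (sig yQ).tgt true = q1)
    (h5 : 0 < a → (sig hm1).rk = a ∧ (sig hm1).src true = u1 ∧ (sig hm1).tgt true = 0)
    (h6 : a < m → (sig hm2).rk = m - a ∧ (sig hm2).src true = u2 ∧ (sig hm2).tgt true = 0) :
    gf_TypedF sig m {0, a, m}
      [(.G inv y 0, {0, c, m}),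
        (if 0 < c then .G false hp1 0 else gr_one Y, {0, v1, c, m}),
        (if c < m then .G false hp2 c else gr_one Y, {0, v1, c, c + v2, m}),
        (.S v1 p1 v2, {0, v1, u1 + u2, u1 + u2 + p1, m}),
        (.G true yU 0, {0, u1, u1 + u2, u1 + u2 + p1, m}),
        (.G true yQ (u1 + u2), {0, u1, u1 + u2, u1 + u2 + q1, m}),
        (.S u1 u2 q1, {0, u1, a, a + u2, m}),
        (if 0 < a then .G true hm1 0 else gr_one Y, {0, a, a + u2, m}),
        (if a < m then .G true hm2 a else gr_one Y, {0, a, m})] := by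
  refine gf_TypedF_cons_G hy.1 hy.2.1 hy.2.2 (by clear hy h1 h2 h3 h4 h5 h6; gf_expl) ?_
  refine gf_TypedF_cons_opt h1 (fun _ => by clear hy h1 h2 h3 h4 h5 h6; gf_expl)
    (fun _ => by clear hy h1 h2 h3 h4 h5 h6; ext d; gf_fin) ?_
  refine gf_TypedF_cons_opt h2 (fun _ => by clear hy h1 h2 h3 h4 h5 h6; gf_expl)
    (fun _ => by clear hy h1 h2 h3 h4 h5 h6; ext d; gf_fin) ?_
  refine gf_TypedF_cons_S (by clear hy h1 h2 h3 h4 h5 h6; gf_expl) ?_
  refine gf_TypedF_cons_G h3.1 h3.2.1 h3.2.2 (by clear hy h1 h2 h3 h4 h5 h6; gf_expl) ?_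
  refine gf_TypedF_cons_G h4.1 h4.2.1 h4.2.2 (by clear hy h1 h2 h3 h4 h5 h6; gf_expl) ?_
  refine gf_TypedF_cons_S (by clear hy h1 h2 h3 h4 h5 h6; gf_expl) ?_
  refine gf_TypedF_cons_opt h5 (fun _ => by clear hy h1 h2 h3 h4 h5 h6; gf_expl)
    (fun _ => by clear hy h1 h2 h3 h4 h5 h6; ext d; gf_fin) ?_
  refine gf_TypedF_cons_opt h6 (fun _ => by clear hy h1 h2 h3 h4 h5 h6; gf_expl)
    (fun _ => by clear hy h1 h2 h3 h4 h5 h6; ext d; gf_fin) ?_
  trivial

/-- the link of the strand `A` of a swap -/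
theorem gf_linkA_typed (hp s r hm : Y ⊕ gr_Var) {A a h x : ℕ} (hA : A = a + h + x)
    (h1 : 0 < A → (sig hp).rk = A ∧ (sig hp).src false = 0 ∧ (sig hp).tgt false = a + h)
    (h2 : (sig s).rk = a + h ∧ (sig s).src false = 0 ∧ (sig s).tgt false = a)
    (h3 : (sig r).rk = h + x ∧ (sig r).src true = h ∧ (sig r).tgt true = 0)
    (h4 : 0 < A → (sig hm).rk = A ∧ (sig hm).src true = a ∧ (sig hm).tgt true = 0) :
    gf_TypedF sig A {0, A}
      [(if 0 < A then .G false hp 0 else gr_one Y, {0, a + h, A}),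
        (.G false s 0, {0, a, a + h, A}),
        (.G true r a, {0, a, A}),
        (if 0 < A then .G true hm 0 else gr_one Y, {0, A})] := by
  refine gf_TypedF_cons_opt h1 (fun _ => by clear h1 h2 h3 h4; gf_expl)
    (fun _ => by clear h1 h2 h3 h4; ext d; gf_fin) ?_
  refine gf_TypedF_cons_G h2.1 h2.2.1 h2.2.2 (by clear h1 h2 h3 h4; gf_expl) ?_
  refine gf_TypedF_cons_G h3.1 h3.2.1 h3.2.2 (by clear h1 h2 h3 h4; gf_expl) ?_
  refine gf_TypedF_cons_opt h4 (fun _ => by clear h1 h2 h3 h4; gf_expl)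
    (fun _ => by clear h1 h2 h3 h4; ext d; gf_fin) ?_
  trivial

/-- the link of the strand `B` of a swap -/
theorem gf_linkB_typed (hp v t hm : Y ⊕ gr_Var) {B b h y : ℕ} (hB : B = b + h + y)
    (h1 : 0 < B → (sig hp).rk = B ∧ (sig hp).src false = 0 ∧ (sig hp).tgt false = b)
    (h2 : (sig v).rk = h + y ∧ (sig v).src false = 0 ∧ (sig v).tgt false = h)
    (h3 : (sig t).rk = b + h ∧ (sig t).src true = b ∧ (sig t).tgt true = 0)
    (h4 : 0 < B → (sig hm).rk = B ∧ (sig hm).src true = b + h ∧ (sig hm).tgt true = 0) :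
    gf_TypedF sig B {0, B}
      [(if 0 < B then .G false hp 0 else gr_one Y, {0, b, B}),
        (.G false v b, {0, b, b + h, B}),
        (.G true t 0, {0, b + h, B}),
        (if 0 < B then .G true hm 0 else gr_one Y, {0, B})] := by
  refine gf_TypedF_cons_opt h1 (fun _ => by clear h1 h2 h3 h4; gf_expl)
    (fun _ => by clear h1 h2 h3 h4; ext d; gf_fin) ?_
  refine gf_TypedF_cons_G h2.1 h2.2.1 h2.2.2 (by clear h1 h2 h3 h4; gf_expl) ?_
  refine gf_TypedF_cons_G h3.1 h3.2.1 h3.2.2 (by clear h1 h2 h3 h4; gf_expl) ?_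
  refine gf_TypedF_cons_opt h4 (fun _ => by clear h1 h2 h3 h4; gf_expl)
    (fun _ => by clear h1 h2 h3 h4; ext d; gf_fin) ?_
  trivial

/-- the link of an untouched block -/
theorem gf_linkUn_typed (hp hm : Y ⊕ gr_Var) {sz u : ℕ} (hu : u ≤ sz)
    (h1 : (sig hp).rk = sz ∧ (sig hp).src false = 0 ∧ (sig hp).tgt false = u)
    (h2 : (sig hm).rk = sz ∧ (sig hm).src true = u ∧ (sig hm).tgt true = 0) :
    gf_TypedF sig sz {0, sz} [(.G false hp 0, {0, u, sz}), (.G true hm 0, {0, sz})] := by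
  refine gf_TypedF_cons_G h1.1 h1.2.1 h1.2.2 (by clear h1 h2; gf_expl) ?_
  refine gf_TypedF_cons_G h2.1 h2.2.1 h2.2.2 (by clear h1 h2; gf_expl) ?_
  trivial

end links

end Claimed.Agent.R236
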