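import Mathlib
import Claimed.Agent.R236.GChain
import Claimed.Agent.R236.GFrameB
import Claimed.Agent.R236.GSoundB

/-!
# Row 236, REDUCE: `StReduceWF` from three packages (owner helper148, prefix `grw_`)

* `StRedWFSig` : the signatures of the new variables are bounded             (GRedType*.lean)
* `StRedWFEqn` : `eU`, `eQ` and all links are well formed equations          (GRedType*.lean)
* `StRedWFOcc` : every variable occurs once with each exponent               (GRedOcc.lean)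
-/

set_option autoImplicit false

namespace Claimed.Agent.R236

/-- bounds of the new signatures -/
def StRedWFSig (N : ℕ) (R : Subring ℂ) : Prop :=
  ∀ (Y : Type) (S : gs_Sys Y) (e0 k : ℕ), gr_Hyp N R S e0 k →
    ∀ col, (gr_ctx S e0 k col).WF → ∀ v,
      ((gr_ctx S e0 k col).nsig v).s ≤ ((gr_ctx S e0 k col).nsig v).rk ∧
        ((gr_ctx S e0 k col).nsig v).t ≤ ((gr_ctx S e0 k col).nsig v).rk

/-- the new equations are well formed -/
def StRedWFEqn (N : ℕ) (R : Subring ℂ) : Prop :=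
  ∀ (Y : Type) (S : gs_Sys Y) (e0 k : ℕ), gr_Hyp N R S e0 k →
    ∀ col, (gr_ctx S e0 k col).WF →
      let C := gr_ctx S e0 k col
      C.eU.WF C.sig' N R ∧ C.eQ.WF C.sig' N R ∧ ∀ i s, (C.link i s).WF C.sig' N R

/-- the reduced system is balanced -/
def StRedWFOcc (N : ℕ) (R : Subring ℂ) : Prop :=
  ∀ (Y : Type) (S : gs_Sys Y) (e0 k : ℕ), gr_Hyp N R S e0 k →
    ∀ col, (gr_ctx S e0 k col).WF →
      let S' := gr_reduce N S e0 k col
      (S'.occ false).Nodup ∧ (S'.occ false).Perm (S'.occ true) ∧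
        ∀ y, y ∉ S'.occ false → (S'.sig y).rk = 0

section map
variable {Y Y' : Type}

theorem grw_step_map (f : Y → Y') (sig : Y → gs_Sig) (sig' : Y' → gs_Sig)
    (hf : ∀ y, sig' (f y) = sig y) (K : Finset ℕ) (l : gs_Letter Y) :
    gs_step sig' K (l.map f) = gs_step sig K l := by
  cases l <;> simp [gs_step, gs_Letter.map, hf]

theorem grw_app_map (f : Y → Y') (sig : Y → gs_Sig) (sig' : Y' → gs_Sig)
    (hf : ∀ y, sig' (f y) = sig y) (n : ℕ) (K : Finset ℕ) (l : gs_Letter Y) :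
    gs_app sig' n K (l.map f) ↔ gs_app sig n K l := by
  cases l <;> simp [gs_app, gs_Letter.map, hf]

theorem grw_typed_map (f : Y → Y') (sig : Y → gs_Sig) (sig' : Y' → gs_Sig)
    (hf : ∀ y, sig' (f y) = sig y) (n : ℕ) (K K' : Finset ℕ) (ls : List (gs_Letter Y)) :
    gf_Typed sig' n K (ls.map (gs_Letter.map f)) K' ↔ gf_Typed sig n K ls K' := by
  induction ls generalizing K with
  | nil => simp [gf_Typed]
  | cons l ls ih =>
    rw [List.map_cons, gf_Typed, gf_Typed, grw_app_map f sig sig' hf, grw_step_map f sig sig' hf, ih]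

/-- well formed equations in terms of typed words -/
theorem grw_wf_iff {sig : Y → gs_Sig} {N : ℕ} {R : Subring ℂ} {E : gs_Eqn Y} :
    E.WF sig N R ↔ E.rk ≤ N ∧ gf_FrameOK E.rk E.K0 ∧ gf_Typed sig E.rk E.K0 E.ls E.K0 ∧
      ∀ lam, gs_Letter.L lam ∈ E.ls → ∀ j, lam j ≠ 0 ∧ lam j ∈ R ∧ (lam j)⁻¹ ∈ R := by
  constructor
  · intro h
    exact ⟨h.rk_le, ⟨h.zero_mem, h.rk_mem, h.le_rk⟩, gf_typed_iff.2 ⟨h.app, h.closed⟩, h.unit⟩
  · rintro ⟨h1, ⟨h2, h3, h4⟩, h5, h6⟩
    exact ⟨h1, h2, h3, h4, (gf_typed_iff.1 h5).1, (gf_typed_iff.1 h5).2, h6⟩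

theorem grw_map_wf (f : Y → Y') (sig : Y → gs_Sig) (sig' : Y' → gs_Sig)
    (hf : ∀ y, sig' (f y) = sig y) {N : ℕ} {R : Subring ℂ} {E : gs_Eqn Y} (h : E.WF sig N R) :
    (E.map f).WF sig' N R := by
  rw [grw_wf_iff] at h ⊢
  obtain ⟨h1, h2, h3, h4⟩ := h
  refine ⟨h1, h2, (grw_typed_map f sig sig' hf _ _ _ _).2 h3, fun lam hl => ?_⟩
  obtain ⟨l, hl1, hl'⟩ := List.mem_map.1 hl
  cases l with
  | G inv y o => simp [gs_Letter.map] at hl'
  | S o a b => simp [gs_Letter.map] at hl'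
  | L lam' =>
    simp only [gs_Letter.map, gs_Letter.L.injEq] at hl'
    subst hl'
    exact h4 _ hl1

end map

/-- **`StReduceWF`** from the three packages -/
theorem grw_reduceWF {N : ℕ} {R : Subring ℂ} (h1 : StRedWFSig N R) (h2 : StRedWFEqn N R)
    (h3 : StRedWFOcc N R) : StReduceWF N R := by
  intro Y S e0 k hyp col hC
  obtain ⟨hU, hQ, hL⟩ := h2 Y S e0 k hyp col hC
  obtain ⟨hn, hp, h0⟩ := h3 Y S e0 k hyp col hC
  refine ⟨fun y => ?_, fun y => ?_, fun E hE => ?_, hn, hp, h0⟩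
  · cases y with
    | inl y => exact hyp.wf.sig_s y
    | inr v => exact (h1 Y S e0 k hyp col hC v).1
  · cases y with
    | inl y => exact hyp.wf.sig_t y
    | inr v => exact (h1 Y S e0 k hyp col hC v).2
  · have hE' : E ∈ (S.eqs.map (gs_Eqn.map Sum.inl)).set e0 (gr_ctx S e0 k col).eU ++
        (gr_ctx S e0 k col).eQ :: (List.range ((gr_ctx S e0 k col).len * (N + 2))).map
          fun t => (gr_ctx S e0 k col).link (t / (N + 2)) (t % (N + 2)) := hE
    rcases List.mem_append.1 hE' with hE' | hE'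
    · rcases List.mem_or_eq_of_mem_set hE' with hE' | rfl
      · obtain ⟨E1, hE1, rfl⟩ := List.mem_map.1 hE'
        exact grw_map_wf Sum.inl S.sig _ (fun _ => rfl) (hyp.wf.eqn E1 hE1)
      · exact hU
    · rcases List.mem_cons.1 hE' with rfl | hE'
      · exact hQ
      · obtain ⟨t, -, rfl⟩ := List.mem_map.1 hE'
        exact hL _ _

end Claimed.Agent.R236
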