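import Mathlib
import Claimed.Agent.R236.GReduceWF

/-!
# Row 236, REDUCE: the context of a reduction, signatures of the new variables, typing of the links
(owner helper148, prefix `grw_`)

* `grw_Hyp N R C` : the hypotheses on an abstract context `C : gr_Ctx Y`; `grw_hyp_of`;
* `grw_Hyp.K_ok/K_succ/app/stepOK/K_len/cnt/...` : frames and colourings;
* `grw_nsig_*` : the values of `nsig`;
* `grw_GDat`, `grw_SDat` : all numerical facts at a letter `G`, `S`;
* `grw_linkG_typed`, `grw_linkA_typed`, `grw_linkB_typed`, `grw_linkUn_typed` : the links with their frames.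
-/

set_option autoImplicit false
set_option linter.unusedSectionVars false

namespace Claimed.Agent.R236

variable {Y : Type}

/-- the hypotheses of a reduction, for an abstract context -/
structure grw_Hyp (N : ℕ) (R : Subring ℂ) (C : gr_Ctx Y) : Prop where
  sig : gf_SigOK C.sig
  eqn : C.E.WF C.sig N R
  wf : C.WF
  ne : C.E.ls ≠ []
  mem : C.k ∈ C.E.K0
  pos : 0 < C.k
  ltn : C.k < C.n

theorem grw_hyp_of {N : ℕ} {R : Subring ℂ} {S : gs_Sys Y} {e0 k : ℕ} (hyp : gr_Hyp N R S e0 k)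
    {col : ℕ → ℕ → Bool} (hC : (gr_ctx S e0 k col).WF) : grw_Hyp N R (gr_ctx S e0 k col) :=
  ⟨gsd_hyp_sig hyp, gsd_hyp_eqn hyp, hC, hyp.ne, hyp.mem, hyp.pos, hyp.ltn⟩

theorem grw_get (C : gr_Ctx Y) {i : ℕ} (hi : i < C.len) : C.E.ls[i]? = some (C.letter i) := by
  unfold gr_Ctx.letter
  rw [List.getD_eq_getElem _ _ hi, List.getElem?_eq_getElem hi]

theorem grw_letter (C : gr_Ctx Y) {i : ℕ} (hi : i < C.len) : C.letter i = C.E.ls[i]'hi := by
  unfold gr_Ctx.letter
  rw [List.getD_eq_getElem _ _ hi]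

theorem grw_lt_of_get {C : gr_Ctx Y} {i : ℕ} {l : gs_Letter Y} (hl : C.E.ls[i]? = some l) :
    i < C.len := (List.getElem?_eq_some_iff.1 hl).1

theorem grw_letter_of_get {C : gr_Ctx Y} {i : ℕ} {l : gs_Letter Y} (hl : C.E.ls[i]? = some l) :
    C.letter i = l := by
  have := grw_get C (grw_lt_of_get hl)
  rw [hl] at this
  exact (Option.some.inj this).symm

namespace grw_Hyp

variable {N : ℕ} {R : Subring ℂ} {C : gr_Ctx Y} (h : grw_Hyp N R C)
include h

theorem len_pos : 0 < C.len := List.length_pos_iff.2 h.ne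

theorem n_le : C.n ≤ N := h.eqn.rk_le

theorem K_ok (i : ℕ) : gf_FrameOK C.n (C.K i) :=
  gf_frameOK_frame h.sig ⟨h.eqn.zero_mem, h.eqn.rk_mem, h.eqn.le_rk⟩ h.eqn.app i

theorem K_succ {i : ℕ} (hi : i < C.len) : C.K (i + 1) = gs_step C.sig (C.K i) (C.letter i) := by
  rw [grw_letter C hi]
  exact gf_frame_succ _ _ _ _ hi

theorem app {i : ℕ} (hi : i < C.len) : gs_app C.sig C.n (C.K i) (C.letter i) := by
  rw [grw_letter C hi]
  exact h.eqn.app i hi

theorem stepOK {i : ℕ} (hi : i < C.len) : C.stepOK (C.col i) (C.col (i + 1)) (C.letter i) := by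
  rw [grw_letter C hi]
  exact h.wf.step i hi

theorem K_len : C.K C.len = C.K 0 := h.eqn.closed

theorem K_zero : C.K 0 = C.E.K0 := gf_frame_zero _ _ _

theorem w_lt (i : ℕ) : C.w i < C.len := Nat.mod_lt _ h.len_pos

theorem w_of_lt {i : ℕ} (hi : i < C.len) : C.w i = i := Nat.mod_eq_of_lt hi

theorem K_w {i : ℕ} (hi : i ≤ C.len) : C.K (C.w i) = C.K i := by
  rcases Nat.lt_or_ge i C.len with h1 | h1
  · rw [h.w_of_lt h1]
  · have : i = C.len := le_antisymm hi h1
    subst this
    rw [gr_Ctx.w, Nat.mod_self, h.K_len]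

theorem col_w {i : ℕ} (hi : i ≤ C.len) : C.col (C.w i) = C.col i := by
  rcases Nat.lt_or_ge i C.len with h1 | h1
  · rw [h.w_of_lt h1]
  · have : i = C.len := le_antisymm hi h1
    subst this
    rw [gr_Ctx.w, Nat.mod_self, h.wf.closed]

end grw_Hyp

/-! ## additivity of the counts -/

theorem grw_nU_add (c : ℕ → Bool) {a b d : ℕ} (h1 : a ≤ b) (h2 : b ≤ d) :
    gr_nU c a b + gr_nU c b d = gr_nU c a d := by
  have := gf_cU_le c h1
  have := gf_cU_le c h2
  unfold gr_nU
  omega

theorem grw_nQ_add (c : ℕ → Bool) {a b d : ℕ} (h1 : a ≤ b) (h2 : b ≤ d) :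
    gr_nQ c a b + gr_nQ c b d = gr_nQ c a d := by
  have := gf_cQ_le c h1
  have := gf_cQ_le c h2
  unfold gr_nQ
  omega

theorem grw_nU_le (c : ℕ → Bool) {lo hi : ℕ} (h : lo ≤ hi) : gr_nU c lo hi ≤ hi - lo := by
  have := gf_nU_add_nQ c h
  omega

theorem grw_nU_congr {c c' : ℕ → Bool} {lo hi : ℕ} (h : ∀ t, lo ≤ t → t < hi → c t = c' t) :
    gr_nU c lo hi = gr_nU c' lo hi := by
  rcases Nat.lt_or_ge hi lo with h1 | h1
  · have e1 := gf_cU_le c h1.le
    have e2 := gf_cU_le c' h1.le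
    unfold gr_nU
    omega
  · obtain ⟨e, rfl⟩ := Nat.exists_eq_add_of_le h1
    induction e with
    | zero => simp [gr_nU]
    | succ e ih =>
      have i1 := ih (fun t h1 h2 => h t h1 (by omega)) (by omega)
      have i2 := h (lo + e) (by omega) (by omega)
      have e1 := gf_cU_le c (Nat.le_add_right lo e)
      have e2 := gf_cU_le c' (Nat.le_add_right lo e)
      unfold gr_nU at i1 ⊢
      rw [← Nat.add_assoc, gf_cU_succ, gf_cU_succ, i2]
      omega

/-! ## the number of `U` colours -/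

namespace grw_Hyp

variable {N : ℕ} {R : Subring ℂ} {C : gr_Ctx Y} (h : grw_Hyp N R C)
include h

/-- the interval touched by a letter: colourings agree outside and have the same number of `U`
inside -/
theorem col_out {i : ℕ} (hi : i < C.len) :
    (∀ j, j < (gs_mid C.sig (C.letter i)).1 ∨
        (gs_mid C.sig (C.letter i)).1 + (gs_mid C.sig (C.letter i)).2 ≤ j →
      C.col (i + 1) j = C.col i j) ∧
    gr_nU (C.col (i + 1)) (gs_mid C.sig (C.letter i)).1
        ((gs_mid C.sig (C.letter i)).1 + (gs_mid C.sig (C.letter i)).2) =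
      gr_nU (C.col i) (gs_mid C.sig (C.letter i)).1
        ((gs_mid C.sig (C.letter i)).1 + (gs_mid C.sig (C.letter i)).2) := by
  have hs := h.stepOK hi
  cases hl : C.letter i with
  | G inv y o =>
    rw [hl] at hs
    exact hs
  | S o a b =>
    rw [hl] at hs
    obtain ⟨h1, h2, h3⟩ := hs
    refine ⟨h1, ?_⟩
    have e1 := grw_nU_add (C.col i) (Nat.le_add_right o a) (show o + a ≤ o + a + b by omega)
    have e2 := grw_nU_add (C.col (i + 1)) (Nat.le_add_right o b) (show o + b ≤ o + b + a by omega)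
    have e3 : o + (a + b) = o + a + b := by omega
    have e4 : o + (a + b) = o + b + a := by omega
    have g1 : gr_nU (C.col i) o (o + (a + b)) =
        gr_nU (C.col i) o (o + a) + gr_nU (C.col i) (o + a) (o + a + b) := by rw [e3]; exact e1.symm
    have g2 : gr_nU (C.col (i + 1)) o (o + (a + b)) =
        gr_nU (C.col (i + 1)) o (o + b) + gr_nU (C.col (i + 1)) (o + b) (o + b + a) := by
      rw [e4]; exact e2.symm
    show gr_nU (C.col (i + 1)) o (o + (a + b)) = gr_nU (C.col i) o (o + (a + b))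
    rw [g1, g2]
    omega
  | L lam =>
    rw [hl] at hs
    have hs' : C.col (i + 1) = C.col i := hs
    rw [hs']
    exact ⟨fun _ _ => rfl, rfl⟩

theorem cU_out {i : ℕ} (hi : i < C.len) (d : ℕ) (hd : d ≤ (gs_mid C.sig (C.letter i)).1 ∨
    (gs_mid C.sig (C.letter i)).1 + (gs_mid C.sig (C.letter i)).2 ≤ d) :
    gr_cU (C.col (i + 1)) d = gr_cU (C.col i) d :=
  gf_cU_congr_out (h.col_out hi).1 (h.col_out hi).2 d hd

theorem cQ_out {i : ℕ} (hi : i < C.len) (d : ℕ) (hd : d ≤ (gs_mid C.sig (C.letter i)).1 ∨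
    (gs_mid C.sig (C.letter i)).1 + (gs_mid C.sig (C.letter i)).2 ≤ d) :
    gr_cQ (C.col (i + 1)) d = gr_cQ (C.col i) d :=
  gf_cQ_congr_out (h.col_out hi).1 (h.col_out hi).2 d hd

/-- the ends of the touched interval are cuts -/
theorem mid_mem {i : ℕ} (hi : i < C.len) :
    (gs_mid C.sig (C.letter i)).1 ∈ C.K i ∧
      (gs_mid C.sig (C.letter i)).1 + (gs_mid C.sig (C.letter i)).2 ∈ C.K i := by
  have ha := h.app hi
  cases hl : C.letter i with
  | G inv y o => rw [hl] at ha; exact ⟨ha.1, ha.2.2.1⟩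
  | S o a b => rw [hl] at ha; exact ⟨ha.1, ha.2.2.1⟩
  | L lam => exact ⟨(h.K_ok i).1, (h.K_ok i).1⟩

theorem cnt {i : ℕ} (hi : i ≤ C.len) : gr_cU (C.col i) C.n = C.k := by
  induction i with
  | zero =>
    have h0 : C.col 0 = fun j => decide (j < C.k) := funext h.wf.base
    rw [h0, gct_cU_prefix]
    have := h.ltn
    omega
  | succ i ih =>
    rw [h.cU_out hi _ (Or.inr ((h.K_ok i).2.2 _ (h.mid_mem hi).2)), ih (by omega)]

theorem cntQ {i : ℕ} (hi : i ≤ C.len) : gr_cQ (C.col i) C.n = C.n - C.k := by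
  have h1 := h.cnt hi
  have h2 := gf_cU_add_cQ (C.col i) C.n
  omega

/-- cuts outside of the touched interval -/
theorem K_out {i : ℕ} (hi : i < C.len) (d : ℕ) (hd : d ≤ (gs_mid C.sig (C.letter i)).1 ∨
    (gs_mid C.sig (C.letter i)).1 + (gs_mid C.sig (C.letter i)).2 ≤ d) :
    d ∈ C.K (i + 1) ↔ d ∈ C.K i := by
  have ha := h.app hi
  rw [h.K_succ hi]
  cases hl : C.letter i with
  | G inv y o =>
    rw [hl] at ha hd
    have ht := gf_tgt_le h.sig y inv
    simp only [gs_mid] at hd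
    simp only [gs_step, gf_mem_cutRepl]
    constructor
    · rintro (rfl | h1)
      · rcases hd with hd | hd
        · have : (C.sig y).tgt inv = 0 := by omega
          rw [this]; exact ha.1
        · have : (C.sig y).tgt inv = (C.sig y).rk := by omega
          rw [this]; exact ha.2.2.1
      · exact h1.1
    · exact fun h1 => Or.inr ⟨h1, hd⟩
  | S o a b =>
    rw [hl] at ha hd
    simp only [gs_mid] at hd
    simp only [gs_step, gf_mem_cutRepl]
    constructor
    · rintro (rfl | h1)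
      · rcases hd with hd | hd
        · have : b = 0 := by omega
          subst this; exact ha.1
        · have : a = 0 := by omega
          subst this
          simpa using ha.2.2.1
      · exact h1.1
    · exact fun h1 => Or.inr ⟨h1, hd⟩
  | L lam => rfl

end grw_Hyp

/-! ## the next cut inside and outside of the touched interval -/

theorem grw_nxt_left {K : Finset ℕ} {o m a : ℕ} (h : gs_midOK K o m a) (ha : 0 < a) :
    gr_nxt K o = o + a := by
  obtain ⟨-, h2, -, h4, h5⟩ := h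
  refine gf_nxt_eq h2 (by omega) fun d' hd' hlt => ?_
  by_contra hc
  have := h5 d' hd' hlt (by omega)
  omega

theorem grw_nxt_right {K : Finset ℕ} {o m a : ℕ} (h : gs_midOK K o m a) (ha : a < m) :
    gr_nxt K (o + a) = o + m := by
  obtain ⟨-, -, h3, h4, h5⟩ := h
  refine gf_nxt_eq h3 (by omega) fun d' hd' hlt => ?_
  by_contra hc
  have := h5 d' hd' (by omega) (by omega)
  omega

theorem grw_midOK_cutRepl {K : Finset ℕ} {o m a c : ℕ} (h : gs_midOK K o m a) (hc : c ≤ m) :
    gs_midOK (gs_cutRepl K o m c) o m c := by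
  obtain ⟨h1, -, h3, -, -⟩ := h
  refine ⟨gf_mem_cutRepl.2 (Or.inr ⟨h1, Or.inl le_rfl⟩), gf_mem_cutRepl.2 (Or.inl rfl),
    gf_mem_cutRepl.2 (Or.inr ⟨h3, Or.inr le_rfl⟩), hc, fun d hd h1 h2 => ?_⟩
  rcases gf_mem_cutRepl.1 hd with rfl | ⟨-, h'⟩
  · rfl
  · omega

/-! ## the signatures of the new variables -/

theorem grw_nsig_H {C : gr_Ctx Y} {i c : ℕ} (h1 : i < C.len) (h2 : c ∈ C.K i) (h3 : c < C.n) :
    C.nsig (.H i c) =
      ⟨gr_nxt (C.K i) c - c, 0, gr_nU (C.col i) c (gr_nxt (C.K i) c)⟩ := by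
  simp only [gr_Ctx.nsig]
  rw [if_pos ⟨h1, h2, h3⟩]

theorem grw_nsig_H_neg {C : gr_Ctx Y} {i c : ℕ} (h1 : ¬ (i < C.len ∧ c ∈ C.K i ∧ c < C.n)) :
    C.nsig (.H i c) = ⟨0, 0, 0⟩ := by
  simp only [gr_Ctx.nsig]
  rw [if_neg h1]

theorem grw_Hyp.nsig_Hw {N : ℕ} {R : Subring ℂ} {C : gr_Ctx Y} (h : grw_Hyp N R C) {i c : ℕ}
    (h1 : i ≤ C.len) (h2 : c ∈ C.K i) (h3 : c < C.n) :
    C.nsig (.H (C.w i) c) =
      ⟨gr_nxt (C.K i) c - c, 0, gr_nU (C.col i) c (gr_nxt (C.K i) c)⟩ := by
  rw [grw_nsig_H (h.w_lt i) (by rw [h.K_w h1]; exact h2) h3, h.K_w h1, h.col_w h1]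

section nsig
variable {C : gr_Ctx Y} {i : ℕ}

theorem grw_nsig_YU {inv : Bool} {y : Y} {o : ℕ} (hl : C.E.ls[i]? = some (.G inv y o)) :
    C.nsig (.YU i) = ⟨gr_nU (C.col i) o (o + (C.sig y).rk),
      gr_nU (C.col i) o (o + (C.sig y).src inv),
      gr_nU (C.col (i + 1)) o (o + (C.sig y).tgt inv)⟩ := by
  simp only [gr_Ctx.nsig, hl]

theorem grw_nsig_YQ {inv : Bool} {y : Y} {o : ℕ} (hl : C.E.ls[i]? = some (.G inv y o)) :
    C.nsig (.YQ i) = ⟨gr_nQ (C.col i) o (o + (C.sig y).rk),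
      gr_nQ (C.col i) o (o + (C.sig y).src inv),
      gr_nQ (C.col (i + 1)) o (o + (C.sig y).tgt inv)⟩ := by
  simp only [gr_Ctx.nsig, hl]

theorem grw_nsig_T {o A B : ℕ} (hl : C.E.ls[i]? = some (.S o A B)) :
    C.nsig (.T i) = ⟨(gr_snum (C.col i) (C.col (i + 1)) o A B).b +
      (gr_snum (C.col i) (C.col (i + 1)) o A B).h, 0,
      (gr_snum (C.col i) (C.col (i + 1)) o A B).b⟩ := by
  simp only [gr_Ctx.nsig, hl]

theorem grw_nsig_S {o A B : ℕ} (hl : C.E.ls[i]? = some (.S o A B)) :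
    C.nsig (.S i) = ⟨(gr_snum (C.col i) (C.col (i + 1)) o A B).a +
      (gr_snum (C.col i) (C.col (i + 1)) o A B).h, 0,
      (gr_snum (C.col i) (C.col (i + 1)) o A B).a⟩ := by
  simp only [gr_Ctx.nsig, hl]

theorem grw_nsig_R {o A B : ℕ} (hl : C.E.ls[i]? = some (.S o A B)) :
    C.nsig (.R i) = ⟨(gr_snum (C.col i) (C.col (i + 1)) o A B).h +
      (gr_snum (C.col i) (C.col (i + 1)) o A B).x, 0,
      (gr_snum (C.col i) (C.col (i + 1)) o A B).h⟩ := by
  simp only [gr_Ctx.nsig, hl]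

theorem grw_nsig_V {o A B : ℕ} (hl : C.E.ls[i]? = some (.S o A B)) :
    C.nsig (.V i) = ⟨(gr_snum (C.col i) (C.col (i + 1)) o A B).h +
      (gr_snum (C.col i) (C.col (i + 1)) o A B).y, 0,
      (gr_snum (C.col i) (C.col (i + 1)) o A B).h⟩ := by
  simp only [gr_Ctx.nsig, hl]

end nsig

/-! ## the numbers of a swap -/

/-- all numerical facts at a letter `S o A B` -/
structure grw_SDat (C : gr_Ctx Y) (i o A B : ℕ) : Prop where
  mid : gs_midOK (C.K i) o (A + B) A
  mid' : gs_midOK (C.K (i + 1)) o (A + B) B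
  Ksucc : C.K (i + 1) = gs_cutRepl (C.K i) o (A + B) B
  le : o + (A + B) ≤ C.n
  a_eq : (gr_snum (C.col i) (C.col (i + 1)) o A B).a = gr_nU (C.col i) o (o + A)
  b_eq : (gr_snum (C.col i) (C.col (i + 1)) o A B).b = gr_nU (C.col (i + 1)) o (o + B)
  ah_eq : (gr_snum (C.col i) (C.col (i + 1)) o A B).a + (gr_snum (C.col i) (C.col (i + 1)) o A B).h
    = gr_nU (C.col (i + 1)) (o + B) (o + (A + B))
  bh_eq : (gr_snum (C.col i) (C.col (i + 1)) o A B).b + (gr_snum (C.col i) (C.col (i + 1)) o A B).h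
    = gr_nU (C.col i) (o + A) (o + (A + B))
  A_eq : A = (gr_snum (C.col i) (C.col (i + 1)) o A B).a +
    (gr_snum (C.col i) (C.col (i + 1)) o A B).h + (gr_snum (C.col i) (C.col (i + 1)) o A B).x
  B_eq : B = (gr_snum (C.col i) (C.col (i + 1)) o A B).b +
    (gr_snum (C.col i) (C.col (i + 1)) o A B).h + (gr_snum (C.col i) (C.col (i + 1)) o A B).y

theorem grw_Hyp.sdat {N : ℕ} {R : Subring ℂ} {C : gr_Ctx Y} (h : grw_Hyp N R C) {i o A B : ℕ}
    (hl : C.E.ls[i]? = some (.S o A B)) : grw_SDat C i o A B := by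
  have hi := grw_lt_of_get hl
  have hl' := grw_letter_of_get hl
  have ha := h.app hi
  have hs := h.stepOK hi
  have hk := h.K_succ hi
  rw [hl'] at ha hs hk
  have ha' : gs_midOK (C.K i) o (A + B) A := ha
  have hk' : C.K (i + 1) = gs_cutRepl (C.K i) o (A + B) B := hk
  obtain ⟨-, h2, h3⟩ := hs
  have e1 : o + B + A = o + (A + B) := by omega
  have e2 : o + A + B = o + (A + B) := by omega
  rw [e1] at h2 h3
  rw [e2] at h3
  have l1 := grw_nU_le (C.col (i + 1)) (show o + B ≤ o + (A + B) by omega)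
  have l2 := grw_nU_le (C.col i) (show o + A ≤ o + (A + B) by omega)
  have hh : (gr_snum (C.col i) (C.col (i + 1)) o A B).h
      = gr_nU (C.col (i + 1)) (o + B) (o + (A + B)) - gr_nU (C.col i) o (o + A) := by
    simp only [gr_snum, e1]
  have hx : (gr_snum (C.col i) (C.col (i + 1)) o A B).x
      = A - gr_nU (C.col i) o (o + A) - (gr_snum (C.col i) (C.col (i + 1)) o A B).h := rfl
  have hy : (gr_snum (C.col i) (C.col (i + 1)) o A B).y
      = B - gr_nU (C.col (i + 1)) o (o + B) - (gr_snum (C.col i) (C.col (i + 1)) o A B).h := rfl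
  have hae : (gr_snum (C.col i) (C.col (i + 1)) o A B).a = gr_nU (C.col i) o (o + A) := rfl
  have hbe : (gr_snum (C.col i) (C.col (i + 1)) o A B).b = gr_nU (C.col (i + 1)) o (o + B) := rfl
  refine ⟨ha', ?_, hk', (h.K_ok i).2.2 _ ha'.2.2.1, hae, hbe, ?_, ?_, ?_, ?_⟩
  · rw [hk']; exact grw_midOK_cutRepl ha' (by omega)
  · rw [hae, hh]; omega
  · rw [hbe, hh]; omega
  · rw [hx, hae, hh]; omega
  · rw [hy, hbe, hh]; omega

/-! ## the numbers of a letter `G` -/

/-- all numerical facts at a letter `G inv y o` -/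
structure grw_GDat (C : gr_Ctx Y) (i : ℕ) (inv : Bool) (y : Y) (o : ℕ) : Prop where
  mid : gs_midOK (C.K i) o (C.sig y).rk ((C.sig y).src inv)
  mid' : gs_midOK (C.K (i + 1)) o (C.sig y).rk ((C.sig y).tgt inv)
  Ksucc : C.K (i + 1) = gs_cutRepl (C.K i) o (C.sig y).rk ((C.sig y).tgt inv)
  le : o + (C.sig y).rk ≤ C.n
  src_le : (C.sig y).src inv ≤ (C.sig y).rk
  tgt_le : (C.sig y).tgt inv ≤ (C.sig y).rk
  nU_eq : gr_nU (C.col (i + 1)) o (o + (C.sig y).rk) = gr_nU (C.col i) o (o + (C.sig y).rk)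

theorem grw_Hyp.gdat {N : ℕ} {R : Subring ℂ} {C : gr_Ctx Y} (h : grw_Hyp N R C) {i : ℕ}
    {inv : Bool} {y : Y} {o : ℕ} (hl : C.E.ls[i]? = some (.G inv y o)) : grw_GDat C i inv y o := by
  have hi := grw_lt_of_get hl
  have hl' := grw_letter_of_get hl
  have ha := h.app hi
  have hs := h.stepOK hi
  have hk := h.K_succ hi
  rw [hl'] at ha hs hk
  have ha' : gs_midOK (C.K i) o (C.sig y).rk ((C.sig y).src inv) := ha
  have hk' : C.K (i + 1) = gs_cutRepl (C.K i) o (C.sig y).rk ((C.sig y).tgt inv) := hk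
  refine ⟨ha', ?_, hk', (h.K_ok i).2.2 _ ha'.2.2.1, gf_src_le h.sig y inv, gf_tgt_le h.sig y inv,
    hs.2⟩
  rw [hk']; exact grw_midOK_cutRepl ha' (gf_tgt_le h.sig y inv)

/-! ## typing of the links -/

theorem grw_sig_triple {σ : gs_Sig} {r s t : ℕ} (h : σ = ⟨r, s, t⟩) :
    (σ.rk = r ∧ σ.src false = s ∧ σ.tgt false = t) ∧ (σ.rk = r ∧ σ.src true = t ∧ σ.tgt true = s) := by
  subst h
  simp [gs_Sig.src, gs_Sig.tgt]

section links
variable {N : ℕ} {R : Subring ℂ} {C : gr_Ctx Y} (h : grw_Hyp N R C) {i : ℕ}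
include h

/-- the signature of `H i c` for a block `[c,d)` of the frame `i ≤ len` (cyclic index) -/
theorem grw_Hyp.nsig_block {c d : ℕ} (hi : i ≤ C.len) (hc : c ∈ C.K i) (hn : c < C.n)
    (hd : gr_nxt (C.K i) c = d) :
    C.sig' (.inr (.H (C.w i) c)) = ⟨d - c, 0, gr_nU (C.col i) c d⟩ := by
  subst hd
  exact h.nsig_Hw hi hc hn

/-- the link of a letter `G`, with the frame after every letter -/
theorem grw_Hyp.linkG_typed {inv : Bool} {y : Y} {o : ℕ} (hl : C.E.ls[i]? = some (.G inv y o)) :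
    gf_TypedF C.sig' (C.sig y).rk {0, (C.sig y).src inv, (C.sig y).rk}
      [(.G inv (.inl y) 0, {0, (C.sig y).tgt inv, (C.sig y).rk}),
        (if 0 < (C.sig y).tgt inv then .G false (.inr (.H (C.w (i + 1)) o)) 0 else gr_one Y,
          {0, gr_nU (C.col (i + 1)) o (o + (C.sig y).tgt inv), (C.sig y).tgt inv, (C.sig y).rk}),
        (if (C.sig y).tgt inv < (C.sig y).rk then
            .G false (.inr (.H (C.w (i + 1)) (o + (C.sig y).tgt inv))) ((C.sig y).tgt inv)
          else gr_one Y,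
          {0, gr_nU (C.col (i + 1)) o (o + (C.sig y).tgt inv), (C.sig y).tgt inv,
            (C.sig y).tgt inv + gr_nU (C.col (i + 1)) (o + (C.sig y).tgt inv) (o + (C.sig y).rk),
            (C.sig y).rk}),
        (.S (gr_nU (C.col (i + 1)) o (o + (C.sig y).tgt inv))
            (gr_nQ (C.col (i + 1)) o (o + (C.sig y).tgt inv))
            (gr_nU (C.col (i + 1)) (o + (C.sig y).tgt inv) (o + (C.sig y).rk)),
          {0, gr_nU (C.col (i + 1)) o (o + (C.sig y).tgt inv),
            gr_nU (C.col i) o (o + (C.sig y).src inv) +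
              gr_nU (C.col i) (o + (C.sig y).src inv) (o + (C.sig y).rk),
            gr_nU (C.col i) o (o + (C.sig y).src inv) +
              gr_nU (C.col i) (o + (C.sig y).src inv) (o + (C.sig y).rk) +
              gr_nQ (C.col (i + 1)) o (o + (C.sig y).tgt inv), (C.sig y).rk}),
        (.G true (.inr (.YU i)) 0,
          {0, gr_nU (C.col i) o (o + (C.sig y).src inv),
            gr_nU (C.col i) o (o + (C.sig y).src inv) +
              gr_nU (C.col i) (o + (C.sig y).src inv) (o + (C.sig y).rk),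
            gr_nU (C.col i) o (o + (C.sig y).src inv) +
              gr_nU (C.col i) (o + (C.sig y).src inv) (o + (C.sig y).rk) +
              gr_nQ (C.col (i + 1)) o (o + (C.sig y).tgt inv), (C.sig y).rk}),
        (.G true (.inr (.YQ i)) (gr_nU (C.col i) o (o + (C.sig y).src inv) +
              gr_nU (C.col i) (o + (C.sig y).src inv) (o + (C.sig y).rk)),
          {0, gr_nU (C.col i) o (o + (C.sig y).src inv),
            gr_nU (C.col i) o (o + (C.sig y).src inv) +
              gr_nU (C.col i) (o + (C.sig y).src inv) (o + (C.sig y).rk),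
            gr_nU (C.col i) o (o + (C.sig y).src inv) +
              gr_nU (C.col i) (o + (C.sig y).src inv) (o + (C.sig y).rk) +
              gr_nQ (C.col i) o (o + (C.sig y).src inv), (C.sig y).rk}),
        (.S (gr_nU (C.col i) o (o + (C.sig y).src inv))
            (gr_nU (C.col i) (o + (C.sig y).src inv) (o + (C.sig y).rk))
            (gr_nQ (C.col i) o (o + (C.sig y).src inv)),
          {0, gr_nU (C.col i) o (o + (C.sig y).src inv), (C.sig y).src inv,
            (C.sig y).src inv + gr_nU (C.col i) (o + (C.sig y).src inv) (o + (C.sig y).rk),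
            (C.sig y).rk}),
        (if 0 < (C.sig y).src inv then .G true (.inr (.H i o)) 0 else gr_one Y,
          {0, (C.sig y).src inv,
            (C.sig y).src inv + gr_nU (C.col i) (o + (C.sig y).src inv) (o + (C.sig y).rk),
            (C.sig y).rk}),
        (if (C.sig y).src inv < (C.sig y).rk then
            .G true (.inr (.H i (o + (C.sig y).src inv))) ((C.sig y).src inv)
          else gr_one Y, {0, (C.sig y).src inv, (C.sig y).rk})] := by
  have hi := grw_lt_of_get hl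
  obtain ⟨Dmid, Dmid', -, hle, hsa, hsc, DnU⟩ := h.gdat hl
  have hw : C.w i = i := h.w_of_lt hi
  have hYU := (grw_sig_triple (grw_nsig_YU hl)).2
  have hYQ := (grw_sig_triple (grw_nsig_YQ hl)).2
  generalize hm : (C.sig y).rk = m at *
  generalize ha : (C.sig y).src inv = a at *
  generalize hc : (C.sig y).tgt inv = c at *
  refine gf_linkG_typed C.sig' inv (.inl y) _ _ _ _ _ _
    (q2 := gr_nQ (C.col i) (o + a) (o + m)) (p2 := gr_nQ (C.col (i + 1)) (o + c) (o + m))
    ?_ ?_ ?_ ?_ ?_ ⟨hm, ha, hc⟩ (fun h0 => ?_) (fun h0 => ?_) ?_ ?_ (fun h0 => ?_) (fun h0 => ?_)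
  · have := gf_nU_add_nQ (C.col i) (Nat.le_add_right o a); omega
  · have := gf_nU_add_nQ (C.col i) (show o + a ≤ o + m by omega); omega
  · have := gf_nU_add_nQ (C.col (i + 1)) (Nat.le_add_right o c); omega
  · have := gf_nU_add_nQ (C.col (i + 1)) (show o + c ≤ o + m by omega); omega
  · rw [grw_nU_add _ (Nat.le_add_right o c) (show o + c ≤ o + m by omega),
      grw_nU_add _ (Nat.le_add_right o a) (show o + a ≤ o + m by omega)]
    exact DnU
  · have := (grw_sig_triple (h.nsig_block (i := i + 1) hi Dmid'.1 (by omega)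
      (grw_nxt_left Dmid' h0))).1
    simpa using this
  · have := (grw_sig_triple (h.nsig_block (i := i + 1) hi Dmid'.2.1 (by omega)
      (grw_nxt_right Dmid' h0))).1
    rw [show o + m - (o + c) = m - c by omega] at this
    exact this
  · rw [← grw_nU_add _ (Nat.le_add_right o a) (show o + a ≤ o + m by omega)] at hYU
    exact hYU
  · rw [← grw_nQ_add _ (Nat.le_add_right o a) (show o + a ≤ o + m by omega)] at hYQ
    exact hYQ
  · have := (grw_sig_triple (h.nsig_block (i := i) hi.le Dmid.1 (by omega)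
      (grw_nxt_left Dmid h0))).2
    rw [hw] at this
    simpa using this
  · have := (grw_sig_triple (h.nsig_block (i := i) hi.le Dmid.2.1 (by omega)
      (grw_nxt_right Dmid h0))).2
    rw [hw, show o + m - (o + a) = m - a by omega] at this
    exact this

/-- the link of the strand `A` of a swap, with the frame after every letter -/
theorem grw_Hyp.linkA_typed {o A B : ℕ} (hl : C.E.ls[i]? = some (.S o A B)) :
    gf_TypedF C.sig' A {0, A}
      [(if 0 < A then .G false (.inr (.H (C.w (i + 1)) (o + B))) 0 else gr_one Y,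
          {0, (gr_snum (C.col i) (C.col (i + 1)) o A B).a +
            (gr_snum (C.col i) (C.col (i + 1)) o A B).h, A}),
        (.G false (.inr (.S i)) 0,
          {0, (gr_snum (C.col i) (C.col (i + 1)) o A B).a,
            (gr_snum (C.col i) (C.col (i + 1)) o A B).a +
            (gr_snum (C.col i) (C.col (i + 1)) o A B).h, A}),
        (.G true (.inr (.R i)) (gr_snum (C.col i) (C.col (i + 1)) o A B).a,
          {0, (gr_snum (C.col i) (C.col (i + 1)) o A B).a, A}),
        (if 0 < A then .G true (.inr (.H i o)) 0 else gr_one Y, {0, A})] := by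
  have hi := grw_lt_of_get hl
  have D := h.sdat hl
  have hw : C.w i = i := h.w_of_lt hi
  have hle := D.le
  refine gf_linkA_typed C.sig' _ _ _ _ D.A_eq (fun h0 => ?_)
    (grw_sig_triple (grw_nsig_S hl)).1 (grw_sig_triple (grw_nsig_R hl)).2 (fun h0 => ?_)
  · have := (grw_sig_triple (h.nsig_block (i := i + 1) hi D.mid'.2.1 (by omega)
      (grw_nxt_right D.mid' (by omega)))).1
    rw [show o + (A + B) - (o + B) = A by omega, ← D.ah_eq] at this
    exact this
  · have := (grw_sig_triple (h.nsig_block (i := i) hi.le D.mid.1 (by omega)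
      (grw_nxt_left D.mid h0))).2
    rw [hw, show o + A - o = A by omega, ← D.a_eq] at this
    exact this

/-- the link of the strand `B` of a swap, with the frame after every letter -/
theorem grw_Hyp.linkB_typed {o A B : ℕ} (hl : C.E.ls[i]? = some (.S o A B)) :
    gf_TypedF C.sig' B {0, B}
      [(if 0 < B then .G false (.inr (.H (C.w (i + 1)) o)) 0 else gr_one Y,
          {0, (gr_snum (C.col i) (C.col (i + 1)) o A B).b, B}),
        (.G false (.inr (.V i)) (gr_snum (C.col i) (C.col (i + 1)) o A B).b,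
          {0, (gr_snum (C.col i) (C.col (i + 1)) o A B).b,
            (gr_snum (C.col i) (C.col (i + 1)) o A B).b +
            (gr_snum (C.col i) (C.col (i + 1)) o A B).h, B}),
        (.G true (.inr (.T i)) 0,
          {0, (gr_snum (C.col i) (C.col (i + 1)) o A B).b +
            (gr_snum (C.col i) (C.col (i + 1)) o A B).h, B}),
        (if 0 < B then .G true (.inr (.H i (o + A))) 0 else gr_one Y, {0, B})] := by
  have hi := grw_lt_of_get hl
  have D := h.sdat hl
  have hw : C.w i = i := h.w_of_lt hi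
  have hle := D.le
  refine gf_linkB_typed C.sig' _ _ _ _ D.B_eq (fun h0 => ?_)
    (grw_sig_triple (grw_nsig_V hl)).1 (grw_sig_triple (grw_nsig_T hl)).2 (fun h0 => ?_)
  · have := (grw_sig_triple (h.nsig_block (i := i + 1) hi D.mid'.1 (by omega)
      (grw_nxt_left D.mid' h0))).1
    rw [show o + B - o = B by omega, ← D.b_eq] at this
    exact this
  · have := (grw_sig_triple (h.nsig_block (i := i) hi.le D.mid.2.1 (by omega)
      (grw_nxt_right D.mid (by omega)))).2
    rw [hw, show o + (A + B) - (o + A) = B by omega, ← D.bh_eq] at this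
    exact this

/-- an untouched block: same next cut, same number of `U` -/
theorem grw_Hyp.spect {c : ℕ} (hi : i < C.len) (hc : c ∈ C.K i) (hn : c < C.n)
    (hout : c < (gs_mid C.sig (C.letter i)).1 ∨
      (gs_mid C.sig (C.letter i)).1 + (gs_mid C.sig (C.letter i)).2 ≤ c) :
    c ∈ C.K (i + 1) ∧ gr_nxt (C.K (i + 1)) c = gr_nxt (C.K i) c ∧
      gr_nU (C.col (i + 1)) c (gr_nxt (C.K i) c) = gr_nU (C.col i) c (gr_nxt (C.K i) c) := by
  obtain ⟨h1, h2, h3⟩ := gf_nxt_spec (h.K_ok i).2.1 hn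
  have hmid := h.mid_mem hi
  have hnx : gr_nxt (C.K i) c ≤ (gs_mid C.sig (C.letter i)).1 ∨
      (gs_mid C.sig (C.letter i)).1 + (gs_mid C.sig (C.letter i)).2 ≤ c := by
    rcases hout with h' | h'
    · exact Or.inl (h3 _ hmid.1 h')
    · exact Or.inr h'
  refine ⟨(h.K_out hi c (by omega)).2 hc, ?_, ?_⟩
  · refine gf_nxt_congr (h.K_ok i).2.1 hn fun d hd1 hd2 => ?_
    exact (h.K_out hi d (by omega)).symm
  · refine grw_nU_congr fun t ht1 ht2 => (h.col_out hi).1 t (by omega)

/-- the link of an untouched block, with the frame after every letter -/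
theorem grw_Hyp.linkUn_typed {c : ℕ} (hi : i < C.len) (hc : c ∈ C.K i) (hn : c < C.n)
    (hout : c < (gs_mid C.sig (C.letter i)).1 ∨
      (gs_mid C.sig (C.letter i)).1 + (gs_mid C.sig (C.letter i)).2 ≤ c) :
    gf_TypedF C.sig' (gr_nxt (C.K i) c - c) {0, gr_nxt (C.K i) c - c}
      [(.G false (.inr (.H (C.w (i + 1)) c)) 0,
          {0, gr_nU (C.col i) c (gr_nxt (C.K i) c), gr_nxt (C.K i) c - c}),
        (.G true (.inr (.H i c)) 0, {0, gr_nxt (C.K i) c - c})] := by
  obtain ⟨s1, s2, s3⟩ := h.spect hi hc hn hout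
  obtain ⟨h1, h2, h3⟩ := gf_nxt_spec (h.K_ok i).2.1 hn
  have hw : C.w i = i := h.w_of_lt hi
  refine gf_linkUn_typed C.sig' _ _ (grw_nU_le _ h2.le) ?_ ?_
  · have := (grw_sig_triple (h.nsig_block (i := i + 1) hi s1 hn s2)).1
    rw [s3] at this
    exact this
  · have := (grw_sig_triple (h.nsig_block (i := i) hi.le hc hn rfl)).2
    rw [hw] at this
    exact this

end links

/-! ## the link equations by cases -/

section linkcases
variable {C : gr_Ctx Y} {i : ℕ}

theorem grw_link_none (hl : C.E.ls[i]? = none) (s : ℕ) : C.link i s = gs_Eqn.triv _ := by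
  simp only [gr_Ctx.link, hl]

theorem grw_link_G0 {inv : Bool} {y : Y} {o : ℕ} (hl : C.E.ls[i]? = some (.G inv y o)) :
    C.link i 0 = C.linkG i inv y o := by
  simp only [gr_Ctx.link, hl]

theorem grw_link_G1 {inv : Bool} {y : Y} {o : ℕ} (hl : C.E.ls[i]? = some (.G inv y o)) :
    C.link i 1 = gs_Eqn.triv _ := by
  simp only [gr_Ctx.link, hl]

theorem grw_link_S0 {o A B : ℕ} (hl : C.E.ls[i]? = some (.S o A B)) :
    C.link i 0 = C.linkA i o A B := by
  simp only [gr_Ctx.link, hl]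

theorem grw_link_S1 {o A B : ℕ} (hl : C.E.ls[i]? = some (.S o A B)) :
    C.link i 1 = C.linkB i o A B := by
  simp only [gr_Ctx.link, hl]

theorem grw_link_L0 {lam : ℕ → ℂ} (hl : C.E.ls[i]? = some (.L lam)) :
    C.link i 0 = gs_Eqn.triv _ := by
  simp only [gr_Ctx.link, hl]

theorem grw_link_L1 {lam : ℕ → ℂ} (hl : C.E.ls[i]? = some (.L lam)) :
    C.link i 1 = gs_Eqn.triv _ := by
  simp only [gr_Ctx.link, hl]

theorem grw_link_un_pos {l : gs_Letter Y} (hl : C.E.ls[i]? = some l) {c : ℕ}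
    (hc : c ∈ C.K i ∧ c < C.n ∧
      (c < (gs_mid C.sig l).1 ∨ (gs_mid C.sig l).1 + (gs_mid C.sig l).2 ≤ c)) :
    C.link i (c + 2) = C.linkUn i c := by
  simp only [gr_Ctx.link, hl]
  rw [if_pos hc]

theorem grw_link_un_neg {l : gs_Letter Y} (hl : C.E.ls[i]? = some l) {c : ℕ}
    (hc : ¬ (c ∈ C.K i ∧ c < C.n ∧
      (c < (gs_mid C.sig l).1 ∨ (gs_mid C.sig l).1 + (gs_mid C.sig l).2 ≤ c))) :
    C.link i (c + 2) = gs_Eqn.triv _ := by
  simp only [gr_Ctx.link, hl]
  rw [if_neg hc]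

end linkcases

/-! ## the diagonal letters are units -/

/-- all diagonal letters of the word have entries in `Rˣ` -/
def grw_UnitL (R : Subring ℂ) (ls : List (gs_Letter Y)) : Prop :=
  ∀ lam, gs_Letter.L lam ∈ ls → ∀ j, lam j ≠ 0 ∧ lam j ∈ R ∧ (lam j)⁻¹ ∈ R

section unitL
variable {R : Subring ℂ}

theorem grw_unitL_nil : grw_UnitL R ([] : List (gs_Letter Y)) := fun _ h => by simp at h

theorem grw_unitL_cons_G {inv : Bool} {y : Y} {o : ℕ} {ls : List (gs_Letter Y)}
    (h : grw_UnitL R ls) : grw_UnitL R (.G inv y o :: ls) := fun lam hl => by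
  rcases List.mem_cons.1 hl with hl | hl
  · cases hl
  · exact h lam hl

theorem grw_unitL_cons_S {o a b : ℕ} {ls : List (gs_Letter Y)}
    (h : grw_UnitL R ls) : grw_UnitL R (.S o a b :: ls) := fun lam hl => by
  rcases List.mem_cons.1 hl with hl | hl
  · cases hl
  · exact h lam hl

theorem grw_unitL_cons_L {lam : ℕ → ℂ} {ls : List (gs_Letter Y)}
    (h0 : ∀ j, lam j ≠ 0 ∧ lam j ∈ R ∧ (lam j)⁻¹ ∈ R)
    (h : grw_UnitL R ls) : grw_UnitL R (.L lam :: ls) := fun lam' hl => by
  rcases List.mem_cons.1 hl with hl | hl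
  · cases hl
    exact h0
  · exact h lam' hl

theorem grw_unit_one (R : Subring ℂ) : (1 : ℂ) ≠ 0 ∧ (1 : ℂ) ∈ R ∧ (1 : ℂ)⁻¹ ∈ R :=
  ⟨one_ne_zero, R.one_mem, by rw [inv_one]; exact R.one_mem⟩

theorem grw_unit_neg_one (R : Subring ℂ) : (-1 : ℂ) ≠ 0 ∧ (-1 : ℂ) ∈ R ∧ (-1 : ℂ)⁻¹ ∈ R :=
  ⟨by norm_num, R.neg_mem R.one_mem, by rw [inv_neg_one]; exact R.neg_mem R.one_mem⟩

theorem grw_unitL_cons_one {ls : List (gr_Let Y)}
    (h : grw_UnitL R ls) : grw_UnitL R (gr_one Y :: ls) :=
  grw_unitL_cons_L (fun _ => grw_unit_one R) h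

theorem grw_unitL_cons_opt {p : Prop} [Decidable p] {inv : Bool} {y : Y ⊕ gr_Var} {o : ℕ}
    {ls : List (gr_Let Y)} (h : grw_UnitL R ls) :
    grw_UnitL R ((if p then .G inv y o else gr_one Y) :: ls) := by
  split_ifs
  · exact grw_unitL_cons_G h
  · exact grw_unitL_cons_one h

theorem grw_unitL_append {l₁ l₂ : List (gs_Letter Y)} (h₁ : grw_UnitL R l₁)
    (h₂ : grw_UnitL R l₂) : grw_UnitL R (l₁ ++ l₂) := fun lam hl => by
  rcases List.mem_append.1 hl with hl | hl
  · exact h₁ lam hl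
  · exact h₂ lam hl

end unitL

/-! ## the links are well formed -/

theorem grw_triv_wf (sig : Y → gs_Sig) (N : ℕ) (R : Subring ℂ) : (gs_Eqn.triv Y).WF sig N R := by
  rw [grw_wf_iff]
  refine ⟨Nat.zero_le _, ⟨by simp [gs_Eqn.triv], by simp [gs_Eqn.triv], by simp [gs_Eqn.triv]⟩,
    rfl, fun lam hl => by simp [gs_Eqn.triv] at hl⟩

theorem grw_frameOK_pair (n : ℕ) : gf_FrameOK n {0, n} :=
  ⟨by simp, by simp, fun d hd => by
    simp only [Finset.mem_insert, Finset.mem_singleton] at hd; omega⟩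

theorem grw_frameOK_triple {a n : ℕ} (h : a ≤ n) : gf_FrameOK n {0, a, n} :=
  ⟨by simp, by simp, fun d hd => by
    simp only [Finset.mem_insert, Finset.mem_singleton] at hd; omega⟩

section linkwf
variable {N : ℕ} {R : Subring ℂ} {C : gr_Ctx Y} (h : grw_Hyp N R C) {i : ℕ}
include h

theorem grw_Hyp.linkG_wf {inv : Bool} {y : Y} {o : ℕ} (hl : C.E.ls[i]? = some (.G inv y o)) :
    (C.linkG i inv y o).WF C.sig' N R := by
  have D := h.gdat hl
  have hn := h.n_le
  have hle := D.le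
  rw [grw_wf_iff]
  refine ⟨?_, grw_frameOK_triple D.src_le, (h.linkG_typed hl).typed, ?_⟩
  · show (C.sig y).rk ≤ N
    omega
  · exact grw_unitL_cons_G <| grw_unitL_cons_opt <| grw_unitL_cons_opt <| grw_unitL_cons_S <|
      grw_unitL_cons_G <| grw_unitL_cons_G <| grw_unitL_cons_S <| grw_unitL_cons_opt <|
      grw_unitL_cons_opt grw_unitL_nil

theorem grw_Hyp.linkA_wf {o A B : ℕ} (hl : C.E.ls[i]? = some (.S o A B)) :
    (C.linkA i o A B).WF C.sig' N R := by
  have D := h.sdat hl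
  have hn := h.n_le
  have hle := D.le
  rw [grw_wf_iff]
  refine ⟨?_, grw_frameOK_pair A, (h.linkA_typed hl).typed, ?_⟩
  · show A ≤ N
    omega
  · exact grw_unitL_cons_opt <| grw_unitL_cons_G <| grw_unitL_cons_G <|
      grw_unitL_cons_opt grw_unitL_nil

theorem grw_Hyp.linkB_wf {o A B : ℕ} (hl : C.E.ls[i]? = some (.S o A B)) :
    (C.linkB i o A B).WF C.sig' N R := by
  have D := h.sdat hl
  have hn := h.n_le
  have hle := D.le
  rw [grw_wf_iff]
  refine ⟨?_, grw_frameOK_pair B, (h.linkB_typed hl).typed, ?_⟩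
  · show B ≤ N
    omega
  · exact grw_unitL_cons_opt <| grw_unitL_cons_G <| grw_unitL_cons_G <|
      grw_unitL_cons_opt grw_unitL_nil

theorem grw_Hyp.linkUn_wf {c : ℕ} (hi : i < C.len) (hc : c ∈ C.K i) (hn : c < C.n)
    (hout : c < (gs_mid C.sig (C.letter i)).1 ∨
      (gs_mid C.sig (C.letter i)).1 + (gs_mid C.sig (C.letter i)).2 ≤ c) :
    (C.linkUn i c).WF C.sig' N R := by
  obtain ⟨h1, h2, h3⟩ := gf_nxt_spec (h.K_ok i).2.1 hn
  have hn := h.n_le
  have hle := (h.K_ok i).2.2 _ h1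
  rw [grw_wf_iff]
  refine ⟨?_, grw_frameOK_pair _, (h.linkUn_typed hi hc (by omega) hout).typed, ?_⟩
  · show gr_nxt (C.K i) c - c ≤ N
    omega
  · exact grw_unitL_cons_G <| grw_unitL_cons_G grw_unitL_nil

theorem grw_Hyp.link_wf (i s : ℕ) : (C.link i s).WF C.sig' N R := by
  cases hl : C.E.ls[i]? with
  | none => rw [grw_link_none hl]; exact grw_triv_wf _ _ _
  | some l =>
    match s with
    | 0 =>
      cases l with
      | G inv y o => rw [grw_link_G0 hl]; exact h.linkG_wf hl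
      | S o A B => rw [grw_link_S0 hl]; exact h.linkA_wf hl
      | L lam => rw [grw_link_L0 hl]; exact grw_triv_wf _ _ _
    | 1 =>
      cases l with
      | G inv y o => rw [grw_link_G1 hl]; exact grw_triv_wf _ _ _
      | S o A B => rw [grw_link_S1 hl]; exact h.linkB_wf hl
      | L lam => rw [grw_link_L1 hl]; exact grw_triv_wf _ _ _
    | c + 2 =>
      by_cases hc : c ∈ C.K i ∧ c < C.n ∧
          (c < (gs_mid C.sig l).1 ∨ (gs_mid C.sig l).1 + (gs_mid C.sig l).2 ≤ c)
      · rw [grw_link_un_pos hl hc]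
        refine h.linkUn_wf (grw_lt_of_get hl) hc.1 hc.2.1 ?_
        rw [grw_letter_of_get hl]
        exact hc.2.2
      · rw [grw_link_un_neg hl hc]; exact grw_triv_wf _ _ _

/-- bounds of the new signatures -/
theorem grw_Hyp.nsig_le (v : gr_Var) : (C.nsig v).s ≤ (C.nsig v).rk ∧ (C.nsig v).t ≤ (C.nsig v).rk := by
  cases v with
  | H j c =>
    by_cases hc : j < C.len ∧ c ∈ C.K j ∧ c < C.n
    · rw [grw_nsig_H hc.1 hc.2.1 hc.2.2]
      obtain ⟨h1, h2, h3⟩ := gf_nxt_spec (h.K_ok j).2.1 hc.2.2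
      exact ⟨Nat.zero_le _, grw_nU_le _ h2.le⟩
    · rw [grw_nsig_H_neg hc]; exact ⟨le_rfl, le_rfl⟩
  | YU j =>
    cases hl : C.E.ls[j]? with
    | none => simp [gr_Ctx.nsig, hl]
    | some l =>
      cases l with
      | G inv y o =>
        have D := h.gdat hl
        rw [grw_nsig_YU hl]
        refine ⟨?_, ?_⟩
        · show gr_nU (C.col j) o (o + (C.sig y).src inv) ≤ gr_nU (C.col j) o (o + (C.sig y).rk)
          have := grw_nU_add (C.col j) (Nat.le_add_right o ((C.sig y).src inv))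
            (Nat.add_le_add_left D.src_le o)
          omega
        · show gr_nU (C.col (j + 1)) o (o + (C.sig y).tgt inv) ≤ gr_nU (C.col j) o (o + (C.sig y).rk)
          have := grw_nU_add (C.col (j + 1)) (Nat.le_add_right o ((C.sig y).tgt inv))
            (Nat.add_le_add_left D.tgt_le o)
          have := D.nU_eq
          omega
      | S o A B => simp [gr_Ctx.nsig, hl]
      | L lam => simp [gr_Ctx.nsig, hl]
  | YQ j =>
    cases hl : C.E.ls[j]? with
    | none => simp [gr_Ctx.nsig, hl]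
    | some l =>
      cases l with
      | G inv y o =>
        have D := h.gdat hl
        rw [grw_nsig_YQ hl]
        refine ⟨?_, ?_⟩
        · show gr_nQ (C.col j) o (o + (C.sig y).src inv) ≤ gr_nQ (C.col j) o (o + (C.sig y).rk)
          have := grw_nQ_add (C.col j) (Nat.le_add_right o ((C.sig y).src inv))
            (Nat.add_le_add_left D.src_le o)
          omega
        · show gr_nQ (C.col (j + 1)) o (o + (C.sig y).tgt inv) ≤ gr_nQ (C.col j) o (o + (C.sig y).rk)
          have := grw_nQ_add (C.col (j + 1)) (Nat.le_add_right o ((C.sig y).tgt inv))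
            (Nat.add_le_add_left D.tgt_le o)
          have := D.nU_eq
          have := gf_nU_add_nQ (C.col j) (Nat.le_add_right o (C.sig y).rk)
          have := gf_nU_add_nQ (C.col (j + 1)) (Nat.le_add_right o (C.sig y).rk)
          omega
      | S o A B => simp [gr_Ctx.nsig, hl]
      | L lam => simp [gr_Ctx.nsig, hl]
  | T j =>
    cases hl : C.E.ls[j]? with
    | none => simp [gr_Ctx.nsig, hl]
    | some l => cases l <;> simp [gr_Ctx.nsig, hl]
  | S j =>
    cases hl : C.E.ls[j]? with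
    | none => simp [gr_Ctx.nsig, hl]
    | some l => cases l <;> simp [gr_Ctx.nsig, hl]
  | R j =>
    cases hl : C.E.ls[j]? with
    | none => simp [gr_Ctx.nsig, hl]
    | some l => cases l <;> simp [gr_Ctx.nsig, hl]
  | V j =>
    cases hl : C.E.ls[j]? with
    | none => simp [gr_Ctx.nsig, hl]
    | some l => cases l <;> simp [gr_Ctx.nsig, hl]

end linkwf

theorem grw_sig {N : ℕ} {R : Subring ℂ} : StRedWFSig N R :=
  fun _ _ _ _ hyp _ hC v => (grw_hyp_of hyp hC).nsig_le v

end Claimed.Agent.R236
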