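import Mathlib
import Claimed.Agent.R236.GChain2
import Claimed.Agent.R236.GRedType
import Claimed.Agent.R236.GLiftC

/-!
# Row 236, REDUCE, SB7: the numbers of the letters (`StGNum`, `StSwapFrames` of GChain2.lean; prefix gnm_)
-/

set_option autoImplicit false

namespace Claimed.Agent.R236

variable {N : ℕ} {R : Subring ℂ}

theorem gnm_gnum : StGNum N R := by
  intro Y S e0 k hyp col hC C i inv y o hi hl
  have h : grw_Hyp N R C := grw_hyp_of hyp hC
  have hget : C.E.ls[i]? = some (.G inv y o) := by rw [grw_get C hi, hl]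
  have D := h.gdat hget
  have had : gr_Adapted C.n (C.K i) (C.col i) := ⟨hC.beyond i, hC.adapted i⟩
  have had' : gr_Adapted C.n (C.K (i + 1)) (C.col (i + 1)) := ⟨hC.beyond (i + 1), hC.adapted (i + 1)⟩
  refine ⟨gl_gnum_ok _ _ _ _ _ _ D.src_le D.tgt_le D.nU_eq, gl_gnum_m _ _ _ _ _ _ D.src_le,
    gl_gnum_a _ _ _ _ _ _, gl_gnum_c _ _ _ _ _ _, gl_gnum_uq2 _ _ _ _ _ _ D.src_le,
    gl_gnum_vp2 _ _ _ _ _ _ D.tgt_le, gl_gnum_km _ _ _ _ _ _ D.src_le,
    (gl_gnum_cb _ had _ D.mid D.le).symm, (gl_gnum_ca _ had' _ D.mid' D.le).symm⟩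

theorem gnm_swapFrames : StSwapFrames N R := by
  intro Y S e0 k hyp col hC C i o A B hi hl ν oU oQ
  have h : grw_Hyp N R C := grw_hyp_of hyp hC
  have hget : C.E.ls[i]? = some (.S o A B) := by rw [grw_get C hi, hl]
  have D := h.sdat hget
  have had : gr_Adapted C.n (C.K i) (C.col i) := ⟨hC.beyond i, hC.adapted i⟩
  have had' : gr_Adapted C.n (C.K (i + 1)) (C.col (i + 1)) := ⟨hC.beyond (i + 1), hC.adapted (i + 1)⟩
  -- abbreviations for the numbers
  have ha : ν.a = gr_nU (C.col i) o (o + A) := D.a_eq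
  have hb : ν.b = gr_nU (C.col (i + 1)) o (o + B) := D.b_eq
  have hah : ν.a + ν.h = gr_nU (C.col (i + 1)) (o + B) (o + (A + B)) := D.ah_eq
  have hbh : ν.b + ν.h = gr_nU (C.col i) (o + A) (o + (A + B)) := D.bh_eq
  have hA : A = ν.a + ν.h + ν.x := D.A_eq
  have hB : B = ν.b + ν.h + ν.y := D.B_eq
  have hνA : ν.A = A := hA.symm
  have hνB : ν.B = B := hB.symm
  have hkm : ν.km = ν.a + ν.b + ν.h := rfl
  have hm : ν.m = A + B := by
    show ν.A + ν.B = A + B
    rw [hνA, hνB]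
  have e1 := gct_nU_add (C.col i) (lo := o) (mid := o + A) (hi := o + (A + B)) (by omega) (by omega)
  have e2 := gct_cU_eq_add (C.col i) (lo := o) (hi := o + (A + B)) (by omega)
  have e3 := gct_cU_eq_add (C.col i) (lo := o) (hi := o + A) (by omega)
  have e4 := gct_cU_mono (C.col i) D.le
  have e5 := h.cnt hi.le
  have f1 := gct_cU_add_cQ (C.col i) o
  have f2 := gct_cU_add_cQ (C.col i) (o + A)
  have f3 := gct_cU_add_cQ (C.col i) (o + (A + B))
  have f4 := gct_cQ_mono (C.col i) D.le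
  have f5 := h.cntQ hi.le
  have hoU : oU = gr_cU (C.col i) o := rfl
  have hoQ : oQ = gr_cQ (C.col i) o := rfl
  -- members of the frames
  have u0 : oU ∈ C.KU i := Finset.mem_image.2 ⟨o, D.mid.1, rfl⟩
  have u1 : oU + ν.a ∈ C.KU i := Finset.mem_image.2 ⟨o + A, D.mid.2.1, by omega⟩
  have u2 : oU + ν.km ∈ C.KU i := Finset.mem_image.2 ⟨o + (A + B), D.mid.2.2.1, by omega⟩
  have q0 : oQ ∈ C.KQ i := Finset.mem_image.2 ⟨o, D.mid.1, rfl⟩
  have q1 : oQ + (ν.h + ν.x) ∈ C.KQ i := Finset.mem_image.2 ⟨o + A, D.mid.2.1, by omega⟩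
  have q2 : oQ + (ν.m - ν.km) ∈ C.KQ i := Finset.mem_image.2 ⟨o + (A + B), D.mid.2.2.1, by omega⟩
  have hfrU0 : C.frU i 0 = gs_cutRepl (C.KU i) (oU + ν.a) (ν.b + ν.h) ν.b := by
    simp only [gr_Ctx.frU, hl]
    rfl
  have hfrU1 : C.frU i 1 = gs_cutRepl (gs_cutRepl (C.KU i) (oU + ν.a) (ν.b + ν.h) ν.b) oU
      (ν.a + ν.b) ν.b := by
    simp only [gr_Ctx.frU, hl]
    rfl
  have hfrQ0 : C.frQ i 0 = gs_cutRepl (C.KQ i) oQ (ν.h + ν.x) ν.h := by
    simp only [gr_Ctx.frQ, hl]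
    rfl
  have hfrQ1 : C.frQ i 1 = gs_cutRepl (C.KQ i) oQ (ν.h + ν.x) ν.h := by
    simp only [gr_Ctx.frQ, hl]
    rfl
  have hfrQ2 : C.frQ i 2 = gs_cutRepl (gs_cutRepl (C.KQ i) oQ (ν.h + ν.x) ν.h) (oQ + ν.h)
      (ν.x + ν.y) ν.y := by
    simp only [gr_Ctx.frQ, hl]
    rfl
  refine ⟨hνA, hνB, ?_, ?_, ?_, ?_, ?_, ?_, ?_, ?_, ?_, ?_⟩
  · omega
  · omega
  · rw [gl_colMid_two had D.mid D.le]
    funext j
    show _ = decide (j < ν.a ∨ (ν.A ≤ j ∧ j < ν.A + ν.b + ν.h))
    rw [hνA, ← ha, ← hbh]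
    congr 1
    apply propext
    constructor <;> (intro hh; omega)
  · rw [gl_colMid_two had' D.mid' D.le]
    funext j
    show _ = decide (j < ν.b ∨ (ν.B ≤ j ∧ j < ν.B + ν.a + ν.h))
    rw [hνB, ← hb, ← hah]
    congr 1
    apply propext
    constructor <;> (intro hh; omega)
  · omega
  · intro d hd
    rw [hfrU0]
    simp only [Finset.mem_insert, Finset.mem_singleton] at hd
    simp only [gs_cutRepl, Finset.mem_insert, Finset.mem_filter]
    rcases hd with rfl | rfl | rfl | rfl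
    · right; exact ⟨u0, by omega⟩
    · right; exact ⟨u1, by omega⟩
    · left; omega
    · right; exact ⟨u2, by omega⟩
  · intro d hd
    rw [hfrU1]
    simp only [Finset.mem_insert, Finset.mem_singleton] at hd
    simp only [gs_cutRepl, Finset.mem_insert, Finset.mem_filter]
    rcases hd with rfl | rfl | rfl | rfl
    · right; exact ⟨Or.inr ⟨u0, by omega⟩, by omega⟩
    · left; rfl
    · right; exact ⟨Or.inl (by omega), by omega⟩
    · right; exact ⟨Or.inr ⟨u2, by omega⟩, by omega⟩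
  · intro d hd
    rw [hfrQ0]
    simp only [Finset.mem_insert, Finset.mem_singleton] at hd
    simp only [gs_cutRepl, Finset.mem_insert, Finset.mem_filter]
    rcases hd with rfl | rfl | rfl | rfl
    · right; exact ⟨q0, by omega⟩
    · left; rfl
    · right; exact ⟨q1, by omega⟩
    · right; exact ⟨q2, by omega⟩
  · intro d hd
    rw [hfrQ1]
    simp only [Finset.mem_insert, Finset.mem_singleton] at hd
    simp only [gs_cutRepl, Finset.mem_insert, Finset.mem_filter]
    rcases hd with rfl | rfl | rfl | rfl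
    · right; exact ⟨q0, by omega⟩
    · left; rfl
    · right; exact ⟨q1, by omega⟩
    · right; exact ⟨q2, by omega⟩
  · intro d hd
    rw [hfrQ2]
    simp only [Finset.mem_insert, Finset.mem_singleton] at hd
    simp only [gs_cutRepl, Finset.mem_insert, Finset.mem_filter]
    rcases hd with rfl | rfl | rfl | rfl
    · right; exact ⟨Or.inr ⟨q0, by omega⟩, by omega⟩
    · right; exact ⟨Or.inl rfl, by omega⟩
    · left; omega
    · right; exact ⟨Or.inr ⟨q2, by omega⟩, by omega⟩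

end Claimed.Agent.R236
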