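import Claimed.Agent.R236.RegBasic
import Claimed.Agent.R236.GReduceSt

/-!
# Row 236, `GParDense` (owner helper180, prefix `gpd_`): the parameter space of REDUCE is dense

Affine spaces of arbitrary (infinite) dimension: a regular function involves finitely many coordinates.
-/

set_option autoImplicit false

namespace Claimed.Agent.R236

universe u v

section finite

variable {P : Type u} {κ : Type v} {R : Subring ℂ} {c : κ → P → ℂ}

theorem gpd_isReg_mono {s t : Finset κ} (h : s ⊆ t) {F : P → ℂ}
    (hF : rg_IsReg R (fun k : s => c k) F) : rg_IsReg R (fun k : t => c k) F := by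
  induction hF with
  | coord k => exact rg_IsReg.coord (c := fun k : t => c k) ⟨k.1, h k.2⟩
  | const z hz => exact .const z hz
  | add _ _ h1 h2 => exact .add h1 h2
  | mul _ _ h1 h2 => exact .mul h1 h2

/-- a regular function involves finitely many coordinates -/
theorem gpd_exists_finite {F : P → ℂ} (hF : rg_IsReg R c F) :
    ∃ s : Finset κ, rg_IsReg R (fun k : s => c k) F := by
  classical
  induction hF with
  | coord k =>
    exact ⟨{k}, rg_IsReg.coord (c := fun k' : ({k} : Finset κ) => c k') ⟨k, by simp⟩⟩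
  | const z hz => exact ⟨∅, .const z hz⟩
  | add _ _ h1 h2 =>
    obtain ⟨s, hs⟩ := h1
    obtain ⟨t, ht⟩ := h2
    exact ⟨s ∪ t, .add (gpd_isReg_mono Finset.subset_union_left hs)
      (gpd_isReg_mono Finset.subset_union_right ht)⟩
  | mul _ _ h1 h2 =>
    obtain ⟨s, hs⟩ := h1
    obtain ⟨t, ht⟩ := h2
    exact ⟨s ∪ t, .mul (gpd_isReg_mono Finset.subset_union_left hs)
      (gpd_isReg_mono Finset.subset_union_right ht)⟩

/-- a regular function depends only on the coordinates -/
theorem gpd_isReg_congr {F : P → ℂ} (hF : rg_IsReg R c F) {x x' : P} (h : ∀ k, c k x = c k x') :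
    F x = F x' := by
  induction hF with
  | coord k => exact h k
  | const z hz => rfl
  | add _ _ h1 h2 => simp only [h1, h2]
  | mul _ _ h1 h2 => simp only [h1, h2]

end finite

/-- **Affine spaces of arbitrary dimension.** -/
theorem gpd_dense_affine (R : Subring ℂ) (ι : Type u) : rg_Dense R (rg_affCoord ι) Set.univ := by
  classical
  intro F hF h0 x _
  obtain ⟨s, hs⟩ := gpd_exists_finite hF
  let Φ : (s → ℂ) → ι → ℂ := fun y i => if h : i ∈ s then y ⟨i, h⟩ else 0
  have h1 : rg_RegOn ⊤ (rg_affCoord s) Set.univ (fun y => F (Φ y)) := by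
    refine hF.comp fun k => ?_
    by_cases hk : k ∈ s
    · exact (rg_RegOn.coord (c := rg_affCoord s) (⟨k, hk⟩ : s)).congr fun y _ => by
        simp [rg_affCoord, Φ, hk]
    · exact rg_RegOn.zero.congr fun y _ => by simp [rg_affCoord, Φ, hk]
  have h2 := (rg_dense_affine R s).regOn h1 (fun y _ hy => h0 (Φ y) (Set.mem_univ _) fun k => by
    by_cases hk : k ∈ s
    · simpa [rg_affCoord, Φ, hk] using hy ⟨k, hk⟩
    · simp [rg_affCoord, Φ, hk, R.zero_mem]) (fun i => x i) (Set.mem_univ _)
  rw [← h2]
  refine gpd_isReg_congr hs fun k => ?_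
  simp [rg_affCoord, Φ]

/-- **The parameter space of REDUCE is dense** (no hypothesis on the ring). -/
theorem gpd_parDense (N : ℕ) (R : Subring ℂ) : StParDense N R := by
  refine rg_Dense.transfer₁ (c' := rg_affCoord ((ℕ × ℕ) × Fin N × Fin N)) (S' := Set.univ)
    (fun x q => Matrix.of fun a b => x (q, a, b)) (fun q => ?_) (fun _ _ => Set.mem_univ _)
    (fun p _ => ⟨fun q => p q.1 q.2.1 q.2.2, Set.mem_univ _, rfl⟩) (gpd_dense_affine R _)
  exact rg_RegOn.coord (c := rg_affCoord ((ℕ × ℕ) × Fin N × Fin N)) q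

end Claimed.Agent.R236
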