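import Mathlib
import Claimed.Agent.R236.GMatRad

/-!
# Row 236, SB6 (PRES), part 1: linear algebra of coordinate flags (sub-captain helper252, prefix `gpr_`)

`V = Fin N → ℂ`, `gpr_F N c = {v | v j = 0 for j ≥ c}`, `gpr_cut N lo sz` (the coordinates
`[lo,lo+sz)` moved to `[0,sz)`), `gpr_shift N lo` (move a vector by `lo`),
`gpr_U k g` = span of the first `k` columns of `g`,
`gpr_gr W lo hi` = the graded piece of `W` in the block `[lo,hi)`.
-/

set_option autoImplicit false

namespace Claimed.Agent.R236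

open Matrix Module

variable {N : ℕ}

/-- vectors supported on `[0,c)` -/
def gpr_F (N c : ℕ) : Submodule ℂ (Fin N → ℂ) where
  carrier := {v | ∀ j : Fin N, c ≤ (j : ℕ) → v j = 0}
  add_mem' := by
    intro a b ha hb j hj
    rw [Pi.add_apply, ha j hj, hb j hj, add_zero]
  zero_mem' := fun _ _ => rfl
  smul_mem' := by
    intro t a ha j hj
    rw [Pi.smul_apply, ha j hj, smul_zero]

theorem gpr_mem_F {c : ℕ} {v : Fin N → ℂ} :
    v ∈ gpr_F N c ↔ ∀ j : Fin N, c ≤ (j : ℕ) → v j = 0 := Iff.rfl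

theorem gpr_F_mono {c c' : ℕ} (h : c ≤ c') : gpr_F N c ≤ gpr_F N c' :=
  fun _ hv j hj => hv j (le_trans h hj)

theorem gpr_F_zero : gpr_F N 0 = ⊥ := by
  rw [eq_bot_iff]
  intro v hv
  rw [Submodule.mem_bot]
  funext j
  exact hv j (Nat.zero_le _)

theorem gpr_F_of_le {c : ℕ} (h : N ≤ c) : gpr_F N c = ⊤ := by
  rw [eq_top_iff]
  intro v _ j hj
  have := j.2
  omega

/-- **leaf LIN-1** -/
theorem gpr_finrank_F {c : ℕ} (h : c ≤ N) : finrank ℂ (gpr_F N c) = c := by
  let e : gpr_F N c ≃ₗ[ℂ] (Fin c → ℂ) :=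
    { toFun := fun v t => v.1 ⟨t, by omega⟩
      map_add' := fun _ _ => rfl
      map_smul' := fun _ _ => rfl
      invFun := fun w => ⟨fun j => if hj : (j : ℕ) < c then w ⟨j, hj⟩ else 0,
        fun j hj => dif_neg (by omega)⟩
      left_inv := by
        intro v
        apply Subtype.ext
        funext j
        by_cases hj : (j : ℕ) < c
        · simp only [dif_pos hj]
        · simp only [dif_neg hj]
          exact (v.2 j (by omega)).symm
      right_inv := by
        intro w
        funext t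
        simp only [dif_pos t.2] }
  rw [e.finrank_eq, Module.finrank_fin_fun]

/-- the coordinates `[lo,lo+sz)`, moved to `[0,sz)` -/
def gpr_cut (N lo sz : ℕ) : (Fin N → ℂ) →ₗ[ℂ] (Fin N → ℂ) where
  toFun v := fun j => if h : (j : ℕ) < sz ∧ lo + (j : ℕ) < N then v ⟨lo + j, h.2⟩ else 0
  map_add' := by
    intro a b; funext j
    by_cases h : (j : ℕ) < sz ∧ lo + (j : ℕ) < N
    · simp only [dif_pos h, Pi.add_apply]
    · simp only [dif_neg h, Pi.add_apply, add_zero]
  map_smul' := by
    intro t a; funext j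
    by_cases h : (j : ℕ) < sz ∧ lo + (j : ℕ) < N
    · simp only [dif_pos h, Pi.smul_apply, RingHom.id_apply]
    · simp only [dif_neg h, Pi.smul_apply, RingHom.id_apply, smul_zero]

/-- move a vector by `lo` -/
def gpr_shift (N lo : ℕ) : (Fin N → ℂ) →ₗ[ℂ] (Fin N → ℂ) where
  toFun v := fun i => if h : lo ≤ (i : ℕ) then v ⟨i - lo, by omega⟩ else 0
  map_add' := by
    intro a b; funext j
    by_cases h : lo ≤ (j : ℕ)
    · simp only [dif_pos h, Pi.add_apply]
    · simp only [dif_neg h, Pi.add_apply, add_zero]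
  map_smul' := by
    intro t a; funext j
    by_cases h : lo ≤ (j : ℕ)
    · simp only [dif_pos h, Pi.smul_apply, RingHom.id_apply]
    · simp only [dif_neg h, Pi.smul_apply, RingHom.id_apply, smul_zero]

theorem gpr_cut_apply {lo sz : ℕ} (v : Fin N → ℂ) {j : Fin N} (h1 : (j : ℕ) < sz)
    (h2 : lo + (j : ℕ) < N) : gpr_cut N lo sz v j = v ⟨lo + j, h2⟩ := by
  show (if h : (j : ℕ) < sz ∧ lo + (j : ℕ) < N then v ⟨lo + j, h.2⟩ else 0) = _
  rw [dif_pos ⟨h1, h2⟩]

theorem gpr_cut_apply_ge {lo sz : ℕ} (v : Fin N → ℂ) {j : Fin N} (h1 : sz ≤ (j : ℕ)) :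
    gpr_cut N lo sz v j = 0 := by
  show (if h : (j : ℕ) < sz ∧ lo + (j : ℕ) < N then v ⟨lo + j, h.2⟩ else 0) = _
  rw [dif_neg (by omega)]

theorem gpr_shift_apply_ge {lo : ℕ} (v : Fin N → ℂ) {i : Fin N} (h : lo ≤ (i : ℕ)) :
    gpr_shift N lo v i = v ⟨i - lo, by omega⟩ := by
  show (if h : lo ≤ (i : ℕ) then v ⟨i - lo, by omega⟩ else 0) = _
  rw [dif_pos h]

theorem gpr_shift_apply_lt {lo : ℕ} (v : Fin N → ℂ) {i : Fin N} (h : (i : ℕ) < lo) :
    gpr_shift N lo v i = 0 := by
  show (if h : lo ≤ (i : ℕ) then v ⟨i - lo, by omega⟩ else 0) = _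
  rw [dif_neg (by omega)]

theorem gpr_cut_mem (lo sz : ℕ) (v : Fin N → ℂ) : gpr_cut N lo sz v ∈ gpr_F N sz :=
  fun _ hj => gpr_cut_apply_ge v hj

/-- **leaf LIN-2** -/
theorem gpr_cut_eq_zero_iff {lo sz : ℕ} {v : Fin N → ℂ} (hv : v ∈ gpr_F N (lo + sz)) :
    gpr_cut N lo sz v = 0 ↔ v ∈ gpr_F N lo := by
  constructor
  · intro h j hj
    by_cases hj2 : (j : ℕ) < lo + sz
    · have h1 := congrFun h ⟨(j : ℕ) - lo, by omega⟩
      rw [gpr_cut_apply v (by simp only; omega) (by simp only; omega)] at h1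
      have e : (⟨lo + ((j : ℕ) - lo), by omega⟩ : Fin N) = j := Fin.ext (by simp only; omega)
      simp only [e] at h1
      exact h1
    · exact hv j (by omega)
  · intro h
    funext j
    by_cases hj : (j : ℕ) < sz ∧ lo + (j : ℕ) < N
    · rw [gpr_cut_apply v hj.1 hj.2]
      exact h _ (by simp only; omega)
    · show (if h : (j : ℕ) < sz ∧ lo + (j : ℕ) < N then v ⟨lo + j, h.2⟩ else 0) = _
      rw [dif_neg hj]
      rfl

/-- **leaf LIN-2** -/
theorem gpr_shift_mem {lo sz : ℕ} {y : Fin N → ℂ} (hy : y ∈ gpr_F N sz) :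
    gpr_shift N lo y ∈ gpr_F N (lo + sz) := by
  intro j hj
  rw [gpr_shift_apply_ge y (by omega)]
  exact hy _ (by simp only; omega)

/-- **leaf LIN-2** -/
theorem gpr_cut_shift {lo sz : ℕ} (h : lo + sz ≤ N) {y : Fin N → ℂ} (hy : y ∈ gpr_F N sz) :
    gpr_cut N lo sz (gpr_shift N lo y) = y := by
  funext j
  by_cases hj : (j : ℕ) < sz
  · rw [gpr_cut_apply _ hj (by omega), gpr_shift_apply_ge y (by simp only; omega)]
    congr 1
    apply Fin.ext
    simp only
    omega
  · rw [gpr_cut_apply_ge _ (by omega), hy j (by omega)]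

/-- a sum supported on the window `[lo,lo+sz)`, reindexed -/
theorem gpr_sum_window {lo sz : ℕ} (h : lo + sz ≤ N) (f : Fin N → ℂ)
    (hf : ∀ j : Fin N, ¬ (lo ≤ (j : ℕ) ∧ (j : ℕ) < lo + sz) → f j = 0) :
    ∑ j, f j = ∑ t : Fin N, if ht : (t : ℕ) < sz then f ⟨lo + t, by omega⟩ else 0 := by
  rw [← Equiv.sum_comp (gm_rot N lo (by omega)).symm]
  apply Finset.sum_congr rfl
  intro t _
  by_cases ht : (t : ℕ) < sz
  · have e : (gm_rot N lo (by omega)).symm t = ⟨lo + t, by omega⟩ := by
      rw [Equiv.symm_apply_eq, gm_rot_apply_ge (by omega) (by simp)]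
      apply Fin.ext; simp
    rw [dif_pos ht, e]
  · rw [dif_neg ht]
    apply hf
    set k' := (gm_rot N lo (by omega)).symm t with hk'
    have hkk : gm_rot N lo (by omega) k' = t := by rw [hk', Equiv.apply_symm_apply]
    intro hc
    have h2 := congrArg Fin.val (gm_rot_apply_ge (N := N) (o := lo) (by omega) hc.1)
    rw [hkk] at h2
    simp only at h2
    omega

/-- **leaf LIN-2**: a matrix whose columns in the window vanish outside of the window -/
theorem gpr_mulVec_shift {lo sz : ℕ} (h : lo + sz ≤ N) {d : gs_Mat N}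
    (hd : ∀ i j : Fin N, (lo ≤ (j : ℕ) ∧ (j : ℕ) < lo + sz) → ¬ (lo ≤ (i : ℕ) ∧ (i : ℕ) < lo + sz) →
      d i j = 0) {y : Fin N → ℂ} (hy : y ∈ gpr_F N sz) :
    d *ᵥ gpr_shift N lo y = gpr_shift N lo (gr_midBlock lo sz d *ᵥ y) := by
  funext i
  have hL : (d *ᵥ gpr_shift N lo y) i =
      ∑ t : Fin N, if ht : (t : ℕ) < sz then d i ⟨lo + t, by omega⟩ * y t else 0 := by
    change dotProduct _ _ = _
    rw [dotProduct, gpr_sum_window h]
    · apply Finset.sum_congr rfl
      intro t _
      by_cases ht : (t : ℕ) < sz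
      · rw [dif_pos ht, dif_pos ht, gpr_shift_apply_ge y (by simp only; omega)]
        congr 2
        apply Fin.ext
        simp only
        omega
      · rw [dif_neg ht, dif_neg ht]
    · intro j hj
      by_cases hj1 : (j : ℕ) < lo
      · rw [gpr_shift_apply_lt y hj1, mul_zero]
      · rw [gpr_shift_apply_ge y (by omega), hy _ (by simp only; omega), mul_zero]
  rw [hL]
  by_cases hi : lo ≤ (i : ℕ)
  · rw [gpr_shift_apply_ge _ hi]
    change _ = dotProduct _ _
    rw [dotProduct]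
    apply Finset.sum_congr rfl
    intro t _
    by_cases ht : (t : ℕ) < sz
    · rw [dif_pos ht]
      by_cases hi2 : (i : ℕ) < lo + sz
      · rw [gm_mid_apply h d (by simp only; omega) ht]
        congr 2
        apply Fin.ext
        simp only
        omega
      · rw [hd i _ ⟨by simp only; omega, by simp only; omega⟩ (by omega),
          gm_mid_corner lo sz d _ _ (Or.inl (by simp only; omega)), Matrix.one_apply_ne]
        intro e
        have := congrArg Fin.val e
        simp only at this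
        omega
    · rw [dif_neg ht, hy t (by omega), mul_zero]
  · rw [gpr_shift_apply_lt _ (by omega)]
    apply Finset.sum_eq_zero
    intro t _
    by_cases ht : (t : ℕ) < sz
    · rw [dif_pos ht, hd i _ ⟨by simp only; omega, by simp only; omega⟩ (by omega), zero_mul]
    · rw [dif_neg ht]

/-- **leaf LIN-2**: a matrix whose rows in the window vanish outside of the window -/
theorem gpr_cut_mulVec {lo sz : ℕ} (h : lo + sz ≤ N) {d : gs_Mat N}
    (hd : ∀ i j : Fin N, (lo ≤ (i : ℕ) ∧ (i : ℕ) < lo + sz) → ¬ (lo ≤ (j : ℕ) ∧ (j : ℕ) < lo + sz) →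
      d i j = 0) (v : Fin N → ℂ) :
    gpr_cut N lo sz (d *ᵥ v) = gr_midBlock lo sz d *ᵥ gpr_cut N lo sz v := by
  funext i
  by_cases hi : (i : ℕ) < sz
  · rw [gpr_cut_apply _ hi (by omega)]
    change dotProduct _ _ = dotProduct _ _
    rw [dotProduct, dotProduct, gpr_sum_window h]
    · apply Finset.sum_congr rfl
      intro t _
      by_cases ht : (t : ℕ) < sz
      · rw [dif_pos ht, gm_mid_apply h d hi ht, gpr_cut_apply v ht (by omega)]
      · rw [dif_neg ht, gpr_cut_apply_ge v (by omega), mul_zero]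
    · intro j hj
      rw [hd _ j ⟨by simp only; omega, by simp only; omega⟩ hj, zero_mul]
  · rw [gpr_cut_apply_ge _ (by omega)]
    change _ = dotProduct _ _
    rw [dotProduct]
    symm
    apply Finset.sum_eq_zero
    intro t _
    by_cases ht : (t : ℕ) < sz
    · rw [gm_mid_corner lo sz d i t (Or.inl (by omega)), Matrix.one_apply_ne, zero_mul]
      intro e
      rw [e] at hi
      exact hi ht
    · rw [gpr_cut_apply_ge v (by omega), mul_zero]

end Claimed.Agent.R236
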