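import Mathlib
import Claimed.Agent.R236.GPresLin

/-!
# Row 236, SB6 (PRES), part 1b: matrices preserving the flag, the span of the first `k` columns (sub-captain helper252, prefix `gpr_`)
-/

set_option autoImplicit false

namespace Claimed.Agent.R236

open Matrix Module

variable {N : ℕ}

/-- **leaf LIN-3** -/
theorem gpr_mulVec_mem_F {c : ℕ} {b : gs_Mat N}
    (hb : ∀ r s : Fin N, c ≤ (r : ℕ) → (s : ℕ) < c → b r s = 0) {v : Fin N → ℂ}
    (hv : v ∈ gpr_F N c) : b *ᵥ v ∈ gpr_F N c := by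
  intro j hj
  change dotProduct _ _ = 0
  rw [dotProduct]
  apply Finset.sum_eq_zero
  intro s _
  by_cases hs : (s : ℕ) < c
  · rw [hb j s hj hs, zero_mul]
  · rw [hv s (by omega), mul_zero]

/-- **leaf LIN-3** (`Matrix.blockTriangular_inv_of_blockTriangular`, compare `gm_bd_inv`) -/
theorem gpr_inv_lower {c : ℕ} {b : gs_Mat N} (hu : IsUnit b.det)
    (hb : ∀ r s : Fin N, c ≤ (r : ℕ) → (s : ℕ) < c → b r s = 0) :
    ∀ r s : Fin N, c ≤ (r : ℕ) → (s : ℕ) < c → b⁻¹ r s = 0 := by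
  let β : Fin N → ℕ := fun i => if c ≤ (i : ℕ) then 1 else 0
  have h1 : b.BlockTriangular β := by
    intro i j hij
    have hij' : (if c ≤ (j : ℕ) then 1 else 0) < (if c ≤ (i : ℕ) then 1 else 0) := hij
    apply hb i j
    · by_contra h
      rw [if_neg h] at hij'
      omega
    · by_contra h
      rw [if_pos (by omega)] at hij'
      split_ifs at hij' <;> omega
  have := Matrix.invertibleOfIsUnitDet b hu
  have h1' := Matrix.blockTriangular_inv_of_blockTriangular h1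
  intro r s hr hs
  apply h1'
  show (if c ≤ (s : ℕ) then 1 else 0) < (if c ≤ (r : ℕ) then 1 else 0)
  rw [if_neg (by omega), if_pos hr]
  exact Nat.zero_lt_one

/-- **leaf LIN-3** -/
theorem gpr_map_inf_F {c : ℕ} {b : gs_Mat N} (hu : IsUnit b.det)
    (hb : ∀ r s : Fin N, c ≤ (r : ℕ) → (s : ℕ) < c → b r s = 0) (W : Submodule ℂ (Fin N → ℂ)) :
    W.map (Matrix.mulVecLin b) ⊓ gpr_F N c = (W ⊓ gpr_F N c).map (Matrix.mulVecLin b) := by
  apply le_antisymm
  · rintro x ⟨⟨w, hw, rfl⟩, hx⟩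
    refine ⟨w, ⟨hw, ?_⟩, rfl⟩
    have h1 := gpr_mulVec_mem_F (gpr_inv_lower hu hb) hx
    rw [Matrix.mulVecLin_apply, Matrix.mulVec_mulVec, Matrix.nonsing_inv_mul _ hu,
      Matrix.one_mulVec] at h1
    exact h1
  · rintro x ⟨w, ⟨hw, hw2⟩, rfl⟩
    exact ⟨⟨w, hw, rfl⟩, gpr_mulVec_mem_F hb hw2⟩

/-- **leaf LIN-3** -/
theorem gpr_finrank_map {b : gs_Mat N} (hu : IsUnit b.det) (W : Submodule ℂ (Fin N → ℂ)) :
    finrank ℂ (W.map (Matrix.mulVecLin b)) = finrank ℂ W := by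
  have hinj : Function.Injective (Matrix.mulVecLin b) := by
    intro v w hvw
    have h1 := congrArg (fun x => b⁻¹ *ᵥ x) hvw
    simp only [Matrix.mulVecLin_apply, Matrix.mulVec_mulVec, Matrix.nonsing_inv_mul _ hu,
      Matrix.one_mulVec] at h1
    exact h1
  exact (Submodule.equivMapOfInjective _ hinj W).finrank_eq.symm

/-! ## the subspace spanned by the first `k` columns -/

/-- the span of the first `k` columns of `g` -/
def gpr_U (k : ℕ) (g : gs_Mat N) : Submodule ℂ (Fin N → ℂ) :=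
  (gpr_F N k).map (Matrix.mulVecLin g)

theorem gpr_U_mul (k : ℕ) (b g : gs_Mat N) :
    gpr_U k (b * g) = (gpr_U k g).map (Matrix.mulVecLin b) := by
  unfold gpr_U
  rw [Matrix.mulVecLin_mul, Submodule.map_comp]

theorem gpr_U_one (k : ℕ) : gpr_U k (1 : gs_Mat N) = gpr_F N k := by
  unfold gpr_U
  rw [Matrix.mulVecLin_one, Submodule.map_id]

theorem gpr_finrank_U {k : ℕ} (hk : k ≤ N) {g : gs_Mat N} (hg : IsUnit g.det) :
    finrank ℂ (gpr_U k g) = k := by
  unfold gpr_U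
  rw [gpr_finrank_map hg, gpr_finrank_F hk]

/-- **leaf LIN-3** -/
theorem gpr_U_le {k n : ℕ} (hk : k ≤ n) {g : gs_Mat N} (hg : gs_IsCorner n g) :
    gpr_U k g ≤ gpr_F N n := by
  rintro x ⟨v, hv, rfl⟩ j hj
  change dotProduct (fun s => g j s) v = 0
  rw [dotProduct]
  apply Finset.sum_eq_zero
  intro s _
  rw [hg j s (Or.inl hj)]
  by_cases hs : j = s
  · rw [hv s (by rw [← hs]; omega), mul_zero]
  · rw [Matrix.one_apply_ne hs, zero_mul]

end Claimed.Agent.R236
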