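import Mathlib
import Claimed.Agent.R236.GPresLinB

/-!
# Row 236, SB6 (PRES), part 1c: graded pieces (sub-captain helper252, prefix `gpr_`)
-/

set_option autoImplicit false

namespace Claimed.Agent.R236

open Matrix Module

variable {N : ℕ}

/-! ## graded pieces -/

/-- the graded piece of `W` in the block `[lo,hi)` -/
def gpr_gr (W : Submodule ℂ (Fin N → ℂ)) (lo hi : ℕ) : Submodule ℂ (Fin N → ℂ) :=
  (W ⊓ gpr_F N hi).map (gpr_cut N lo (hi - lo))

theorem gpr_gr_le (W : Submodule ℂ (Fin N → ℂ)) (lo hi : ℕ) :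
    gpr_gr W lo hi ≤ gpr_F N (hi - lo) := by
  rintro _ ⟨v, _, rfl⟩
  exact gpr_cut_mem _ _ v

theorem gpr_finrank_gr_le (W : Submodule ℂ (Fin N → ℂ)) {lo hi : ℕ} (h : hi ≤ N) :
    finrank ℂ (gpr_gr W lo hi) ≤ hi - lo := by
  have := Submodule.finrank_mono (gpr_gr_le W lo hi)
  rwa [gpr_finrank_F (by omega)] at this

/-- **leaf LIN-4** (rank-nullity for `gpr_cut` restricted to `W ⊓ F hi`:
`LinearMap.finrank_range_add_finrank_ker`, `LinearMap.range_domRestrict`,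
`LinearMap.ker_domRestrict`) -/
theorem gpr_rank_nullity (W : Submodule ℂ (Fin N → ℂ)) {lo hi : ℕ} (h : lo ≤ hi) :
    finrank ℂ (W ⊓ gpr_F N hi : Submodule ℂ (Fin N → ℂ)) =
      finrank ℂ (W ⊓ gpr_F N lo : Submodule ℂ (Fin N → ℂ)) + finrank ℂ (gpr_gr W lo hi) := by
  set S := W ⊓ gpr_F N hi with hS
  let f := (gpr_cut N lo (hi - lo)).domRestrict S
  have h1 := LinearMap.finrank_range_add_finrank_ker f
  have h2 : LinearMap.range f = gpr_gr W lo hi := by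
    rw [LinearMap.range_domRestrict]
    rfl
  have hle : W ⊓ gpr_F N lo ≤ S := inf_le_inf_left W (gpr_F_mono h)
  have h3 : LinearMap.ker f = Submodule.comap S.subtype (W ⊓ gpr_F N lo) := by
    ext ⟨v, hv⟩
    rw [LinearMap.mem_ker, Submodule.mem_comap]
    change gpr_cut N lo (hi - lo) v = 0 ↔ v ∈ W ⊓ gpr_F N lo
    rw [gpr_cut_eq_zero_iff (by rw [Nat.add_sub_cancel' h]; exact hv.2)]
    exact ⟨fun h' => ⟨hv.1, h'⟩, fun h' => h'.2⟩
  rw [h2, h3, (Submodule.comapSubtypeEquivOfLe hle).finrank_eq] at h1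
  omega

/-- `b` acts as the scalar `lam` on the window -/
theorem gpr_cut_mulVec_scalar {lo hi : ℕ} {b : gs_Mat N} {lam : ℂ}
    (h2 : ∀ r s : Fin N, lo ≤ (r : ℕ) → (r : ℕ) < hi → (s : ℕ) < hi →
      b r s = if r = s then lam else 0) {v : Fin N → ℂ} (hv : v ∈ gpr_F N hi) :
    gpr_cut N lo (hi - lo) (b *ᵥ v) = lam • gpr_cut N lo (hi - lo) v := by
  funext j
  rw [Pi.smul_apply, smul_eq_mul]
  by_cases hj : (j : ℕ) < hi - lo ∧ lo + (j : ℕ) < N
  · rw [gpr_cut_apply _ hj.1 hj.2, gpr_cut_apply _ hj.1 hj.2]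
    change dotProduct _ _ = _
    rw [dotProduct, Finset.sum_eq_single (⟨lo + j, hj.2⟩ : Fin N)]
    · rw [h2 _ _ (by simp only; omega) (by simp only; omega) (by simp only; omega), if_pos rfl]
    · intro s _ hs
      by_cases hs2 : (s : ℕ) < hi
      · rw [h2 _ _ (by simp only; omega) (by simp only; omega) hs2, if_neg (Ne.symm hs), zero_mul]
      · rw [hv s (by omega), mul_zero]
    · intro h
      exact absurd (Finset.mem_univ _) h
  · have e : ∀ u : Fin N → ℂ, gpr_cut N lo (hi - lo) u j = 0 := by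
      intro u
      show (if h : (j : ℕ) < hi - lo ∧ lo + (j : ℕ) < N then u ⟨lo + j, h.2⟩ else 0) = _
      rw [dif_neg hj]
    rw [e, e, mul_zero]

/-- **leaf LIN-5**: the graded piece does not change under `b` which preserves `F hi` and acts as
the scalar `lam` on `F hi / F lo` -/
theorem gpr_gr_map {lo hi : ℕ} {b : gs_Mat N} (hu : IsUnit b.det) {lam : ℂ} (hlam : lam ≠ 0)
    (h1 : ∀ r s : Fin N, hi ≤ (r : ℕ) → (s : ℕ) < hi → b r s = 0)
    (h2 : ∀ r s : Fin N, lo ≤ (r : ℕ) → (r : ℕ) < hi → (s : ℕ) < hi →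
      b r s = if r = s then lam else 0) (W : Submodule ℂ (Fin N → ℂ)) :
    gpr_gr (W.map (Matrix.mulVecLin b)) lo hi = gpr_gr W lo hi := by
  unfold gpr_gr
  rw [gpr_map_inf_F hu h1]
  apply le_antisymm
  · rintro x ⟨_, ⟨v, hv, rfl⟩, rfl⟩
    refine ⟨lam • v, Submodule.smul_mem _ _ hv, ?_⟩
    rw [Matrix.mulVecLin_apply, gpr_cut_mulVec_scalar h2 hv.2, map_smul]
  · rintro x ⟨v, hv, rfl⟩
    refine ⟨_, ⟨lam⁻¹ • v, Submodule.smul_mem _ _ hv, rfl⟩, ?_⟩
    rw [Matrix.mulVecLin_apply,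
      gpr_cut_mulVec_scalar h2 (Submodule.smul_mem _ _ hv.2), map_smul, smul_smul,
      mul_inv_cancel₀ hlam, one_smul]

/-- **leaf LIN-5** -/
theorem gpr_gr_F_of_le {k lo hi : ℕ} (h : hi ≤ k) (hN : hi ≤ N) (hlo : lo ≤ hi) :
    gpr_gr (gpr_F N k) lo hi = gpr_F N (hi - lo) := by
  apply le_antisymm (gpr_gr_le _ lo hi)
  intro y hy
  have h1 : gpr_shift N lo y ∈ gpr_F N hi := by
    have := gpr_shift_mem (lo := lo) hy
    rwa [Nat.add_sub_cancel' hlo] at this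
  exact ⟨gpr_shift N lo y, ⟨gpr_F_mono h h1, h1⟩, gpr_cut_shift (by omega) hy⟩

/-- **leaf LIN-5** -/
theorem gpr_gr_F_of_ge {k lo hi : ℕ} (h : k ≤ lo) : gpr_gr (gpr_F N k) lo hi = ⊥ := by
  rw [eq_bot_iff]
  rintro x ⟨v, hv, rfl⟩
  rw [Submodule.mem_bot]
  funext j
  show (if h : (j : ℕ) < hi - lo ∧ lo + (j : ℕ) < N then v ⟨lo + j, h.2⟩ else 0) = _
  split_ifs with hj
  · exact hv.1 _ (by simp only; omega)
  · rfl

end Claimed.Agent.R236
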