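import Mathlib
import Claimed.Agent.R236.GLoc
import Claimed.Agent.R236.GPresLinC

/-!
# Row 236, SB6 (PRES), part 2: the chosen adapted basis of a subspace (prefix `gpr_`)

`gpr_chi sz W` : a chosen invertible matrix of rank `sz` whose first `finrank W` columns span
`W ≤ F sz`; it is a function of `sz` and of the SUBMODULE `W` only, and it is `1` if
`finrank W = 0` or `finrank W = sz`.
-/

set_option autoImplicit false

namespace Claimed.Agent.R236

open Matrix Module

variable {N : ℕ}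

/-- glue two linear equivalences along two pairs of complements -/
theorem gpr_chi_glue {K E : Type*} [Field K] [AddCommGroup E] [Module K E]
    {p q p' q' : Submodule K E} (h : IsCompl p q) (h' : IsCompl p' q') (e1 : p ≃ₗ[K] p')
    (e2 : q ≃ₗ[K] q') :
    ∃ φ : E ≃ₗ[K] E, (∀ x : p, φ x = e1 x) ∧ ∀ y : q, φ y = e2 y := by
  refine ⟨(Submodule.prodEquivOfIsCompl p q h).symm ≪≫ₗ (e1.prodCongr e2) ≪≫ₗ
    Submodule.prodEquivOfIsCompl p' q' h', ?_, ?_⟩
  · intro x
    simp only [LinearEquiv.trans_apply, Submodule.prodEquivOfIsCompl_symm_apply_left]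
    simp
  · intro y
    simp only [LinearEquiv.trans_apply, Submodule.prodEquivOfIsCompl_symm_apply_right]
    simp

/-- `GL(E)` is transitive on the subspaces of a given dimension -/
theorem gpr_chi_trans {K E : Type*} [Field K] [AddCommGroup E] [Module K E] [FiniteDimensional K E]
    (A B : Submodule K E) (hAB : finrank K A = finrank K B) :
    ∃ ψ : E ≃ₗ[K] E, ∀ x ∈ A, ψ x ∈ B := by
  obtain ⟨A', hA'⟩ := Submodule.exists_isCompl A
  obtain ⟨B', hB'⟩ := Submodule.exists_isCompl B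
  have h1 := Submodule.finrank_add_eq_of_isCompl hA'
  have h2 := Submodule.finrank_add_eq_of_isCompl hB'
  have h3 : finrank K A' = finrank K B' := by omega
  obtain ⟨ψ, hψ, -⟩ := gpr_chi_glue hA' hB' (LinearEquiv.ofFinrankEq A B hAB)
    (LinearEquiv.ofFinrankEq A' B' h3)
  refine ⟨ψ, fun x hx => ?_⟩
  rw [hψ ⟨x, hx⟩]
  exact Submodule.coe_mem _

/-- vectors supported on `[c, N)` -/
def gpr_chiT (N c : ℕ) : Submodule ℂ (Fin N → ℂ) where
  carrier := {v | ∀ j : Fin N, (j : ℕ) < c → v j = 0}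
  add_mem' := by
    intro a b ha hb j hj
    rw [Pi.add_apply, ha j hj, hb j hj, add_zero]
  zero_mem' := fun _ _ => rfl
  smul_mem' := by
    intro t a ha j hj
    rw [Pi.smul_apply, ha j hj, smul_zero]

theorem gpr_chi_isCompl (c : ℕ) : IsCompl (gpr_F N c) (gpr_chiT N c) := by
  constructor
  · rw [Submodule.disjoint_def]
    intro v h1 h2
    funext j
    by_cases hj : (j : ℕ) < c
    · exact h2 j hj
    · exact h1 j (not_lt.mp hj)
  · rw [codisjoint_iff, eq_top_iff]
    intro v _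
    rw [Submodule.mem_sup]
    refine ⟨fun j => if (j : ℕ) < c then v j else 0, ?_, fun j => if (j : ℕ) < c then 0 else v j, ?_, ?_⟩
    · intro j hj
      show (if (j : ℕ) < c then v j else 0) = 0
      rw [if_neg (by omega)]
    · intro j hj
      show (if (j : ℕ) < c then 0 else v j) = 0
      rw [if_pos hj]
    · funext j
      show (if (j : ℕ) < c then v j else 0) + (if (j : ℕ) < c then 0 else v j) = v j
      split_ifs <;> simp

/-- **leaf CHI**: `GL(F sz)` acts transitively on the subspaces of `F sz` of a given dimension.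
Route: complements `W ⊕ W' = F sz`, `F u ⊕ {v ∈ F sz | v j = 0 for j < u} = F sz`, and
`F sz ⊕ {v | v j = 0 for j < sz} = V`; `LinearEquiv.ofFinrankEq`, `Submodule.prodEquivOfIsCompl`;
`H := LinearMap.toMatrix' φ`. -/
theorem gpr_exists_chi {sz : ℕ} (hsz : sz ≤ N) {W : Submodule ℂ (Fin N → ℂ)}
    (hW : W ≤ gpr_F N sz) :
    ∃ H : gs_Mat N, gr_GL sz H ∧ (gpr_F N (finrank ℂ W)).map (Matrix.mulVecLin H) = W := by
  have hu : finrank ℂ W ≤ sz := by
    rw [← gpr_finrank_F hsz]
    exact Submodule.finrank_mono hW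
  have hFu : gpr_F N (finrank ℂ W) ≤ gpr_F N sz := gpr_F_mono hu
  have hfin : finrank ℂ (gpr_F N (finrank ℂ W)) = finrank ℂ W := gpr_finrank_F (hu.trans hsz)
  -- inside `F sz`
  have hcomap : finrank ℂ ((gpr_F N (finrank ℂ W)).comap (gpr_F N sz).subtype)
      = finrank ℂ (W.comap (gpr_F N sz).subtype) := by
    rw [(Submodule.comapSubtypeEquivOfLe hFu).finrank_eq, (Submodule.comapSubtypeEquivOfLe hW).finrank_eq,
      hfin]
  obtain ⟨ψ, hψ⟩ := gpr_chi_trans _ _ hcomap
  obtain ⟨φ, hφ1, hφ2⟩ := gpr_chi_glue (gpr_chi_isCompl (N := N) sz) (gpr_chi_isCompl (N := N) sz) ψ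
    (LinearEquiv.refl ℂ _)
  have hmul : Matrix.mulVecLin (LinearMap.toMatrix' (φ : (Fin N → ℂ) →ₗ[ℂ] (Fin N → ℂ)))
      = (φ : (Fin N → ℂ) →ₗ[ℂ] (Fin N → ℂ)) := by
    rw [← Matrix.toLin'_apply', Matrix.toLin'_toMatrix']
  refine ⟨LinearMap.toMatrix' (φ : (Fin N → ℂ) →ₗ[ℂ] (Fin N → ℂ)), ⟨?_, ?_⟩, ?_⟩
  · rw [LinearMap.det_toMatrix']
    exact LinearEquiv.isUnit_det' φ
  · intro i j hij
    rw [LinearMap.toMatrix'_apply]
    by_cases hj : sz ≤ (j : ℕ)
    · have hm : (Pi.single j (1 : ℂ) : Fin N → ℂ) ∈ gpr_chiT N sz := by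
        intro k hk
        rw [Pi.single_apply, if_neg]
        rintro rfl
        omega
      have := hφ2 ⟨_, hm⟩
      simp only [LinearEquiv.refl_apply] at this
      show φ (Pi.single j (1 : ℂ)) i = _
      rw [this, Matrix.one_apply, Pi.single_apply]
    · have hi : sz ≤ (i : ℕ) := hij.resolve_right hj
      have hm : (Pi.single j (1 : ℂ) : Fin N → ℂ) ∈ gpr_F N sz := by
        intro k hk
        rw [Pi.single_apply, if_neg]
        rintro rfl
        omega
      have := hφ1 ⟨_, hm⟩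
      show φ (Pi.single j (1 : ℂ)) i = _
      rw [this, Matrix.one_apply, if_neg (by rintro rfl; omega)]
      exact (ψ ⟨_, hm⟩).2 i hi
  · rw [hmul]
    apply Submodule.eq_of_le_of_finrank_eq
    · rintro _ ⟨x, hx, rfl⟩
      have hx' : x ∈ gpr_F N sz := hFu hx
      have h1 := hφ1 ⟨x, hx'⟩
      have h2 := hψ ⟨x, hx'⟩ hx
      show φ x ∈ W
      rw [h1]
      exact h2
    · rw [LinearEquiv.finrank_map_eq φ, hfin]

open Classical in
/-- the chosen adapted basis -/
noncomputable def gpr_chi (sz : ℕ) (W : Submodule ℂ (Fin N → ℂ)) : gs_Mat N :=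
  if h : sz ≤ N ∧ W ≤ gpr_F N sz ∧ finrank ℂ W ≠ 0 ∧ finrank ℂ W ≠ sz then
    Classical.choose (gpr_exists_chi h.1 h.2.1) else 1

theorem gpr_chi_triv {sz : ℕ} {W : Submodule ℂ (Fin N → ℂ)}
    (h : finrank ℂ W = 0 ∨ finrank ℂ W = sz) : gpr_chi sz W = 1 := by
  unfold gpr_chi
  rw [dif_neg]
  rintro ⟨_, _, h1, h2⟩
  rcases h with h | h
  · exact h1 h
  · exact h2 h

theorem gpr_chi_spec {sz : ℕ} (hsz : sz ≤ N) {W : Submodule ℂ (Fin N → ℂ)}
    (hW : W ≤ gpr_F N sz) :
    gr_GL sz (gpr_chi sz W) ∧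
      (gpr_F N (finrank ℂ W)).map (Matrix.mulVecLin (gpr_chi sz W)) = W := by
  by_cases h : finrank ℂ W ≠ 0 ∧ finrank ℂ W ≠ sz
  · unfold gpr_chi
    rw [dif_pos ⟨hsz, hW, h.1, h.2⟩]
    exact Classical.choose_spec (gpr_exists_chi hsz hW)
  · have h' : finrank ℂ W = 0 ∨ finrank ℂ W = sz := by
      by_contra hc
      push Not at hc
      exact h hc
    rw [gpr_chi_triv h', Matrix.mulVecLin_one, Submodule.map_id]
    refine ⟨⟨by simp, gm_corner_one sz⟩, ?_⟩
    rcases h' with h0 | h0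
    · rw [h0, gpr_F_zero]
      exact (Submodule.finrank_eq_zero.mp h0).symm
    · rw [h0]
      exact (Submodule.eq_of_le_of_finrank_eq hW (by rw [h0, gpr_finrank_F hsz])).symm

end Claimed.Agent.R236
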