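import Mathlib
import Claimed.Agent.R236.GChain
import Claimed.Agent.R236.GCount
import Claimed.Agent.R236.GFrame
import Claimed.Agent.R236.GPresChi

/-!
# Row 236, SB6 (PRES), part 3: frames and the colouring of a subspace (prefix `gpr_`)

`gpr_colOf K n W` : inside the block `[lo,hi)` of `K` the first `finrank (gr W lo hi)` indices have
colour `U`.  Main facts: adapted, `nU = finrank gr` on blocks, `cU c = finrank (W ⊓ F c)` at cuts.
-/

set_option autoImplicit false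

namespace Claimed.Agent.R236

open Matrix Module

variable {N : ℕ}

/-! ## frames -/

theorem gpr_nxt_spec {n : ℕ} {K : Finset ℕ} (hK : gp_Frame N n K) {c : ℕ} (hc : c < n) :
    gr_nxt K c ∈ K ∧ c < gr_nxt K c ∧ gr_nxt K c ≤ n ∧ ∀ d ∈ K, c < d → gr_nxt K c ≤ d := by
  obtain ⟨h1, h2, h3⟩ := gf_nxt_spec hK.top hc
  exact ⟨h1, h2, hK.le _ h1, h3⟩

/-- **leaf FRAME**: induction along the cuts -/
theorem gpr_frame_induction {n : ℕ} {K : Finset ℕ} (hK : gp_Frame N n K) (P : ℕ → Prop) (h0 : P 0)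
    (hs : ∀ lo ∈ K, lo < n → P lo → P (gr_nxt K lo)) : ∀ c ∈ K, P c := by
  intro c
  induction c using Nat.strong_induction_on with
  | _ c ih =>
    intro hc
    rcases Nat.eq_zero_or_pos c with rfl | hpos
    · exact h0
    · have hne : (K.filter fun d => d < c).Nonempty := ⟨0, Finset.mem_filter.2 ⟨hK.zero, hpos⟩⟩
      obtain ⟨hlo1, hlo2⟩ := Finset.mem_filter.1 (Finset.max'_mem _ hne)
      set lo := (K.filter fun d => d < c).max' hne with hlo
      have hnx : gr_nxt K lo = c := by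
        refine gf_nxt_eq hc hlo2 fun d' hd' hlt => ?_
        by_contra hcon
        have : d' ≤ lo := Finset.le_max' _ d' (Finset.mem_filter.2 ⟨hd', by omega⟩)
        omega
      have := hs lo hlo1 (lt_of_lt_of_le hlo2 (hK.le c hc)) (ih lo hlo2 hlo1)
      rwa [hnx] at this

/-- **leaf FRAME**: every index `< n` lies in a block -/
theorem gpr_block_exists {n : ℕ} {K : Finset ℕ} (hK : gp_Frame N n K) {j : ℕ} (hj : j < n) :
    ∃ lo ∈ K, lo ≤ j ∧ j < gr_nxt K lo := by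
  have hne : (K.filter fun d => d ≤ j).Nonempty := ⟨0, Finset.mem_filter.2 ⟨hK.zero, Nat.zero_le _⟩⟩
  obtain ⟨hlo1, hlo2⟩ := Finset.mem_filter.1 (Finset.max'_mem _ hne)
  set lo := (K.filter fun d => d ≤ j).max' hne with hlo
  refine ⟨lo, hlo1, hlo2, ?_⟩
  obtain ⟨g1, g2, -, -⟩ := gpr_nxt_spec hK (lt_of_le_of_lt hlo2 hj)
  by_contra hcon
  have : gr_nxt K lo ≤ lo := Finset.le_max' _ _ (Finset.mem_filter.2 ⟨g1, by omega⟩)
  omega

/-- **leaf FRAME** -/
theorem gpr_block_unique {n : ℕ} {K : Finset ℕ} (hK : gp_Frame N n K) {j lo lo' : ℕ}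
    (h1 : lo ∈ K) (h2 : lo ≤ j) (h3 : j < gr_nxt K lo) (h1' : lo' ∈ K) (h2' : lo' ≤ j)
    (h3' : j < gr_nxt K lo') (hj : j < n) : lo = lo' := by
  rcases lt_trichotomy lo lo' with h | h | h
  · have := (gpr_nxt_spec hK (lt_of_le_of_lt h2 hj)).2.2.2 lo' h1' h
    omega
  · exact h
  · have := (gpr_nxt_spec hK (lt_of_le_of_lt h2' hj)).2.2.2 lo h1 h
    omega

/-! ## the colouring -/

open Classical in
/-- the colouring of a subspace relative to a frame -/
noncomputable def gpr_colOf (K : Finset ℕ) (n : ℕ) (W : Submodule ℂ (Fin N → ℂ)) (j : ℕ) : Bool :=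
  decide (∃ lo ∈ K, lo < n ∧ lo ≤ j ∧ j < gr_nxt K lo ∧
    j < lo + finrank ℂ (gpr_gr W lo (gr_nxt K lo)))

/-- **leaf COL-1** -/
theorem gpr_colOf_block {n : ℕ} {K : Finset ℕ} (hK : gp_Frame N n K)
    (W : Submodule ℂ (Fin N → ℂ)) {lo j : ℕ} (h1 : lo ∈ K) (h2 : lo < n) (h3 : lo ≤ j)
    (h4 : j < gr_nxt K lo) :
    gpr_colOf K n W j = true ↔ j < lo + finrank ℂ (gpr_gr W lo (gr_nxt K lo)) := by
  unfold gpr_colOf
  rw [decide_eq_true_iff]
  constructor
  · rintro ⟨lo', g1, g2, g3, g4, g5⟩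
    have hj : j < n := lt_of_lt_of_le h4 (gpr_nxt_spec hK h2).2.2.1
    obtain rfl := gpr_block_unique hK h1 h3 h4 g1 g3 g4 hj
    exact g5
  · intro h5
    exact ⟨lo, h1, h2, h3, h4, h5⟩

/-- **leaf COL-1** -/
theorem gpr_colOf_beyond {n : ℕ} {K : Finset ℕ} (hK : gp_Frame N n K)
    (W : Submodule ℂ (Fin N → ℂ)) {j : ℕ} (hj : n ≤ j) : gpr_colOf K n W j = false := by
  unfold gpr_colOf
  rw [decide_eq_false_iff_not]
  rintro ⟨lo, -, g2, -, g4, -⟩
  have := (gpr_nxt_spec hK g2).2.2.1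
  omega

/-- **leaf COL-1** -/
theorem gpr_colOf_adapted {n : ℕ} {K : Finset ℕ} (hK : gp_Frame N n K)
    (W : Submodule ℂ (Fin N → ℂ)) : gr_Adapted n K (gpr_colOf K n W) := by
  refine ⟨fun j hj => gpr_colOf_beyond hK W hj, fun j _ hjK hc => ?_⟩
  unfold gpr_colOf at hc ⊢
  rw [decide_eq_true_iff] at hc ⊢
  obtain ⟨lo, g1, g2, g3, g4, g5⟩ := hc
  have hne : lo ≠ j + 1 := fun h => hjK (h ▸ g1)
  exact ⟨lo, g1, g2, by omega, by omega, by omega⟩

/-- **leaf COL-2** -/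
theorem gpr_colOf_nU {n : ℕ} {K : Finset ℕ} (hK : gp_Frame N n K)
    (W : Submodule ℂ (Fin N → ℂ)) {lo : ℕ} (h1 : lo ∈ K) (h2 : lo < n) :
    gr_nU (gpr_colOf K n W) lo (gr_nxt K lo) = finrank ℂ (gpr_gr W lo (gr_nxt K lo)) := by
  obtain ⟨-, g2, g3, -⟩ := gpr_nxt_spec hK h2
  have hr := gpr_finrank_gr_le W (lo := lo) (g3.trans hK.nN)
  set r := finrank ℂ (gpr_gr W lo (gr_nxt K lo)) with hrdef
  have hcongr : gr_nU (gpr_colOf K n W) lo (gr_nxt K lo) =
      gr_nU (fun j => decide (j < lo + r)) lo (gr_nxt K lo) := by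
    refine gct_nU_congr fun j hj hj' => ?_
    exact Bool.eq_iff_iff.mpr ((gpr_colOf_block hK W h1 h2 hj hj').trans (by rw [decide_eq_true_iff]))
  rw [hcongr]
  unfold gr_nU
  rw [gct_cU_prefix, gct_cU_prefix]
  omega

/-- **leaf COL-2** (`gpr_frame_induction`, `gpr_rank_nullity`, `gpr_colOf_nU`, `gct_cU_eq_add`) -/
theorem gpr_colOf_cU {n : ℕ} {K : Finset ℕ} (hK : gp_Frame N n K)
    (W : Submodule ℂ (Fin N → ℂ)) {c : ℕ} (hc : c ∈ K) :
    gr_cU (gpr_colOf K n W) c = finrank ℂ (W ⊓ gpr_F N c : Submodule ℂ (Fin N → ℂ)) := by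
  refine gpr_frame_induction hK
    (fun c => gr_cU (gpr_colOf K n W) c = finrank ℂ (W ⊓ gpr_F N c : Submodule ℂ (Fin N → ℂ)))
    ?_ ?_ c hc
  · rw [gct_cU_zero, gpr_F_zero, inf_bot_eq, finrank_bot]
  · intro lo h1 h2 ih
    have hle : lo ≤ gr_nxt K lo := (gpr_nxt_spec hK h2).2.1.le
    rw [gct_cU_eq_add _ hle, gpr_colOf_nU hK W h1 h2, gpr_rank_nullity W hle, ih]

theorem gpr_colOf_cnt {n : ℕ} {K : Finset ℕ} (hK : gp_Frame N n K)
    {W : Submodule ℂ (Fin N → ℂ)} (hW : W ≤ gpr_F N n) :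
    gr_cU (gpr_colOf K n W) n = finrank ℂ W := by
  rw [gpr_colOf_cU hK W hK.top, inf_eq_left.mpr hW]

theorem gpr_colOf_CF {n k : ℕ} {K : Finset ℕ} (hK : gp_Frame N n K)
    {W : Submodule ℂ (Fin N → ℂ)} (hW : W ≤ gpr_F N n) (hk : finrank ℂ W = k) :
    gr_CF N n k K (gpr_colOf K n W) :=
  ⟨hK.nN, hK.zero, hK.top, hK.le, gpr_colOf_adapted hK W, by rw [gpr_colOf_cnt hK hW, hk]⟩

/-- the colouring of a block depends only on the block and on its graded piece -/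
theorem gpr_colOf_congr {n : ℕ} {K K' : Finset ℕ} (hK : gp_Frame N n K) (hK' : gp_Frame N n K')
    {W W' : Submodule ℂ (Fin N → ℂ)} {lo hi : ℕ} (h1 : lo ∈ K) (h1' : lo ∈ K') (h2 : lo < n)
    (h3 : gr_nxt K lo = hi) (h3' : gr_nxt K' lo = hi) (hgr : gpr_gr W lo hi = gpr_gr W' lo hi)
    {j : ℕ} (hj : lo ≤ j) (hj' : j < hi) : gpr_colOf K n W j = gpr_colOf K' n W' j := by
  have e1 := gpr_colOf_block hK W h1 h2 hj (by rw [h3]; exact hj')
  have e2 := gpr_colOf_block hK' W' h1' h2 hj (by rw [h3']; exact hj')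
  rw [h3] at e1
  rw [h3', ← hgr] at e2
  exact Bool.eq_iff_iff.mpr (e1.trans e2.symm)

/-- **leaf COL-3**: the base colouring -/
theorem gpr_colOf_base {n k : ℕ} {K : Finset ℕ} (hK : gp_Frame N n K) (hk : k ∈ K) (j : ℕ) :
    gpr_colOf K n (gpr_F N k) j = decide (j < k) := by
  have hkn : k ≤ n := hK.le k hk
  rcases Nat.lt_or_ge j n with hj | hj
  · obtain ⟨lo, g1, g2, g3⟩ := gpr_block_exists hK hj
    have hlo : lo < n := lt_of_le_of_lt g2 hj
    obtain ⟨f1, f2, f3, f4⟩ := gpr_nxt_spec hK hlo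
    refine Bool.eq_iff_iff.mpr ((gpr_colOf_block hK _ g1 hlo g2 g3).trans ?_)
    rw [decide_eq_true_iff]
    rcases Nat.lt_or_ge k (gr_nxt K lo) with h | h
    · have hklo : k ≤ lo := by
        by_contra hcon
        have := f4 k hk (by omega)
        omega
      rw [gpr_gr_F_of_ge hklo, finrank_bot]
      omega
    · rw [gpr_gr_F_of_le h (f3.trans hK.nN) f2.le, gpr_finrank_F (by have := hK.nN; omega)]
      omega
  · rw [gpr_colOf_beyond hK _ hj]
    symm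
    rw [decide_eq_false_iff_not]
    omega

end Claimed.Agent.R236
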