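import Mathlib
import Claimed.Agent.R236.GLiftA
import Claimed.Agent.R236.GPresCol

/-!
# Row 236, SB6 (PRES), part 4: the block diagonal matrix (prefix `gpr_`)
-/

set_option autoImplicit false

namespace Claimed.Agent.R236

open Matrix Module

variable {N : ℕ}

/-! ## the block diagonal matrix -/

theorem gpr_dmat_bd {n : ℕ} {K : Finset ℕ} (hK : gp_Frame N n K) {h : ℕ → gs_Mat N}
    (hh : ∀ c ∈ K, c < n → gs_IsCorner (gr_nxt K c - c) (h c)) : gr_IsBD n K (gp_dmat K n h) := by
  unfold gp_dmat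
  apply gm_bd_list_prod
  intro x hx
  obtain ⟨c, hc, rfl⟩ := List.mem_map.mp hx
  have hcn := List.mem_range.mp hc
  by_cases hcK : c ∈ K
  · rw [if_pos hcK]
    obtain ⟨g1, g2, g3, g4⟩ := gpr_nxt_spec hK hcn
    refine gm_bd_emb (hh c hcK hcn) (by omega) (fun d hd => ?_)
    by_cases h : d ≤ c
    · exact Or.inl h
    · right
      have := g4 d hd (by omega)
      omega
  · rw [if_neg hcK]; exact gm_bd_one n K

theorem gpr_dmat_isUnit {n : ℕ} {K : Finset ℕ} (hK : gp_Frame N n K) {h : ℕ → gs_Mat N}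
    (hh : ∀ c ∈ K, c < n → gr_GL (gr_nxt K c - c) (h c)) : IsUnit (gp_dmat K n h).det :=
  gl_bd_isUnit hK.nN hK.top hh

/-- the mid block is multiplicative on block diagonal matrices -/
theorem gpr_mid_list_prod {n lo m : ℕ} {K : Finset ℕ} (h1 : lo ∈ K) (h2 : lo + m ∈ K)
    (l : List (gs_Mat N)) (hl : ∀ x ∈ l, gr_IsBD n K x) :
    gr_midBlock lo m l.prod = (l.map (gr_midBlock lo m)).prod := by
  induction l with
  | nil => simp [gm_mid_one]
  | cons a l ih =>
    have ha : gr_IsBD n K a := hl a (by simp)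
    have hl' : ∀ x ∈ l, gr_IsBD n K x := fun x hx => hl x (by simp [hx])
    have hp : gr_IsBD n K l.prod := gm_bd_list_prod l hl'
    rw [List.prod_cons, List.map_cons, List.prod_cons, ← ih hl']
    apply gm_mid_mul
    · intro i k hi hk
      by_contra h0
      have := ha.2 i k h0 lo h1
      omega
    · intro k j hk hj
      by_contra h0
      have := hp.2 k j h0 (lo + m) h2
      omega

theorem gpr_mid_eq_one {lo m : ℕ} {A : gs_Mat N}
    (h : ∀ i j : Fin N, lo ≤ (i : ℕ) → (i : ℕ) < lo + m → lo ≤ (j : ℕ) → (j : ℕ) < lo + m →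
      A i j = (1 : gs_Mat N) i j) : gr_midBlock lo m A = 1 := by
  ext i j
  by_cases hc : (i : ℕ) < m ∧ (j : ℕ) < m ∧ lo + m ≤ N
  · rw [gm_mid_apply hc.2.2 _ hc.1 hc.2.1, h _ _ (by simp) (by simp; omega) (by simp)
      (by simp; omega), Matrix.one_apply, Matrix.one_apply]
    simp only [Fin.ext_iff, Nat.add_left_cancel_iff]
  · unfold gr_midBlock; rw [dif_neg hc]

/-- the diagonal blocks of `gp_dmat` -/
theorem gpr_dmat_mid {n : ℕ} {K : Finset ℕ} (hK : gp_Frame N n K) {h : ℕ → gs_Mat N}
    (hh : ∀ c ∈ K, c < n → gs_IsCorner (gr_nxt K c - c) (h c)) {lo : ℕ} (h1 : lo ∈ K)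
    (h2 : lo < n) : gr_midBlock lo (gr_nxt K lo - lo) (gp_dmat K n h) = h lo := by
  obtain ⟨g1, g2, g3, g4⟩ := gpr_nxt_spec hK h2
  have hnN := hK.nN
  set m := gr_nxt K lo - lo with hm
  have hlom : lo + m = gr_nxt K lo := by omega
  unfold gp_dmat
  rw [gpr_mid_list_prod (n := n) (K := K) h1 (hlom ▸ g1), List.map_map]
  · rw [gl_prod_two n lo lo le_rfl]
    · rw [if_pos h2, if_neg (by omega), mul_one]
      simp only [Function.comp_apply]
      rw [if_pos h1]
      exact gm_mid_emb (hh lo h1 h2) (by omega)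
    · intro c hc _
      simp only [Function.comp_apply]
      by_cases hcK : c ∈ K
      · rw [if_pos hcK]
        apply gpr_mid_eq_one
        intro i j hi1 hi2 _ _
        rcases lt_or_gt_of_ne hc with hlt | hgt
        · have hcn : c < n := by omega
          obtain ⟨_, e2, _, e4⟩ := gpr_nxt_spec hK hcn
          have := e4 lo h1 hlt
          exact gm_emb_corner c (hh c hcK hcn) i j (Or.inl (by omega))
        · have := g4 c hcK hgt
          exact gm_emb_apply_lt_row c _ (by omega) j
      · rw [if_neg hcK]; exact gm_mid_one _ _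
  · intro x hx
    obtain ⟨c, hc, rfl⟩ := List.mem_map.mp hx
    have hcn := List.mem_range.mp hc
    by_cases hcK : c ∈ K
    · rw [if_pos hcK]
      obtain ⟨_, e2, e3, e4⟩ := gpr_nxt_spec hK hcn
      refine gm_bd_emb (hh c hcK hcn) (by omega) (fun d hd => ?_)
      by_cases h : d ≤ c
      · exact Or.inl h
      · right
        have := e4 d hd (by omega)
        omega
    · rw [if_neg hcK]; exact gm_bd_one n K

end Claimed.Agent.R236
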