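import Mathlib
import Claimed.Agent.R236.GPresD

/-!
# Row 236, SB6 (PRES), part 5: the unipotent part
(prefix `gpr_`)

`gpr_Adm N n K W col d` : the data of a presentation of the subspace `W ≤ F n`.
* `gpr_sum_decomp` : `F c = (W ⊓ F c) + d (Q ⊓ F c)` at every cut `c`;
* `gpr_exists_z`   : there is `z` supported on `gp_zPos` with `d (1+z) e_s ∈ W` for all `U`-coloured `s`;
* `gpr_tri`        : `(d (1+z) Sh)⁻¹ g` is block triangular.
-/

set_option autoImplicit false

namespace Claimed.Agent.R236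

open Matrix Module

variable {N : ℕ}

/-! ## admissible data -/

/-- the data of a presentation of `W` -/
structure gpr_Adm (N n : ℕ) (K : Finset ℕ) (W : Submodule ℂ (Fin N → ℂ)) (col : ℕ → Bool)
    (d : gs_Mat N) : Prop where
  fr : gp_Frame N n K
  le : W ≤ gpr_F N n
  bd : gr_IsBD n K d
  unit : IsUnit d.det
  col_block : ∀ lo ∈ K, lo < n → ∀ j, lo ≤ j → j < gr_nxt K lo →
    (col j = true ↔ j < lo + finrank ℂ (gpr_gr W lo (gr_nxt K lo)))
  mid_unit : ∀ lo ∈ K, lo < n → IsUnit (gr_midBlock lo (gr_nxt K lo - lo) d).det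
  span : ∀ lo ∈ K, lo < n →
    (gpr_F N (finrank ℂ (gpr_gr W lo (gr_nxt K lo)))).map
      (Matrix.mulVecLin (gr_midBlock lo (gr_nxt K lo - lo) d)) = gpr_gr W lo (gr_nxt K lo)

/-- vectors supported on the `Q`-coloured indices `< c` -/
def gpr_Q (N : ℕ) (col : ℕ → Bool) (c : ℕ) : Submodule ℂ (Fin N → ℂ) where
  carrier := {v | ∀ j : Fin N, (c ≤ (j : ℕ) ∨ col j = true) → v j = 0}
  add_mem' := by
    intro a b ha hb j hj
    rw [Pi.add_apply, ha j hj, hb j hj, add_zero]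
  zero_mem' := fun _ _ => rfl
  smul_mem' := by
    intro t a ha j hj
    rw [Pi.smul_apply, ha j hj, smul_zero]

theorem gpr_Q_mono (col : ℕ → Bool) {c c' : ℕ} (h : c ≤ c') : gpr_Q N col c ≤ gpr_Q N col c' := by
  intro v hv j hj
  exact hv j (by rcases hj with hj | hj; exact Or.inl (by omega); exact Or.inr hj)

/-- a matrix of rank `sz` preserves `F sz` -/
theorem gpr_corner_mulVec_mem {sz : ℕ} {H : gs_Mat N} (hH : gs_IsCorner sz H) {y : Fin N → ℂ}
    (hy : y ∈ gpr_F N sz) : H *ᵥ y ∈ gpr_F N sz := by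
  refine gpr_mulVec_mem_F (fun r s hr hs => ?_) hy
  rw [hH r s (Or.inl hr), Matrix.one_apply_ne]
  intro e; rw [e] at hr; omega

/-- the columns of a block diagonal matrix in a window vanish outside of the window -/
theorem gpr_bd_window_col {n lo sz : ℕ} {K : Finset ℕ} {d : gs_Mat N} (hd : gr_IsBD n K d)
    (h1 : lo ∈ K) (h2 : lo + sz ∈ K) (i j : Fin N) (hj : lo ≤ (j : ℕ) ∧ (j : ℕ) < lo + sz)
    (hi : ¬ (lo ≤ (i : ℕ) ∧ (i : ℕ) < lo + sz)) : d i j = 0 := by
  by_contra h0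
  have e1 := hd.2 i j h0 lo h1
  have e2 := hd.2 i j h0 (lo + sz) h2
  omega

/-- the rows of a block diagonal matrix in a window vanish outside of the window -/
theorem gpr_bd_window_row {n lo sz : ℕ} {K : Finset ℕ} {d : gs_Mat N} (hd : gr_IsBD n K d)
    (h1 : lo ∈ K) (h2 : lo + sz ∈ K) (i j : Fin N) (hi : lo ≤ (i : ℕ) ∧ (i : ℕ) < lo + sz)
    (hj : ¬ (lo ≤ (j : ℕ) ∧ (j : ℕ) < lo + sz)) : d i j = 0 := by
  by_contra h0
  have e1 := hd.2 i j h0 lo h1
  have e2 := hd.2 i j h0 (lo + sz) h2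
  omega

theorem gpr_shift_single {lo : ℕ} (s : Fin N) (hs : lo ≤ (s : ℕ)) :
    gpr_shift N lo (Pi.single (⟨s - lo, by omega⟩ : Fin N) 1) = Pi.single s 1 := by
  funext i
  by_cases hi : lo ≤ (i : ℕ)
  · rw [gpr_shift_apply_ge _ hi]
    by_cases e : i = s
    · subst e; simp
    · rw [Pi.single_eq_of_ne e, Pi.single_eq_of_ne]
      intro e'
      apply e
      apply Fin.ext
      have := congrArg Fin.val e'
      simp only at this
      omega
  · rw [gpr_shift_apply_lt _ (by omega), Pi.single_eq_of_ne]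
    intro e; rw [e] at hi; exact hi hs

section main

variable {n : ℕ} {K : Finset ℕ} {W : Submodule ℂ (Fin N → ℂ)} {col : ℕ → Bool} {d : gs_Mat N}

/-- one block.  `y := H⁻¹ (cut v)`, `H := midBlock lo (hi-lo) d`; `y = y1 + y2` with
`y1 ∈ F u`, `y2` supported on `[u,hi-lo)`; `H y1 ∈ gr` gives `w`; `q := shift lo y2`;
`cut (v - w - d q) = 0` by `gpr_cut_mulVec`/`gpr_mulVec_shift`/`gpr_cut_shift`. -/
theorem gpr_sum_step (A : gpr_Adm N n K W col d) {lo : ℕ} (h1 : lo ∈ K) (h2 : lo < n)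
    {v : Fin N → ℂ} (hv : v ∈ gpr_F N (gr_nxt K lo)) :
    ∃ w ∈ W ⊓ gpr_F N (gr_nxt K lo), ∃ q ∈ gpr_Q N col (gr_nxt K lo),
      v - w - d *ᵥ q ∈ gpr_F N lo := by
  obtain ⟨g1, g2, g3, _⟩ := gpr_nxt_spec A.fr h2
  have hnN := A.fr.nN
  set hi := gr_nxt K lo with hhi
  set sz := hi - lo with hsz
  have hlosz : lo + sz = hi := by omega
  set H := gr_midBlock lo sz d with hH
  set u := finrank ℂ (gpr_gr W lo hi) with hu
  have hHu : IsUnit H.det := A.mid_unit lo h1 h2
  have hHc : gs_IsCorner sz H := gm_mid_corner lo sz d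
  set y := H⁻¹ *ᵥ gpr_cut N lo sz v with hy
  have hyF : y ∈ gpr_F N sz :=
    gpr_corner_mulVec_mem (gm_corner_inv hHc hHu) (gpr_cut_mem lo sz v)
  let y1 : Fin N → ℂ := fun j => if (j : ℕ) < u then y j else 0
  let y2 : Fin N → ℂ := fun j => if (j : ℕ) < u then 0 else y j
  have hy12 : y = y1 + y2 := by
    funext j
    by_cases hj : (j : ℕ) < u
    · simp [y1, y2, hj]
    · simp [y1, y2, hj]
  have hy1 : y1 ∈ gpr_F N u := by
    intro j hj
    simp only [y1]
    rw [if_neg (by omega)]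
  have hy2 : y2 ∈ gpr_F N sz := by
    intro j hj
    simp only [y2]
    split_ifs
    · rfl
    · exact hyF j hj
  have hgr : H *ᵥ y1 ∈ gpr_gr W lo hi := by
    rw [← A.span lo h1 h2]
    exact ⟨y1, hy1, rfl⟩
  obtain ⟨w, hw, hwc⟩ := hgr
  have hdq : d *ᵥ gpr_shift N lo y2 = gpr_shift N lo (H *ᵥ y2) :=
    gpr_mulVec_shift (by omega) (gpr_bd_window_col A.bd h1 (hlosz ▸ g1)) hy2
  have hHy2 : H *ᵥ y2 ∈ gpr_F N sz := gpr_corner_mulVec_mem hHc hy2
  refine ⟨w, hw, gpr_shift N lo y2, ?_, ?_⟩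
  · intro j hj
    by_cases hj1 : (j : ℕ) < lo
    · exact gpr_shift_apply_lt y2 hj1
    · by_cases hj2 : hi ≤ (j : ℕ)
      · exact gpr_shift_mem hy2 j (by omega)
      · have hc : col j = true := by
          rcases hj with hj | hj
          · omega
          · exact hj
        have h5 : (j : ℕ) < lo + u := (A.col_block lo h1 h2 j (by omega) (by omega)).mp hc
        rw [gpr_shift_apply_ge y2 (by omega)]
        simp only [y2]
        rw [if_pos (by omega)]
  · have hr : v - w - d *ᵥ gpr_shift N lo y2 ∈ gpr_F N (lo + sz) := by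
      rw [hdq]
      refine Submodule.sub_mem _ (Submodule.sub_mem _ ?_ ?_) (gpr_shift_mem hHy2)
      · rw [hlosz]; exact hv
      · rw [hlosz]; exact hw.2
    rw [← gpr_cut_eq_zero_iff hr, hdq, map_sub, map_sub, gpr_cut_shift (by omega) hHy2, hwc,
      sub_sub, ← Matrix.mulVec_add, ← hy12, hy, Matrix.mulVec_mulVec,
      Matrix.mul_nonsing_inv H hHu, Matrix.one_mulVec, sub_self]

/-- `F c = (W ⊓ F c) + d (Q ⊓ F c)` at every cut -/
theorem gpr_sum_decomp (A : gpr_Adm N n K W col d) :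
    ∀ c ∈ K, ∀ v ∈ gpr_F N c, ∃ w ∈ W ⊓ gpr_F N c, ∃ q ∈ gpr_Q N col c, v = w + d *ᵥ q := by
  apply gpr_frame_induction A.fr
  · intro v hv
    rw [gpr_F_zero, Submodule.mem_bot] at hv
    exact ⟨0, Submodule.zero_mem _, 0, Submodule.zero_mem _, by simp [hv]⟩
  · intro lo h1 h2 ih v hv
    obtain ⟨w, hw, q, hq, hr⟩ := gpr_sum_step A h1 h2 hv
    obtain ⟨w', hw', q', hq', e⟩ := ih _ hr
    have hlt := (gpr_nxt_spec A.fr h2).2.1
    refine ⟨w + w', Submodule.add_mem _ hw ⟨hw'.1, gpr_F_mono hlt.le hw'.2⟩, q + q',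
      Submodule.add_mem _ hq (gpr_Q_mono col hlt.le hq'), ?_⟩
    rw [Matrix.mulVec_add]
    have : v = (v - w - d *ᵥ q) + w + d *ᵥ q := by abel
    rw [this, e]; abel

/-- one column of `z`.  Block `[lo,hi)` of `s`, `t = s - lo < u`; `H e_t ∈ gr` gives
`w ∈ W ⊓ F hi` with `cut w = H e_t`; `d e_s = shift lo (H e_t)`; `w - d e_s ∈ F lo`; apply
`gpr_sum_decomp` at `lo`. -/
theorem gpr_exists_col (A : gpr_Adm N n K W col d) (s : Fin N) (hs : (s : ℕ) < n)
    (hc : col s = true) :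
    ∃ q : Fin N → ℂ, (∀ r : Fin N, q r ≠ 0 → col r = false ∧ ∃ c ∈ K, (r : ℕ) < c ∧ c ≤ (s : ℕ)) ∧
      d *ᵥ (Pi.single s 1 + q) ∈ W := by
  obtain ⟨lo, h1, hlos, hshi⟩ := gpr_block_exists A.fr hs
  have h2 : lo < n := by omega
  obtain ⟨g1, g2, g3, _⟩ := gpr_nxt_spec A.fr h2
  have hnN := A.fr.nN
  have hsu := (A.col_block lo h1 h2 s hlos hshi).mp hc
  set hi := gr_nxt K lo with hhi
  set sz := hi - lo with hsz
  have hlosz : lo + sz = hi := by omega
  set H := gr_midBlock lo sz d with hH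
  set u := finrank ℂ (gpr_gr W lo hi) with hu
  have hHc : gs_IsCorner sz H := gm_mid_corner lo sz d
  let et : Fin N → ℂ := Pi.single (⟨s - lo, by omega⟩ : Fin N) 1
  have het : ∀ m, (s : ℕ) - lo < m → et ∈ gpr_F N m := by
    intro m hm j hj
    simp only [et]
    rw [Pi.single_eq_of_ne]
    intro e
    have := congrArg Fin.val e
    simp only at this
    omega
  have hes : gpr_shift N lo et = Pi.single s 1 := gpr_shift_single s hlos
  have hgr : H *ᵥ et ∈ gpr_gr W lo hi := by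
    rw [← A.span lo h1 h2]
    exact ⟨et, het u (by omega), rfl⟩
  obtain ⟨w, hw, hwc⟩ := hgr
  have hde : d *ᵥ Pi.single s 1 = gpr_shift N lo (H *ᵥ et) := by
    rw [← hes]
    exact gpr_mulVec_shift (by omega) (gpr_bd_window_col A.bd h1 (hlosz ▸ g1)) (het sz (by omega))
  have hHe : H *ᵥ et ∈ gpr_F N sz := gpr_corner_mulVec_mem hHc (het sz (by omega))
  have hr : w - d *ᵥ Pi.single s 1 ∈ gpr_F N (lo + sz) := by
    rw [hde]
    refine Submodule.sub_mem _ ?_ (gpr_shift_mem hHe)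
    rw [hlosz]; exact hw.2
  have hr0 : w - d *ᵥ Pi.single s 1 ∈ gpr_F N lo := by
    rw [← gpr_cut_eq_zero_iff hr, hde, map_sub, gpr_cut_shift (by omega) hHe, hwc, sub_self]
  obtain ⟨w', hw', q, hq, e⟩ := gpr_sum_decomp A lo h1 _ hr0
  refine ⟨q, fun r hr => ?_, ?_⟩
  · have h3 : ¬ (lo ≤ (r : ℕ) ∨ col r = true) := fun h => hr (hq r h)
    push Not at h3
    exact ⟨by simpa using h3.2, lo, h1, h3.1, hlos⟩
  · have : d *ᵥ (Pi.single s 1 + q) = w - w' := by
      rw [Matrix.mulVec_add]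
      have e' : w = (w - d *ᵥ Pi.single s 1) + d *ᵥ Pi.single s 1 := by abel
      rw [e', e]; abel
    rw [this]
    exact Submodule.sub_mem _ hw.1 hw'.1

/-- assemble the columns (`Classical.choose`, `Matrix.of`,
`Matrix.mulVec_single_one`) -/
theorem gpr_exists_z (A : gpr_Adm N n K W col d) :
    ∃ z : gs_Mat N, (∀ r s : Fin N, z r s ≠ 0 → gp_zPos K n col r s) ∧
      ∀ s : Fin N, (s : ℕ) < n → col s = true → (d * (1 + z)) *ᵥ Pi.single s 1 ∈ W := by
  classical
  let z : gs_Mat N := fun r s =>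
    if h : (s : ℕ) < n ∧ col s = true then Classical.choose (gpr_exists_col A s h.1 h.2) r else 0
  refine ⟨z, fun r s h0 => ?_, fun s hs hc => ?_⟩
  · by_cases h : (s : ℕ) < n ∧ col s = true
    · have hz : z r s = Classical.choose (gpr_exists_col A s h.1 h.2) r := by
        simp only [z]; rw [dif_pos h]
      rw [hz] at h0
      obtain ⟨e1, e2⟩ := (Classical.choose_spec (gpr_exists_col A s h.1 h.2)).1 r h0
      exact ⟨h.1, e1, h.2, e2⟩
    · exfalso; apply h0
      simp only [z]; rw [dif_neg h]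
  · have hz : z *ᵥ Pi.single s 1 = Classical.choose (gpr_exists_col A s hs hc) := by
      rw [Matrix.mulVec_single_one]
      funext r
      have hz' : z r s = Classical.choose (gpr_exists_col A s hs hc) r := by
        simp only [z]; rw [dif_pos ⟨hs, hc⟩]
      exact hz'
    rw [← Matrix.mulVec_mulVec, Matrix.add_mulVec, Matrix.one_mulVec, hz]
    exact (Classical.choose_spec (gpr_exists_col A s hs hc)).2

end main

end Claimed.Agent.R236
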