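import Mathlib
import Claimed.Agent.R236.GPresZ

/-!
# Row 236, SB6 (PRES), part 6: triangularity (prefix `gpr_`)
-/

set_option autoImplicit false

namespace Claimed.Agent.R236

open Matrix Module

variable {N : ℕ}

section main

variable {n : ℕ} {K : Finset ℕ} {W : Submodule ℂ (Fin N → ℂ)} {col : ℕ → Bool} {d : gs_Mat N}

theorem gpr_z_uni {z : gs_Mat N} (hz : ∀ r s : Fin N, z r s ≠ 0 → gp_zPos K n col r s) :
    gs_IsUni n K (1 + z) :=
  gm_uni_one_add fun r s h => ⟨(hz r s h).1, (hz r s h).2.2.2⟩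

/-- the matrix `d (1+z) Sh` is invertible of rank `n` -/
theorem gpr_G_GL (A : gpr_Adm N n K W col d) {k : ℕ} (hcf : gr_CF N n k K col) {z : gs_Mat N}
    (hz : ∀ r s : Fin N, z r s ≠ 0 → gp_zPos K n col r s) :
    gr_GL n (d * (1 + z) * gr_sh col n k) := by
  have hu := gpr_z_uni hz
  refine ⟨?_, gm_corner_mul (gm_corner_mul A.bd.1 (gm_uni_corner hu)) (gm_sh_corner hcf.cnt)⟩
  rw [Matrix.det_mul, Matrix.det_mul]
  exact (A.unit.mul (gm_uni_isUnit hu)).mul (gm_sh_isUnit hcf.nN hcf.cnt)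

/-- the columns of the shuffle matrix -/
theorem gpr_sh_mulVec_single {c : ℕ → Bool} {k : ℕ} (hn : n ≤ N) (hk : gr_cU c n = k) (j : Fin N) :
    (gr_sh c n k : gs_Mat N) *ᵥ Pi.single j 1 =
      Pi.single (⟨gm_shInvFn c n k j, gm_shInvFn_lt' hn hk j.2⟩ : Fin N) 1 := by
  rw [Matrix.mulVec_single_one]
  funext r
  show (if gr_shFn c n k r = (j : ℕ) then (1 : ℂ) else 0) = _
  by_cases h : gr_shFn c n k r = (j : ℕ)
  · have hr : r = (⟨gm_shInvFn c n k j, gm_shInvFn_lt' hn hk j.2⟩ : Fin N) := by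
      apply Fin.ext
      simp only
      rw [← h, gm_shInvFn_shFn hk]
    rw [if_pos h, hr, Pi.single_eq_same]
  · rw [if_neg h, Pi.single_eq_of_ne]
    intro e
    apply h
    rw [e]
    exact gm_shFn_shInvFn hk j

/-- a linear map sends `F k` into `W` if it sends the first `k` basis vectors into `W` -/
theorem gpr_map_F_le {k : ℕ} {G : gs_Mat N}
    (h : ∀ j : Fin N, (j : ℕ) < k → G *ᵥ Pi.single j 1 ∈ W) :
    (gpr_F N k).map (Matrix.mulVecLin G) ≤ W := by
  rintro _ ⟨y, hy, rfl⟩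
  rw [LinearMap.pi_apply_eq_sum_univ]
  refine Submodule.sum_mem _ fun j _ => ?_
  by_cases hj : (j : ℕ) < k
  · apply Submodule.smul_mem
    have e : (fun i => if j = i then (1 : ℂ) else 0) = Pi.single j 1 := by
      funext i
      rw [Pi.single_apply]
      simp only [eq_comm]
    rw [e]
    exact h j hj
  · rw [hy j (by omega), zero_smul]
    exact Submodule.zero_mem _

/-- `d (1+z) Sh` maps `F k` onto `W` (`≤` by columns, `=` by dimension) -/
theorem gpr_G_map (A : gpr_Adm N n K W col d) {k : ℕ} (hcf : gr_CF N n k K col)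
    (hk : finrank ℂ W = k) {z : gs_Mat N}
    (hz : ∀ r s : Fin N, z r s ≠ 0 → gp_zPos K n col r s)
    (hzW : ∀ s : Fin N, (s : ℕ) < n → col s = true → (d * (1 + z)) *ᵥ Pi.single s 1 ∈ W) :
    (gpr_F N k).map (Matrix.mulVecLin (d * (1 + z) * gr_sh col n k)) = W := by
  have hkn : k ≤ n := by
    rw [← hcf.cnt]; exact gct_cU_le _ _
  apply Submodule.eq_of_le_of_finrank_eq
  · apply gpr_map_F_le
    intro j hj
    rw [← Matrix.mulVec_mulVec, gpr_sh_mulVec_single hcf.nN hcf.cnt]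
    apply hzW
    · exact gm_shInvFn_lt hcf.cnt (by omega)
    · simp only
      unfold gm_shInvFn
      rw [if_pos hj]
      exact gm_nthU_mem (n := n) (by rw [hcf.cnt]; exact hj)
  · rw [gpr_finrank_map (gpr_G_GL A hcf hz).1, gpr_finrank_F (le_trans hkn hcf.nN), hk]

/-- two invertible matrices of rank `n` with the same image of `F k` -/
theorem gpr_tri_of_map {k : ℕ} {G g : gs_Mat N} (hG : gr_GL n G) (hg : gr_GL n g)
    (h : (gpr_F N k).map (Matrix.mulVecLin G) = (gpr_F N k).map (Matrix.mulVecLin g)) :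
    gr_IsTri n k (G⁻¹ * g) := by
  refine ⟨gm_corner_mul (gm_corner_inv hG.2 hG.1) hg.2, fun i j hi hj => ?_⟩
  have h1 : g *ᵥ Pi.single j 1 ∈ (gpr_F N k).map (Matrix.mulVecLin G) := by
    rw [h]
    refine ⟨Pi.single j 1, ?_, rfl⟩
    intro r hr
    rw [Pi.single_eq_of_ne]
    intro e; rw [e] at hr; omega
  obtain ⟨y, hy, e⟩ := h1
  have e' : G *ᵥ y = g *ᵥ Pi.single j 1 := e
  have h2 : (G⁻¹ * g) *ᵥ Pi.single j 1 = y := by
    rw [← Matrix.mulVec_mulVec, ← e', Matrix.mulVec_mulVec, Matrix.nonsing_inv_mul G hG.1,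
      Matrix.one_mulVec]
  have h3 : (G⁻¹ * g) i j = ((G⁻¹ * g) *ᵥ Pi.single j 1) i := by
    rw [Matrix.mulVec_single_one]; rfl
  rw [h3, h2]
  exact hy i hi

end main

end Claimed.Agent.R236
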