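import Mathlib
import Claimed.Agent.R236.GPresT

/-!
# Row 236, SB6 (PRES): assembly of `StPres` (sub-captain helper252, prefix `gpr_`)
-/

set_option autoImplicit false

namespace Claimed.Agent.R236

open Matrix Module

variable {N : ℕ}

/-- the colouring -/
noncomputable def gpr_col (K : Finset ℕ) (n k : ℕ) (g : gs_Mat N) : ℕ → Bool :=
  gpr_colOf K n (gpr_U k g)

/-- the blocks -/
noncomputable def gpr_h (K : Finset ℕ) (k : ℕ) (g : gs_Mat N) (c : ℕ) : gs_Mat N :=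
  gpr_chi (gr_nxt K c - c) (gpr_gr (gpr_U k g) c (gr_nxt K c))

/-- the property defining `z` -/
def gpr_zProp (K : Finset ℕ) (n k : ℕ) (g z : gs_Mat N) : Prop :=
  (∀ r s : Fin N, z r s ≠ 0 → gp_zPos K n (gpr_col K n k g) r s) ∧
    gr_IsTri n k ((gp_dmat K n (gpr_h K k g) * (1 + z) * gr_sh (gpr_col K n k g) n k)⁻¹ * g)

open Classical in
/-- the unipotent part -/
noncomputable def gpr_z (K : Finset ℕ) (n k : ℕ) (g : gs_Mat N) : gs_Mat N :=
  if h : ∃ z, gpr_zProp K n k g z then Classical.choose h else 0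

/-- the presentation -/
noncomputable def gpr_pres (N : ℕ) : gp_Pres N where
  col := gpr_col
  h := fun K _ k g => gpr_h K k g
  z := gpr_z

section
variable {n k : ℕ} {K : Finset ℕ} {g : gs_Mat N}

theorem gpr_h_spec (hK : gp_Frame N n K) {c : ℕ} (_hc : c ∈ K) (hcn : c < n) :
    gr_GL (gr_nxt K c - c) (gpr_h K k g c) ∧
      (gpr_F N (finrank ℂ (gpr_gr (gpr_U k g) c (gr_nxt K c)))).map
        (Matrix.mulVecLin (gpr_h K k g c)) = gpr_gr (gpr_U k g) c (gr_nxt K c) := by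
  have h := gpr_nxt_spec hK hcn
  have := hK.nN
  exact gpr_chi_spec (by omega) (gpr_gr_le _ _ _)

theorem gpr_adm (hK : gp_Frame N n K) (hk : k ≤ n) (hg : gr_GL n g) :
    gpr_Adm N n K (gpr_U k g) (gpr_col K n k g) (gp_dmat K n (gpr_h K k g)) where
  fr := hK
  le := gpr_U_le hk hg.2
  bd := gpr_dmat_bd hK fun c hc hcn => (gpr_h_spec hK hc hcn).1.2
  unit := gpr_dmat_isUnit hK fun c hc hcn => (gpr_h_spec hK hc hcn).1
  col_block := fun lo h1 h2 j h3 h4 => gpr_colOf_block hK _ h1 h2 h3 h4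
  mid_unit := fun lo h1 h2 => by
    rw [gpr_dmat_mid hK (fun c hc hcn => (gpr_h_spec hK hc hcn).1.2) h1 h2]
    exact (gpr_h_spec hK h1 h2).1.1
  span := fun lo h1 h2 => by
    rw [gpr_dmat_mid hK (fun c hc hcn => (gpr_h_spec hK hc hcn).1.2) h1 h2]
    exact (gpr_h_spec hK h1 h2).2

theorem gpr_col_CF (hK : gp_Frame N n K) (hk : k ≤ n) (hg : gr_GL n g) :
    gr_CF N n k K (gpr_col K n k g) :=
  gpr_colOf_CF hK (gpr_U_le hk hg.2) (gpr_finrank_U (le_trans hk hK.nN) hg.1)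

theorem gpr_exists_zProp (hK : gp_Frame N n K) (hk : k ≤ n) (hg : gr_GL n g) :
    ∃ z, gpr_zProp K n k g z := by
  have A := gpr_adm hK hk hg
  have hcf := gpr_col_CF hK hk hg
  obtain ⟨z, hz, hzW⟩ := gpr_exists_z A
  refine ⟨z, hz, gpr_tri_of_map (gpr_G_GL A hcf hz) hg ?_⟩
  exact gpr_G_map A hcf (gpr_finrank_U (le_trans hk hK.nN) hg.1) hz hzW

theorem gpr_z_spec (hK : gp_Frame N n K) (hk : k ≤ n) (hg : gr_GL n g) :
    gpr_zProp K n k g (gpr_z K n k g) := by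
  unfold gpr_z
  rw [dif_pos (gpr_exists_zProp hK hk hg)]
  exact Classical.choose_spec (gpr_exists_zProp hK hk hg)

end

theorem gpr_pres_OK (N : ℕ) : (gpr_pres N).OK where
  cf := fun _ _ _ _ hK hk hg => gpr_col_CF hK hk hg
  gl := fun _ _ _ _ hK _ _ c hc hcn => (gpr_h_spec hK hc hcn).1
  triv := fun K n k g hK _ _ c hc hcn h => by
    apply gpr_chi_triv
    have e : gr_nU (gpr_col K n k g) c (gr_nxt K c) =
        finrank ℂ (gpr_gr (gpr_U k g) c (gr_nxt K c)) := gpr_colOf_nU hK _ hc hcn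
    change gr_nU (gpr_col K n k g) c (gr_nxt K c) = 0 ∨
      gr_nU (gpr_col K n k g) c (gr_nxt K c) = gr_nxt K c - c at h
    rwa [e] at h
  zsupp := fun _ _ _ _ hK hk hg => (gpr_z_spec hK hk hg).1
  tri := fun _ _ _ _ hK hk hg => (gpr_z_spec hK hk hg).2
  base := fun K n k hK hk j => by
    change gpr_colOf K n (gpr_U k 1) j = _
    rw [gpr_U_one]
    exact gpr_colOf_base hK hk j
  spect := fun K K' n k g' b lo hi lam hK hK' _ _ hb h1 h1' h2 h3 h3' hlam hb1 hb2 => by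
    have hgr : gpr_gr (gpr_U k (b * g')) lo hi = gpr_gr (gpr_U k g') lo hi := by
      rw [gpr_U_mul]
      exact gpr_gr_map hb.1 hlam hb1 hb2 _
    refine ⟨fun j hj hj' => gpr_colOf_congr hK hK' h1 h1' h2 h3 h3' hgr hj hj', ?_⟩
    change gpr_chi (gr_nxt K lo - lo) (gpr_gr (gpr_U k (b * g')) lo (gr_nxt K lo)) =
      gpr_chi (gr_nxt K' lo - lo) (gpr_gr (gpr_U k g') lo (gr_nxt K' lo))
    rw [h3, h3', hgr]
  count := fun K K' n k g' b c hK hK' _ _ hb hc hc' hb1 => by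
    change gr_cU (gpr_colOf K n (gpr_U k (b * g'))) c = gr_cU (gpr_colOf K' n (gpr_U k g')) c
    rw [gpr_colOf_cU hK _ hc, gpr_colOf_cU hK' _ hc', gpr_U_mul, gpr_map_inf_F hb.1 hb1,
      gpr_finrank_map hb.1]

/-- **StPres** -/
theorem gpr_StPres (N : ℕ) : StPres N := ⟨gpr_pres N, gpr_pres_OK N⟩

end Claimed.Agent.R236
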