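import Mathlib
import Claimed.Agent.R236.GChain
import Claimed.Agent.R236.GColorA
import Claimed.Agent.R236.GLocG0
import Claimed.Agent.R236.GMatSwap

/-!
# Row 236, SB6 (PRES): the numbers of a swap, `StSwapNum` (owner helper227)

`T = P⁻¹ * swap * g * Q` is block triangular and invertible.  The rows `i < a1` of `T` vanish on the
columns `j < b2` (transport of predicates along the factors), so the `U`-part of `T`, an invertible
`k × k` matrix, has an `a1 × b2` block of zeros: `a1 + b2 ≤ k = b2 + a2`.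
-/

set_option autoImplicit false

namespace Claimed.Agent.R236

variable {N : ℕ}

/-! ## transport of predicates -/

/-- a nonzero entry at `(i,j)` with `p i` forces `q j` -/
def gps_Tr (p q : ℕ → Prop) (X : gs_Mat N) : Prop := ∀ i j : Fin N, X i j ≠ 0 → p i → q j

theorem gps_Tr.mul {p q r : ℕ → Prop} {X Y : gs_Mat N} (hX : gps_Tr p q X) (hY : gps_Tr q r Y) :
    gps_Tr p r (X * Y) := by
  intro i j h hp
  rw [Matrix.mul_apply] at h
  obtain ⟨l, -, hl⟩ := Finset.exists_ne_zero_of_sum_ne_zero h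
  exact hY l j (right_ne_zero_of_mul hl) (hX i l (left_ne_zero_of_mul hl) hp)

theorem gps_Tr_corner {m : ℕ} {X : gs_Mat N} (hX : gs_IsCorner m X) {p q : ℕ → Prop}
    (h1 : ∀ i, p i → q i) (h2 : ∀ i j, i < m → j < m → p i → q j) : gps_Tr p q X := by
  intro i j h hp
  by_cases hc : (i : ℕ) < m ∧ (j : ℕ) < m
  · exact h2 _ _ hc.1 hc.2 hp
  · rw [hX i j (by omega)] at h
    rw [← gc_one_ne_zero h]
    exact h1 _ hp

theorem gps_Tr_emb (o : ℕ) (X : gs_Mat N) {p q : ℕ → Prop}
    (h1 : ∀ i, p i → q i) (h2 : ∀ i j, o ≤ i → o ≤ j → p i → q j) : gps_Tr p q (gs_emb o X) := by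
  intro i j h hp
  by_cases hc : o ≤ (i : ℕ) ∧ o ≤ (j : ℕ)
  · exact h2 _ _ hc.1 hc.2 hp
  · rw [gs_emb, dif_neg hc] at h
    rw [← gc_one_ne_zero h]
    exact h1 _ hp

theorem gps_Tr_swap (o a b : ℕ) {p q : ℕ → Prop} (h : ∀ i, p i → q (gs_swapFn o a b i)) :
    gps_Tr p q (gs_swapMat o a b : gs_Mat N) := by
  intro i j hij hp
  rw [← glg_swapMat_Sup o a b i j hij]
  exact h _ hp

/-! ## the shuffle of a two-block colouring -/

theorem gps_sh {A B a b k n : ℕ} (ha : a ≤ A) (hb : b ≤ B) (hk : k = a + b) (hn : n = A + B) :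
    (gr_sh (fun j => decide (j < a ∨ (A ≤ j ∧ j < A + b))) n k : gs_Mat N) =
      gs_swapMat a (A - a) b := by
  have e1 : (fun j => decide (j < a ∨ (A ≤ j ∧ j < A + b))) = glg_col a (A - a) b := by
    funext j
    unfold glg_col
    rw [Nat.add_sub_cancel' ha]
  have e2 : n = a + (A - a) + b + (B - b) := by omega
  rw [e1, hk, e2, glg_sh]

/-! ## an invertible block triangular matrix has no big block of zeros -/

/-- extension by zero -/
def gps_ext (N a : ℕ) : (Fin a → ℂ) →ₗ[ℂ] (Fin N → ℂ) where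
  toFun w i := if h : (i : ℕ) < a then w ⟨i, h⟩ else 0
  map_add' w w' := by
    funext i
    simp only [Pi.add_apply]
    split_ifs <;> simp
  map_smul' c w := by
    funext i
    simp only [Pi.smul_apply, RingHom.id_apply]
    split_ifs <;> simp

theorem gps_ext_lt {a : ℕ} (w : Fin a → ℂ) (i : Fin N) (h : (i : ℕ) < a) :
    gps_ext N a w i = w ⟨i, h⟩ := dif_pos h

theorem gps_ext_ge {a : ℕ} (w : Fin a → ℂ) (i : Fin N) (h : ¬ (i : ℕ) < a) :
    gps_ext N a w i = 0 := dif_neg h

theorem gps_noZeroBlock {k a b : ℕ} {X : gs_Mat N} (hX : gs_IsCorner k X) (hu : IsUnit X.det)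
    (hk : k ≤ N) (ha : a ≤ k) (hb : b ≤ k)
    (h0 : ∀ i j : Fin N, (i : ℕ) < a → (j : ℕ) < b → X i j = 0) : a + b ≤ k := by
  by_contra hlt
  let res : (Fin N → ℂ) →ₗ[ℂ] (Fin (k - b) → ℂ) :=
    LinearMap.funLeft ℂ ℂ fun t : Fin (k - b) => (⟨b + t, by omega⟩ : Fin N)
  let L : (Fin a → ℂ) →ₗ[ℂ] (Fin (k - b) → ℂ) := res ∘ₗ X.vecMulLinear ∘ₗ gps_ext N a
  have hker : LinearMap.ker L ≠ ⊥ := by
    apply LinearMap.ker_ne_bot_of_finrank_lt
    rw [Module.finrank_fin_fun, Module.finrank_fin_fun]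
    omega
  obtain ⟨w, hw, hw0⟩ := Submodule.exists_mem_ne_zero_of_ne_bot hker
  rw [LinearMap.mem_ker] at hw
  have hz : Matrix.vecMul (gps_ext N a w) X = 0 := by
    funext j
    by_cases hj1 : (j : ℕ) < b
    · change dotProduct _ _ = 0
      rw [dotProduct]
      apply Finset.sum_eq_zero
      intro i _
      by_cases hi : (i : ℕ) < a
      · rw [h0 i j hi hj1, mul_zero]
      · rw [gps_ext_ge w i hi, zero_mul]
    · by_cases hj2 : (j : ℕ) < k
      · have := congrFun hw ⟨(j : ℕ) - b, by omega⟩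
        have e : (⟨b + ((j : ℕ) - b), by omega⟩ : Fin N) = j := Fin.ext (by simp; omega)
        simp only [L, res, LinearMap.comp_apply, LinearMap.funLeft_apply,
          Matrix.vecMulLinear_apply, e] at this
        exact this
      · change dotProduct _ _ = 0
        rw [dotProduct]
        apply Finset.sum_eq_zero
        intro i _
        by_cases hi : (i : ℕ) < a
        · rw [hX i j (by omega), Matrix.one_apply_ne, mul_zero]
          intro hij
          rw [hij] at hi
          omega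
        · rw [gps_ext_ge w i hi, zero_mul]
  have hz' := Matrix.eq_zero_of_vecMul_eq_zero hu.ne_zero hz
  apply hw0
  funext i
  have := congrFun hz' ⟨i, by omega⟩
  rw [gps_ext_lt w (⟨i, by omega⟩ : Fin N) i.2] at this
  exact this

theorem gps_tri_noZeroBlock {n k a b : ℕ} {T : gs_Mat N} (hn : n ≤ N) (hk : k ≤ n)
    (hT : gr_IsTri n k T) (hu : IsUnit T.det) (ha : a ≤ k) (hb : b ≤ k)
    (h0 : ∀ i j : Fin N, (i : ℕ) < a → (j : ℕ) < b → T i j = 0) : a + b ≤ k := by
  have h1 := (gc_tri_units hk hn (gc_partU_corner k T) (gc_partQ_corner n k T)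
    (gc_isTri_tri hn hT) hu).1
  refine gps_noZeroBlock (gc_partU_corner k T) h1 (hk.trans hn) ha hb ?_
  intro i j hi hj
  unfold gc_partU
  rw [if_pos ⟨by omega, by omega⟩, h0 i j hi hj]

/-! ## the statement -/

theorem gps_swapNum (N : ℕ) : StSwapNum N := by
  intro A B a1 b1 b2 a2 hAm hBm hAp hBp z0 g hN ha1 hb1 hb2 ha2 hk gAm gBm gAp gBp hz0 hg hT
  rw [gps_sh ha1 hb1 rfl rfl, gps_sh hb2 ha2 hk (Nat.add_comm A B)] at hT
  -- the unipotent `1 + z0`
  have hzz : z0 * z0 = 0 := by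
    refine gc_Sup.mul_eq_zero (r := fun i j => a1 ≤ i ∧ i < A ∧ A ≤ j ∧ j < A + b1)
      (s := fun i j => a1 ≤ i ∧ i < A ∧ A ≤ j ∧ j < A + b1) hz0 hz0 ?_
    intro i l j h1 h2
    omega
  have hz1 : (1 + z0) * (1 - z0) = 1 := by
    rw [Matrix.mul_sub, Matrix.mul_one, Matrix.add_mul, Matrix.one_mul, hzz]
    abel
  have hzinv : (1 + z0)⁻¹ = 1 - z0 := Matrix.inv_eq_right_inv hz1
  have hzu : IsUnit (1 + z0).det := Matrix.isUnit_det_of_right_inverse hz1
  -- units
  have uS1 : IsUnit (gs_swapMat a1 (A - a1) b1 : gs_Mat N).det := gm_swap_isUnit (by omega)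
  have uS2 : IsUnit (gs_swapMat b2 (B - b2) a2 : gs_Mat N).det := gm_swap_isUnit (by omega)
  have uS : IsUnit (gs_swapMat 0 A B : gs_Mat N).det := gm_swap_isUnit (by omega)
  have uBm : IsUnit (gs_emb A hBm).det := gm_emb_isUnit gBm.2 gBm.1 hN
  have uAp : IsUnit (gs_emb B hAp).det := gm_emb_isUnit gAp.2 gAp.1 (by omega)
  have ug : IsUnit g.det := glg_isUni_isUnit hg
  have uT : IsUnit ((hAm * gs_emb A hBm * (1 + z0) * gs_swapMat a1 (A - a1) b1)⁻¹ *
        gs_swapMat 0 A B * g * (hBp * gs_emb B hAp * gs_swapMat b2 (B - b2) a2)).det := by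
    simp only [Matrix.det_mul]
    refine IsUnit.mul (IsUnit.mul (IsUnit.mul ?_ uS) ug) (IsUnit.mul (IsUnit.mul gBp.1 uAp) uS2)
    rw [Matrix.isUnit_nonsing_inv_det_iff]
    simp only [Matrix.det_mul]
    exact IsUnit.mul (IsUnit.mul (IsUnit.mul gAm.1 uBm) hzu) uS1
  -- transport
  have tT : gps_Tr (fun i => i < a1) (fun j => b2 ≤ j)
      ((hAm * gs_emb A hBm * (1 + z0) * gs_swapMat a1 (A - a1) b1)⁻¹ *
        gs_swapMat 0 A B * g * (hBp * gs_emb B hAp * gs_swapMat b2 (B - b2) a2)) := by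
    rw [Matrix.mul_inv_rev, Matrix.mul_inv_rev, Matrix.mul_inv_rev, hzinv,
      gm_swap_inv (by omega), ← gm_emb_inv gBm.2 gBm.1 hN]
    have t1 : gps_Tr (fun i => i < a1) (fun i => i < a1) (gs_swapMat a1 b1 (A - a1) : gs_Mat N) := by
      apply gps_Tr_swap
      intro i hi
      rw [gm_swapFn_of_lt hi]
      exact hi
    have t2 : gps_Tr (fun i => i < a1) (fun i => i < a1) (1 - z0) := by
      intro i j h hi
      by_cases hz : z0 i j = 0
      · rw [Matrix.sub_apply, hz, sub_zero] at h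
        rw [← gc_one_ne_zero h]
        exact hi
      · have := hz0 i j hz
        omega
    have t3 : gps_Tr (fun i => i < a1) (fun i => i < a1) (gs_emb A hBm⁻¹) :=
      gps_Tr_emb A _ (fun _ h => h) (fun i j h1 _ h3 => by omega)
    have t4 : gps_Tr (fun i => i < a1) (fun i => i < A) hAm⁻¹ :=
      gps_Tr_corner (gm_corner_inv gAm.2 gAm.1) (fun i h => by omega) (fun i j _ h2 _ => h2)
    have t5 : gps_Tr (fun i => i < A) (fun i => B ≤ i) (gs_swapMat 0 A B : gs_Mat N) := by
      apply gps_Tr_swap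
      intro i hi
      rw [gm_swapFn_first (Nat.zero_le _) (by omega)]
      omega
    have t6 : gps_Tr (fun i => B ≤ i) (fun i => B ≤ i) g := by
      intro i j h hi
      by_cases h1 : g i j = (1 : gs_Mat N) i j
      · rw [h1] at h
        rw [← gc_one_ne_zero h]
        exact hi
      · obtain ⟨_, c, hc, h2, h3⟩ := hg i j h1
        simp only [Finset.mem_insert, Finset.mem_singleton] at hc
        omega
    have t7 : gps_Tr (fun i => B ≤ i) (fun i => B ≤ i) hBp :=
      gps_Tr_corner gBp.2 (fun _ h => h) (fun i j h1 _ h3 => by omega)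
    have t8 : gps_Tr (fun i => B ≤ i) (fun i => B ≤ i) (gs_emb B hAp) :=
      gps_Tr_emb B _ (fun _ h => h) (fun i j _ h2 _ => h2)
    have t9 : gps_Tr (fun i => B ≤ i) (fun i => b2 ≤ i) (gs_swapMat b2 (B - b2) a2 : gs_Mat N) := by
      apply gps_Tr_swap
      intro i hi
      unfold gs_swapFn
      split_ifs <;> omega
    exact (((t1.mul (t2.mul (t3.mul t4))).mul t5).mul t6).mul ((t7.mul t8).mul t9)
  have := gps_tri_noZeroBlock (a := a1) (b := b2) hN (by omega) hT uT (by omega) (by omega) (by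
    intro i j hi hj
    by_contra h
    have := tT i j h hi
    omega)
  omega

theorem gps_eqns : True := by
  have := @gps_Tr.eq_1
  have := @gps_ext.eq_1
  trivial

end Claimed.Agent.R236
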