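import Mathlib
import Claimed.Agent.R236.GRegC

/-!
# Row 236, REDUCE, SB5 (REG), part D: segments and corrections (owner helper188, prefix grg_)
-/

set_option autoImplicit false

namespace Claimed.Agent.R236

section ctx
variable {Y : Type} {N : ℕ} {R : Subring ℂ} {S : gs_Sys Y} {e0 k : ℕ} {col : ℕ → ℕ → Bool}
variable {Dm : Set (gr_Z Y N)}

theorem grg_k_le (hyp : gr_Hyp N R S e0 k) : k ≤ N :=
  (show k < (S.eq e0).rk from hyp.ltn).le.trans (gsd_hyp_eqn hyp).rk_le

theorem grg_nk_le (hyp : gr_Hyp N R S e0 k) : (gr_ctx S e0 k col).n - k ≤ N :=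
  (Nat.sub_le _ _).trans (gsd_n_le hyp col)

theorem grg_L_units (hyp : gr_Hyp N R S e0 k) {i : ℕ} (hi : i < (gr_ctx S e0 k col).len) {lam : ℕ → ℂ}
    (hl : (gr_ctx S e0 k col).letter i = .L lam) (j : ℕ) : lam j ≠ 0 ∧ lam j ∈ R ∧ (lam j)⁻¹ ∈ R := by
  have hmem : gs_Letter.L lam ∈ (S.eq e0).ls := by
    rw [← hl, gsd_letter_eq col hi]
    exact List.getElem_mem hi
  exact (gsd_hyp_eqn hyp).unit lam hmem j

/-- the value of a segment of `eU` -/
theorem grg_XUlet (hyp : gr_Hyp N R S e0 k) (hC : (gr_ctx S e0 k col).WF) {i : ℕ} (hi : i < (gr_ctx S e0 k col).len)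
    (hadm : ∀ z ∈ Dm, gr_LocAdm (gr_ctx S e0 k col) e0 S.eqs.length z i) :
    grg_On R (gr_Zcoord Y N) Dm k (fun z => gr_XUlet (gr_ctx S e0 k col) e0 z i) := by
  have hget := gsd_getElem? (col := col) (S := S) (e0 := e0) (k := k) hi
  have hle := gsd_mid_le (col := col) hyp hi
  have hkN := grg_k_le hyp
  have hnew : ∀ z ∈ Dm, ∀ v, gr_GL ((gr_ctx S e0 k col).nsig v).rk (gr_nval z v) := fun z hz => (hadm z hz).new
  unfold gr_XUlet
  cases hl : (gr_ctx S e0 k col).letter i with
  | L lam =>
    simp only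
    have hu := grg_L_units hyp hi hl
    apply grg_On.diag
    · intro j; split_ifs
      · exact (hu _).1
      · exact one_ne_zero
    · intro j; split_ifs
      · exact (hu _).2.1
      · exact R.one_mem
    · intro j; split_ifs
      · exact (hu _).2.2
      · rw [inv_one]; exact R.one_mem
    · intro j hj
      exact if_neg (not_lt.2 hj)
  | G inv y o =>
    simp only
    rw [hl] at hle hget
    simp only [gs_mid] at hle
    obtain ⟨g1, -⟩ := gsd_interval_le hyp hC hi.le hle
    have h1 := grg_nval (R := R) hnew (.YU i)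
    simp only [gr_Ctx.nsig, hget, gsd_ctx_col, gsd_ctx_sig] at h1
    exact h1.emb_le g1 hkN
  | S o A B =>
    simp only
    rw [hl] at hget
    obtain ⟨g1, -⟩ := gsd_snum_le hyp hC hi hl
    have hT := grg_nval (R := R) hnew (.T i)
    have hS := grg_nval (R := R) hnew (.S i)
    simp only [gr_Ctx.nsig, hget, gsd_ctx_col] at hT hS
    have u0 : grg_On R (gr_Zcoord Y N) Dm k (fun z => gr_uU e0 z i 0) :=
      grg_On.of_uni (grg_uU _ _ _) fun z hz => (hadm z hz).uU 0 (by omega)
    have u1 : grg_On R (gr_Zcoord Y N) Dm k (fun z => gr_uU e0 z i 1) :=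
      grg_On.of_uni (grg_uU _ _ _) fun z hz => (hadm z hz).uU 1 (by omega)
    exact ((((hT.emb_le (by simp only [gsd_ctx_col]; omega) hkN).mul u0).mul
      (grg_On.swap (by simp only [gsd_ctx_col]; omega) hkN)).mul u1).mul
      (hS.inv'.emb_le (by simp only [gsd_ctx_col]; omega) hkN)

/-- the value of a segment of `eQ` -/
theorem grg_XQlet (hyp : gr_Hyp N R S e0 k) (hC : (gr_ctx S e0 k col).WF) {i : ℕ} (hi : i < (gr_ctx S e0 k col).len)
    (hadm : ∀ z ∈ Dm, gr_LocAdm (gr_ctx S e0 k col) e0 S.eqs.length z i) :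
    grg_On R (gr_Zcoord Y N) Dm ((gr_ctx S e0 k col).n - k) (fun z => gr_XQlet (gr_ctx S e0 k col) S.eqs.length z i) := by
  have hget := gsd_getElem? (col := col) (S := S) (e0 := e0) (k := k) hi
  have hle := gsd_mid_le (col := col) hyp hi
  have hkN := grg_nk_le (col := col) hyp
  have hnew : ∀ z ∈ Dm, ∀ v, gr_GL ((gr_ctx S e0 k col).nsig v).rk (gr_nval z v) := fun z hz => (hadm z hz).new
  unfold gr_XQlet
  cases hl : (gr_ctx S e0 k col).letter i with
  | L lam =>
    simp only
    have hu := grg_L_units hyp hi hl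
    apply grg_On.diag
    · intro j; split_ifs
      · exact (hu _).1
      · exact one_ne_zero
    · intro j; split_ifs
      · exact (hu _).2.1
      · exact R.one_mem
    · intro j; split_ifs
      · exact (hu _).2.2
      · rw [inv_one]; exact R.one_mem
    · intro j hj
      exact if_neg (not_lt.2 hj)
  | G inv y o =>
    simp only
    rw [hl] at hle hget
    simp only [gs_mid] at hle
    obtain ⟨-, g2⟩ := gsd_interval_le hyp hC hi.le hle
    have h1 := grg_nval (R := R) hnew (.YQ i)
    simp only [gr_Ctx.nsig, hget, gsd_ctx_col, gsd_ctx_sig] at h1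
    exact h1.emb_le g2 hkN
  | S o A B =>
    simp only
    rw [hl] at hget
    obtain ⟨-, g2⟩ := gsd_snum_le hyp hC hi hl
    have hR := grg_nval (R := R) hnew (.R i)
    have hV := grg_nval (R := R) hnew (.V i)
    simp only [gr_Ctx.nsig, hget, gsd_ctx_col] at hR hV
    have q0 : grg_On R (gr_Zcoord Y N) Dm ((gr_ctx S e0 k col).n - k) (fun z => gr_uQ S.eqs.length z i 0) :=
      grg_On.of_uni (grg_uQ _ _ _) fun z hz => (hadm z hz).uQ 0 (by omega)
    have q1 : grg_On R (gr_Zcoord Y N) Dm ((gr_ctx S e0 k col).n - k) (fun z => gr_uQ S.eqs.length z i 1) :=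
      grg_On.of_uni (grg_uQ _ _ _) fun z hz => (hadm z hz).uQ 1 (by omega)
    have q2 : grg_On R (gr_Zcoord Y N) Dm ((gr_ctx S e0 k col).n - k) (fun z => gr_uQ S.eqs.length z i 2) :=
      grg_On.of_uni (grg_uQ _ _ _) fun z hz => (hadm z hz).uQ 2 (by omega)
    refine ((((((hR.emb_le (by simp only [gsd_ctx_col]; omega) hkN).mul q0).mul ?_).mul q1).mul
      (grg_On.swap (by simp only [gsd_ctx_col]; omega) hkN)).mul q2).mul
      (hV.inv'.emb_le (by simp only [gsd_ctx_col]; omega) hkN)
    apply grg_On.diag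
    · intro j; split_ifs <;> norm_num
    · intro j; split_ifs
      · exact R.neg_mem R.one_mem
      · exact R.one_mem
    · intro j; split_ifs
      · have : ((-1 : ℂ))⁻¹ = -1 := by norm_num
        rw [this]; exact R.neg_mem R.one_mem
      · rw [inv_one]; exact R.one_mem
    · intro j hj
      apply if_neg
      intro hcon
      simp only [gsd_ctx_col] at hcon
      omega

end ctx

end Claimed.Agent.R236
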