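import Mathlib
import Claimed.Agent.R236.GRegD

/-!
# Row 236, REDUCE, SB5 (REG), part E: corrections and the transfer map (owner helper188, prefix grg_)
-/

set_option autoImplicit false

namespace Claimed.Agent.R236

section ctx
variable {Y : Type} {N : ℕ} {R : Subring ℂ} {S : gs_Sys Y} {e0 k : ℕ} {col : ℕ → ℕ → Bool}
variable {Dm : Set (gr_Z Y N)}

/-- the mid level value of the `eU` gadget -/
theorem grg_S_XU (hunit : ∀ z ∈ Dm, ∀ q, IsUnit (z.1 q).det) {E0 i o A B : ℕ}
    (hm : (gr_snum (col i) (col (i + 1)) o A B).m ≤ N)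
    (hS : ∀ z ∈ Dm, gr_SOk (gr_snum (col i) (col (i + 1)) o A B)
      (gr_readS (gr_ctx S e0 k col) e0 E0 z i o A B).1) :
    grg_On R (gr_Zcoord Y N) Dm (gr_snum (col i) (col (i + 1)) o A B).km
      (fun z => gr_S_XU (gr_snum (col i) (col (i + 1)) o A B) (gr_readS (gr_ctx S e0 k col) e0 E0 z i o A B).1) := by
  set s := gr_snum (col i) (col (i + 1)) o A B with hs
  have hkm : s.km ≤ N := by
    have : s.km ≤ s.m := by unfold gr_SNum.km gr_SNum.m gr_SNum.A gr_SNum.B; omega
    omega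
  have rd := fun idx => grg_readS (R := R) hunit hS idx
  unfold gr_S_XU
  exact (((((rd .t).corner fun z hz => (hS z hz).t.2).emb_le
      (by unfold gr_SNum.km; omega) hkm).mul
    ((rd .c0).corner fun z hz => gm_uni_corner (hS z hz).c0)).mul
    (grg_On.swap (by unfold gr_SNum.km; omega) hkm)).mul
    ((rd .c1).corner fun z hz => gm_uni_corner (hS z hz).c1) |>.mul
    (((rd .s).corner fun z hz => (hS z hz).s.2).inv'.emb_le (by unfold gr_SNum.km; omega) hkm)

/-- the mid level value of the `eQ` gadget -/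
theorem grg_S_XQ (hunit : ∀ z ∈ Dm, ∀ q, IsUnit (z.1 q).det) {E0 i o A B : ℕ}
    (hm : (gr_snum (col i) (col (i + 1)) o A B).m ≤ N)
    (hS : ∀ z ∈ Dm, gr_SOk (gr_snum (col i) (col (i + 1)) o A B)
      (gr_readS (gr_ctx S e0 k col) e0 E0 z i o A B).1) :
    grg_On R (gr_Zcoord Y N) Dm
      ((gr_snum (col i) (col (i + 1)) o A B).m - (gr_snum (col i) (col (i + 1)) o A B).km)
      (fun z => gr_S_XQ (gr_snum (col i) (col (i + 1)) o A B) (gr_readS (gr_ctx S e0 k col) e0 E0 z i o A B).1) := by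
  set s := gr_snum (col i) (col (i + 1)) o A B with hs
  have hq : s.m - s.km = s.h + s.x + s.y := by
    unfold gr_SNum.km gr_SNum.m gr_SNum.A gr_SNum.B; omega
  have hkm : s.m - s.km ≤ N := by omega
  have rd := fun idx => grg_readS (R := R) hunit hS idx
  unfold gr_S_XQ
  refine (((((((rd .r).corner fun z hz => (hS z hz).r.2).mono (by omega)).mul
    ((rd .e0).corner fun z hz => gm_uni_corner (hS z hz).e0)).mul ?_).mul
    ((rd .e1).corner fun z hz => gm_uni_corner (hS z hz).e1)).mul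
    (grg_On.swap (by omega) hkm)).mul
    ((rd .e2).corner fun z hz => gm_uni_corner (hS z hz).e2) |>.mul
    (((rd .v).corner fun z hz => (hS z hz).v.2).inv'.mono (by omega))
  apply grg_On.diag
  · intro j; split_ifs <;> norm_num
  · intro j; split_ifs
    · exact R.neg_mem R.one_mem
    · exact R.one_mem
  · intro j; split_ifs
    · have : ((-1 : ℂ))⁻¹ = -1 := by norm_num
      rw [this]; exact R.neg_mem R.one_mem
    · rw [inv_one]; exact R.one_mem
  · intro j hj
    apply if_neg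
    omega

/-- the reading map of a swap is regular -/
theorem grg_readS_coord (hunit : ∀ z ∈ Dm, ∀ q, IsUnit (z.1 q).det) {E0 i o A B : ℕ}
    (hS : ∀ z ∈ Dm, gr_SOk (gr_snum (col i) (col (i + 1)) o A B)
      (gr_readS (gr_ctx S e0 k col) e0 E0 z i o A B).1)
    (q : (gr_SIdx × Bool × Fin N × Fin N) ⊕ (Fin 2 × Fin N × Fin N)) :
    rg_RegOn R (gr_Zcoord Y N) Dm
      (fun z => gr_coord gr_SIdx (Fin 2) N q (gr_readS (gr_ctx S e0 k col) e0 E0 z i o A B)) := by
  rcases q with q | ⟨j, a, b⟩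
  · exact rg_matCoord_regOn (Φ := fun z => (gr_readS (gr_ctx S e0 k col) e0 E0 z i o A B).1)
      (fun idx => (grg_readS hunit hS idx).mat) (fun idx => (grg_readS hunit hS idx).inv) q
  · exact grg_par_mat (i, 2 + (j : ℕ)) a b

/-- the reading map of a `G` letter is regular -/
theorem grg_readG_coord (hunit : ∀ z ∈ Dm, ∀ q, IsUnit (z.1 q).det) {E0 i o : ℕ} {inv : Bool}
    {y : Y} (q : gr_GIdx × Bool × Fin N × Fin N) :
    rg_RegOn R (gr_Zcoord Y N) Dm
      (fun z => rg_matCoord gr_GIdx (Fin N) q (gr_readG (gr_ctx S e0 k col) E0 z i inv y o)) :=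
  rg_matCoord_regOn (Φ := fun z => gr_readG (gr_ctx S e0 k col) E0 z i inv y o)
    (fun idx => (grg_readG hunit idx).mat) (fun idx => (grg_readG hunit idx).inv) q

/-- the left correction is regular -/
theorem grg_EL (hRG : StReadG N R) (hRS : StReadS N R) {P : gr_Corr N} (hP : P.OK R)
    (hyp : gr_Hyp N R S e0 k) (hC : (gr_ctx S e0 k col).WF) (hunit : ∀ z ∈ Dm, ∀ q, IsUnit (z.1 q).det) {i : ℕ}
    (hi : i < (gr_ctx S e0 k col).len) (hadm : ∀ z ∈ Dm, gr_LocAdm (gr_ctx S e0 k col) e0 S.eqs.length z i) :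
    rg_MatOn R (gr_Zcoord Y N) Dm (fun z => gr_EL (gr_ctx S e0 k col) e0 S.eqs.length P z i) := by
  rcases Dm.eq_empty_or_nonempty with hemp | ⟨z0, hz0⟩
  · intro a b
    exact ⟨fun _ => 0, .const 0 R.zero_mem, fun x hx => by rw [hemp] at hx; exact absurd hx (by simp)⟩
  unfold gr_EL
  cases hl : (gr_ctx S e0 k col).letter i with
  | L lam => exact .one
  | G inv y o =>
    simp only
    have h := fun z hz => hRG Y S e0 k hyp col hC z i hi (hadm z hz) inv y o hl
    obtain ⟨h1, h2, -⟩ := h z0 hz0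
    exact grg_emb_matOn o ((hP.G _ h1 h2).1.comp (grg_readG_coord hunit) fun z hz => (h z hz).2.2)
  | S o A B =>
    simp only
    have h := fun z hz => hRS Y S e0 k hyp col hC z i hi (hadm z hz) o A B hl
    obtain ⟨h1, -⟩ := h z0 hz0
    exact grg_emb_matOn o ((hP.S _ h1).1.comp (grg_readS_coord hunit fun z hz => (h z hz).2)
      fun z hz => (h z hz).2)

/-- the right correction is regular -/
theorem grg_ER (hRG : StReadG N R) (hRS : StReadS N R) {P : gr_Corr N} (hP : P.OK R)
    (hyp : gr_Hyp N R S e0 k) (hC : (gr_ctx S e0 k col).WF) (hunit : ∀ z ∈ Dm, ∀ q, IsUnit (z.1 q).det) {i : ℕ}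
    (hi : i < (gr_ctx S e0 k col).len) (hadm : ∀ z ∈ Dm, gr_LocAdm (gr_ctx S e0 k col) e0 S.eqs.length z i) :
    rg_MatOn R (gr_Zcoord Y N) Dm (fun z => gr_ER (gr_ctx S e0 k col) e0 S.eqs.length P z i) := by
  rcases Dm.eq_empty_or_nonempty with hemp | ⟨z0, hz0⟩
  · intro a b
    exact ⟨fun _ => 0, .const 0 R.zero_mem, fun x hx => by rw [hemp] at hx; exact absurd hx (by simp)⟩
  have hnew : ∀ z ∈ Dm, ∀ v, gr_GL ((gr_ctx S e0 k col).nsig v).rk (gr_nval z v) := fun z hz => (hadm z hz).new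
  have hXU := grg_XUlet (R := R) hyp hC hi hadm
  have hXQ := grg_XQlet (R := R) hyp hC hi hadm
  unfold gr_ER
  cases hl : (gr_ctx S e0 k col).letter i with
  | L lam => exact .one
  | G inv y o =>
    simp only
    have h := fun z hz => hRG Y S e0 k hyp col hC z i hi (hadm z hz) inv y o hl
    obtain ⟨h1, h2, -⟩ := h z0 hz0
    exact grg_emb_matOn o ((hP.G _ h1 h2).2.1.comp (grg_readG_coord hunit) fun z hz => (h z hz).2.2)
  | S o A B =>
    simp only
    have h := fun z hz => hRS Y S e0 k hyp col hC z i hi (hadm z hz) o A B hl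
    obtain ⟨h1, -⟩ := h z0 hz0
    obtain ⟨g1, g2⟩ := gsd_snum_le hyp hC hi hl
    have hD := grg_D (R := R) hyp hC hnew (show i + 1 ≤ (gr_ctx S e0 k col).len from hi)
    have hkn : k ≤ (gr_ctx S e0 k col).n := (show k < (gr_ctx S e0 k col).n from hyp.ltn).le
    have hq : (gr_snum (col i) (col (i + 1)) o A B).m - (gr_snum (col i) (col (i + 1)) o A B).km =
        (gr_snum (col i) (col (i + 1)) o A B).h + (gr_snum (col i) (col (i + 1)) o A B).x +
          (gr_snum (col i) (col (i + 1)) o A B).y := by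
      unfold gr_SNum.km gr_SNum.m gr_SNum.A gr_SNum.B; omega
    have ρU := ((grg_S_XU (R := R) hunit h1 fun z hz => (h z hz).2).emb_le
      (o := gr_cU (col i) o) (m' := k) (by unfold gr_SNum.km; omega) (grg_k_le hyp)).inv'.mul hXU
    have ρQ := ((grg_S_XQ (R := R) hunit h1 fun z hz => (h z hz).2).emb_le
      (o := gr_cQ (col i) o) (m' := (gr_ctx S e0 k col).n - k) (by omega) (grg_nk_le hyp)).inv'.mul hXQ
    have hasm := (ρU.mono hkn).mul (ρQ.emb_le (o := k) (m' := (gr_ctx S e0 k col).n) (by omega) (gsd_n_le hyp col))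
    refine ((hD.mat.mul (hasm.inv.congr fun z _ => ?_)).mul hD.inv).mul
      (grg_emb_matOn o ((hP.S _ h1).2.1.comp (grg_readS_coord hunit fun z hz => (h z hz).2)
        fun z hz => (h z hz).2))
    unfold gr_asm
    rw [add_zero]
    rfl

end ctx

end Claimed.Agent.R236
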