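import Mathlib
import Claimed.Agent.R236.GRegE

/-!
# Row 236, REDUCE, SB5 (REG), part F: `StRedReg` from the interfaces (owner helper188, prefix grg_)
-/

set_option autoImplicit false

namespace Claimed.Agent.R236

section ctx
variable {Y : Type} {N : ℕ} {R : Subring ℂ} {S : gs_Sys Y} {e0 k : ℕ} {col : ℕ → ℕ → Bool}
variable {Dm : Set (gr_Z Y N)}

/-- what we know on the domain -/
structure grg_Dom (N : ℕ) (R : Subring ℂ) (S : gs_Sys Y) (e0 k : ℕ) (col : ℕ → ℕ → Bool)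
    (P : gr_Corr N) (Dm : Set (gr_Z Y N)) : Prop where
  unit : ∀ z ∈ Dm, ∀ q, IsUnit (z.1 q).det
  old : ∀ z ∈ Dm, ∀ y, gr_GL (S.sig y).rk (z.1 (.inl (.inl y)))
  adm : ∀ z ∈ Dm, ∀ i, i < (gr_ctx S e0 k col).len → gr_LocAdm (gr_ctx S e0 k col) e0 S.eqs.length z i
  facts : ∀ z ∈ Dm, gsd_Facts (gr_ctx S e0 k col) e0 S.eqs.length P z

variable {P : gr_Corr N}

theorem grg_Dom.new (h : grg_Dom N R S e0 k col P Dm) (hyp : gr_Hyp N R S e0 k) :
    ∀ z ∈ Dm, ∀ v, gr_GL ((gr_ctx S e0 k col).nsig v).rk (gr_nval z v) :=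
  fun z hz => (h.adm z hz 0 (gsd_len_pos hyp col)).new

theorem grg_ELinv (hRG : StReadG N R) (hRS : StReadS N R) (hP : P.OK R)
    (hyp : gr_Hyp N R S e0 k) (hC : (gr_ctx S e0 k col).WF) (h : grg_Dom N R S e0 k col P Dm) {i : ℕ}
    (hi : i < (gr_ctx S e0 k col).len) :
    rg_MatOn R (gr_Zcoord Y N) Dm (fun z => (gr_EL (gr_ctx S e0 k col) e0 S.eqs.length P z i)⁻¹) :=
  grg_inv_of_uni (grg_EL hRG hRS hP hyp hC h.unit hi fun z hz => h.adm z hz i hi)
    fun z hz => (h.facts z hz).EL i hi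

theorem grg_ERinv (hRG : StReadG N R) (hRS : StReadS N R) (hP : P.OK R)
    (hyp : gr_Hyp N R S e0 k) (hC : (gr_ctx S e0 k col).WF) (h : grg_Dom N R S e0 k col P Dm) {i : ℕ}
    (hi : i < (gr_ctx S e0 k col).len) :
    rg_MatOn R (gr_Zcoord Y N) Dm (fun z => (gr_ER (gr_ctx S e0 k col) e0 S.eqs.length P z i)⁻¹) :=
  grg_inv_of_uni (grg_ER hRG hRS hP hyp hC h.unit hi fun z hz => h.adm z hz i hi)
    fun z hz => (h.facts z hz).ER i hi

theorem grg_Zlet (hRG : StReadG N R) (hRS : StReadS N R) (hP : P.OK R)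
    (hyp : gr_Hyp N R S e0 k) (hC : (gr_ctx S e0 k col).WF) (h : grg_Dom N R S e0 k col P Dm) {i : ℕ}
    (hi : i < (gr_ctx S e0 k col).len) :
    rg_MatOn R (gr_Zcoord Y N) Dm (fun z => gr_Zlet (gr_ctx S e0 k col) e0 S.eqs.length P z i) := by
  unfold gr_Zlet
  exact ((((grg_D hyp hC (h.new hyp) hi.le).inv.mul (grg_ELinv hRG hRS hP hyp hC h hi)).mul
    (grg_M hyp h.old hi).mat).mul (grg_ERinv hRG hRS hP hyp hC h hi)).mul
    (grg_D hyp hC (h.new hyp) (show i + 1 ≤ (gr_ctx S e0 k col).len from hi)).mat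

theorem grg_Ztot (hRG : StReadG N R) (hRS : StReadS N R) (hP : P.OK R)
    (hyp : gr_Hyp N R S e0 k) (hC : (gr_ctx S e0 k col).WF) (h : grg_Dom N R S e0 k col P Dm) :
    rg_MatOn R (gr_Zcoord Y N) Dm (fun z => gr_Ztot (gr_ctx S e0 k col) e0 S.eqs.length P z) := by
  unfold gr_Ztot
  apply grg_listProd_matOn
  intro i hi
  rw [List.mem_range] at hi
  exact (grg_Zlet hRG hRS hP hyp hC h hi).mul (grg_Zfr _ _ _)

theorem grg_two : rg_MatOn R (gr_Zcoord Y N) Dm (fun _ => (2 : gs_Mat N)) :=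
  (rg_MatOn.one.add rg_MatOn.one).congr fun _ _ => one_add_one_eq_two.symm

theorem grg_u (hRG : StReadG N R) (hRS : StReadS N R) (hP : P.OK R)
    (hyp : gr_Hyp N R S e0 k) (hC : (gr_ctx S e0 k col).WF) (h : grg_Dom N R S e0 k col P Dm) {i : ℕ}
    (hi : i < (gr_ctx S e0 k col).len) :
    rg_MatOn R (gr_Zcoord Y N) Dm (fun z => gr_u (gr_ctx S e0 k col) e0 S.eqs.length P z i) := by
  unfold gr_u
  have hD1 := grg_D (R := R) hyp hC (h.new hyp) (show i + 1 ≤ (gr_ctx S e0 k col).len from hi)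
  have hD0 := grg_D (R := R) hyp hC (h.new hyp) (Nat.zero_le (gr_ctx S e0 k col).len)
  have hM := grg_M (R := R) (col := col) hyp h.old hi
  exact (((((((hM.inv.mul (grg_nuRad hyp i).mat).mul hM.mat).mul
    (grg_ERinv hRG hRS hP hyp hC h hi)).mul ((hD1.mat.mul (grg_Zfr _ _ _)).mul hD1.inv)).mul
    (grg_ite_matOn ((hD0.mat.mul (grg_two.sub (grg_Ztot hRG hRS hP hyp hC h))).mul hD0.inv)
      .one)).mul (grg_ELinv hRG hRS hP hyp hC h (gsd_ctx_w_lt hyp (i + 1)))).mul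
    (grg_nuRad hyp (i + 1)).inv)

end ctx

/-- **REGULARITY** from the interfaces -/
theorem grg_reg {N : ℕ} {R : Subring ℂ} (hEq : StUnpackEq) (hUQ : StUnpackUQ N R)
    (hAdm : StLocAdm N R) (hLoc : StLoc N R) (hSh : StShInv N) (hTM : StTriMul N) (hGap : StGap N)
    (hBD : StBDConj N) (hRad : StRadConj N) (hRG : StReadG N R) (hRS : StReadS N R) :
    StRedReg N R := by
  intro P hP Y S e0 k hyp col hC q
  have hsol : ∀ z ∈ gr_Dom N S e0 k col, z.1 ∈ gs_Sol N (gr_reduce N S e0 k col) := fun _ h => h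
  have h : grg_Dom N R S e0 k col P (gr_Dom N S e0 k col) :=
    { unit := fun z hz q => by
        rcases q with y | ⟨e, j⟩
        · exact ((hsol z hz).1 y).1
        · exact gm_uni_isUnit ((hsol z hz).2.1 e j)
      old := fun z hz y => (hsol z hz).1 (.inl y)
      adm := fun z hz i hi => hAdm Y S e0 k hyp col hC z hz i hi
      facts := fun z hz =>
        gsd_facts hEq hUQ hAdm hLoc hSh hTM hGap hBD hRad gsd_XCorner hP hyp hC hz }
  refine rg_matCoord_regOn (Φ := fun z => gr_PhiS P S e0 k col z) (fun idx => ?_) (fun idx => ?_) q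
  · rcases idx with y | ⟨e, j⟩
    · exact grg_pt_mat _
    · show rg_MatOn R (gr_Zcoord Y N) (gr_Dom N S e0 k col) (fun z =>
        if e = e0 then (if j < (gr_ctx S e0 k col).len then gr_u (gr_ctx S e0 k col) e0 S.eqs.length P z j else 1)
          else if e < S.eqs.length then z.1 (.inr (e, j)) else 1)
      split_ifs with h1 h2 h3
      · exact grg_u hRG hRS hP hyp hC h h2
      · exact .one
      · exact grg_pt_mat _
      · exact .one
  · rcases idx with y | ⟨e, j⟩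
    · exact grg_pt_inv _
    · show rg_MatOn R (gr_Zcoord Y N) (gr_Dom N S e0 k col) (fun z =>
        (if e = e0 then (if j < (gr_ctx S e0 k col).len then gr_u (gr_ctx S e0 k col) e0 S.eqs.length P z j else 1)
          else if e < S.eqs.length then z.1 (.inr (e, j)) else 1)⁻¹)
      split_ifs with h1 h2 h3
      · exact grg_inv_of_uni (grg_u hRG hRS hP hyp hC h h2) fun z hz => gsd_u_uni (h.facts z hz) h2
      · simpa using (rg_MatOn.one : rg_MatOn R (gr_Zcoord Y N) (gr_Dom N S e0 k col)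
          (fun _ => (1 : gs_Mat N)))
      · exact grg_pt_inv _
      · simpa using (rg_MatOn.one : rg_MatOn R (gr_Zcoord Y N) (gr_Dom N S e0 k col)
          (fun _ => (1 : gs_Mat N)))

end Claimed.Agent.R236
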