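import Mathlib
import Claimed.Agent.R236.GRedType

/-!
# Row 236, REDUCE: typing of `eU`, `eQ` (owner helper148, prefix `grw_`)

* `grw_eU_ls`, `grw_eQ_ls` : the words of `eU`, `eQ` as `flatMap` over `List.range len`;
* `grw_typed_flatMap`, `grw_frame_flatMap` : words made of segments;
* `grw_Hyp.segU_typed`, `grw_Hyp.segQ_typed` : the segments with the frames `frU`, `frQ`;
* `grw_Hyp.eU_wf`, `grw_Hyp.eQ_wf`, `grw_eqn : StRedWFEqn N R`;
* `grw_Hyp.eU_frame`, `grw_Hyp.eQ_frame` : the frames of `eU`, `eQ`.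
-/

set_option autoImplicit false
set_option linter.unusedSectionVars false

namespace Claimed.Agent.R236

variable {Y : Type}

/-! ## words made of segments -/

theorem grw_zipIdx_flatMap {α β : Type} (d : α) (ls : List α) (f : ℕ → α → List β) (k : ℕ) :
    (ls.zipIdx k).flatMap (fun p => f p.2 p.1) =
      (List.range ls.length).flatMap fun i => f (k + i) (ls.getD i d) := by
  induction ls generalizing k with
  | nil => simp
  | cons a ls ih =>
    rw [List.zipIdx_cons, List.flatMap_cons, ih, List.length_cons, List.range_succ_eq_map,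
      List.flatMap_cons, List.flatMap_map]
    simp [Nat.add_assoc, Nat.add_comm 1]

theorem grw_eU_ls (C : gr_Ctx Y) :
    C.eU.ls = (List.range C.len).flatMap fun i => C.segU i (C.letter i) := by
  have := grw_zipIdx_flatMap (gs_Letter.L fun _ => 1) C.E.ls (fun i l => C.segU i l) 0
  simpa [gr_Ctx.eU, gr_Ctx.letter, gr_Ctx.len] using this

theorem grw_eQ_ls (C : gr_Ctx Y) :
    C.eQ.ls = (List.range C.len).flatMap fun i => C.segQ i (C.letter i) := by
  have := grw_zipIdx_flatMap (gs_Letter.L fun _ => 1) C.E.ls (fun i l => C.segQ i l) 0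
  simpa [gr_Ctx.eQ, gr_Ctx.letter, gr_Ctx.len] using this

section segments
variable {sig : Y → gs_Sig} {n : ℕ} {f : ℕ → List (gs_Letter Y)} {Kf : ℕ → Finset ℕ}

theorem grw_typed_flatMap (len : ℕ)
    (h : ∀ i, i < len → gf_Typed sig n (Kf i) (f i) (Kf (i + 1))) :
    gf_Typed sig n (Kf 0) ((List.range len).flatMap f) (Kf len) := by
  induction len with
  | zero => simp [gf_Typed]
  | succ len ih =>
    rw [List.range_succ, List.flatMap_append]
    refine gf_typed_append (ih fun i hi => h i (by omega)) ?_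
    simpa using h len (by omega)

theorem grw_length_flatMap (len r : ℕ) (hr : ∀ i, i < len → (f i).length = r) :
    ((List.range len).flatMap f).length = r * len := by
  induction len with
  | zero => simp
  | succ len ih =>
    rw [List.range_succ, List.flatMap_append, List.length_append, ih fun i hi => hr i (by omega)]
    simp [hr len (by omega), Nat.mul_succ]

theorem grw_frame_flatMap (len r : ℕ) (hr : ∀ i, i < len → (f i).length = r)
    (h : ∀ i, i < len → gf_Typed sig n (Kf i) (f i) (Kf (i + 1))) {i j : ℕ} (hi : i < len)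
    (hj : j ≤ r) :
    gs_frame sig (Kf 0) ((List.range len).flatMap f) (r * i + j) = gs_frame sig (Kf i) (f i) j := by
  induction len with
  | zero => omega
  | succ len ih =>
    have hlen := grw_length_flatMap (f := f) len r fun i hi => hr i (by omega)
    rw [List.range_succ, List.flatMap_append]
    rcases Nat.lt_or_ge i len with h1 | h1
    · rw [gf_frame_append_left _ _ _ _ _ (by
        rw [hlen]
        calc r * i + j ≤ r * i + r := by omega
          _ = r * (i + 1) := by ring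
          _ ≤ r * len := Nat.mul_le_mul_left r h1)]
      exact ih (fun i hi => hr i (by omega)) (fun i hi => h i (by omega)) h1
    · have : i = len := by omega
      subst this
      rw [← hlen, gf_frame_append_right,
        (grw_typed_flatMap i fun i' hi' => h i' (by omega)).frame_length]
      simp

end segments

/-! ## diagonal letters and `Nat.nth` -/

theorem grw_lam_nth {p : ℕ → Prop} [DecidablePred p] {K : Finset ℕ} {n : ℕ} {lam : ℕ → ℂ}
    (hlam : ∀ j, j + 1 < n → j + 1 ∉ K → lam j = lam (j + 1)) {j : ℕ} (hj : j + 1 < Nat.count p n)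
    (hK : j + 1 ∉ K.image (Nat.count p)) : lam (Nat.nth p j) = lam (Nat.nth p (j + 1)) := by
  have hf1 : ∀ hf : (Set.ofPred p).Finite, j + 1 < hf.toFinset.card := fun hf =>
    lt_of_lt_of_le hj (Nat.count_le_card hf n)
  have hf0 : ∀ hf : (Set.ofPred p).Finite, j < hf.toFinset.card := fun hf => by
    have := hf1 hf; omega
  have hab : Nat.nth p j < Nat.nth p (j + 1) := Nat.nth_lt_nth' (Nat.lt_succ_self j) hf1
  have hbn : Nat.nth p (j + 1) < n := Nat.nth_lt_of_lt_count hj
  have c1 : Nat.count p (Nat.nth p j + 1) = j + 1 := Nat.count_nth_succ hf0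
  have c2 : Nat.count p (Nat.nth p (j + 1)) = j + 1 := Nat.count_nth hf1
  have key : ∀ d, Nat.nth p j + d ≤ Nat.nth p (j + 1) → lam (Nat.nth p j) = lam (Nat.nth p j + d) := by
    intro d
    induction d with
    | zero => intro _; rfl
    | succ d ih =>
      intro hd
      rw [ih (by omega), ← Nat.add_assoc]
      refine hlam _ (by omega) fun hmem => hK ?_
      refine Finset.mem_image.2 ⟨_, hmem, ?_⟩
      have m1 := Nat.count_monotone p (show Nat.nth p j + 1 ≤ Nat.nth p j + d + 1 by omega)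
      have m2 := Nat.count_monotone p (show Nat.nth p j + d + 1 ≤ Nat.nth p (j + 1) by omega)
      omega
  obtain ⟨d, hd⟩ := Nat.exists_eq_add_of_le hab.le
  rw [hd]
  exact key d hd.ge

/-! ## one step in the image of a frame -/

theorem grw_image_step {K : Finset ℕ} {o m a : ℕ} (c : ℕ) (hmid : gs_midOK K o m a) {f g : ℕ → ℕ}
    (hf : Monotone f) (hg : Monotone g) (hfg : ∀ d, d ≤ o ∨ o + m ≤ d → g d = f d) :
    gs_midOK (K.image f) (f o) (f (o + m) - f o) (f (o + a) - f o) ∧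
      (gs_cutRepl K o m c).image g =
        gs_cutRepl (K.image f) (f o) (f (o + m) - f o) (g (o + c) - g o) := by
  have h0 : g o = f o := hfg o (Or.inl le_rfl)
  refine ⟨gf_image_midOK hmid hf, ?_⟩
  rw [h0]
  exact gf_image_cutRepl hmid hf hfg (h0 ▸ hg (Nat.le_add_right o c))

/-- three padding letters -/
theorem grw_pad3 (sig : Y ⊕ gr_Var → gs_Sig) (n : ℕ) (K : Finset ℕ) :
    gf_TypedF sig n K [(gr_one Y, K), (gr_one Y, K), (gr_one Y, K)] :=
  gf_TypedF_cons_one rfl (gf_TypedF_cons_one rfl (gf_TypedF_cons_one rfl trivial))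

section seg
variable {N : ℕ} {R : Subring ℂ} {C : gr_Ctx Y} (h : grw_Hyp N R C) {i : ℕ}
include h

theorem grw_Hyp.KU_ok (hi : i ≤ C.len) : gf_FrameOK C.k (C.KU i) := by
  obtain ⟨h0, hn, hle⟩ := h.K_ok i
  refine ⟨Finset.mem_image.2 ⟨0, h0, gf_cU_zero _⟩, Finset.mem_image.2 ⟨C.n, hn, h.cnt hi⟩,
    fun d hd => ?_⟩
  obtain ⟨d', hd', rfl⟩ := Finset.mem_image.1 hd
  rw [← h.cnt hi]
  exact gf_cU_le _ (hle d' hd')

theorem grw_Hyp.KQ_ok (hi : i ≤ C.len) : gf_FrameOK (C.n - C.k) (C.KQ i) := by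
  obtain ⟨h0, hn, hle⟩ := h.K_ok i
  refine ⟨Finset.mem_image.2 ⟨0, h0, gf_cQ_zero _⟩, Finset.mem_image.2 ⟨C.n, hn, h.cntQ hi⟩,
    fun d hd => ?_⟩
  obtain ⟨d', hd', rfl⟩ := Finset.mem_image.1 hd
  rw [← h.cntQ hi]
  exact gf_cQ_le _ (hle d' hd')

theorem grw_Hyp.KU_len : C.KU C.len = C.KU 0 := by
  unfold gr_Ctx.KU
  rw [h.K_len, h.wf.closed]

theorem grw_Hyp.KQ_len : C.KQ C.len = C.KQ 0 := by
  unfold gr_Ctx.KQ
  rw [h.K_len, h.wf.closed]

theorem grw_Hyp.cU_out_G {inv : Bool} {y : Y} {o : ℕ} (hl : C.E.ls[i]? = some (.G inv y o)) (d : ℕ)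
    (hd : d ≤ o ∨ o + (C.sig y).rk ≤ d) : gr_cU (C.col (i + 1)) d = gr_cU (C.col i) d := by
  have := h.cU_out (grw_lt_of_get hl) d
  rw [grw_letter_of_get hl] at this
  exact this hd

theorem grw_Hyp.cQ_out_G {inv : Bool} {y : Y} {o : ℕ} (hl : C.E.ls[i]? = some (.G inv y o)) (d : ℕ)
    (hd : d ≤ o ∨ o + (C.sig y).rk ≤ d) : gr_cQ (C.col (i + 1)) d = gr_cQ (C.col i) d := by
  have := h.cQ_out (grw_lt_of_get hl) d
  rw [grw_letter_of_get hl] at this
  exact this hd

theorem grw_Hyp.cU_out_S {o A B : ℕ} (hl : C.E.ls[i]? = some (.S o A B)) (d : ℕ)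
    (hd : d ≤ o ∨ o + (A + B) ≤ d) : gr_cU (C.col (i + 1)) d = gr_cU (C.col i) d := by
  have := h.cU_out (grw_lt_of_get hl) d
  rw [grw_letter_of_get hl] at this
  exact this hd

theorem grw_Hyp.cQ_out_S {o A B : ℕ} (hl : C.E.ls[i]? = some (.S o A B)) (d : ℕ)
    (hd : d ≤ o ∨ o + (A + B) ≤ d) : gr_cQ (C.col (i + 1)) d = gr_cQ (C.col i) d := by
  have := h.cQ_out (grw_lt_of_get hl) d
  rw [grw_letter_of_get hl] at this
  exact this hd

/-- the `i`-th segment of `eU` with its frames -/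
theorem grw_Hyp.segU_typed (hi : i < C.len) :
    ∃ l0 l1 l2 l3, C.segU i (C.letter i) = [l0, l1, l2, l3] ∧
      gf_TypedF C.sig' C.k (C.KU i)
        [(l0, C.frU i 0), (l1, C.frU i 1), (l2, C.frU i 2), (l3, C.frU i 3)] ∧
      C.frU i 3 = C.KU (i + 1) := by
  have hl := grw_get C hi
  cases hl' : C.letter i with
  | L lam =>
    rw [hl'] at hl
    have hfr : ∀ j, C.frU i j = C.KU (i + 1) := fun j => by simp only [gr_Ctx.frU, hl']
    have ha := h.app hi
    have hs := h.stepOK hi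
    have hk := h.K_succ hi
    rw [hl'] at ha hs hk
    have hs' : C.col (i + 1) = C.col i := hs
    have hk' : C.K (i + 1) = C.K i := hk
    have hKU : C.KU (i + 1) = C.KU i := by unfold gr_Ctx.KU; rw [hs', hk']
    refine ⟨_, _, _, _, rfl, ?_, hfr 3⟩
    rw [hfr 0, hfr 1, hfr 2, hfr 3, hKU]
    refine ⟨⟨fun j hj hK => ?_, fun j hj => ?_⟩, rfl, grw_pad3 _ _ _⟩
    · beta_reduce
      rw [if_pos (by omega), if_pos hj]
      refine grw_lam_nth ha.1 ?_ hK
      have := h.cnt hi.le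
      unfold gr_cU at this
      rw [this]
      exact hj
    · beta_reduce
      rw [if_neg (by omega)]
  | G inv y o =>
    rw [hl'] at hl
    have hfr : ∀ j, C.frU i j = C.KU (i + 1) := fun j => by simp only [gr_Ctx.frU, hl']
    have D := h.gdat hl
    refine ⟨_, _, _, _, rfl, ?_, hfr 3⟩
    rw [hfr 0, hfr 1, hfr 2, hfr 3]
    obtain ⟨s1, s2⟩ := grw_image_step ((C.sig y).tgt inv) D.mid (gf_cU_mono (C.col i))
      (gf_cU_mono (C.col (i + 1))) (h.cU_out_G hl)
    obtain ⟨t1, t2, t3⟩ := (grw_sig_triple (grw_nsig_YU hl)).1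
    refine gf_TypedF_cons_G t1 t2 t3 ⟨s1, ?_⟩ (grw_pad3 _ _ _)
    unfold gr_Ctx.KU
    rw [D.Ksucc, s2]
    rfl
  | S o A B =>
    rw [hl'] at hl
    have D := h.sdat hl
    have hfr0 : C.frU i 0 = gs_cutRepl (C.KU i)
        (gr_cU (C.col i) o + (gr_snum (C.col i) (C.col (i + 1)) o A B).a)
        ((gr_snum (C.col i) (C.col (i + 1)) o A B).b + (gr_snum (C.col i) (C.col (i + 1)) o A B).h)
        (gr_snum (C.col i) (C.col (i + 1)) o A B).b := by simp only [gr_Ctx.frU, hl']
    have hfr1 : C.frU i 1 = gs_cutRepl (C.frU i 0) (gr_cU (C.col i) o)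
        ((gr_snum (C.col i) (C.col (i + 1)) o A B).a + (gr_snum (C.col i) (C.col (i + 1)) o A B).b)
        (gr_snum (C.col i) (C.col (i + 1)) o A B).b := by simp only [gr_Ctx.frU, hl']
    have hfr2 : C.frU i 2 = C.KU (i + 1) := by simp only [gr_Ctx.frU, hl']
    have hfr3 : C.frU i 3 = C.KU (i + 1) := by simp only [gr_Ctx.frU, hl']
    obtain ⟨s1, s2⟩ := grw_image_step B D.mid (gf_cU_mono (C.col i))
      (gf_cU_mono (C.col (i + 1))) (h.cU_out_S hl)
    have e1 : gr_cU (C.col i) (o + A) - gr_cU (C.col i) o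
        = (gr_snum (C.col i) (C.col (i + 1)) o A B).a := D.a_eq.symm
    have e2 : gr_cU (C.col i) (o + (A + B)) - gr_cU (C.col i) o
        = (gr_snum (C.col i) (C.col (i + 1)) o A B).a +
          ((gr_snum (C.col i) (C.col (i + 1)) o A B).b +
            (gr_snum (C.col i) (C.col (i + 1)) o A B).h) := by
      rw [D.bh_eq, D.a_eq]
      exact (grw_nU_add (C.col i) (Nat.le_add_right o A) (by omega)).symm
    have e3 : gr_cU (C.col (i + 1)) (o + B) - gr_cU (C.col (i + 1)) o
        = (gr_snum (C.col i) (C.col (i + 1)) o A B).b := D.b_eq.symm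
    rw [e1, e2] at s1
    rw [e2, e3] at s2
    have hKU : C.KU (i + 1) = gs_cutRepl (C.KU i) (gr_cU (C.col i) o)
        ((gr_snum (C.col i) (C.col (i + 1)) o A B).a +
          ((gr_snum (C.col i) (C.col (i + 1)) o A B).b +
            (gr_snum (C.col i) (C.col (i + 1)) o A B).h))
        (gr_snum (C.col i) (C.col (i + 1)) o A B).b := by
      unfold gr_Ctx.KU
      rw [D.Ksucc, s2]
    obtain ⟨g1, g2, g3, g4⟩ := gf_swapU_frames s1
    obtain ⟨t1, t2, t3⟩ := (grw_sig_triple (grw_nsig_T hl)).1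
    obtain ⟨r1, r2, r3⟩ := (grw_sig_triple (grw_nsig_S hl)).2
    refine ⟨_, _, _, _, rfl, ?_, hfr3⟩
    refine gf_TypedF_cons_G t1 t2 t3 ⟨g1, hfr0.symm⟩ ?_
    refine gf_TypedF_cons_S ⟨hfr0 ▸ g2, hfr1.symm⟩ ?_
    refine gf_TypedF_cons_G r1 r2 r3 ⟨?_, ?_⟩ ?_
    · rw [hfr1, hfr0]; exact g3
    · rw [hfr1, hfr0, hfr2, hKU]; exact g4
    · exact gf_TypedF_cons_one (hfr2.trans hfr3.symm) trivial

/-- the `i`-th segment of `eQ` with its frames -/
theorem grw_Hyp.segQ_typed (hi : i < C.len) :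
    ∃ l0 l1 l2 l3, C.segQ i (C.letter i) = [l0, l1, l2, l3] ∧
      gf_TypedF C.sig' (C.n - C.k) (C.KQ i)
        [(l0, C.frQ i 0), (l1, C.frQ i 1), (l2, C.frQ i 2), (l3, C.frQ i 3)] ∧
      C.frQ i 3 = C.KQ (i + 1) := by
  have hl := grw_get C hi
  cases hl' : C.letter i with
  | L lam =>
    rw [hl'] at hl
    have hfr : ∀ j, C.frQ i j = C.KQ (i + 1) := fun j => by simp only [gr_Ctx.frQ, hl']
    have ha := h.app hi
    have hs := h.stepOK hi
    have hk := h.K_succ hi
    rw [hl'] at ha hs hk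
    have hs' : C.col (i + 1) = C.col i := hs
    have hk' : C.K (i + 1) = C.K i := hk
    have hKQ : C.KQ (i + 1) = C.KQ i := by unfold gr_Ctx.KQ; rw [hs', hk']
    refine ⟨_, _, _, _, rfl, ?_, hfr 3⟩
    rw [hfr 0, hfr 1, hfr 2, hfr 3, hKQ]
    refine ⟨⟨fun j hj hK => ?_, fun j hj => ?_⟩, rfl, grw_pad3 _ _ _⟩
    · beta_reduce
      rw [if_pos (by omega), if_pos hj]
      refine grw_lam_nth ha.1 ?_ hK
      have := h.cntQ hi.le
      unfold gr_cQ at this
      rw [this]
      exact hj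
    · beta_reduce
      rw [if_neg (by omega)]
  | G inv y o =>
    rw [hl'] at hl
    have hfr : ∀ j, C.frQ i j = C.KQ (i + 1) := fun j => by simp only [gr_Ctx.frQ, hl']
    have D := h.gdat hl
    refine ⟨_, _, _, _, rfl, ?_, hfr 3⟩
    rw [hfr 0, hfr 1, hfr 2, hfr 3]
    obtain ⟨s1, s2⟩ := grw_image_step ((C.sig y).tgt inv) D.mid (gf_cQ_mono (C.col i))
      (gf_cQ_mono (C.col (i + 1))) (h.cQ_out_G hl)
    obtain ⟨t1, t2, t3⟩ := (grw_sig_triple (grw_nsig_YQ hl)).1
    refine gf_TypedF_cons_G t1 t2 t3 ⟨s1, ?_⟩ (grw_pad3 _ _ _)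
    unfold gr_Ctx.KQ
    rw [D.Ksucc, s2]
    rfl
  | S o A B =>
    rw [hl'] at hl
    have D := h.sdat hl
    have hfr0 : C.frQ i 0 = gs_cutRepl (C.KQ i) (gr_cQ (C.col i) o)
        ((gr_snum (C.col i) (C.col (i + 1)) o A B).h + (gr_snum (C.col i) (C.col (i + 1)) o A B).x)
        (gr_snum (C.col i) (C.col (i + 1)) o A B).h := by simp only [gr_Ctx.frQ, hl']
    have hfr1 : C.frQ i 1 = C.frQ i 0 := by simp only [gr_Ctx.frQ, hl']
    have hfr2 : C.frQ i 2 = gs_cutRepl (C.frQ i 0)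
        (gr_cQ (C.col i) o + (gr_snum (C.col i) (C.col (i + 1)) o A B).h)
        ((gr_snum (C.col i) (C.col (i + 1)) o A B).x + (gr_snum (C.col i) (C.col (i + 1)) o A B).y)
        (gr_snum (C.col i) (C.col (i + 1)) o A B).y := by simp only [gr_Ctx.frQ, hl']
    have hfr3 : C.frQ i 3 = C.KQ (i + 1) := by simp only [gr_Ctx.frQ, hl']
    obtain ⟨s1, s2⟩ := grw_image_step B D.mid (gf_cQ_mono (C.col i))
      (gf_cQ_mono (C.col (i + 1))) (h.cQ_out_S hl)
    have q1 := gf_nU_add_nQ (C.col i) (Nat.le_add_right o A)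
    have q2 := gf_nU_add_nQ (C.col i) (Nat.le_add_right o (A + B))
    have q3 := gf_nU_add_nQ (C.col (i + 1)) (Nat.le_add_right o B)
    have q4 := grw_nU_add (C.col i) (Nat.le_add_right o A) (show o + A ≤ o + (A + B) by omega)
    have hA := D.A_eq
    have hB := D.B_eq
    have ha := D.a_eq
    have hb := D.b_eq
    have hbh := D.bh_eq
    have e1 : gr_cQ (C.col i) (o + A) - gr_cQ (C.col i) o
        = (gr_snum (C.col i) (C.col (i + 1)) o A B).h +
          (gr_snum (C.col i) (C.col (i + 1)) o A B).x := by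
      show gr_nQ (C.col i) o (o + A) = _
      omega
    have e2 : gr_cQ (C.col i) (o + (A + B)) - gr_cQ (C.col i) o
        = (gr_snum (C.col i) (C.col (i + 1)) o A B).h +
          (gr_snum (C.col i) (C.col (i + 1)) o A B).x +
            (gr_snum (C.col i) (C.col (i + 1)) o A B).y := by
      show gr_nQ (C.col i) o (o + (A + B)) = _
      omega
    have e3 : gr_cQ (C.col (i + 1)) (o + B) - gr_cQ (C.col (i + 1)) o
        = (gr_snum (C.col i) (C.col (i + 1)) o A B).h +
          (gr_snum (C.col i) (C.col (i + 1)) o A B).y := by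
      show gr_nQ (C.col (i + 1)) o (o + B) = _
      omega
    rw [e1, e2] at s1
    rw [e2, e3] at s2
    have hKQ : C.KQ (i + 1) = gs_cutRepl (C.KQ i) (gr_cQ (C.col i) o)
        ((gr_snum (C.col i) (C.col (i + 1)) o A B).h +
          (gr_snum (C.col i) (C.col (i + 1)) o A B).x +
            (gr_snum (C.col i) (C.col (i + 1)) o A B).y)
        ((gr_snum (C.col i) (C.col (i + 1)) o A B).h +
          (gr_snum (C.col i) (C.col (i + 1)) o A B).y) := by
      unfold gr_Ctx.KQ
      rw [D.Ksucc, s2]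
    obtain ⟨g1, g2, g3, g4, g5, g6⟩ := gf_swapQ_frames s1
    obtain ⟨t1, t2, t3⟩ := (grw_sig_triple (grw_nsig_R hl)).1
    obtain ⟨r1, r2, r3⟩ := (grw_sig_triple (grw_nsig_V hl)).2
    have hok : gf_FrameOK (C.n - C.k) (C.frQ i 0) := by
      rw [hfr0]
      exact gf_frameOK_cutRepl (h.KQ_ok hi.le) g1 (Nat.le_add_right _ _)
    refine ⟨_, _, _, _, rfl, ?_, hfr3⟩
    refine gf_TypedF_cons_G t1 t2 t3 ⟨g1, hfr0.symm⟩ ?_
    refine ⟨⟨fun j hj hK => ?_, fun j hj => ?_⟩, hfr1.symm, ?_⟩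
    · beta_reduce
      have n1 : j + 1 ≠ gr_cQ (C.col i) o := fun he => hK (by rw [hfr0, he]; exact g2)
      have n2 : j + 1 ≠ gr_cQ (C.col i) o + (gr_snum (C.col i) (C.col (i + 1)) o A B).h :=
        fun he => hK (by rw [hfr0, he]; exact g3)
      refine if_congr ?_ rfl rfl
      omega
    · beta_reduce
      have := hok.2.2 _ (hfr0 ▸ g3)
      rw [if_neg (by omega)]
    rw [hfr1]
    refine gf_TypedF_cons_S ⟨hfr0 ▸ g4, hfr2.symm⟩ ?_
    refine gf_TypedF_cons_G r1 r2 r3 ⟨?_, ?_⟩ trivial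
    · rw [hfr2, hfr0]; exact g5
    · rw [hfr2, hfr0, hfr3, hKQ]; exact g6

theorem grw_Hyp.segU_typed' (hi : i < C.len) :
    gf_Typed C.sig' C.k (C.KU i) (C.segU i (C.letter i)) (C.KU (i + 1)) := by
  obtain ⟨l0, l1, l2, l3, e, ht, e3⟩ := h.segU_typed hi
  rw [e, ← e3]
  exact ht.typed

theorem grw_Hyp.segQ_typed' (hi : i < C.len) :
    gf_Typed C.sig' (C.n - C.k) (C.KQ i) (C.segQ i (C.letter i)) (C.KQ (i + 1)) := by
  obtain ⟨l0, l1, l2, l3, e, ht, e3⟩ := h.segQ_typed hi
  rw [e, ← e3]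
  exact ht.typed

theorem grw_Hyp.segU_frame (hi : i < C.len) {j : ℕ} (hj : j < 4) :
    gs_frame C.sig' (C.KU i) (C.segU i (C.letter i)) (j + 1) = C.frU i j := by
  obtain ⟨l0, l1, l2, l3, e, ht, e3⟩ := h.segU_typed hi
  rw [e]
  have := ht.frame j (by simpa using hj)
  simp only [List.map_cons, List.map_nil] at this
  rw [this]
  interval_cases j <;> rfl

theorem grw_Hyp.segQ_frame (hi : i < C.len) {j : ℕ} (hj : j < 4) :
    gs_frame C.sig' (C.KQ i) (C.segQ i (C.letter i)) (j + 1) = C.frQ i j := by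
  obtain ⟨l0, l1, l2, l3, e, ht, e3⟩ := h.segQ_typed hi
  rw [e]
  have := ht.frame j (by simpa using hj)
  simp only [List.map_cons, List.map_nil] at this
  rw [this]
  interval_cases j <;> rfl

end seg

theorem grw_segU_length (C : gr_Ctx Y) (i : ℕ) (l : gs_Letter Y) : (C.segU i l).length = 4 := by
  cases l <;> rfl

theorem grw_segQ_length (C : gr_Ctx Y) (i : ℕ) (l : gs_Letter Y) : (C.segQ i l).length = 4 := by
  cases l <;> rfl

theorem grw_eU_length (C : gr_Ctx Y) : C.eU.ls.length = 4 * C.len := by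
  rw [grw_eU_ls]
  exact grw_length_flatMap _ _ fun i _ => grw_segU_length C i _

theorem grw_eQ_length (C : gr_Ctx Y) : C.eQ.ls.length = 4 * C.len := by
  rw [grw_eQ_ls]
  exact grw_length_flatMap _ _ fun i _ => grw_segQ_length C i _

theorem grw_unitL_flatMap {R : Subring ℂ} {f : ℕ → List (gs_Letter Y)} {len : ℕ}
    (h : ∀ i, i < len → grw_UnitL R (f i)) : grw_UnitL R ((List.range len).flatMap f) := by
  intro lam hl
  obtain ⟨i, hi, hl⟩ := List.mem_flatMap.1 hl
  exact h i (List.mem_range.1 hi) lam hl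

section eqn
variable {N : ℕ} {R : Subring ℂ} {C : gr_Ctx Y} (h : grw_Hyp N R C) {i : ℕ}
include h

theorem grw_Hyp.letter_mem (hi : i < C.len) : C.letter i ∈ C.E.ls := by
  rw [grw_letter C hi]
  exact List.getElem_mem hi

theorem grw_Hyp.segU_unit (hi : i < C.len) : grw_UnitL R (C.segU i (C.letter i)) := by
  have hm := h.letter_mem hi
  cases hl' : C.letter i with
  | L lam =>
    rw [hl'] at hm
    refine grw_unitL_cons_L (fun j => ?_) <| grw_unitL_cons_one <| grw_unitL_cons_one <|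
      grw_unitL_cons_one grw_unitL_nil
    split_ifs
    · exact h.eqn.unit lam hm _
    · exact grw_unit_one R
  | G inv y o =>
    exact grw_unitL_cons_G <| grw_unitL_cons_one <| grw_unitL_cons_one <|
      grw_unitL_cons_one grw_unitL_nil
  | S o A B =>
    exact grw_unitL_cons_G <| grw_unitL_cons_S <| grw_unitL_cons_G <|
      grw_unitL_cons_one grw_unitL_nil

theorem grw_Hyp.segQ_unit (hi : i < C.len) : grw_UnitL R (C.segQ i (C.letter i)) := by
  have hm := h.letter_mem hi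
  cases hl' : C.letter i with
  | L lam =>
    rw [hl'] at hm
    refine grw_unitL_cons_L (fun j => ?_) <| grw_unitL_cons_one <| grw_unitL_cons_one <|
      grw_unitL_cons_one grw_unitL_nil
    split_ifs
    · exact h.eqn.unit lam hm _
    · exact grw_unit_one R
  | G inv y o =>
    exact grw_unitL_cons_G <| grw_unitL_cons_one <| grw_unitL_cons_one <|
      grw_unitL_cons_one grw_unitL_nil
  | S o A B =>
    refine grw_unitL_cons_G <| grw_unitL_cons_L (fun j => ?_) <| grw_unitL_cons_S <|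
      grw_unitL_cons_G grw_unitL_nil
    split_ifs
    · exact grw_unit_neg_one R
    · exact grw_unit_one R

theorem grw_Hyp.eU_wf : C.eU.WF C.sig' N R := by
  have hn := h.n_le
  have hk := h.ltn
  rw [grw_wf_iff, grw_eU_ls]
  refine ⟨?_, h.KU_ok (Nat.zero_le _), ?_, grw_unitL_flatMap fun i hi => h.segU_unit hi⟩
  · show C.k ≤ N
    omega
  · have := grw_typed_flatMap (Kf := C.KU) C.len fun i hi => h.segU_typed' hi
    rw [h.KU_len] at this
    exact this

theorem grw_Hyp.eQ_wf : C.eQ.WF C.sig' N R := by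
  have hn := h.n_le
  rw [grw_wf_iff, grw_eQ_ls]
  refine ⟨?_, h.KQ_ok (Nat.zero_le _), ?_, grw_unitL_flatMap fun i hi => h.segQ_unit hi⟩
  · show C.n - C.k ≤ N
    omega
  · have := grw_typed_flatMap (Kf := C.KQ) C.len fun i hi => h.segQ_typed' hi
    rw [h.KQ_len] at this
    exact this

/-- the frames of `eU` -/
theorem grw_Hyp.eU_frame (hi : i < C.len) {j : ℕ} (hj : j < 4) :
    gs_frame C.sig' C.eU.K0 C.eU.ls (4 * i + j + 1) = C.frU i j := by
  rw [grw_eU_ls, ← h.segU_frame hi hj]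
  exact grw_frame_flatMap (Kf := C.KU) C.len 4 (fun i _ => grw_segU_length C i _)
    (fun i hi => h.segU_typed' hi) hi (show j + 1 ≤ 4 by omega)

/-- the frames of `eQ` -/
theorem grw_Hyp.eQ_frame (hi : i < C.len) {j : ℕ} (hj : j < 4) :
    gs_frame C.sig' C.eQ.K0 C.eQ.ls (4 * i + j + 1) = C.frQ i j := by
  rw [grw_eQ_ls, ← h.segQ_frame hi hj]
  exact grw_frame_flatMap (Kf := C.KQ) C.len 4 (fun i _ => grw_segQ_length C i _)
    (fun i hi => h.segQ_typed' hi) hi (show j + 1 ≤ 4 by omega)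

end eqn

/-- **the new equations are well formed** -/
theorem grw_eqn {N : ℕ} {R : Subring ℂ} : StRedWFEqn N R :=
  fun _ _ _ _ hyp _ hC =>
    ⟨(grw_hyp_of hyp hC).eU_wf, (grw_hyp_of hyp hC).eQ_wf, (grw_hyp_of hyp hC).link_wf⟩

end Claimed.Agent.R236
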