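import Mathlib
import Claimed.Agent.R236.GRedTypeB
import Claimed.Agent.R236.GChain2
import Claimed.Agent.R236.GLiftG
import Claimed.Agent.R236.GWord

/-!
# Row 236, REDUCE, SB1 (UNPACK), part A (owner helper148, prefix `gu_`)

* `gu_unpackSol : StUnpackSol`, `gu_unpackEq : StUnpackEq`;
* `gu_sat_iff` : an equation given by a word with explicit frames is satisfied iff the unipotents
  lie in the groups of these frames, the unipotents out of range are `1`, and the value is `1`;
* `gu_lmat_*` : matrices of the letters of the links.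
-/

set_option autoImplicit false

namespace Claimed.Agent.R236

variable {Y : Type} {N : ℕ}

theorem gu_unpackSol : StUnpackSol := by
  intro N Y S x
  constructor
  · rintro ⟨h1, h2, h3⟩
    exact ⟨h1, fun e => ⟨fun j => h2 e j, h3 e⟩⟩
  · rintro ⟨h1, h2⟩
    exact ⟨h1, fun e i => (h2 e).1 i, fun e => (h2 e).2⟩

theorem gu_unpackEq : StUnpackEq := by
  intro N Y S e0 k col he0
  have hlen : ((S.eqs.map (gs_Eqn.map Sum.inl)).set e0 (gr_ctx S e0 k col).eU).length
      = S.eqs.length := by simp
  have key : ∀ e, (gr_reduce N S e0 k col).eq e =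
      (((S.eqs.map (gs_Eqn.map Sum.inl)).set e0 (gr_ctx S e0 k col).eU ++
      (gr_ctx S e0 k col).eQ :: (List.range ((gr_ctx S e0 k col).len * (N + 2))).map
        fun t => (gr_ctx S e0 k col).link (t / (N + 2)) (t % (N + 2)))[e]?).getD
        (gs_Eqn.triv _) := fun e => by
    unfold gs_Sys.eq
    rw [List.getD_eq_getElem?_getD]
    rfl
  refine ⟨?_, ?_, fun e he hne => ?_, fun i s hi hs => ?_, fun e he => ?_⟩
  · rw [key, List.getElem?_append_left (by rw [hlen]; exact he0),
      List.getElem?_set_self (by simpa using he0)]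
    rfl
  · rw [key, List.getElem?_append_right (by rw [hlen]), hlen, Nat.sub_self]
    rfl
  · rw [key, List.getElem?_append_left (by rw [hlen]; exact he),
      List.getElem?_set_ne (Ne.symm hne), List.getElem?_map, List.getElem?_eq_getElem he]
    unfold gs_Sys.eq
    rw [List.getD_eq_getElem _ _ he]
    rfl
  · have h1 : i * (N + 2) + s < (gr_ctx S e0 k col).len * (N + 2) := by
      calc i * (N + 2) + s < i * (N + 2) + (N + 2) := by omega
        _ = (i + 1) * (N + 2) := by ring
        _ ≤ (gr_ctx S e0 k col).len * (N + 2) := Nat.mul_le_mul_right _ hi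
    have h2 : gr_lk N S.eqs.length i s - S.eqs.length = (i * (N + 2) + s) + 1 := by
      unfold gr_lk; omega
    rw [key, List.getElem?_append_right (by rw [hlen]; unfold gr_lk; omega), hlen, h2,
      List.getElem?_cons_succ, List.getElem?_map, List.getElem?_range h1]
    have h3 : (i * (N + 2) + s) / (N + 2) = i := by
      rw [Nat.add_comm, Nat.add_mul_div_right _ _ (by omega), Nat.div_eq_of_lt hs, Nat.zero_add]
    have h4 : (i * (N + 2) + s) % (N + 2) = s := by
      rw [Nat.add_comm, Nat.add_mul_mod_self_right, Nat.mod_eq_of_lt hs]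
    simp only [Option.map_some, Option.getD_some, h3, h4]
  · rw [key, List.getElem?_eq_none (by
      simp only [List.length_append, hlen, List.length_cons, List.length_map, List.length_range]
      omega)]
    rfl

/-! ## equations given by words with explicit frames -/

/-- the unipotents after the letters lie in the groups of the given frames -/
def gu_UniF (x : gs_Pt Y N) (e n : ℕ) : ℕ → List (gs_Letter Y × Finset ℕ) → Prop
  | _, [] => True
  | j, p :: w => gs_IsUni n p.2 (x (.inr (e, j))) ∧ gu_UniF x e n (j + 1) w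

theorem gu_uniF_iff {sig : Y → gs_Sig} {n : ℕ} {K : Finset ℕ} {w : List (gs_Letter Y × Finset ℕ)}
    (h : gf_TypedF sig n K w) (x : gs_Pt Y N) (e j0 : ℕ) :
    (∀ j, gs_IsUni (if j < (w.map Prod.fst).length then n else 0)
        (gs_frame sig K (w.map Prod.fst) (j + 1)) (x (.inr (e, j0 + j)))) ↔
      gu_UniF x e n j0 w ∧ ∀ j, w.length ≤ j → x (.inr (e, j0 + j)) = 1 := by
  induction w generalizing K j0 with
  | nil =>
    simp only [List.map_nil, List.length_nil, Nat.not_lt_zero, if_false, gm_uni_zero_iff, gu_UniF,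
      true_and, Nat.zero_le, forall_true_left]
  | cons p w ih =>
    obtain ⟨l, K1⟩ := p
    obtain ⟨h1, h2, h3⟩ := h
    have ih' := ih h3 (j0 + 1)
    constructor
    · intro hh
      have hh0 := hh 0
      have hhs : ∀ j, gs_IsUni (if j < (w.map Prod.fst).length then n else 0)
          (gs_frame sig K1 (w.map Prod.fst) (j + 1)) (x (.inr (e, j0 + 1 + j))) := fun j => by
        have := hh (j + 1)
        rw [List.map_cons, gf_frame_cons_succ, h2] at this
        simp only [List.length_cons, Nat.add_lt_add_iff_right] at this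
        rwa [show j0 + (j + 1) = j0 + 1 + j by omega] at this
      obtain ⟨i1, i2⟩ := ih'.1 hhs
      refine ⟨⟨?_, i1⟩, fun j hj => ?_⟩
      · rw [List.map_cons, gf_frame_cons_succ, h2, gf_frame_zero] at hh0
        simpa using hh0
      · obtain ⟨j', rfl⟩ : ∃ j', j = j' + 1 := ⟨j - 1, by simp at hj; omega⟩
        have := i2 j' (by simpa using hj)
        rwa [show j0 + 1 + j' = j0 + (j' + 1) by omega] at this
    · rintro ⟨⟨g1, g2⟩, g3⟩ j
      have hhs := ih'.2 ⟨g2, fun j hj => by
        have := g3 (j + 1) (by simpa using hj)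
        rwa [show j0 + (j + 1) = j0 + 1 + j by omega] at this⟩
      cases j with
      | zero =>
        rw [List.map_cons, gf_frame_cons_succ, h2, gf_frame_zero]
        simpa using g1
      | succ j =>
        have := hhs j
        rw [List.map_cons, gf_frame_cons_succ, h2]
        simp only [List.length_cons, Nat.add_lt_add_iff_right]
        rwa [show j0 + (j + 1) = j0 + 1 + j by omega]

/-- **unpacking of an equation with explicit frames** -/
theorem gu_sat_iff {sig : Y → gs_Sig} {n : ℕ} {K : Finset ℕ} {w : List (gs_Letter Y × Finset ℕ)}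
    (h : gf_TypedF sig n K w) (x : gs_Pt Y N) (e : ℕ) :
    gs_EqnSat sig x e ⟨n, K, w.map Prod.fst⟩ ↔
      gu_UniF x e n 0 w ∧ (∀ j, w.length ≤ j → x (.inr (e, j)) = 1) ∧
        gs_val x e 0 (w.map Prod.fst) = 1 := by
  have := gu_uniF_iff h x e 0
  simp only [Nat.zero_add] at this
  unfold gs_EqnSat
  rw [this, and_assoc]

/-! ## matrices of letters -/

theorem gu_lmat_one (x : gs_Pt (Y ⊕ gr_Var) N) : gs_lmat x (gr_one Y) = 1 := by
  simp [gs_lmat, gr_one]

theorem gu_lmat_opt_false (x : gs_Pt (Y ⊕ gr_Var) N) (p : Prop) [Decidable p] (v : Y ⊕ gr_Var)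
    (o : ℕ) : gs_lmat x (if p then .G false v o else gr_one Y)
      = gs_emb o (if p then x (.inl v) else 1) := by
  split_ifs
  · rfl
  · rw [gu_lmat_one, gm_emb_one]

theorem gu_lmat_opt_true (x : gs_Pt (Y ⊕ gr_Var) N) (p : Prop) [Decidable p] (v : Y ⊕ gr_Var)
    (o : ℕ) : gs_lmat x (if p then .G true v o else gr_one Y)
      = gs_emb o (if p then x (.inl v) else 1)⁻¹ := by
  split_ifs
  · rfl
  · rw [gu_lmat_one, inv_one, gm_emb_one]

theorem gu_lmat_inv (x : gs_Pt Y N) (inv : Bool) (v : Y) :
    gs_lmat x (.G inv v 0) = if inv then (x (.inl v))⁻¹ else x (.inl v) := by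
  cases inv
  · exact gm_emb_zero _
  · exact gm_emb_zero _

end Claimed.Agent.R236
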