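import Mathlib
import Claimed.Agent.R236.GUnpack

/-!
# Row 236, REDUCE, SB1 (UNPACK), part B: the links (owner helper148, prefix `gu_`)

`gu_unpackUn : StUnpackUn N R`, `gu_unpackG : StUnpackG N R`, `gu_unpackA : StUnpackA N R`,
`gu_unpackB : StUnpackB N R`.
-/

set_option autoImplicit false

namespace Claimed.Agent.R236

variable {Y : Type} {N : ℕ} {R : Subring ℂ}

theorem gu_mul_inv_eq_one {A B : gs_Mat N} (hB : IsUnit B.det) : A * B⁻¹ = 1 ↔ B = A := by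
  constructor
  · intro h
    calc B = (A * B⁻¹) * B := by rw [h, one_mul]
      _ = A := by rw [Matrix.mul_assoc, Matrix.nonsing_inv_mul B hB, mul_one]
  · rintro rfl
    exact Matrix.mul_nonsing_inv B hB

theorem gu_uni_pair_iff {n : ℕ} {u : gs_Mat N} : gs_IsUni n {0, n} u ↔ u = 1 :=
  ⟨gm_uni_pair_eq_one, fun h => h ▸ gm_uni_one _ _⟩

theorem gu_unpackUn : StUnpackUn N R := by
  intro Y S e0 k hyp col hC e z C hnew i c hi hc hn hout
  have h := grw_hyp_of hyp hC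
  have hw : C.w i = i := h.w_of_lt hi
  have hH : IsUnit (z.1 (.inl (.inr (.H i c)))).det := (hnew (.H i c)).1
  refine (gu_sat_iff (h.linkUn_typed hi hc hn hout) z.1 e).trans ?_
  simp only [gu_UniF, and_true, List.length_cons, List.length_nil, List.map_cons, List.map_nil,
    gs_val, gs_lmat, gm_emb_zero, mul_one, Nat.zero_add, Nat.reduceAdd, gu_uni_pair_iff, gr_hval, hw]
  constructor
  · rintro ⟨⟨h1, h2⟩, h3, h4⟩
    refine ⟨h1, fun j hj => ?_, ?_⟩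
    · rcases Nat.lt_or_ge j 2 with h' | h'
      · have : j = 1 := by omega
        subst this; exact h2
      · exact h3 j h'
    · rw [h2, mul_one] at h4
      exact (gu_mul_inv_eq_one hH).1 h4
  · rintro ⟨h1, h2, h3⟩
    refine ⟨⟨h1, h2 1 le_rfl⟩, fun j hj => h2 j (by omega), ?_⟩
    rw [h2 1 le_rfl, mul_one]
    exact (gu_mul_inv_eq_one hH).2 h3

theorem gu_lmat_false (x : gs_Pt Y N) (v : Y) (o : ℕ) :
    gs_lmat x (.G false v o) = gs_emb o (x (.inl v)) := rfl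

theorem gu_lmat_true (x : gs_Pt Y N) (v : Y) (o : ℕ) :
    gs_lmat x (.G true v o) = gs_emb o (x (.inl v))⁻¹ := rfl

theorem gu_lmat_S (x : gs_Pt Y N) (o a b : ℕ) :
    gs_lmat x (.S o a b) = gs_swapMat o a b := rfl

theorem gu_unpackA : StUnpackA N R := by
  intro Y S e0 k hyp col hC e1 E0 z C hnew i o A B hi hl ν w
  have h := grw_hyp_of hyp hC
  have hw : C.w i = i := h.w_of_lt hi
  have hl' : C.E.ls[i]? = some (.S o A B) := by rw [← hl]; exact grw_get C hi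
  have hA : ν.A = A := (h.sdat hl').A_eq.symm
  refine (gu_sat_iff (h.linkA_typed hl') z.1 (gr_lk N E0 i 0)).trans ?_
  rw [hA]
  simp only [gu_UniF, and_true, List.length_cons, List.length_nil, List.map_cons, List.map_nil,
    gs_val, gu_lmat_opt_false, gu_lmat_opt_true, gu_lmat_false, gu_lmat_true, gm_emb_zero, mul_one,
    Nat.zero_add, Nat.reduceAdd, ← Matrix.mul_assoc]
  have e1 : w .hAm = if 0 < A then z.1 (.inl (.inr (.H i o))) else 1 := by
    show (if 0 < A then z.1 (.inl (.inr (.H (C.w i) o))) else 1) = _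
    rw [hw]
  rw [e1]
  simp only [and_assoc]
  exact Iff.rfl

theorem gu_unpackB : StUnpackB N R := by
  intro Y S e0 k hyp col hC e1 E0 z C hnew i o A B hi hl ν w
  have h := grw_hyp_of hyp hC
  have hw : C.w i = i := h.w_of_lt hi
  have hl' : C.E.ls[i]? = some (.S o A B) := by rw [← hl]; exact grw_get C hi
  have hB : ν.B = B := (h.sdat hl').B_eq.symm
  refine (gu_sat_iff (h.linkB_typed hl') z.1 (gr_lk N E0 i 1)).trans ?_
  rw [hB]
  simp only [gu_UniF, and_true, List.length_cons, List.length_nil, List.map_cons, List.map_nil,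
    gs_val, gu_lmat_opt_false, gu_lmat_opt_true, gu_lmat_false, gu_lmat_true, gm_emb_zero, mul_one,
    Nat.zero_add, Nat.reduceAdd, ← Matrix.mul_assoc]
  have e1 : w .hBm = if 0 < B then z.1 (.inl (.inr (.H i (o + A)))) else 1 := by
    show (if 0 < B then z.1 (.inl (.inr (.H (C.w i) (o + A)))) else 1) = _
    rw [hw]
  rw [e1]
  simp only [and_assoc]
  exact Iff.rfl

theorem gu_GLk_iff (ν : gr_GNum) (z : gr_GIdx → gs_Mat N) :
    gl_GLk ν z ↔
      (gs_IsUni ν.m {0, ν.c, ν.m} (z .w0) ∧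
        gs_IsUni ν.m {0, ν.v1, ν.c, ν.m} (z .w1) ∧
        gs_IsUni ν.m {0, ν.v1, ν.c, ν.c + ν.v2, ν.m} (z .w2) ∧
        gs_IsUni ν.m {0, ν.v1, ν.km, ν.km + ν.p1, ν.m} (z .w3) ∧
        gs_IsUni ν.m {0, ν.u1, ν.km, ν.km + ν.p1, ν.m} (z .w4) ∧
        gs_IsUni ν.m {0, ν.u1, ν.km, ν.km + ν.q1, ν.m} (z .w5) ∧
        gs_IsUni ν.m {0, ν.u1, ν.a, ν.a + ν.u2, ν.m} (z .w6) ∧
        gs_IsUni ν.m {0, ν.a, ν.a + ν.u2, ν.m} (z .w7) ∧
        gs_IsUni ν.m {0, ν.a, ν.m} (z .w8)) ∧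
      z .m * z .w0 * z .k1 * z .w1 * gs_emb ν.c (z .k2) * z .w2 *
        gs_swapMat ν.v1 ν.p1 ν.v2 * z .w3 * (z .yU)⁻¹ * z .w4 * gs_emb ν.km (z .yQ)⁻¹ * z .w5 *
        gs_swapMat ν.u1 ν.u2 ν.q1 * z .w6 * (z .h1)⁻¹ * z .w7 * gs_emb ν.a (z .h2)⁻¹ * z .w8 = 1 :=
  ⟨fun h => ⟨⟨h.w0, h.w1, h.w2, h.w3, h.w4, h.w5, h.w6, h.w7, h.w8⟩, h.link⟩,
    fun ⟨⟨h0, h1, h2, h3, h4, h5, h6, h7, h8⟩, hl⟩ => ⟨h0, h1, h2, h3, h4, h5, h6, h7, h8, hl⟩⟩

/-- the unipotents and the link equation of a `G` letter -/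
theorem gu_linkG_iff {S : gs_Sys Y} {e0 k : ℕ} (hyp : gr_Hyp N R S e0 k) {col : ℕ → ℕ → Bool}
    (hC : (gr_ctx S e0 k col).WF) (E0 : ℕ) (z : gr_Z Y N) {i : ℕ} {inv : Bool} {y : Y} {o : ℕ}
    (hi : i < (gr_ctx S e0 k col).len) (hl : (gr_ctx S e0 k col).letter i = .G inv y o) :
    gs_EqnSat (gr_ctx S e0 k col).sig' z.1 (gr_lk N E0 i 0) ((gr_ctx S e0 k col).linkG i inv y o) ↔
      gl_GLk (gr_gnum (col i) (col (i + 1)) o (S.sig y).rk ((S.sig y).src inv) ((S.sig y).tgt inv))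
        (gr_readG (gr_ctx S e0 k col) E0 z i inv y o) ∧
      ∀ j, 9 ≤ j → z.1 (.inr (gr_lk N E0 i 0, j)) = 1 := by
  have h := grw_hyp_of hyp hC
  have hw : (gr_ctx S e0 k col).w i = i := h.w_of_lt hi
  have hl' : (gr_ctx S e0 k col).E.ls[i]? = some (.G inv y o) := by
    rw [← hl]; exact grw_get _ hi
  have D := h.gdat hl'
  refine (gu_sat_iff (h.linkG_typed hl') z.1 (gr_lk N E0 i 0)).trans ?_
  simp only [gu_UniF, and_true, List.length_cons, List.length_nil, List.map_cons, List.map_nil,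
    gs_val, gu_lmat_opt_false, gu_lmat_opt_true, gu_lmat_true, gu_lmat_S,
    gu_lmat_inv, gm_emb_zero, mul_one, Nat.zero_add, Nat.reduceAdd, ← Matrix.mul_assoc]
  have e1 : gr_readG (gr_ctx S e0 k col) E0 z i inv y o .h1 =
      if 0 < (S.sig y).src inv then z.1 (.inl (.inr (.H i o))) else 1 := by
    show (if 0 < (S.sig y).src inv then
      z.1 (.inl (.inr (.H ((gr_ctx S e0 k col).w i) o))) else 1) = _
    rw [hw]
  have e2 : gr_readG (gr_ctx S e0 k col) E0 z i inv y o .h2 =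
      if (S.sig y).src inv < (S.sig y).rk then
        z.1 (.inl (.inr (.H i (o + (S.sig y).src inv)))) else 1 := by
    show (if (S.sig y).src inv < (S.sig y).rk then
      z.1 (.inl (.inr (.H ((gr_ctx S e0 k col).w i) (o + (S.sig y).src inv)))) else 1) = _
    rw [hw]
  have hsl : (S.sig y).src inv ≤ (S.sig y).rk := D.src_le
  rw [gu_GLk_iff, gl_gnum_m _ _ _ _ _ _ hsl, gl_gnum_a, gl_gnum_c, e1, e2]
  exact ⟨fun ⟨hU, hb, hv⟩ => ⟨⟨hU, hv⟩, hb⟩, fun ⟨⟨hU, hv⟩, hb⟩ => ⟨hU, hb, hv⟩⟩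

/-- the local data of a `G` letter are admissible iff the unipotents and the link equation are -/
theorem gu_GOk_iff {S : gs_Sys Y} {e0 k : ℕ} (hyp : gr_Hyp N R S e0 k) {col : ℕ → ℕ → Bool}
    (hC : (gr_ctx S e0 k col).WF) (E0 : ℕ) (z : gr_Z Y N)
    (hold : ∀ y, gr_GL (S.sig y).rk (z.1 (.inl (.inl y))))
    (hnew : ∀ v, gr_GL ((gr_ctx S e0 k col).nsig v).rk (gr_nval z v))
    {i : ℕ} {inv : Bool} {y : Y} {o : ℕ}
    (hi : i < (gr_ctx S e0 k col).len) (hl : (gr_ctx S e0 k col).letter i = .G inv y o) :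
    gr_GOk (gr_gnum (col i) (col (i + 1)) o (S.sig y).rk ((S.sig y).src inv) ((S.sig y).tgt inv))
        (gr_readG (gr_ctx S e0 k col) E0 z i inv y o) ↔
      gl_GLk (gr_gnum (col i) (col (i + 1)) o (S.sig y).rk ((S.sig y).src inv) ((S.sig y).tgt inv))
        (gr_readG (gr_ctx S e0 k col) E0 z i inv y o) := by
  refine ⟨fun h => ⟨h.w0, h.w1, h.w2, h.w3, h.w4, h.w5, h.w6, h.w7, h.w8, h.link⟩, fun hlk => ?_⟩
  have h := grw_hyp_of hyp hC
  have hls : (gr_ctx S e0 k col).E.ls[i]? = some (.G inv y o) := by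
    rw [← hl]; exact grw_get _ hi
  have D := h.gdat hls
  have hmid : gs_midOK ((gr_ctx S e0 k col).K i) o (S.sig y).rk ((S.sig y).src inv) := D.mid
  have hmid' : gs_midOK ((gr_ctx S e0 k col).K (i + 1)) o (S.sig y).rk ((S.sig y).tgt inv) := D.mid'
  have hct : (S.sig y).tgt inv ≤ (S.sig y).rk := D.tgt_le
  have ha : (S.sig y).src inv ≤ (S.sig y).rk := D.src_le
  have hF := gl_hval_fam hyp col z hnew hi.le
  have hF' := gl_hval_fam hyp col z hnew (Nat.succ_le_of_lt hi)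
  have hK := (h.K_ok i).2.2
  have hK' := (h.K_ok (i + 1)).2.2
  refine ⟨?_, ?_, ?_, ?_, ?_, ?_, ?_, hlk.w0, hlk.w1, hlk.w2, hlk.w3, hlk.w4, hlk.w5, hlk.w6,
    hlk.w7, hlk.w8, hlk.link⟩
  · rw [gl_gnum_a]; exact gl_fam_left hK hmid hF
  · rw [gl_gnum_uq2 _ _ _ _ _ _ ha]; exact gl_fam_right hK hmid hF
  · rw [gl_gnum_c]; exact gl_fam_left hK' hmid' hF'
  · rw [gl_gnum_vp2 _ _ _ _ _ _ hct]; exact gl_fam_right hK' hmid' hF'
  · rw [gl_gnum_km _ _ _ _ _ _ ha]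
    have h1 := hnew (.YU i)
    rw [grw_nsig_YU hls] at h1
    exact h1
  · rw [gl_gnum_km _ _ _ _ _ _ ha, gl_gnum_m _ _ _ _ _ _ ha]
    have h1 := hnew (.YQ i)
    rw [grw_nsig_YQ hls] at h1
    have e := gf_nU_add_nQ (col i) (Nat.le_add_right o (S.sig y).rk)
    have e' : (S.sig y).rk - gr_nU (col i) o (o + (S.sig y).rk)
        = gr_nQ (col i) o (o + (S.sig y).rk) := by omega
    rw [e']
    exact h1
  · rw [gl_gnum_m _ _ _ _ _ _ ha]
    have h1 := hold y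
    cases inv
    · exact h1
    · exact gl_GL_inv h1

theorem gu_unpackG : StUnpackG N R := by
  intro Y S e0 k hyp col hC E0 z C hold hnew i inv y o hi hl
  refine (gu_linkG_iff hyp hC E0 z hi hl).trans ?_
  exact and_congr_left fun _ => (gu_GOk_iff hyp hC E0 z hold hnew hi hl).symm

end Claimed.Agent.R236
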