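import Mathlib
import Claimed.Agent.R236.GUnpackB

/-!
# Row 236, REDUCE, SB1 (UNPACK), part C: `eU`, `eQ`, local admissibility (owner helper148, prefix `gu_`)

`gu_unpackUQ : StUnpackUQ N R`, `gu_locAdm : StLocAdm N R`, `gu_linkG : StLinkG N R`,
`gu_linkS : StLinkS N R`.
-/

set_option autoImplicit false

namespace Claimed.Agent.R236

variable {Y : Type} {N : ℕ} {R : Subring ℂ}

theorem gu_val_flatMap (x : gs_Pt Y N) (e : ℕ) (f : ℕ → List (gs_Letter Y)) (len r : ℕ)
    (hr : ∀ i, i < len → (f i).length = r) :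
    gs_val x e 0 ((List.range len).flatMap f) =
      ((List.range len).map fun i => gs_val x e (r * i) (f i)).prod := by
  induction len with
  | zero => simp
  | succ len ih =>
    rw [List.range_succ, List.flatMap_append, gw_val_append, ih fun i hi => hr i (by omega),
      grw_length_flatMap len r fun i hi => hr i (by omega), List.map_append, List.prod_append]
    simp

/-- an equation made of segments of four letters -/
theorem gu_seg_sat_iff {sig : Y → gs_Sig} {E : gs_Eqn Y} {len : ℕ} (hlen : E.ls.length = 4 * len)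
    (fr : ℕ → ℕ → Finset ℕ)
    (hfr : ∀ i j, i < len → j < 4 → gs_frame sig E.K0 E.ls (4 * i + j + 1) = fr i j)
    (x : gs_Pt Y N) (e : ℕ) :
    gs_EqnSat sig x e E ↔
      (∀ i j, i < len → j < 4 → gs_IsUni E.rk (fr i j) (x (.inr (e, 4 * i + j)))) ∧
      (∀ t, 4 * len ≤ t → x (.inr (e, t)) = 1) ∧ gs_val x e 0 E.ls = 1 := by
  unfold gs_EqnSat
  rw [← and_assoc]
  refine and_congr_left fun _ => ?_
  constructor
  · intro h
    refine ⟨fun i j hi hj => ?_, fun t ht => ?_⟩
    · have := h (4 * i + j)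
      rwa [if_pos (by omega), hfr i j hi hj] at this
    · have := h t
      rw [if_neg (by omega)] at this
      exact gm_uni_zero_iff.1 this
  · rintro ⟨h1, h2⟩ t
    rcases Nat.lt_or_ge t (4 * len) with ht | ht
    · have := h1 (t / 4) (t % 4) (by omega) (by omega)
      rw [← hfr (t / 4) (t % 4) (by omega) (by omega), Nat.div_add_mod] at this
      rwa [if_pos (by omega)]
    · rw [if_neg (by omega), h2 t ht]
      exact gm_uni_one _ _

theorem gu_lmat_L (x : gs_Pt Y N) (lam : ℕ → ℂ) :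
    gs_lmat x (.L lam) = Matrix.diagonal fun j : Fin N => lam j := rfl

theorem gu_segU_val (C : gr_Ctx Y) (e1 : ℕ) (z : gr_Z Y N) (i : ℕ) :
    gs_val z.1 e1 (4 * i) (C.segU i (C.letter i)) = gr_XUlet C e1 z i * gr_sU C e1 z i := by
  cases hl : C.letter i with
  | L lam =>
    simp only [gr_XUlet, gr_sU, hl, gr_Ctx.segU, gs_val, gu_lmat_one, gu_lmat_L, gr_uU, one_mul,
      mul_one, Matrix.mul_assoc, Nat.add_assoc, Nat.reduceAdd, Nat.add_zero]
  | G inv y o =>
    simp only [gr_XUlet, gr_sU, hl, gr_Ctx.segU, gs_val, gu_lmat_one, gu_lmat_false, gr_uU, one_mul,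
      mul_one, Matrix.mul_assoc, Nat.add_assoc, Nat.reduceAdd, Nat.add_zero, gr_nval]
  | S o A B =>
    simp only [gr_XUlet, gr_sU, hl, gr_Ctx.segU, gs_val, gu_lmat_one, gu_lmat_false, gu_lmat_true,
      gu_lmat_S, gr_uU, one_mul, mul_one, Matrix.mul_assoc, Nat.add_assoc, Nat.reduceAdd,
      Nat.add_zero, gr_nval]

theorem gu_segQ_val (C : gr_Ctx Y) (e2 : ℕ) (z : gr_Z Y N) (i : ℕ) :
    gs_val z.1 e2 (4 * i) (C.segQ i (C.letter i)) = gr_XQlet C e2 z i * gr_sQ C e2 z i := by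
  cases hl : C.letter i with
  | L lam =>
    simp only [gr_XQlet, gr_sQ, hl, gr_Ctx.segQ, gs_val, gu_lmat_one, gu_lmat_L, gr_uQ, one_mul,
      mul_one, Matrix.mul_assoc, Nat.add_assoc, Nat.reduceAdd, Nat.add_zero]
  | G inv y o =>
    simp only [gr_XQlet, gr_sQ, hl, gr_Ctx.segQ, gs_val, gu_lmat_one, gu_lmat_false, gr_uQ, one_mul,
      mul_one, Matrix.mul_assoc, Nat.add_assoc, Nat.reduceAdd, Nat.add_zero, gr_nval]
  | S o A B =>
    simp only [gr_XQlet, gr_sQ, hl, gr_Ctx.segQ, gs_val, gu_lmat_false, gu_lmat_true,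
      gu_lmat_S, gu_lmat_L, gr_uQ, mul_one, Matrix.mul_assoc, Nat.add_assoc,
      Nat.reduceAdd, Nat.add_zero, gr_nval]

theorem gu_unpackUQ : StUnpackUQ N R := by
  intro Y S e0 k hyp col hC e1 e2 z C
  have h := grw_hyp_of hyp hC
  constructor
  · refine (gu_seg_sat_iff (grw_eU_length C) C.frU (fun i j hi hj => h.eU_frame hi hj) z.1 e1).trans ?_
    rw [grw_eU_ls, gu_val_flatMap z.1 e1 _ C.len 4 fun i _ => grw_segU_length C i _]
    simp only [gu_segU_val]
    exact Iff.rfl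
  · refine (gu_seg_sat_iff (grw_eQ_length C) C.frQ (fun i j hi hj => h.eQ_frame hi hj) z.1 e2).trans ?_
    rw [grw_eQ_ls, gu_val_flatMap z.1 e2 _ C.len 4 fun i _ => grw_segQ_length C i _]
    simp only [gu_segQ_val]
    exact Iff.rfl

theorem gu_locAdm : StLocAdm N R := by
  intro Y S e0 k hyp col hC z hz i hi
  obtain ⟨h1, h2⟩ := (gu_unpackSol N _ _ z.1).1 hz
  obtain ⟨q1, q2, -, q4, -⟩ := gu_unpackEq N Y S e0 k col hyp.lt
  have hU := h2 e0
  have hQ := h2 S.eqs.length
  rw [q1] at hU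
  rw [q2] at hQ
  have hUQ := gu_unpackUQ Y S e0 k hyp col hC e0 S.eqs.length z
  refine ⟨fun y => h1 (.inl y), fun v => h1 (.inr v), fun s hs => ?_, fun j hj => ?_,
    fun j hj => ?_⟩
  · have := h2 (gr_lk N S.eqs.length i s)
    rw [q4 i s hi hs] at this
    exact this
  · exact (hUQ.1.1 hU).1 i j hi (by omega)
  · exact (hUQ.2.1 hQ).1 i j hi (by omega)

theorem gu_linkG : StLinkG N R := by
  intro Y S e0 k hyp col hC z C i hi hadm inv y o hl
  have hl' : C.E.ls[i]? = some (.G inv y o) := by rw [← hl]; exact grw_get C hi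
  have h0 := hadm.link 0 (by omega)
  rw [grw_link_G0 hl'] at h0
  exact ((gu_linkG_iff hyp hC S.eqs.length z hi hl).1 h0).1

theorem gu_linkS : StLinkS N R := by
  intro Y S e0 k hyp col hC z C i hi hadm o A B hl
  have hl' : C.E.ls[i]? = some (.S o A B) := by rw [← hl]; exact grw_get C hi
  have h0 := hadm.link 0 (by omega)
  have h1 := hadm.link 1 (by omega)
  rw [grw_link_S0 hl'] at h0
  rw [grw_link_S1 hl'] at h1
  obtain ⟨a0, a1, a2, a3, -, a5⟩ :=
    (gu_unpackA Y S e0 k hyp col hC e0 S.eqs.length z hadm.new i o A B hi hl).1 h0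
  obtain ⟨b0, b1, b2, b3, -, b5⟩ :=
    (gu_unpackB Y S e0 k hyp col hC e0 S.eqs.length z hadm.new i o A B hi hl).1 h1
  exact ⟨a0, a1, a2, a3, b0, b1, b2, b3, a5, b5⟩

end Claimed.Agent.R236
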