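import Mathlib
import Claimed.Agent.R236.GReduceSt
import Claimed.Agent.R236.GLocG6
import Claimed.Agent.R236.GParDense
import Claimed.Agent.R236.GSoundF
import Claimed.Agent.R236.GSoundG
import Claimed.Agent.R236.GRegF
import Claimed.Agent.R236.GColorA
import Claimed.Agent.R236.GColorB
import Claimed.Agent.R236.GColorC
import Claimed.Agent.R236.GColorD
import Claimed.Agent.R236.GComplSt
import Claimed.Agent.R236.GComplK1
import Claimed.Agent.R236.GComplK2
import Claimed.Agent.R236.GComplK3
import Claimed.Agent.R236.GComplK3a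
import Claimed.Agent.R236.GComplK4
import Claimed.Agent.R236.GComplK5
import Claimed.Agent.R236.GComplK5m
import Claimed.Agent.R236.GComplK6
import Claimed.Agent.R236.GComplK7
import Claimed.Agent.R236.GComplK8
import Claimed.Agent.R236.GComplK9
import Claimed.Agent.R236.GComplK10
import Claimed.Agent.R236.GComplMid
import Claimed.Agent.R236.GNum
import Claimed.Agent.R236.GPresSwap
import Claimed.Agent.R236.GPres
import Claimed.Agent.R236.GLift
import Claimed.Agent.R236.GUnpackC

/-!
# Row 236: second level of the final assembly: `StReduceDense` (owner helper95, prefix fin_)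

Everything of the REDUCE chain which is proved is plugged in; the only open statement is `StLocS`.
-/

set_option autoImplicit false

namespace Claimed.Agent.R236

/-- `StReduceDense` from the local package of the swap, the only open statement of the REDUCE chain -/
theorem fin_reduceDense {N : ℕ} {R : Subring ℂ} (hLocS : StLocS N R) : StReduceDense N R := by
  have hEq : StUnpackEq := gu_unpackEq
  have hUQ : StUnpackUQ N R := gu_unpackUQ
  have hUn : StUnpackUn N R := gu_unpackUn
  have hG : StUnpackG N R := gu_unpackG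
  have hA : StUnpackA N R := gu_unpackA
  have hB : StUnpackB N R := gu_unpackB
  have hAdm : StLocAdm N R := gu_locAdm
  have hLoc : StLoc N R := gl_loc hUn hG hA hB
  have k1 := gk_k1 N R
  have k1b := gk_k1b N R
  have k3a : StK3a N R := gk_k3a k1 k1b
  have k3 : StK3 N R := gk_k3 k1 k1b k3a
  have k4 : StK4 N R := gk_k4 k1 k3
  have k5m : StK5m N R := gk_k5m k1 k1b k3 k4 (gk_midTri N) (gk_midNu N)
  have k2 : StK2 N R := gk_k2 k1 k1b k3 k5m (gps_swapNum N)
  have k5 : StK5 N R := gk_k5 k1b k2 k3 k5m gnm_gnum gnm_swapFrames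
  have k6 : StK6 N R := gk_k6 N R k1 k1b k2 k3 k5 gnm_swapFrames
  have k7 : StK7 N R := gk_k7 N R k1b k2 k3 k5 k6 hG hA hB hUn gnm_swapFrames gnm_gnum
  have k9 : StK9 N R := gk_k9 k1 k1b k2 k3 k4 k5 k6 k7 hLoc hEq hUQ
  have k10 : StK10 N R := gk_k10 k1 k1b k2 k3 k4 k5 k6 k7 hLoc
  exact gr_reduce_dense N R hLocS (glg_StLocG N R)
    (gsd_sound hEq hUQ hAdm hLoc (gc_StShInv N) (gc_StTriMul N) (gc_StGap N)
      (gc_StBDConj N) (gm_StRadConj N) gsd_XCorner)
    (grg_reg hEq hUQ hAdm hLoc (gc_StShInv N) (gc_StTriMul N) (gc_StGap N)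
      (gc_StBDConj N) (gm_StRadConj N) (gl_readG hG) (gl_readS hA hB))
    (gk_complete N R (gpr_StPres N) k2 k9 k10) (gpd_parDense N R)

end Claimed.Agent.R236
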