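/-
Row 236, package G-MAINSYS (owner helper162, prefix `mn_`): from Model G2 (`gs_`) to the flag varieties
`top_NSol`.  This file: the block function of a cut set and the interface statement `StMainSys`
(proved in `GMainSys*.lean`; consumers: `TopSort.lean` (helper188), closed step (helper148)).
-/
import Claimed.Agent.R236.GInduct
import Claimed.Agent.R236.TopDefs

set_option autoImplicit false

namespace Claimed.Agent.R236

/-- the index of the block of the position `p` for the cut set `K` -/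
def mn_blk (K : Finset ℕ) (p : ℕ) : ℕ := (K.filter fun c => 0 < c ∧ c ≤ p).card

theorem mn_blk_mono (K : Finset ℕ) : Monotone (mn_blk K) := fun _ _ h =>
  Finset.card_le_card fun _ hc =>
    Finset.mem_filter.mpr ⟨(Finset.mem_filter.mp hc).1, (Finset.mem_filter.mp hc).2.1,
      (Finset.mem_filter.mp hc).2.2.trans h⟩

theorem mn_blk_lt {K : Finset ℕ} {p q c : ℕ} (hc : c ∈ K) (hpc : p < c) (hcq : c ≤ q) :
    mn_blk K p < mn_blk K q := by
  refine Finset.card_lt_card ⟨fun d hd => ?_, fun h => ?_⟩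
  · exact Finset.mem_filter.mpr ⟨(Finset.mem_filter.mp hd).1, (Finset.mem_filter.mp hd).2.1,
      (Finset.mem_filter.mp hd).2.2.trans (hpc.le.trans hcq)⟩
  · have h1 : c ∈ K.filter fun c => 0 < c ∧ c ≤ q :=
      Finset.mem_filter.mpr ⟨hc, lt_of_le_of_lt (Nat.zero_le _) hpc, hcq⟩
    have h2 := (Finset.mem_filter.mp (h h1)).2.2
    omega

/-- **Interface of G-MAINSYS, monotone form**: for monotone block functions on `Fin n`. -/
def StMainMono (N : ℕ) (R : Subring ℂ) : Prop :=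
  ∀ n : ℕ, n ≤ N → ∀ (g s : ℕ) (blk : Fin s → Fin n → ℕ) (lam : Fin s → ℕ → ℂ),
    (∀ j, Monotone (blk j)) →
    (∀ j p, lam j (blk j p) ≠ 0 ∧ lam j (blk j p) ∈ R ∧ (lam j (blk j p))⁻¹ ∈ R) →
    ∃ (Y : Type) (S : gs_Sys Y), S.Good N R n ∧ ((∃ j p q, blk j p ≠ blk j q) → S.NoImp n) ∧
      (gs_Dense N R S →
        top_NSol g s blk lam ⊆ top_zcl (top_NSol g s blk lam ∩ {z | ∀ v, z v ∈ R}))

/-- **Interface of G-MAINSYS, cut set form.** -/
def StMainSys (N : ℕ) (R : Subring ℂ) : Prop :=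
  ∀ n : ℕ, n ≤ N → ∀ (g s : ℕ) (K : Fin s → Finset ℕ) (lam : Fin s → ℕ → ℂ),
    (∀ j (p : Fin n), lam j (mn_blk (K j) p) ≠ 0 ∧ lam j (mn_blk (K j) p) ∈ R ∧
      (lam j (mn_blk (K j) p))⁻¹ ∈ R) →
    ∃ (Y : Type) (S : gs_Sys Y), S.Good N R n ∧ ((∃ j, gs_Proper n (K j)) → S.NoImp n) ∧
      (gs_Dense N R S →
        top_NSol g s (fun j (p : Fin n) => mn_blk (K j) p) lam ⊆
          top_zcl (top_NSol g s (fun j (p : Fin n) => mn_blk (K j) p) lam ∩ {z | ∀ v, z v ∈ R}))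

theorem mn_mainSys_of_mono {N : ℕ} {R : Subring ℂ} (h : StMainMono N R) : StMainSys N R := by
  intro n hn g s K lam hlam
  obtain ⟨Y, S, h1, h2, h3⟩ := h n hn g s (fun j (p : Fin n) => mn_blk (K j) p) lam
    (fun j p q hpq => mn_blk_mono (K j) hpq) hlam
  refine ⟨Y, S, h1, fun ⟨j, c, hc, h0, hcn⟩ => h2 ⟨j, ⟨c - 1, by omega⟩, ⟨c, hcn⟩, ?_⟩, h3⟩
  exact (mn_blk_lt hc (by simp only; omega) le_rfl).ne

end Claimed.Agent.R236
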