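/-
Row 236, package G-MAINSYS (owner helper162, prefix `mn_`).  File 1: WORD CALCULUS for `gs_` words
(values, frames, typing and unipotent conditions along a word; concatenations indexed by `Fin s` with
running offsets).  General, independent of the main system.
-/
import Claimed.Agent.R236.MainDefs

set_option autoImplicit false

namespace Claimed.Agent.R236

variable {Y : Type} {N : ℕ}

/-! ### values -/

theorem mn_val_append (x : gs_Pt Y N) (e i : ℕ) (l₁ l₂ : List (gs_Letter Y)) :
    gs_val x e i (l₁ ++ l₂) = gs_val x e i l₁ * gs_val x e (i + l₁.length) l₂ := by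
  induction l₁ generalizing i with
  | nil => simp [gs_val]
  | cons l l₁ ih =>
    simp only [List.cons_append, gs_val, ih, List.length_cons, Matrix.mul_assoc]
    congr 4
    omega

/-! ### typing -/

/-- the frame after a word -/
def mn_fold (sig : Y → gs_Sig) (K : Finset ℕ) (ls : List (gs_Letter Y)) : Finset ℕ :=
  ls.foldl (gs_step sig) K

/-- a typed word starting at the frame `K` -/
def mn_Typed (sig : Y → gs_Sig) (n : ℕ) : Finset ℕ → List (gs_Letter Y) → Prop
  | _, [] => True
  | K, l :: ls => gs_app sig n K l ∧ mn_Typed sig n (gs_step sig K l) ls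

theorem mn_fold_append (sig : Y → gs_Sig) (K : Finset ℕ) (l₁ l₂ : List (gs_Letter Y)) :
    mn_fold sig K (l₁ ++ l₂) = mn_fold sig (mn_fold sig K l₁) l₂ := by
  simp [mn_fold, List.foldl_append]

theorem mn_typed_append (sig : Y → gs_Sig) (n : ℕ) (K : Finset ℕ) (l₁ l₂ : List (gs_Letter Y)) :
    mn_Typed sig n K (l₁ ++ l₂) ↔ mn_Typed sig n K l₁ ∧ mn_Typed sig n (mn_fold sig K l₁) l₂ := by
  induction l₁ generalizing K with
  | nil => simp [mn_Typed, mn_fold]
  | cons l l₁ ih =>
    simp only [List.cons_append, mn_Typed, ih, and_assoc]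
    rfl

theorem mn_frame_append (sig : Y → gs_Sig) (K : Finset ℕ) (l₁ l₂ : List (gs_Letter Y)) :
    gs_frame sig K (l₁ ++ l₂) l₁.length = mn_fold sig K l₁ := by
  simp [gs_frame, mn_fold]

theorem mn_frame_length (sig : Y → gs_Sig) (K : Finset ℕ) (ls : List (gs_Letter Y)) :
    gs_frame sig K ls ls.length = mn_fold sig K ls := by
  simp [gs_frame, mn_fold]

theorem mn_frame_cons (sig : Y → gs_Sig) (K : Finset ℕ) (l : gs_Letter Y)
    (ls : List (gs_Letter Y)) (i : ℕ) :
    gs_frame sig K (l :: ls) (i + 1) = gs_frame sig (gs_step sig K l) ls i := by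
  simp [gs_frame]

theorem mn_typed_app {sig : Y → gs_Sig} {n : ℕ} {K : Finset ℕ} {ls : List (gs_Letter Y)}
    (h : mn_Typed sig n K ls) (i : ℕ) (hi : i < ls.length) :
    gs_app sig n (gs_frame sig K ls i) ls[i] := by
  induction ls generalizing K i with
  | nil => simp at hi
  | cons l ls ih =>
    cases i with
    | zero => simpa [gs_frame] using h.1
    | succ i =>
      rw [mn_frame_cons]
      simpa using ih h.2 i (by simpa using hi)

/-! ### unipotent conditions -/

/-- the unipotents `(e,i), (e,i+1), ..` are unitriangular for the frames along the word -/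
def mn_UniOK (x : gs_Pt Y N) (e : ℕ) (sig : Y → gs_Sig) (n : ℕ) :
    Finset ℕ → ℕ → List (gs_Letter Y) → Prop
  | _, _, [] => True
  | K, i, l :: ls => gs_IsUni n (gs_step sig K l) (x (.inr (e, i))) ∧
      mn_UniOK x e sig n (gs_step sig K l) (i + 1) ls

theorem mn_uniOK_append (x : gs_Pt Y N) (e : ℕ) (sig : Y → gs_Sig) (n : ℕ) (K : Finset ℕ) (i : ℕ)
    (l₁ l₂ : List (gs_Letter Y)) :
    mn_UniOK x e sig n K i (l₁ ++ l₂) ↔ mn_UniOK x e sig n K i l₁ ∧
      mn_UniOK x e sig n (mn_fold sig K l₁) (i + l₁.length) l₂ := by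
  induction l₁ generalizing K i with
  | nil => simp [mn_UniOK, mn_fold]
  | cons l l₁ ih =>
    simp only [List.cons_append, mn_UniOK, ih, and_assoc, List.length_cons]
    have : i + 1 + l₁.length = i + (l₁.length + 1) := by omega
    rw [this]
    rfl

theorem mn_uniOK_iff (x : gs_Pt Y N) (e : ℕ) (sig : Y → gs_Sig) (n : ℕ) (K : Finset ℕ) (i₀ : ℕ)
    (ls : List (gs_Letter Y)) :
    mn_UniOK x e sig n K i₀ ls ↔
      ∀ i, i < ls.length → gs_IsUni n (gs_frame sig K ls (i + 1)) (x (.inr (e, i₀ + i))) := by
  induction ls generalizing K i₀ with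
  | nil => simp [mn_UniOK]
  | cons l ls ih =>
    simp only [mn_UniOK, ih, List.length_cons, mn_frame_cons]
    constructor
    · rintro ⟨h0, h1⟩ i hi
      cases i with
      | zero => simpa [gs_frame] using h0
      | succ i =>
        have := h1 i (by omega)
        rwa [show i₀ + 1 + i = i₀ + (i + 1) by omega] at this
    · intro h
      refine ⟨by simpa [gs_frame] using h 0 (by omega), fun i hi => ?_⟩
      have := h (i + 1) (by omega)
      rwa [show i₀ + (i + 1) = i₀ + 1 + i by omega] at this

/-! ### occurrences -/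

theorem mn_occL_append (inv : Bool) (l₁ l₂ : List (gs_Letter Y)) :
    gs_occL inv (l₁ ++ l₂) = gs_occL inv l₁ ++ gs_occL inv l₂ := by
  induction l₁ with
  | nil => rfl
  | cons l l₁ ih =>
    cases l with
    | G i y o =>
      simp only [List.cons_append, gs_occL]
      split_ifs <;> simp [ih]
    | S o a b => simpa [gs_occL] using ih
    | L lam => simpa [gs_occL] using ih

theorem mn_occL_flatMap {ι : Type} (inv : Bool) (l : List ι) (w : ι → List (gs_Letter Y)) :
    gs_occL inv (l.flatMap w) = l.flatMap fun a => gs_occL inv (w a) := by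
  induction l with
  | nil => rfl
  | cons a l ih => simp [List.flatMap_cons, mn_occL_append, ih]

theorem mn_mem_occL {inv : Bool} {y : Y} {ls : List (gs_Letter Y)} :
    y ∈ gs_occL inv ls ↔ ∃ o, gs_Letter.G inv y o ∈ ls := by
  induction ls with
  | nil => simp [gs_occL]
  | cons l ls ih =>
    cases l with
    | G i y' o' =>
      simp only [gs_occL]
      split_ifs with h
      · subst h
        simp only [List.mem_cons, ih, gs_Letter.G.injEq, true_and]
        constructor
        · rintro (rfl | ⟨o, ho⟩)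
          · exact ⟨o', Or.inl ⟨rfl, rfl⟩⟩
          · exact ⟨o, Or.inr ho⟩
        · rintro ⟨o, ⟨rfl, rfl⟩ | ho⟩
          · exact Or.inl rfl
          · exact Or.inr ⟨o, ho⟩
      · simp only [ih, List.mem_cons, gs_Letter.G.injEq]
        constructor
        · rintro ⟨o, ho⟩; exact ⟨o, Or.inr ho⟩
        · rintro ⟨o, ⟨h1, _⟩ | ho⟩
          · exact absurd h1.symm h
          · exact ⟨o, ho⟩
    | S o a b => simp [gs_occL, ih]
    | L lam => simp [gs_occL, ih]

/-! ### concatenations with running offsets -/

/-- running offsets -/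
def mn_off (len : ℕ → ℕ) (i₀ : ℕ) : ℕ → ℕ
  | 0 => i₀
  | k + 1 => mn_off len i₀ k + len k

theorem mn_off_shift (len : ℕ → ℕ) (i₀ k : ℕ) :
    mn_off (fun a => len (a + 1)) (i₀ + len 0) k = mn_off len i₀ (k + 1) := by
  induction k with
  | zero => rfl
  | succ k ih => simp only [mn_off] at ih ⊢; rw [ih]

theorem mn_off_add_le (len : ℕ → ℕ) (i₀ : ℕ) {j k : ℕ} (h : j < k) :
    mn_off len i₀ j + len j ≤ mn_off len i₀ k := by
  induction k with
  | zero => omega
  | succ k ih =>
    rcases Nat.lt_succ_iff_lt_or_eq.mp h with h' | rfl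
    · exact (ih h').trans (Nat.le_add_right _ _)
    · exact le_rfl

theorem mn_fold_flatMap {ι : Type} (sig : Y → gs_Sig) (K : Finset ℕ) (l : List ι)
    (w : ι → List (gs_Letter Y)) (hcl : ∀ a, mn_fold sig K (w a) = K) :
    mn_fold sig K (l.flatMap w) = K := by
  induction l with
  | nil => rfl
  | cons a l ih => rw [List.flatMap_cons, mn_fold_append, hcl, ih]

theorem mn_typed_flatMap {ι : Type} (sig : Y → gs_Sig) (n : ℕ) (K : Finset ℕ) (l : List ι)
    (w : ι → List (gs_Letter Y)) (hcl : ∀ a, mn_fold sig K (w a) = K)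
    (ht : ∀ a, mn_Typed sig n K (w a)) : mn_Typed sig n K (l.flatMap w) := by
  induction l with
  | nil => trivial
  | cons a l ih =>
    rw [List.flatMap_cons, mn_typed_append, hcl]
    exact ⟨ht a, ih⟩

theorem mn_length_flatMap (s : ℕ) (w : Fin s → List (gs_Letter Y)) (len : ℕ → ℕ)
    (hlen : ∀ j : Fin s, (w j).length = len j) (i₀ : ℕ) :
    i₀ + ((List.finRange s).flatMap w).length = mn_off len i₀ s := by
  induction s generalizing len i₀ with
  | zero => simp [mn_off]
  | succ s ih =>
    rw [List.finRange_succ, List.flatMap_cons, List.length_append, List.flatMap_map,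
      ← mn_off_shift, ← ih (fun j => w j.succ) (fun a => len (a + 1)) (fun j => hlen j.succ),
      hlen 0]
    simp only [Fin.val_zero]
    omega

theorem mn_val_flatMap (x : gs_Pt Y N) (e s : ℕ) (w : Fin s → List (gs_Letter Y)) (len : ℕ → ℕ)
    (hlen : ∀ j : Fin s, (w j).length = len j) (i₀ : ℕ) :
    gs_val x e i₀ ((List.finRange s).flatMap w)
      = ((List.finRange s).map fun j : Fin s => gs_val x e (mn_off len i₀ j) (w j)).prod := by
  induction s generalizing len i₀ with
  | zero => simp [gs_val]
  | succ s ih =>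
    rw [List.finRange_succ, List.flatMap_cons, mn_val_append, List.flatMap_map, List.map_cons,
      List.prod_cons, List.map_map, hlen 0,
      ih (fun j => w j.succ) (fun a => len (a + 1)) (fun j => hlen j.succ)]
    congr 2
    refine List.map_congr_left fun j _ => ?_
    simp only [Function.comp, Fin.val_succ, Fin.val_zero, mn_off_shift]

theorem mn_uniOK_flatMap (x : gs_Pt Y N) (e : ℕ) (sig : Y → gs_Sig) (n : ℕ) (K : Finset ℕ) (s : ℕ)
    (w : Fin s → List (gs_Letter Y)) (len : ℕ → ℕ) (hlen : ∀ j : Fin s, (w j).length = len j)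
    (hcl : ∀ j, mn_fold sig K (w j) = K) (i₀ : ℕ) :
    mn_UniOK x e sig n K i₀ ((List.finRange s).flatMap w) ↔
      ∀ j : Fin s, mn_UniOK x e sig n K (mn_off len i₀ j) (w j) := by
  induction s generalizing len i₀ with
  | zero => simp [mn_UniOK]
  | succ s ih =>
    rw [List.finRange_succ, List.flatMap_cons, mn_uniOK_append, List.flatMap_map, hcl 0, hlen 0,
      ih (fun j => w j.succ) (fun a => len (a + 1)) (fun j => hlen j.succ) (fun j => hcl j.succ),
      Fin.forall_fin_succ]
    simp only [Fin.val_succ, Fin.val_zero, mn_off_shift]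
    rfl

end Claimed.Agent.R236
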