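/-
Row 236, package G-MAINSYS (owner helper162, prefix `mn_`).  File 2: MATRIX API used by the main system:
unitriangular matrices (`gs_IsUni`), conjugation by a block, corner and extension maps between
`n × n` and `N × N` matrices, density bridge to `top_zcl`.
-/
import Claimed.Agent.R236.GMainWord
import Claimed.Agent.R236.GMat

set_option autoImplicit false

namespace Claimed.Agent.R236

open Matrix

variable {N : ℕ}

/-! ### unitriangular matrices -/

theorem mn_uni_one (n : ℕ) (K : Finset ℕ) : gs_IsUni n K (1 : gs_Mat N) :=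
  fun _ _ h => absurd rfl h

theorem mn_uni_mono {n : ℕ} {K K' : Finset ℕ} (h : K ⊆ K') {u : gs_Mat N} (hu : gs_IsUni n K u) :
    gs_IsUni n K' u := fun i j hij => by
  obtain ⟨h1, c, hc, h2⟩ := hu i j hij
  exact ⟨h1, c, h hc, h2⟩

theorem mn_uni_mul {n : ℕ} {K : Finset ℕ} {u v : gs_Mat N} (hu : gs_IsUni n K u)
    (hv : gs_IsUni n K v) : gs_IsUni n K (u * v) := by
  intro i j hij
  by_contra hP
  apply hij
  have key : ∀ k, u i k * v k j = (1 : gs_Mat N) i k * (1 : gs_Mat N) k j := by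
    intro k
    by_cases h1 : u i k = (1 : gs_Mat N) i k
    · by_cases h2 : v k j = (1 : gs_Mat N) k j
      · rw [h1, h2]
      · have hik : i ≠ k := by
          rintro rfl
          exact hP (hv i j h2)
        rw [h1, Matrix.one_apply_ne hik, zero_mul, zero_mul]
    · obtain ⟨hk, c, hc, hic, hck⟩ := hu i k h1
      by_cases h2 : v k j = (1 : gs_Mat N) k j
      · have hkj : k ≠ j := by
          rintro rfl
          exact hP ⟨hk, c, hc, hic, hck⟩
        rw [h2, Matrix.one_apply_ne hkj, mul_zero, mul_zero]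
      · obtain ⟨hj, c', _, hkc', hc'j⟩ := hv k j h2
        exact absurd ⟨hj, c, hc, hic, by omega⟩ hP
  rw [Matrix.mul_apply, Finset.sum_congr rfl fun k _ => key k, ← Matrix.mul_apply, Matrix.one_mul]

theorem mn_uni_corner {n : ℕ} {K : Finset ℕ} {u : gs_Mat N} (hu : gs_IsUni n K u) :
    gs_IsCorner n u := by
  intro i j hij
  by_contra h
  obtain ⟨h1, c, _, h2, h3⟩ := hu i j h
  omega

/-- no interior cut: the matrix is `1` -/
theorem mn_uni_eq_one {n : ℕ} {K : Finset ℕ} (hK : ∀ c ∈ K, c = 0 ∨ n ≤ c) {u : gs_Mat N}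
    (hu : gs_IsUni n K u) : u = 1 := by
  ext i j
  by_contra h
  obtain ⟨h1, c, hc, h2, h3⟩ := hu i j h
  rcases hK c hc with h4 | h4 <;> omega

/-- conjugation by a matrix respecting the blocks -/
theorem mn_uni_conj {n : ℕ} {K : Finset ℕ} {e' e u : gs_Mat N} (he : e' * e = 1)
    (h' : ∀ i a, e' i a ≠ 0 → ∀ c ∈ K, (a : ℕ) < c → (i : ℕ) < c)
    (h : ∀ b j, e b j ≠ 0 → (∀ c ∈ K, c ≤ (b : ℕ) → c ≤ (j : ℕ)) ∧ ((b : ℕ) < n → (j : ℕ) < n))
    (hu : gs_IsUni n K u) : gs_IsUni n K (e' * u * e) := by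
  intro i j hij
  have h1 : e' * u * e = 1 + e' * (u - 1) * e := by
    rw [Matrix.mul_sub, Matrix.mul_one, Matrix.sub_mul, he]; abel
  have h2 : (e' * (u - 1) * e) i j ≠ 0 := by
    intro h0
    apply hij
    rw [h1, Matrix.add_apply, h0, add_zero]
  rw [Matrix.mul_apply] at h2
  obtain ⟨b, _, hb⟩ := Finset.exists_ne_zero_of_sum_ne_zero h2
  have hb1 : (e' * (u - 1)) i b ≠ 0 := left_ne_zero_of_mul hb
  have hb2 : e b j ≠ 0 := right_ne_zero_of_mul hb
  rw [Matrix.mul_apply] at hb1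
  obtain ⟨a, _, ha⟩ := Finset.exists_ne_zero_of_sum_ne_zero hb1
  have ha1 : e' i a ≠ 0 := left_ne_zero_of_mul ha
  have ha2 : (u - 1) a b ≠ 0 := right_ne_zero_of_mul ha
  rw [Matrix.sub_apply, sub_ne_zero] at ha2
  obtain ⟨hbn, c, hc, hac, hcb⟩ := hu a b ha2
  exact ⟨(h b j hb2).2 hbn, c, hc, h' i a ha1 c hc hac, (h b j hb2).1 c hc hcb⟩

/-- support of an embedded corner matrix -/
theorem mn_emb_supp {o m : ℕ} {A : gs_Mat N} (hA : gs_IsCorner m A) {i j : Fin N}
    (h : gs_emb o A i j ≠ 0) : i = j ∨ (o ≤ (i : ℕ) ∧ o ≤ (j : ℕ) ∧ (i : ℕ) < o + m ∧ (j : ℕ) < o + m) := by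
  by_cases hij : i = j
  · exact Or.inl hij
  · right
    by_cases h1 : o ≤ (i : ℕ) ∧ o ≤ (j : ℕ)
    · refine ⟨h1.1, h1.2, ?_⟩
      by_contra h2
      apply h
      rw [gm_emb_corner o hA i j (by omega), Matrix.one_apply_ne hij]
    · exfalso; apply h
      rw [gs_emb, dif_neg h1, Matrix.one_apply_ne hij]

/-- conjugation of a unitriangular matrix by a matrix living on the last block `[o,n)` -/
theorem mn_uni_conj_emb {n o : ℕ} {K : Finset ℕ} (hon : o ≤ n) (hnN : n ≤ N)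
    (hK : ∀ d ∈ K, o < d → d < n → False) {h u : gs_Mat N} (hh : gs_IsCorner (n - o) h)
    (hdet : IsUnit h.det) (hu : gs_IsUni n K u) :
    gs_IsUni n K (gs_emb o h⁻¹ * u * gs_emb o h) := by
  have hinv : gs_IsCorner (n - o) h⁻¹ := gm_corner_inv hh hdet
  refine mn_uni_conj ?_ ?_ ?_ hu
  · rw [← gm_emb_mul hinv hh (by omega), Matrix.nonsing_inv_mul _ hdet, gm_emb_one]
  · intro i a hia c hc hac
    rcases mn_emb_supp hinv hia with rfl | ⟨h1, h2, h3, h4⟩
    · exact hac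
    · by_contra hic
      exact hK c hc (by omega) (by omega)
  · intro b j hbj
    rcases mn_emb_supp hh hbj with rfl | ⟨h1, h2, h3, h4⟩
    · exact ⟨fun _ _ h => h, fun h => h⟩
    · refine ⟨fun c hc hcb => ?_, fun _ => by omega⟩
      by_contra hcj
      exact hK c hc (by omega) (by omega)

/-! ### corner and extension -/

/-- the top left `n × n` corner -/
def mn_cor {n : ℕ} (h : n ≤ N) (M : gs_Mat N) : Matrix (Fin n) (Fin n) ℂ :=
  M.submatrix (Fin.castLE h) (Fin.castLE h)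

/-- extension by the identity -/
def mn_ext (N n : ℕ) (A : Matrix (Fin n) (Fin n) ℂ) : gs_Mat N := fun i j =>
  if h : (i : ℕ) < n ∧ (j : ℕ) < n then A ⟨i, h.1⟩ ⟨j, h.2⟩ else (1 : gs_Mat N) i j

section cor
variable {n : ℕ} (h : n ≤ N)

theorem mn_cor_apply (M : gs_Mat N) (p q : Fin n) :
    mn_cor h M p q = M (Fin.castLE h p) (Fin.castLE h q) := rfl

theorem mn_cor_one : mn_cor h (1 : gs_Mat N) = 1 := by
  ext p q
  rw [mn_cor_apply, Matrix.one_apply, Matrix.one_apply]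
  simp

theorem mn_cor_mul {A : gs_Mat N} (hA : gs_IsCorner n A) (B : gs_Mat N) :
    mn_cor h (A * B) = mn_cor h A * mn_cor h B := by
  ext p q
  rw [mn_cor_apply, Matrix.mul_apply, Matrix.mul_apply]
  symm
  refine Finset.sum_of_injOn (Fin.castLE h) (fun a _ b _ hab => Fin.castLE_injective h hab)
    (fun _ _ => Finset.mem_coe.mpr (Finset.mem_univ _)) ?_ (fun _ _ => rfl)
  intro k _ hk
  have hkn : n ≤ (k : ℕ) := by
    by_contra hlt
    exact hk ⟨⟨k, not_le.mp hlt⟩, Finset.mem_coe.mpr (Finset.mem_univ _), Fin.ext rfl⟩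
  have hne : Fin.castLE h p ≠ k := by
    intro he
    have := congrArg Fin.val he
    simp only [Fin.val_castLE] at this
    have := p.2
    omega
  rw [hA _ _ (Or.inr hkn), Matrix.one_apply_ne hne, zero_mul]

theorem mn_cor_list_prod {L : List (gs_Mat N)} (hL : ∀ M ∈ L, gs_IsCorner n M) :
    mn_cor h L.prod = (L.map (mn_cor h)).prod := by
  induction L with
  | nil => simpa using mn_cor_one h
  | cons M L ih =>
    rw [List.prod_cons, mn_cor_mul h (hL M (List.mem_cons_self ..)), List.map_cons, List.prod_cons,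
      ih fun M' hM' => hL M' (List.mem_cons_of_mem _ hM')]

theorem mn_ext_corner (A : Matrix (Fin n) (Fin n) ℂ) : gs_IsCorner n (mn_ext N n A) := by
  intro i j hij
  rw [mn_ext, dif_neg (by omega)]

theorem mn_cor_ext (A : Matrix (Fin n) (Fin n) ℂ) : mn_cor h (mn_ext N n A) = A := by
  ext p q
  rw [mn_cor_apply, mn_ext, dif_pos ⟨by simp, by simp⟩]
  rfl

theorem mn_ext_cor {M : gs_Mat N} (hM : gs_IsCorner n M) : mn_ext N n (mn_cor h M) = M := by
  ext i j
  by_cases hij : (i : ℕ) < n ∧ (j : ℕ) < n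
  · rw [mn_ext, dif_pos hij]; rfl
  · rw [mn_ext, dif_neg hij, hM i j (by omega)]

include h in
theorem mn_ext_mul (A B : Matrix (Fin n) (Fin n) ℂ) :
    mn_ext N n (A * B) = mn_ext N n A * mn_ext N n B := by
  rw [← mn_ext_cor h (gm_corner_mul (mn_ext_corner A) (mn_ext_corner B)),
    mn_cor_mul h (mn_ext_corner A), mn_cor_ext, mn_cor_ext]

include h in
theorem mn_ext_one : mn_ext N n (1 : Matrix (Fin n) (Fin n) ℂ) = 1 := by
  rw [← mn_cor_one h, mn_ext_cor h (gm_corner_one n)]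

include h in
theorem mn_ext_inv {A A' : Matrix (Fin n) (Fin n) ℂ} (hA : A * A' = 1) :
    IsUnit (mn_ext N n A).det ∧ (mn_ext N n A)⁻¹ = mn_ext N n A' := by
  have h1 : mn_ext N n A * mn_ext N n A' = 1 := by rw [← mn_ext_mul h, hA, mn_ext_one h]
  exact ⟨(Matrix.isUnit_iff_isUnit_det _).mp (IsUnit.of_mul_eq_one _ h1), Matrix.inv_eq_right_inv h1⟩

end cor

/-! ### from density in the sense of `Reg.lean` to `top_zcl` -/

theorem mn_regOn_eval {P : Type*} {κ : Type*} {ι : Type} {c : κ → P → ℂ} {S : Set P}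
    (π : P → ι → ℂ) (hreg : ∀ v, rg_RegOn ⊤ c S (fun x => π x v)) (Φ : MvPolynomial ι ℂ) :
    rg_RegOn ⊤ c S (fun x => MvPolynomial.eval (π x) Φ) := by
  induction Φ using MvPolynomial.induction_on with
  | C a => simpa using (rg_RegOn.const (Subring.mem_top a) : rg_RegOn ⊤ c S _)
  | add p q hp hq => simpa using hp.add hq
  | mul_X p v hp => simpa using hp.mul (hreg v)

theorem mn_zcl_of_dense {P : Type*} {κ : Type*} {ι : Type} {R : Subring ℂ} {c : κ → P → ℂ}
    {S : Set P} (hD : rg_Dense R c S) (T : Set (ι → ℂ)) (π : P → ι → ℂ)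
    (hreg : ∀ v, rg_RegOn R c S (fun x => π x v)) (hmaps : ∀ x ∈ S, π x ∈ T)
    (honto : ∀ z ∈ T, ∃ x ∈ S, π x = z) : T ⊆ top_zcl (T ∩ {z | ∀ v, z v ∈ R}) := by
  intro z hz Φ hΦ
  obtain ⟨x, hx, rfl⟩ := honto z hz
  exact hD.regOn (mn_regOn_eval π (fun v => (hreg v).mono le_top) Φ)
    (fun y hy hyR => hΦ _ ⟨hmaps y hy, fun v => (hreg v).mem hy hyR⟩) x hx

end Claimed.Agent.R236
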