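/-
Row 236, package G-MAINSYS (owner helper162, prefix `mn_`).  File 3: THE MAIN SYSTEM (one equation of
rank `n`: handles, then one nested word per puncture) and its syntax: frames, typing, occurrences,
well-formedness, `NoImp`.
-/
import Claimed.Agent.R236.GMainApi

set_option autoImplicit false

namespace Claimed.Agent.R236

/-- variables of the main system: handles `(i,true) = A_i`, `(i,false) = B_i`; `(j,o,c)` = the
splitter of the `j`-th puncture at offset `o` creating the cut `c` (`(j,0,0)` = the framing) -/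
abbrev mn_Y (g s : ℕ) : Type := (Fin g × Bool) ⊕ (Fin s × ℕ × ℕ)

variable {g s : ℕ}

/-- the nested word of a puncture -/
def mn_pw (g : ℕ) (j : Fin s) (lam : ℕ → ℂ) : ℕ → List ℕ → List (gs_Letter (mn_Y g s))
  | _, [] => [.L lam]
  | o, c :: cs =>
    .G false (.inr (j, o, c)) o :: (mn_pw g j lam c cs ++ [.G true (.inr (j, o, c)) o])

/-- the word of a handle -/
def mn_hw (s : ℕ) (i : Fin g) : List (gs_Letter (mn_Y g s)) :=
  [.G false (.inl (i, true)) 0, .G false (.inl (i, false)) 0, .G true (.inl (i, true)) 0,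
    .G true (.inl (i, false)) 0]

theorem mn_pw_length (j : Fin s) (lam : ℕ → ℂ) (o : ℕ) (cs : List ℕ) :
    (mn_pw g j lam o cs).length = 2 * cs.length + 1 := by
  induction cs generalizing o with
  | nil => rfl
  | cons c cs ih => simp only [mn_pw, List.length_cons, List.length_append, ih, List.length_nil]; omega

/-! ### frames of the nested word -/

/-- `[o,n)` is a block of the frame `K` -/
def mn_Free (K : Finset ℕ) (o n : ℕ) : Prop :=
  o ∈ K ∧ n ∈ K ∧ o ≤ n ∧ ∀ d ∈ K, o < d → d < n → False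

/-- the cuts are increasing and at most `n` -/
def mn_ChainOK (n : ℕ) : ℕ → List ℕ → Prop
  | _, [] => True
  | o, c :: cs => o ≤ c ∧ c ≤ n ∧ mn_ChainOK n c cs

/-- the signatures of the splitters are the nominal ones -/
def mn_SigOK (sig : mn_Y g s → gs_Sig) (j : Fin s) (n : ℕ) : ℕ → List ℕ → Prop
  | _, [] => True
  | o, c :: cs => sig (.inr (j, o, c)) = ⟨n - o, 0, c - o⟩ ∧ mn_SigOK sig j n c cs

theorem mn_step_open {K : Finset ℕ} {o c n : ℕ} (hK : mn_Free K o n) (hoc : o ≤ c) :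
    gs_cutRepl K o (n - o) (c - o) = insert c K := by
  obtain ⟨_, _, hon, hfree⟩ := hK
  rw [gs_cutRepl, Nat.add_sub_cancel' hoc, Nat.add_sub_cancel' hon]
  congr 1
  refine Finset.filter_true_of_mem fun d hd => ?_
  by_contra h
  exact hfree d hd (by omega) (by omega)

theorem mn_step_close {K : Finset ℕ} {o c n : ℕ} (hK : mn_Free K o n) (hoc : o ≤ c) (hcn : c ≤ n) :
    gs_cutRepl (insert c K) o (n - o) 0 = K := by
  obtain ⟨ho, hn, hon, hfree⟩ := hK
  rw [gs_cutRepl, Nat.add_sub_cancel' hon, add_zero]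
  ext d
  simp only [Finset.mem_insert, Finset.mem_filter]
  constructor
  · rintro (rfl | ⟨rfl | hd, h⟩)
    · exact ho
    · rcases h with h | h
      · rwa [le_antisymm h hoc]
      · rwa [le_antisymm hcn h]
    · exact hd
  · intro hd
    by_cases h : d = o
    · exact Or.inl h
    · refine Or.inr ⟨Or.inr hd, ?_⟩
      by_contra h'
      exact hfree d hd (by omega) (by omega)

theorem mn_free_insert {K : Finset ℕ} {o c n : ℕ} (hK : mn_Free K o n) (hoc : o ≤ c) (hcn : c ≤ n) :
    mn_Free (insert c K) c n := by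
  obtain ⟨_, hn, _, hfree⟩ := hK
  refine ⟨Finset.mem_insert_self _ _, Finset.mem_insert_of_mem hn, hcn, fun d hd h1 h2 => ?_⟩
  rcases Finset.mem_insert.mp hd with rfl | hd
  · omega
  · exact hfree d hd (by omega) h2

theorem mn_pw_fold {sig : mn_Y g s → gs_Sig} {j : Fin s} {lam : ℕ → ℂ} {n : ℕ} :
    ∀ (cs : List ℕ) (o : ℕ) (K : Finset ℕ), mn_Free K o n → mn_ChainOK n o cs →
      mn_SigOK sig j n o cs → mn_fold sig K (mn_pw g j lam o cs) = K := by
  intro cs
  induction cs with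
  | nil => intro o K _ _ _; rfl
  | cons c cs ih =>
    intro o K hK hc hs
    have h1 : gs_step sig K (.G false (.inr (j, o, c)) o) = insert c K := by
      simp only [gs_step, hs.1, gs_Sig.tgt]
      exact mn_step_open hK hc.1
    have h2 : gs_step sig (insert c K) (.G true (.inr (j, o, c)) o) = K := by
      simp only [gs_step, hs.1, gs_Sig.tgt]
      exact mn_step_close hK hc.1 hc.2.1
    show mn_fold sig (gs_step sig K _) (mn_pw g j lam c cs ++ _) = K
    rw [h1, mn_fold_append, ih c _ (mn_free_insert hK hc.1 hc.2.1) hc.2.2 hs.2]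
    exact h2

theorem mn_pw_typed {sig : mn_Y g s → gs_Sig} {j : Fin s} {lam : ℕ → ℂ} {n : ℕ}
    (hl1 : ∀ p, n ≤ p → lam p = 1) :
    ∀ (cs : List ℕ) (o : ℕ) (K : Finset ℕ), mn_Free K o n → mn_ChainOK n o cs →
      mn_SigOK sig j n o cs →
      (∀ p, p + 1 < n → p + 1 ∉ K → p + 1 ∉ cs → lam p = lam (p + 1)) →
      mn_Typed sig n K (mn_pw g j lam o cs) := by
  intro cs
  induction cs with
  | nil =>
    intro o K _ _ _ hl
    exact ⟨⟨fun p hp hpK => hl p hp hpK (by simp), hl1⟩, trivial⟩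
  | cons c cs ih =>
    intro o K hK hc hs hl
    have h1 : gs_step sig K (.G false (.inr (j, o, c)) o) = insert c K := by
      simp only [gs_step, hs.1, gs_Sig.tgt]
      exact mn_step_open hK hc.1
    have hK' := mn_free_insert hK hc.1 hc.2.1
    refine ⟨?_, ?_⟩
    · simp only [gs_app, hs.1, gs_Sig.src]
      obtain ⟨ho, hn, hon, hfree⟩ := hK
      refine ⟨ho, by simpa using ho, by rwa [Nat.add_sub_cancel' hon], Nat.zero_le _, ?_⟩
      intro d hd h3 h4
      exact absurd (hfree d hd h3 (by omega)) id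
    · rw [h1, mn_typed_append, mn_pw_fold cs c _ hK' hc.2.2 hs.2]
      refine ⟨ih c _ hK' hc.2.2 hs.2 fun p hp h3 h4 => hl p hp
        (fun h => h3 (Finset.mem_insert_of_mem h)) ?_, ?_, trivial⟩
      · intro h
        rcases List.mem_cons.mp h with h | h
        · exact h3 (h ▸ Finset.mem_insert_self _ _)
        · exact h4 h
      · simp only [gs_app, hs.1, gs_Sig.src, if_true]
        obtain ⟨ho, hn, hon, hfree⟩ := hK
        have hcn := hc.2.1
        refine ⟨Finset.mem_insert_of_mem ho, ?_, ?_, by omega, ?_⟩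
        · rw [Nat.add_sub_cancel' hc.1]; exact Finset.mem_insert_self _ _
        · rw [Nat.add_sub_cancel' hon]; exact Finset.mem_insert_of_mem hn
        · intro d hd h3 h4
          rw [Nat.add_sub_cancel' hc.1]
          rcases Finset.mem_insert.mp hd with h | hd
          · exact h
          · exact absurd (hfree d hd h3 (by omega)) id

/-- the unipotent conditions along the nested word -/
def mn_PUni {N : ℕ} (x : gs_Pt (mn_Y g s) N) (e n : ℕ) : Finset ℕ → ℕ → List ℕ → Prop
  | K, i, [] => gs_IsUni n K (x (.inr (e, i)))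
  | K, i, c :: cs => gs_IsUni n (insert c K) (x (.inr (e, i))) ∧
      mn_PUni x e n (insert c K) (i + 1) cs ∧
      gs_IsUni n K (x (.inr (e, i + 1 + (2 * cs.length + 1))))

theorem mn_pw_uniOK {N : ℕ} (x : gs_Pt (mn_Y g s) N) (e : ℕ) {sig : mn_Y g s → gs_Sig} {j : Fin s}
    {lam : ℕ → ℂ} {n : ℕ} :
    ∀ (cs : List ℕ) (o : ℕ) (K : Finset ℕ) (i : ℕ), mn_Free K o n → mn_ChainOK n o cs →
      mn_SigOK sig j n o cs →
      (mn_UniOK x e sig n K i (mn_pw g j lam o cs) ↔ mn_PUni x e n K i cs) := by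
  intro cs
  induction cs with
  | nil =>
    intro o K i _ _ _
    simp [mn_pw, mn_UniOK, mn_PUni, gs_step]
  | cons c cs ih =>
    intro o K i hK hc hs
    have h1 : gs_step sig K (.G false (.inr (j, o, c)) o) = insert c K := by
      simp only [gs_step, hs.1, gs_Sig.tgt]
      exact mn_step_open hK hc.1
    have h2 : gs_step sig (insert c K) (.G true (.inr (j, o, c)) o) = K := by
      simp only [gs_step, hs.1, gs_Sig.tgt]
      exact mn_step_close hK hc.1 hc.2.1
    have hK' := mn_free_insert hK hc.1 hc.2.1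
    simp only [mn_pw, mn_UniOK, mn_PUni]
    rw [h1, mn_uniOK_append, ih c _ (i + 1) hK' hc.2.2 hs.2, mn_pw_fold cs c _ hK' hc.2.2 hs.2,
      mn_pw_length]
    simp only [mn_UniOK, h2, and_true]

/-! ### occurrences -/

/-- the names of the splitters of a nested word -/
def mn_names (g : ℕ) (j : Fin s) : ℕ → List ℕ → List (mn_Y g s)
  | _, [] => []
  | o, c :: cs => .inr (j, o, c) :: mn_names g j c cs

theorem mn_pw_occ_false (j : Fin s) (lam : ℕ → ℂ) (o : ℕ) (cs : List ℕ) :
    gs_occL false (mn_pw g j lam o cs) = mn_names g j o cs := by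
  induction cs generalizing o with
  | nil => rfl
  | cons c cs ih => simp [mn_pw, gs_occL, mn_occL_append, ih, mn_names]

theorem mn_pw_occ_true (j : Fin s) (lam : ℕ → ℂ) (o : ℕ) (cs : List ℕ) :
    gs_occL true (mn_pw g j lam o cs) = (mn_names g j o cs).reverse := by
  induction cs generalizing o with
  | nil => rfl
  | cons c cs ih => simp [mn_pw, gs_occL, mn_occL_append, ih, mn_names]

theorem mn_mem_names {j : Fin s} {o : ℕ} {cs : List ℕ} {y : mn_Y g s}
    (h : y ∈ mn_names g j o cs) : ∃ o' c', y = .inr (j, o', c') ∧ c' ∈ cs := by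
  induction cs generalizing o with
  | nil => simp [mn_names] at h
  | cons c cs ih =>
    rcases List.mem_cons.mp h with rfl | h
    · exact ⟨o, c, rfl, List.mem_cons_self ..⟩
    · obtain ⟨o', c', h1, h2⟩ := ih h
      exact ⟨o', c', h1, List.mem_cons_of_mem _ h2⟩

theorem mn_names_nodup (j : Fin s) (o : ℕ) {cs : List ℕ} (h : cs.Pairwise (· < ·)) :
    (mn_names g j o cs).Nodup := by
  induction cs generalizing o with
  | nil => exact List.nodup_nil
  | cons c cs ih =>
    rw [List.pairwise_cons] at h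
    refine List.nodup_cons.mpr ⟨fun hm => ?_, ih c h.2⟩
    obtain ⟨o', c', h1, h2⟩ := mn_mem_names hm
    have h3 : c = c' := by
      have := Sum.inr.inj h1
      exact congrArg (fun t : Fin s × ℕ × ℕ => t.2.2) this
    exact absurd (h.1 c' h2) (by omega)

theorem mn_chainOK_of_pairwise {n : ℕ} {cs : List ℕ} (h : cs.Pairwise (· < ·))
    (hn : ∀ c ∈ cs, c ≤ n) (o : ℕ) (ho : ∀ c ∈ cs, o ≤ c) : mn_ChainOK n o cs := by
  induction cs generalizing o with
  | nil => trivial
  | cons c cs ih =>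
    rw [List.pairwise_cons] at h
    exact ⟨ho c (List.mem_cons_self ..), hn c (List.mem_cons_self ..),
      ih h.2 (fun d hd => hn d (List.mem_cons_of_mem _ hd)) c fun d hd => (h.1 d hd).le⟩

/-! ### the data of a puncture -/

variable {n : ℕ}

/-- extension of a block function to `ℕ` -/
def mn_bN (b : Fin n → ℕ) (p : ℕ) : ℕ := if h : p < n then b ⟨p, h⟩ else 0

/-- the interior cuts: the jumps of the block function -/
def mn_cuts (b : Fin n → ℕ) : List ℕ :=
  (List.range n).filter fun c => decide (0 < c ∧ mn_bN b (c - 1) < mn_bN b c)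

/-- the scalars of the `L` letter, indexed by positions -/
def mn_lamN (b : Fin n → ℕ) (lam : ℕ → ℂ) (p : ℕ) : ℂ := if h : p < n then lam (b ⟨p, h⟩) else 1

theorem mn_mem_cuts {b : Fin n → ℕ} {c : ℕ} :
    c ∈ mn_cuts b ↔ c < n ∧ 0 < c ∧ mn_bN b (c - 1) < mn_bN b c := by
  simp [mn_cuts]

theorem mn_cuts_pairwise (b : Fin n → ℕ) : (0 :: mn_cuts b).Pairwise (· < ·) := by
  rw [List.pairwise_cons]
  exact ⟨fun c hc => (mn_mem_cuts.mp hc).2.1, List.Pairwise.filter _ List.pairwise_lt_range⟩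

theorem mn_cuts_chainOK (b : Fin n → ℕ) : mn_ChainOK n 0 (0 :: mn_cuts b) :=
  mn_chainOK_of_pairwise (mn_cuts_pairwise b) (fun c hc => by
    rcases List.mem_cons.mp hc with rfl | hc
    · exact Nat.zero_le _
    · exact (mn_mem_cuts.mp hc).1.le) 0 fun _ _ => Nat.zero_le _

theorem mn_lamN_const {b : Fin n → ℕ} (hb : Monotone b) (lam : ℕ → ℂ) (p : ℕ) (hp : p + 1 < n)
    (hc : p + 1 ∉ mn_cuts b) : mn_lamN b lam p = mn_lamN b lam (p + 1) := by
  have h1 : ¬ mn_bN b p < mn_bN b (p + 1) := fun h =>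
    hc (mn_mem_cuts.mpr ⟨hp, Nat.succ_pos _, by simpa using h⟩)
  have hp' : p < n := by omega
  simp only [mn_bN, dif_pos hp, dif_pos hp'] at h1
  have h2 : b ⟨p, hp'⟩ ≤ b ⟨p + 1, hp⟩ := hb (Fin.mk_le_mk.mpr (Nat.le_succ p))
  simp only [mn_lamN, dif_pos hp, dif_pos hp']
  rw [le_antisymm h2 (not_lt.mp h1)]

/-! ### the system -/

/-- the letters of the main equation -/
def mn_ls (g s : ℕ) (blk : Fin s → Fin n → ℕ) (lam : Fin s → ℕ → ℂ) :
    List (gs_Letter (mn_Y g s)) :=
  (List.finRange g).flatMap (mn_hw s) ++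
    (List.finRange s).flatMap fun j => mn_pw g j (mn_lamN (blk j) (lam j)) 0 (0 :: mn_cuts (blk j))

open Classical in
/-- the signatures: nominal for the variables which occur, `0` for the others -/
noncomputable def mn_sig (n : ℕ) (ls : List (gs_Letter (mn_Y g s))) : mn_Y g s → gs_Sig
  | .inl _ => ⟨n, 0, 0⟩
  | .inr (j, o, c) =>
    if (Sum.inr (j, o, c) : mn_Y g s) ∈ gs_occL false ls ∧ c ≤ n then ⟨n - o, 0, c - o⟩
    else ⟨0, 0, 0⟩

/-- **the main system** -/
noncomputable def mn_sys (g s : ℕ) (blk : Fin s → Fin n → ℕ) (lam : Fin s → ℕ → ℂ) : gs_Sys (mn_Y g s) :=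
  ⟨mn_sig n (mn_ls g s blk lam), [⟨n, {0, n}, mn_ls g s blk lam⟩]⟩

theorem mn_free_base (n : ℕ) : mn_Free ({0, n} : Finset ℕ) 0 n := by
  refine ⟨by simp, by simp, Nat.zero_le _, fun d hd h1 h2 => ?_⟩
  simp only [Finset.mem_insert, Finset.mem_singleton] at hd
  omega

theorem mn_sigOK_of_sub {ls : List (gs_Letter (mn_Y g s))} {j : Fin s} :
    ∀ (cs : List ℕ) (o : ℕ), mn_ChainOK n o cs → (∀ y ∈ mn_names g j o cs, y ∈ gs_occL false ls) →
      mn_SigOK (mn_sig n ls) j n o cs := by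
  intro cs
  induction cs with
  | nil => intro _ _ _; trivial
  | cons c cs ih =>
    intro o hc hsub
    refine ⟨?_, ih c hc.2.2 fun y hy => hsub y (List.mem_cons_of_mem _ hy)⟩
    simp only [mn_sig]
    rw [if_pos ⟨hsub _ (List.mem_cons_self ..), hc.2.1⟩]

theorem mn_ls_occ (inv : Bool) (blk : Fin s → Fin n → ℕ) (lam : Fin s → ℕ → ℂ) :
    gs_occL inv (mn_ls g s blk lam) =
      ((List.finRange g).flatMap fun i => [(Sum.inl (i, true) : mn_Y g s), Sum.inl (i, false)]) ++
      (List.finRange s).flatMap fun j =>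
        gs_occL inv (mn_pw g j (mn_lamN (blk j) (lam j)) 0 (0 :: mn_cuts (blk j))) := by
  rw [mn_ls, mn_occL_append, mn_occL_flatMap, mn_occL_flatMap]
  congr 1
  refine List.flatMap_congr fun i _ => ?_
  cases inv <;> simp [mn_hw, gs_occL]

theorem mn_sys_sigOK (blk : Fin s → Fin n → ℕ) (lam : Fin s → ℕ → ℂ) (j : Fin s) :
    mn_SigOK (mn_sys g s blk lam).sig j n 0 (0 :: mn_cuts (blk j)) := by
  refine mn_sigOK_of_sub _ 0 (mn_cuts_chainOK _) fun y hy => ?_
  rw [mn_ls_occ]
  refine List.mem_append_right _ (List.mem_flatMap.mpr ⟨j, List.mem_finRange j, ?_⟩)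
  rwa [mn_pw_occ_false]

/-! ### handles -/

theorem mn_step_base (n : ℕ) : gs_cutRepl ({0, n} : Finset ℕ) 0 n 0 = {0, n} := by
  have := mn_step_close (mn_free_base n) (le_refl 0) (Nat.zero_le n)
  simpa using this

theorem mn_midOK_base (n : ℕ) : gs_midOK ({0, n} : Finset ℕ) 0 n 0 := by
  refine ⟨by simp, by simp, by simp, Nat.zero_le _, fun d hd h1 h2 => ?_⟩
  simp only [Finset.mem_insert, Finset.mem_singleton] at hd
  omega

theorem mn_hstep {sig : mn_Y g s → gs_Sig} (hsig : ∀ y, sig (.inl y) = ⟨n, 0, 0⟩) (inv : Bool)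
    (y : Fin g × Bool) : gs_step sig ({0, n} : Finset ℕ) (.G inv (.inl y) 0) = {0, n} := by
  simp only [gs_step, hsig, gs_Sig.tgt, ite_self]
  exact mn_step_base n

theorem mn_happ {sig : mn_Y g s → gs_Sig} (hsig : ∀ y, sig (.inl y) = ⟨n, 0, 0⟩) (inv : Bool)
    (y : Fin g × Bool) : gs_app sig n ({0, n} : Finset ℕ) (.G inv (.inl y) 0) := by
  simp only [gs_app, hsig, gs_Sig.src, ite_self]
  exact mn_midOK_base n

theorem mn_hw_fold {sig : mn_Y g s → gs_Sig} (hsig : ∀ y, sig (.inl y) = ⟨n, 0, 0⟩) (i : Fin g) :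
    mn_fold sig ({0, n} : Finset ℕ) (mn_hw s i) = {0, n} := by
  simp only [mn_fold, mn_hw, List.foldl_cons, List.foldl_nil, mn_hstep hsig]

theorem mn_hw_typed {sig : mn_Y g s → gs_Sig} (hsig : ∀ y, sig (.inl y) = ⟨n, 0, 0⟩) (i : Fin g) :
    mn_Typed sig n ({0, n} : Finset ℕ) (mn_hw s i) := by
  simp only [mn_hw, mn_Typed, mn_hstep hsig, mn_happ hsig, and_self]

theorem mn_hw_uniOK {N : ℕ} (x : gs_Pt (mn_Y g s) N) (e : ℕ) {sig : mn_Y g s → gs_Sig}
    (hsig : ∀ y, sig (.inl y) = ⟨n, 0, 0⟩) (i : Fin g) (i₀ : ℕ) :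
    mn_UniOK x e sig n ({0, n} : Finset ℕ) i₀ (mn_hw s i) ↔
      x (.inr (e, i₀)) = 1 ∧ x (.inr (e, i₀ + 1)) = 1 ∧ x (.inr (e, i₀ + 2)) = 1 ∧
        x (.inr (e, i₀ + 3)) = 1 := by
  have key : ∀ u : gs_Mat N, gs_IsUni n ({0, n} : Finset ℕ) u ↔ u = 1 := fun u =>
    ⟨fun h => mn_uni_eq_one (fun c hc => by
      simp only [Finset.mem_insert, Finset.mem_singleton] at hc
      omega) h, fun h => h ▸ mn_uni_one _ _⟩
  simp only [mn_hw, mn_UniOK, mn_hstep hsig, key, and_true, add_assoc]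
  norm_num

/-! ### the puncture words in the system -/

section sys
variable (blk : Fin s → Fin n → ℕ) (lam : Fin s → ℕ → ℂ)

/-- the word of the `j`-th puncture -/
abbrev mn_w (g : ℕ) (j : Fin s) : List (gs_Letter (mn_Y g s)) :=
  mn_pw g j (mn_lamN (blk j) (lam j)) 0 (0 :: mn_cuts (blk j))

theorem mn_sys_sig_inl (y : Fin g × Bool) : (mn_sys g s blk lam).sig (.inl y) = ⟨n, 0, 0⟩ := rfl

theorem mn_w_fold (j : Fin s) :
    mn_fold (mn_sys g s blk lam).sig ({0, n} : Finset ℕ) (mn_w blk lam g j) = {0, n} :=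
  mn_pw_fold _ 0 _ (mn_free_base n) (mn_cuts_chainOK _) (mn_sys_sigOK blk lam j)

theorem mn_w_typed (hb : ∀ j, Monotone (blk j)) (j : Fin s) :
    mn_Typed (mn_sys g s blk lam).sig n ({0, n} : Finset ℕ) (mn_w blk lam g j) := by
  refine mn_pw_typed (fun p hp => ?_) _ 0 _ (mn_free_base n) (mn_cuts_chainOK _)
    (mn_sys_sigOK blk lam j) fun p hp _ h2 => ?_
  · simp only [mn_lamN, dif_neg (not_lt.mpr hp)]
  · exact mn_lamN_const (hb j) _ p hp fun h => h2 (List.mem_cons_of_mem _ h)

theorem mn_ls_fold :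
    mn_fold (mn_sys g s blk lam).sig ({0, n} : Finset ℕ) (mn_ls g s blk lam) = {0, n} := by
  rw [mn_ls, mn_fold_append, mn_fold_flatMap _ _ _ _ (mn_hw_fold (mn_sys_sig_inl blk lam)),
    mn_fold_flatMap _ _ _ _ (mn_w_fold blk lam)]

theorem mn_ls_typed (hb : ∀ j, Monotone (blk j)) :
    mn_Typed (mn_sys g s blk lam).sig n ({0, n} : Finset ℕ) (mn_ls g s blk lam) := by
  rw [mn_ls, mn_typed_append, mn_fold_flatMap _ _ _ _ (mn_hw_fold (mn_sys_sig_inl blk lam))]
  exact ⟨mn_typed_flatMap _ _ _ _ _ (mn_hw_fold (mn_sys_sig_inl blk lam))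
      (mn_hw_typed (mn_sys_sig_inl blk lam)),
    mn_typed_flatMap _ _ _ _ _ (mn_w_fold blk lam) (mn_w_typed blk lam hb)⟩

theorem mn_mem_pw_L {j : Fin s} {l l' : ℕ → ℂ} {o : ℕ} {cs : List ℕ}
    (h : gs_Letter.L l' ∈ mn_pw g j l o cs) : l' = l := by
  induction cs generalizing o with
  | nil => simpa [mn_pw] using h
  | cons c cs ih =>
    simp only [mn_pw, List.mem_cons, List.mem_append, reduceCtorEq, List.not_mem_nil, or_false,
      false_or] at h
    exact ih h

theorem mn_sys_occ (inv : Bool) : (mn_sys g s blk lam).occ inv = gs_occL inv (mn_ls g s blk lam) := by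
  simp [gs_Sys.occ, mn_sys]

theorem mn_occ_nodup : (gs_occL false (mn_ls g s blk lam)).Nodup := by
  rw [mn_ls_occ]
  refine List.nodup_append.mpr ⟨?_, ?_, ?_⟩
  · refine List.nodup_flatMap.mpr ⟨fun i _ => by simp, ?_⟩
    refine (List.nodup_finRange g).imp fun {a b} hab => ?_
    intro y h1 h2
    simp only [List.mem_cons, List.not_mem_nil, or_false] at h1 h2
    rcases h1 with rfl | rfl <;> rcases h2 with h2 | h2 <;> simp at h2 <;> exact hab h2
  · refine List.nodup_flatMap.mpr ⟨fun j _ => ?_, ?_⟩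
    · rw [mn_pw_occ_false]
      exact mn_names_nodup j 0 (mn_cuts_pairwise _)
    · refine (List.nodup_finRange s).imp fun {a b} hab => ?_
      intro y h1 h2
      simp only [mn_pw_occ_false] at h1 h2
      obtain ⟨o1, c1, rfl, _⟩ := mn_mem_names h1
      obtain ⟨o2, c2, h3, _⟩ := mn_mem_names h2
      exact hab (congrArg (fun t : Fin s × ℕ × ℕ => t.1) (Sum.inr.inj h3))
  · intro y h1 z h2 hyz
    subst hyz
    obtain ⟨i, _, h3⟩ := List.mem_flatMap.mp h1
    obtain ⟨j, _, h4⟩ := List.mem_flatMap.mp h2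
    rw [mn_pw_occ_false] at h4
    obtain ⟨o2, c2, rfl, _⟩ := mn_mem_names h4
    simp at h3

theorem mn_occ_perm :
    (gs_occL false (mn_ls g s blk lam)).Perm (gs_occL true (mn_ls g s blk lam)) := by
  rw [mn_ls_occ, mn_ls_occ]
  refine List.Perm.append_left _ (List.Perm.flatMap_left _ fun j _ => ?_)
  rw [mn_pw_occ_false, mn_pw_occ_true]
  exact (List.reverse_perm _).symm

/-- **the main system is well formed** -/
theorem mn_sys_wf {N : ℕ} {R : Subring ℂ} (hnN : n ≤ N) (hb : ∀ j, Monotone (blk j))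
    (hlam : ∀ j p, lam j (blk j p) ≠ 0 ∧ lam j (blk j p) ∈ R ∧ (lam j (blk j p))⁻¹ ∈ R) :
    (mn_sys g s blk lam).WF N R where
  sig_s := by
    rintro (y | ⟨j, o, c⟩)
    · exact Nat.zero_le _
    · simp only [mn_sys, mn_sig]
      split_ifs <;> exact Nat.zero_le _
  sig_t := by
    rintro (y | ⟨j, o, c⟩)
    · exact Nat.zero_le _
    · simp only [mn_sys, mn_sig]
      split_ifs with h
      · have := h.2
        simp only
        omega
      · exact le_rfl
  eqn := by
    intro E hE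
    have hE' : E = ⟨n, {0, n}, mn_ls g s blk lam⟩ := by simpa [mn_sys] using hE
    subst hE'
    refine ⟨hnN, by simp, by simp, ?_, fun i hi => mn_typed_app (mn_ls_typed blk lam hb) i hi, ?_, ?_⟩
    · intro d hd
      simp only [Finset.mem_insert, Finset.mem_singleton] at hd
      rcases hd with rfl | rfl
      · exact Nat.zero_le _
      · exact le_rfl
    · exact (mn_frame_length _ _ _).trans (mn_ls_fold blk lam)
    · intro l hl p
      have hl' : gs_Letter.L l ∈ mn_ls g s blk lam := hl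
      rw [mn_ls, List.mem_append] at hl'
      rcases hl' with h | h
      · obtain ⟨i, _, h⟩ := List.mem_flatMap.mp h
        simp [mn_hw] at h
      · obtain ⟨j, _, h⟩ := List.mem_flatMap.mp h
        rw [mn_mem_pw_L h]
        by_cases hp : p < n
        · simp only [mn_lamN, dif_pos hp]
          exact hlam j ⟨p, hp⟩
        · simp only [mn_lamN, dif_neg hp]
          exact ⟨one_ne_zero, R.one_mem, by simp⟩
  nodup := by rw [mn_sys_occ]; exact mn_occ_nodup blk lam
  perm := by rw [mn_sys_occ, mn_sys_occ]; exact mn_occ_perm blk lam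
  rk0 := by
    rintro (y | ⟨j, o, c⟩) hy
    · exfalso
      apply hy
      rw [mn_sys_occ, mn_ls_occ]
      refine List.mem_append_left _ (List.mem_flatMap.mpr ⟨y.1, List.mem_finRange _, ?_⟩)
      obtain ⟨i, b⟩ := y
      cases b <;> simp
    · rw [mn_sys_occ] at hy
      simp only [mn_sys, mn_sig]
      rw [if_neg fun h => hy h.1]

theorem mn_sys_good {N : ℕ} {R : Subring ℂ} (hnN : n ≤ N) (hb : ∀ j, Monotone (blk j))
    (hlam : ∀ j p, lam j (blk j p) ≠ 0 ∧ lam j (blk j p) ∈ R ∧ (lam j (blk j p))⁻¹ ∈ R) :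
    (mn_sys g s blk lam).Good N R n :=
  ⟨mn_sys_wf blk lam hnN hb hlam, fun E hE => by
    have hE' : E = ⟨n, {0, n}, mn_ls g s blk lam⟩ := by simpa [mn_sys] using hE
    rw [hE']⟩

theorem mn_bN_le_of_no_cut (b : Fin n → ℕ) (p : ℕ) :
    ∀ k, p + k < n → (∀ c, p < c → c ≤ p + k → c ∉ mn_cuts b) → mn_bN b (p + k) ≤ mn_bN b p := by
  intro k
  induction k with
  | zero => intro _ _; exact le_rfl
  | succ k ih =>
    intro hk hc
    have h1 := ih (by omega) fun c h1 h2 => hc c h1 (by omega)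
    have h2 : ¬ mn_bN b (p + (k + 1) - 1) < mn_bN b (p + (k + 1)) := fun h =>
      hc (p + (k + 1)) (by omega) le_rfl (mn_mem_cuts.mpr ⟨hk, by omega, h⟩)
    have h3 : p + (k + 1) - 1 = p + k := by omega
    rw [h3] at h2
    omega

theorem mn_cuts_ne_nil {b : Fin n → ℕ} (hb : Monotone b) (h : ∃ p q, b p ≠ b q) :
    mn_cuts b ≠ [] := by
  intro h0
  have key : ∀ p q : Fin n, p ≤ q → b q ≤ b p := by
    intro p q hpq
    obtain ⟨k, hk⟩ := Nat.exists_eq_add_of_le (Fin.le_def.mp hpq)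
    have := mn_bN_le_of_no_cut b p k (by rw [← hk]; exact q.2) fun c _ _ => by rw [h0]; simp
    rw [← hk] at this
    simpa [mn_bN] using this
  obtain ⟨p, q, hpq⟩ := h
  rcases le_total p q with h1 | h1
  · exact hpq (le_antisymm (hb h1) (key p q h1))
  · exact hpq (le_antisymm (key q p h1) (hb h1))

/-- **the main system has a proper frame** as soon as one block function is not constant -/
theorem mn_sys_noImp (hb : ∀ j, Monotone (blk j)) (h : ∃ j p q, blk j p ≠ blk j q) :
    (mn_sys g s blk lam).NoImp n := by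
  intro E hE _ hImp
  have hE' : E = ⟨n, {0, n}, mn_ls g s blk lam⟩ := by simpa [mn_sys] using hE
  subst hE'
  obtain ⟨j, hj⟩ := h
  obtain ⟨c, cs, hcs⟩ := List.exists_cons_of_ne_nil (mn_cuts_ne_nil (hb j) hj)
  have hc : c ∈ mn_cuts (blk j) := by rw [hcs]; exact List.mem_cons_self ..
  obtain ⟨hcn, hc0, _⟩ := mn_mem_cuts.mp hc
  obtain ⟨a, b, hab⟩ := List.mem_iff_append.mp (List.mem_finRange j)
  have hS := mn_sys_sigOK (g := g) blk lam j
  rw [hcs] at hS
  obtain ⟨sig, hsig⟩ : ∃ sig, sig = (mn_sys g s blk lam).sig := ⟨_, rfl⟩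
  rw [← hsig] at hS
  -- the prefix
  obtain ⟨P, hP⟩ : ∃ P : List (gs_Letter (mn_Y g s)), P = (List.finRange g).flatMap (mn_hw s) ++
    a.flatMap (fun j => mn_w blk lam g j) ++
    [.G false (.inr (j, 0, 0)) 0, .G false (.inr (j, 0, c)) 0] := ⟨_, rfl⟩
  obtain ⟨Q, hQ⟩ : ∃ Q, mn_ls g s blk lam = P ++ Q := by
    refine ⟨mn_pw g j (mn_lamN (blk j) (lam j)) c cs ++ [.G true (.inr (j, 0, c)) 0] ++
      [.G true (.inr (j, 0, 0)) 0] ++ b.flatMap (fun j => mn_w blk lam g j), ?_⟩
    rw [mn_ls, hab, List.flatMap_append, List.flatMap_cons, hP]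
    simp only [mn_w, hcs, mn_pw, List.append_assoc, List.cons_append, List.nil_append]
  have hfold : mn_fold sig ({0, n} : Finset ℕ) P = insert c (insert 0 {0, n}) := by
    rw [hP, mn_fold_append, mn_fold_append, hsig,
      mn_fold_flatMap _ _ _ _ (mn_hw_fold (mn_sys_sig_inl blk lam)),
      mn_fold_flatMap _ _ _ _ (mn_w_fold blk lam), ← hsig]
    have h1 : gs_step sig ({0, n} : Finset ℕ) (.G false (.inr (j, 0, 0)) 0) = insert 0 {0, n} := by
      simp only [gs_step, hS.1, gs_Sig.tgt]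
      exact mn_step_open (mn_free_base n) le_rfl
    have h2 : gs_step sig (insert 0 ({0, n} : Finset ℕ)) (.G false (.inr (j, 0, c)) 0)
        = insert c (insert 0 {0, n}) := by
      simp only [gs_step, hS.2.1, gs_Sig.tgt]
      exact mn_step_open (mn_free_insert (mn_free_base n) le_rfl (Nat.zero_le n)) (Nat.zero_le c)
    simp only [mn_fold, List.foldl_cons, List.foldl_nil, h1, h2]
  refine hImp P.length ?_ ⟨c, ?_, hc0, hcn⟩
  · show P.length ≤ (mn_ls g s blk lam).length
    rw [hQ, List.length_append]; exact Nat.le_add_right _ _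
  · show c ∈ gs_frame (mn_sys g s blk lam).sig {0, n} (mn_ls g s blk lam) P.length
    rw [hQ, mn_frame_append, ← hsig, hfold]
    exact Finset.mem_insert_self _ _

end sys

end Claimed.Agent.R236
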