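import Mathlib
import Claimed.Agent.R236.GWord
import Claimed.Agent.R236.GMat

/-!
# Row 236, Model G2: the word library, matrix part (owner helper120, prefix `gw_`).  No sorry.

* `gw_uni_zero_iff`, `gw_uni_corner`, `gw_swapMat_corner`, `gw_diag_corner`;
* `gw_Uni sig n x e i K ls` : the unipotents `x (inr (e, i)), x (inr (e, i+1)), …` along the word `ls` started at the frame `K`
  are unitriangular for the frames after the letters (it is a `gw_All`, so `gw_all_append`, `gw_all_congr` … apply);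
* `gw_VarOK sig x` : the variables are invertible corner matrices;
* `gw_mem_sol_iff` : recursive form of `gs_Sol`;
* `gw_lmat_corner`, `gw_val_corner` : the value of a typed word of rank `n` is a corner matrix of rank `n`;
* `gw_emb_reg`, `gw_lmat_reg`, `gw_val_reg`, `gw_val_reg_id` : the value of a word is a regular function.
-/

set_option autoImplicit false

namespace Claimed.Agent.R236

open Matrix

section
variable {Y : Type} {N : ℕ}

theorem gw_uni_zero_iff {K : Finset ℕ} {u : gs_Mat N} : gs_IsUni 0 K u ↔ u = 1 := by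
  constructor
  · intro h
    ext i j
    by_contra hne
    exact absurd (h i j hne).1 (by omega)
  · rintro rfl i j h
    exact absurd rfl h

theorem gw_uni_corner {n : ℕ} {K : Finset ℕ} {u : gs_Mat N} (h : gs_IsUni n K u) : gs_IsCorner n u := by
  intro i j hij
  by_contra hne
  obtain ⟨h1, c, -, h2, h3⟩ := h i j hne
  omega

theorem gw_swapMat_corner (o a b : ℕ) : gs_IsCorner (o + a + b) (gs_swapMat o a b : gs_Mat N) := by
  intro i j hij
  simp only [gs_swapMat, gs_swapFn, Matrix.one_apply, Fin.ext_iff]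
  split_ifs <;> first | rfl | omega

theorem gw_diag_corner {n : ℕ} {lam : ℕ → ℂ} (h : ∀ j, n ≤ j → lam j = 1) :
    gs_IsCorner n (Matrix.diagonal fun j : Fin N => lam j) := by
  intro i j hij
  by_cases hi : i = j
  · subst hi
    simp [h i (by omega)]
  · simp [Matrix.diagonal_apply_ne _ hi, Matrix.one_apply_ne hi]

/-- the unipotents along a word -/
def gw_Uni (sig : Y → gs_Sig) (n : ℕ) (x : gs_Pt Y N) (e : ℕ) :
    ℕ → Finset ℕ → List (gs_Letter Y) → Prop :=
  gw_All sig (fun r K l => gs_IsUni n (gs_step sig K l) (x (.inr (e, r))))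

/-- the variables are invertible corner matrices -/
def gw_VarOK (sig : Y → gs_Sig) (x : gs_Pt Y N) : Prop :=
  ∀ y, IsUnit (x (.inl y)).det ∧ gs_IsCorner (sig y).rk (x (.inl y))

/-- recursive form of `gs_Sol` -/
theorem gw_mem_sol_iff (S : gs_Sys Y) (x : gs_Pt Y N) :
    x ∈ gs_Sol N S ↔ gw_VarOK S.sig x ∧ ∀ e,
      gw_Uni S.sig (S.eq e).rk x e 0 (S.eq e).K0 (S.eq e).ls ∧
      (∀ i, (S.eq e).ls.length ≤ i → x (.inr (e, i)) = 1) ∧ gs_val x e 0 (S.eq e).ls = 1 := by
  have key : ∀ e, (∀ i, gs_IsUni (S.urk e i) (S.frame e (i + 1)) (x (.inr (e, i)))) ↔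
      (gw_Uni S.sig (S.eq e).rk x e 0 (S.eq e).K0 (S.eq e).ls ∧
        ∀ i, (S.eq e).ls.length ≤ i → x (.inr (e, i)) = 1) := by
    intro e
    rw [gw_Uni, gw_all_iff]
    constructor
    · intro h
      refine ⟨fun r hr => ?_, fun i hi => ?_⟩
      · have := h r
        rw [gs_Sys.urk, if_pos hr, gs_Sys.frame, gw_frame_succ _ _ hr] at this
        simpa using this
      · have := h i
        rw [gs_Sys.urk, if_neg (by omega), gw_uni_zero_iff] at this
        exact this
    · rintro ⟨h1, h2⟩ i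
      by_cases hi : i < (S.eq e).ls.length
      · rw [gs_Sys.urk, if_pos hi, gs_Sys.frame, gw_frame_succ _ _ hi]
        simpa using h1 i hi
      · rw [gs_Sys.urk, if_neg hi, gw_uni_zero_iff]
        exact h2 i (by omega)
  constructor
  · rintro ⟨h1, h2, h3⟩
    exact ⟨h1, fun e => ⟨((key e).1 (h2 e)).1, ((key e).1 (h2 e)).2, h3 e⟩⟩
  · rintro ⟨h1, h2⟩
    exact ⟨h1, fun e => (key e).2 ⟨(h2 e).1, (h2 e).2.1⟩, fun e => (h2 e).2.2⟩

variable {sig : Y → gs_Sig}

/-- the matrix of a typed letter is a corner matrix -/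
theorem gw_lmat_corner {x : gs_Pt Y N} {n : ℕ} {K : Finset ℕ} {l : gs_Letter Y}
    (hx : ∀ inv z o, l = .G inv z o → IsUnit (x (.inl z)).det ∧ gs_IsCorner (sig z).rk (x (.inl z)))
    (hK : gw_Fr n K) (h : gs_app sig n K l) : gs_IsCorner n (gs_lmat x l) := by
  cases l with
  | G inv z o =>
    have hle : o + (sig z).rk ≤ n := hK.2.2 _ h.2.2.1
    obtain ⟨h1, h2⟩ := hx inv z o rfl
    cases inv
    · exact gm_corner_mono hle (gm_emb_corner o h2)
    · exact gm_corner_mono hle (gm_emb_corner o (gm_corner_inv h2 h1))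
  | S o a b =>
    have hle : o + (a + b) ≤ n := hK.2.2 _ h.2.2.1
    exact gm_corner_mono (by omega) (gw_swapMat_corner o a b)
  | L lam => exact gw_diag_corner h.2

/-- the value of a typed word is a corner matrix -/
theorem gw_val_corner (hs : gw_SigOK sig) {x : gs_Pt Y N} {n e : ℕ} {ls : List (gs_Letter Y)}
    (hx : ∀ inv z o, .G inv z o ∈ ls → IsUnit (x (.inl z)).det ∧ gs_IsCorner (sig z).rk (x (.inl z)))
    {i : ℕ} {K K' : Finset ℕ} (hK : gw_Fr n K) (ht : gw_Typed sig n K ls K')
    (hu : gw_Uni sig n x e i K ls) : gs_IsCorner n (gs_val x e i ls) := by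
  induction ls generalizing i K with
  | nil => exact gm_corner_one n
  | cons l ls ih =>
    rw [gw_typed_cons] at ht
    rw [gw_Uni, gw_all_cons] at hu
    rw [gw_val_cons]
    refine gm_corner_mul (gm_corner_mul (gw_lmat_corner (fun inv z o hl => hx inv z o
      (hl ▸ List.mem_cons_self ..)) hK ht.1) (gw_uni_corner hu.1)) ?_
    exact ih (fun inv z o hl => hx inv z o (List.mem_cons_of_mem _ hl)) (gw_fr_step hs hK ht.1) ht.2 hu.2

/-! ### regularity -/

section reg
universe u v
variable {P : Type u} {κ : Type v} {R : Subring ℂ} {c : κ → P → ℂ} {S : Set P}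

theorem gw_emb_reg (o : ℕ) {f : P → gs_Mat N} (hf : rg_MatOn R c S f) :
    rg_MatOn R c S (fun p => gs_emb o (f p)) := by
  intro i j
  by_cases h : o ≤ (i : ℕ) ∧ o ≤ (j : ℕ)
  · simp only [gs_emb, h, and_self, dite_true]
    exact hf _ _
  · simp only [gs_emb, h, dite_false]
    exact (rg_MatOn.one (R := R) (c := c) (S := S) (n := Fin N)) i j

theorem gw_swapMat_mem (R : Subring ℂ) (o a b : ℕ) (i j : Fin N) :
    (gs_swapMat o a b : gs_Mat N) i j ∈ R := by
  simp only [gs_swapMat]
  split_ifs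
  · exact R.one_mem
  · exact R.zero_mem

/-- the matrix of a letter is regular -/
theorem gw_lmat_reg (Φ : P → gs_Pt Y N) (l : gs_Letter Y)
    (h1 : ∀ inv z o, l = .G inv z o → rg_MatOn R c S (fun p => Φ p (.inl z)) ∧
      rg_MatOn R c S (fun p => (Φ p (.inl z))⁻¹))
    (h2 : ∀ lam, l = .L lam → ∀ j, lam j ∈ R) : rg_MatOn R c S (fun p => gs_lmat (Φ p) l) := by
  cases l with
  | G inv z o =>
    cases inv
    · exact gw_emb_reg o (h1 false z o rfl).1
    · exact gw_emb_reg o (h1 true z o rfl).2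
  | S o a b => exact rg_MatOn.const (gw_swapMat_mem R o a b)
  | L lam => exact rg_MatOn.diagonal fun a => rg_RegOn.const (h2 lam rfl a)

/-- the value of a word is regular -/
theorem gw_val_reg (Φ : P → gs_Pt Y N) (e i : ℕ) (ls : List (gs_Letter Y))
    (h1 : ∀ inv z o, .G inv z o ∈ ls → rg_MatOn R c S (fun p => Φ p (.inl z)) ∧
      rg_MatOn R c S (fun p => (Φ p (.inl z))⁻¹))
    (h2 : ∀ lam, .L lam ∈ ls → ∀ j, lam j ∈ R)
    (h3 : ∀ r, r < ls.length → rg_MatOn R c S (fun p => Φ p (.inr (e, i + r)))) :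
    rg_MatOn R c S (fun p => gs_val (Φ p) e i ls) := by
  induction ls generalizing i with
  | nil => exact rg_MatOn.one
  | cons l ls ih =>
    simp only [gw_val_cons]
    refine ((gw_lmat_reg Φ l (fun inv z o hl => h1 inv z o (hl ▸ List.mem_cons_self ..))
      (fun lam hl => h2 lam (hl ▸ List.mem_cons_self ..))).mul (by simpa using h3 0 (by simp))).mul ?_
    refine ih (i + 1) (fun inv z o hl => h1 inv z o (List.mem_cons_of_mem _ hl))
      (fun lam hl => h2 lam (List.mem_cons_of_mem _ hl)) (fun r hr => ?_)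
    have := h3 (r + 1) (by simpa using hr)
    have e1 : i + (r + 1) = i + 1 + r := by omega
    rwa [e1] at this

/-- the value of a word is regular in the coordinates of the points -/
theorem gw_val_reg_id {S : Set (gs_Pt Y N)} (e i : ℕ) (ls : List (gs_Letter Y))
    (h2 : ∀ lam, .L lam ∈ ls → ∀ j, lam j ∈ R) :
    rg_MatOn R (rg_matCoord (Y ⊕ ℕ × ℕ) (Fin N)) S (fun x => gs_val x e i ls) :=
  gw_val_reg (fun x => x) e i ls (fun _ _ _ _ => ⟨rg_matCoord_mat _, rg_matCoord_inv _⟩) h2
    (fun _ _ => rg_matCoord_mat _)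

end reg

end

end Claimed.Agent.R236
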