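/-
Row 236, package G-MAINSYS (owner helper162, prefix `mn_`).  File 4: SEMANTICS of a nested puncture word:
its value is conjugate (by the explicit product `mn_left` of splitters and unipotents) to
`diagonal * unitriangular`.
-/
import Claimed.Agent.R236.GMainSys
import Claimed.Agent.R236.GMatUni
import Claimed.Agent.R236.GWordMat

set_option autoImplicit false

namespace Claimed.Agent.R236

open Matrix

variable {g s N : ℕ}

/-- the product of the opening letters and their unipotents -/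
noncomputable def mn_left (x : gs_Pt (mn_Y g s) N) (j : Fin s) : ℕ → ℕ → List ℕ → gs_Mat N
  | _, _, [] => 1
  | i, o, c :: cs =>
    gs_emb o (x (.inl (.inr (j, o, c)))) * x (.inr (0, i)) * mn_left x j (i + 1) c cs

/-- its inverse -/
noncomputable def mn_leftInv (x : gs_Pt (mn_Y g s) N) (j : Fin s) : ℕ → ℕ → List ℕ → gs_Mat N
  | _, _, [] => 1
  | i, o, c :: cs =>
    mn_leftInv x j (i + 1) c cs * (x (.inr (0, i)))⁻¹ * gs_emb o (x (.inl (.inr (j, o, c))))⁻¹

section sem
variable {n : ℕ} {x : gs_Pt (mn_Y g s) N} {sig : mn_Y g s → gs_Sig} {j : Fin s}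

theorem mn_emb_mul_inv {o m : ℕ} {h : gs_Mat N} (hh : gs_IsCorner m h) (hdet : IsUnit h.det)
    (hom : o + m ≤ N) : gs_emb o h * gs_emb o h⁻¹ = 1 ∧ gs_emb o h⁻¹ * gs_emb o h = 1 := by
  have hinv : gs_IsCorner m h⁻¹ := gm_corner_inv hh hdet
  constructor
  · rw [← gm_emb_mul hh hinv hom, Matrix.mul_nonsing_inv _ hdet, gm_emb_one]
  · rw [← gm_emb_mul hinv hh hom, Matrix.nonsing_inv_mul _ hdet, gm_emb_one]

/-- **the value of a nested word** -/
theorem mn_pw_sem (hnN : n ≤ N) (hv : gw_VarOK sig x) (lam : ℕ → ℂ) {Kinf : Finset ℕ} :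
    ∀ (cs : List ℕ) (o : ℕ) (K : Finset ℕ) (i : ℕ) (w : gs_Mat N), mn_Free K o n →
      mn_ChainOK n o cs → mn_SigOK sig j n o cs → mn_PUni x 0 n K i cs → K ⊆ Kinf →
      (∀ c ∈ cs, c ∈ Kinf) → gs_IsUni n K w →
      ∃ U, gs_IsUni n Kinf U ∧
        gs_val x 0 i (mn_pw g j lam o cs) * w * mn_left x j i o cs =
          mn_left x j i o cs * (Matrix.diagonal (fun p : Fin N => lam p) * U) := by
  intro cs
  induction cs with
  | nil =>
    intro o K i w _ _ _ hu hK _ hw
    refine ⟨x (.inr (0, i)) * w, mn_uni_mono hK (mn_uni_mul hu hw), ?_⟩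
    simp only [mn_pw, gs_val, gs_lmat, mn_left, Matrix.mul_one, Matrix.one_mul, Matrix.mul_assoc]
  | cons c cs ih =>
    intro o K i w hK hc hs hu hKK hcs hw
    obtain ⟨hdet, hcor⟩ := hv (.inr (j, o, c))
    rw [hs.1] at hcor
    simp only at hcor
    have hon : o ≤ n := hK.2.2.1
    obtain ⟨he1, he2⟩ := mn_emb_mul_inv hcor hdet (by omega : o + (n - o) ≤ N)
    obtain ⟨hu0, hu1, hu2⟩ := hu
    have hw' : gs_IsUni n (insert c K) (gs_emb o (x (.inl (.inr (j, o, c))))⁻¹ *
        (x (.inr (0, i + 1 + (2 * cs.length + 1))) * w) * gs_emb o (x (.inl (.inr (j, o, c)))) *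
        x (.inr (0, i))) :=
      mn_uni_mul (mn_uni_mono (Finset.subset_insert _ _)
        (mn_uni_conj_emb hon hnN hK.2.2.2 hcor hdet (mn_uni_mul hu2 hw))) hu0
    obtain ⟨U, hU, hEq⟩ := ih c (insert c K) (i + 1) _ (mn_free_insert hK hc.1 hc.2.1) hc.2.2 hs.2 hu1
      (Finset.insert_subset (hcs c (List.mem_cons_self ..)) hKK)
      (fun d hd => hcs d (List.mem_cons_of_mem _ hd)) hw'
    refine ⟨U, hU, ?_⟩
    simp only [mn_pw, gs_val, mn_val_append, gs_lmat, mn_left, mn_pw_length, Matrix.mul_one]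
    simp only [Matrix.mul_assoc] at hEq ⊢
    rw [hEq]

/-- `mn_left` and `mn_leftInv` are inverse to each other, and are corner matrices -/
theorem mn_left_props (hnN : n ≤ N) (hv : gw_VarOK sig x) :
    ∀ (cs : List ℕ) (o : ℕ) (K : Finset ℕ) (i : ℕ), o ≤ n →
      mn_ChainOK n o cs → mn_SigOK sig j n o cs → mn_PUni x 0 n K i cs →
      mn_left x j i o cs * mn_leftInv x j i o cs = 1 ∧
      mn_leftInv x j i o cs * mn_left x j i o cs = 1 ∧
      gs_IsCorner n (mn_left x j i o cs) ∧ gs_IsCorner n (mn_leftInv x j i o cs) := by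
  intro cs
  induction cs with
  | nil =>
    intro o K i _ _ _ _
    simp only [mn_left, mn_leftInv, Matrix.mul_one, true_and]
    exact ⟨gm_corner_one n, gm_corner_one n⟩
  | cons c cs ih =>
    intro o K i hon hc hs hu
    obtain ⟨hdet, hcor⟩ := hv (.inr (j, o, c))
    rw [hs.1] at hcor
    simp only at hcor
    obtain ⟨he1, he2⟩ := mn_emb_mul_inv hcor hdet (by omega : o + (n - o) ≤ N)
    obtain ⟨hu0, hu1, hu2⟩ := hu
    obtain ⟨h1, h2, h3, h4⟩ := ih c (insert c K) (i + 1) hc.2.1 hc.2.2 hs.2 hu1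
    have hc1 : gs_IsCorner n (gs_emb o (x (.inl (.inr (j, o, c))))) :=
      gm_corner_mono (by omega) (gm_emb_corner o hcor)
    have hc2 : gs_IsCorner n (gs_emb o (x (.inl (.inr (j, o, c))))⁻¹) :=
      gm_corner_mono (by omega) (gm_emb_corner o (gm_corner_inv hcor hdet))
    simp only [mn_left, mn_leftInv]
    refine ⟨?_, ?_, gm_corner_mul (gm_corner_mul hc1 (mn_uni_corner hu0)) h3,
      gm_corner_mul (gm_corner_mul h4 (mn_uni_corner (gm_uni_inv hu0))) hc2⟩
    · calc _ = gs_emb o (x (.inl (.inr (j, o, c)))) * (x (.inr (0, i)) *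
            (mn_left x j (i + 1) c cs * mn_leftInv x j (i + 1) c cs) * (x (.inr (0, i)))⁻¹) *
            gs_emb o (x (.inl (.inr (j, o, c))))⁻¹ := by simp only [Matrix.mul_assoc]
        _ = 1 := by rw [h1, Matrix.mul_one, gm_uni_mul_inv hu0, Matrix.mul_one, he1]
    · calc _ = mn_leftInv x j (i + 1) c cs * ((x (.inr (0, i)))⁻¹ *
            (gs_emb o (x (.inl (.inr (j, o, c))))⁻¹ * gs_emb o (x (.inl (.inr (j, o, c))))) *
            x (.inr (0, i))) * mn_left x j (i + 1) c cs := by simp only [Matrix.mul_assoc]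
        _ = 1 := by rw [he2, Matrix.mul_one, gm_uni_inv_mul hu0, Matrix.mul_one, h2]

end sem

/-! ### regularity -/

section reg
variable {R : Subring ℂ} {S : Set (gs_Pt (mn_Y g s) N)}

theorem mn_left_reg (j : Fin s) : ∀ (cs : List ℕ) (i o : ℕ),
    rg_MatOn R (rg_matCoord (mn_Y g s ⊕ ℕ × ℕ) (Fin N)) S (fun x => mn_left x j i o cs) := by
  intro cs
  induction cs with
  | nil => intro _ _; exact rg_MatOn.one
  | cons c cs ih =>
    intro i o
    exact ((gw_emb_reg o (rg_matCoord_mat _)).mul (rg_matCoord_mat _)).mul (ih (i + 1) c)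

theorem mn_leftInv_reg (j : Fin s) : ∀ (cs : List ℕ) (i o : ℕ),
    rg_MatOn R (rg_matCoord (mn_Y g s ⊕ ℕ × ℕ) (Fin N)) S (fun x => mn_leftInv x j i o cs) := by
  intro cs
  induction cs with
  | nil => intro _ _; exact rg_MatOn.one
  | cons c cs ih =>
    intro i o
    exact ((ih (i + 1) c).mul (rg_matCoord_inv _)).mul (gw_emb_reg o (rg_matCoord_inv _))

end reg

/-! ### trivial splitters -/

/-- all the splitters and all the unipotents of the nested word are `1`, except for the unipotent `U`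
after the letter `L` -/
def mn_Triv (x : gs_Pt (mn_Y g s) N) (j : Fin s) (U : gs_Mat N) : ℕ → ℕ → List ℕ → Prop
  | i, _, [] => x (.inr (0, i)) = U
  | i, o, c :: cs => x (.inl (.inr (j, o, c))) = 1 ∧ x (.inr (0, i)) = 1 ∧
      mn_Triv x j U (i + 1) c cs ∧ x (.inr (0, i + 1 + (2 * cs.length + 1))) = 1

section triv
variable {x : gs_Pt (mn_Y g s) N} {j : Fin s} {U : gs_Mat N}

theorem mn_triv_of : ∀ (cs : List ℕ) (i o : ℕ), x (.inr (0, i + cs.length)) = U →
    (∀ k, i ≤ k → k ≤ i + 2 * cs.length → k ≠ i + cs.length → x (.inr (0, k)) = 1) →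
    (∀ o c, c ∈ cs → x (.inl (.inr (j, o, c))) = 1) → mn_Triv x j U i o cs := by
  intro cs
  induction cs with
  | nil => intro i o hU _ _; simpa [mn_Triv] using hU
  | cons c cs ih =>
    intro i o hU h1 hh
    simp only [List.length_cons] at hU h1
    refine ⟨hh o c (List.mem_cons_self ..), h1 i le_rfl (by omega) (by omega), ih (i + 1) c ?_ ?_ ?_,
      h1 _ (by omega) (by omega) (by omega)⟩
    · rwa [show i + 1 + cs.length = i + (cs.length + 1) by omega]
    · intro k hk1 hk2 hk3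
      exact h1 k (by omega) (by omega) (by omega)
    · intro o' c' hc'
      exact hh o' c' (List.mem_cons_of_mem _ hc')

theorem mn_triv_val (lam : ℕ → ℂ) : ∀ (cs : List ℕ) (i o : ℕ), mn_Triv x j U i o cs →
    gs_val x 0 i (mn_pw g j lam o cs) = Matrix.diagonal (fun p : Fin N => lam p) * U ∧
    mn_left x j i o cs = 1 ∧ mn_leftInv x j i o cs = 1 := by
  intro cs
  induction cs with
  | nil =>
    intro i o h
    simp only [mn_Triv] at h
    simp [mn_pw, gs_val, gs_lmat, mn_left, mn_leftInv, h]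
  | cons c cs ih =>
    intro i o h
    obtain ⟨h1, h2, h3, h4⟩ := h
    obtain ⟨h5, h6, h7⟩ := ih (i + 1) c h3
    simp [mn_pw, gs_val, mn_val_append, gs_lmat, mn_left, mn_leftInv, mn_pw_length, h1, h2, h4, h5,
      h6, h7, gm_emb_one]

theorem mn_triv_puni {n : ℕ} {K₀ : Finset ℕ} (hU : gs_IsUni n K₀ U) :
    ∀ (cs : List ℕ) (i o : ℕ) (K : Finset ℕ), mn_Triv x j U i o cs → (∀ d ∈ K₀, d ∈ K ∨ d ∈ cs) →
      mn_PUni x 0 n K i cs := by
  intro cs
  induction cs with
  | nil =>
    intro i o K h hK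
    simp only [mn_Triv] at h
    simp only [mn_PUni, h]
    exact mn_uni_mono (fun d hd => (hK d hd).resolve_right (by simp)) hU
  | cons c cs ih =>
    intro i o K h hK
    obtain ⟨h1, h2, h3, h4⟩ := h
    refine ⟨h2 ▸ mn_uni_one _ _, ih (i + 1) c _ h3 fun d hd => ?_, h4 ▸ mn_uni_one _ _⟩
    rcases hK d hd with h | h
    · exact Or.inl (Finset.mem_insert_of_mem h)
    · rcases List.mem_cons.mp h with rfl | h
      · exact Or.inl (Finset.mem_insert_self _ _)
      · exact Or.inr h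

end triv

end Claimed.Agent.R236
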