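/-
Row 236, package G-MAINSYS (owner helper162, prefix `mn_`).  File 5: the solutions of the main system,
the transfer map to the flag variety `top_NSol`, and the final statement `mn_main : StMainMono N R`.
-/
import Claimed.Agent.R236.GMainSem

set_option autoImplicit false

namespace Claimed.Agent.R236

open Matrix

variable {g s n N : ℕ}

/-! ### offsets -/

/-- offset of the `i`-th handle -/
def mn_hoff (i : ℕ) : ℕ := mn_off (fun _ => 4) 0 i

/-- length of the `k`-th puncture word -/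
def mn_len (blk : Fin s → Fin n → ℕ) (k : ℕ) : ℕ :=
  if h : k < s then 2 * ((mn_cuts (blk ⟨k, h⟩)).length + 1) + 1 else 0

/-- offset of the `k`-th puncture word -/
def mn_poff (g : ℕ) (blk : Fin s → Fin n → ℕ) (k : ℕ) : ℕ := mn_off (mn_len blk) (mn_hoff g) k

theorem mn_le_off (len : ℕ → ℕ) (i₀ k : ℕ) : i₀ ≤ mn_off len i₀ k := by
  induction k with
  | zero => exact le_rfl
  | succ k ih => exact ih.trans (Nat.le_add_right _ _)

theorem mn_len_eq (blk : Fin s → Fin n → ℕ) (j : Fin s) :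
    mn_len blk j = 2 * ((mn_cuts (blk j)).length + 1) + 1 := by
  simp only [mn_len, dif_pos j.2]

theorem mn_w_length (blk : Fin s → Fin n → ℕ) (lam : Fin s → ℕ → ℂ) (j : Fin s) :
    (mn_w blk lam g j).length = mn_len blk j := by
  rw [mn_pw_length, mn_len_eq, List.length_cons]

theorem mn_hw_length (i : Fin g) : (mn_hw s i).length = (fun _ : ℕ => 4) (i : ℕ) := rfl

theorem mn_hlen : 0 + ((List.finRange g).flatMap (mn_hw s)).length = mn_hoff g :=
  mn_length_flatMap g (mn_hw s) (fun _ => 4) mn_hw_length 0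

theorem mn_ls_length (blk : Fin s → Fin n → ℕ) (lam : Fin s → ℕ → ℂ) :
    (mn_ls g s blk lam).length = mn_poff g blk s := by
  rw [mn_ls, List.length_append, mn_poff,
    ← mn_length_flatMap s (fun j => mn_w blk lam g j) (mn_len blk) (mn_w_length blk lam),
    ← mn_hlen (g := g) (s := s), Nat.zero_add]

/-! ### the solutions -/

theorem mn_gw_uni_iff {Y : Type} (sig : Y → gs_Sig) (n : ℕ) (x : gs_Pt Y N) (e : ℕ) :
    ∀ (ls : List (gs_Letter Y)) (i : ℕ) (K : Finset ℕ),
      gw_Uni sig n x e i K ls ↔ mn_UniOK x e sig n K i ls := by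
  intro ls
  induction ls with
  | nil => intro _ _; exact Iff.rfl
  | cons l ls ih =>
    intro i K
    exact and_congr Iff.rfl (ih (i + 1) _)

section sys
variable (blk : Fin s → Fin n → ℕ) (lam : Fin s → ℕ → ℂ)

/-- all the conditions of a solution, except for the equation -/
def mn_Pre (x : gs_Pt (mn_Y g s) N) : Prop :=
  gw_VarOK (mn_sys g s blk lam).sig x ∧
  (∀ i : Fin g, x (.inr (0, mn_hoff i)) = 1 ∧ x (.inr (0, mn_hoff i + 1)) = 1 ∧
    x (.inr (0, mn_hoff i + 2)) = 1 ∧ x (.inr (0, mn_hoff i + 3)) = 1) ∧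
  (∀ j : Fin s, mn_PUni x 0 n ({0, n} : Finset ℕ) (mn_poff g blk j) (0 :: mn_cuts (blk j))) ∧
  (∀ k, mn_poff g blk s ≤ k → x (.inr (0, k)) = 1) ∧
  (∀ e k, x (.inr (e + 1, k)) = 1)

/-- the value of the equation -/
noncomputable def mn_total (x : gs_Pt (mn_Y g s) N) : gs_Mat N :=
  ((List.finRange g).map fun i : Fin g => gs_val x 0 (mn_hoff i) (mn_hw s i)).prod *
  ((List.finRange s).map fun j : Fin s => gs_val x 0 (mn_poff g blk j) (mn_w blk lam g j)).prod

theorem mn_sol_iff (x : gs_Pt (mn_Y g s) N) :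
    x ∈ gs_Sol N (mn_sys g s blk lam) ↔ mn_Pre blk lam x ∧ mn_total blk lam x = 1 := by
  rw [gw_mem_sol_iff]
  have h0 : (mn_sys g s blk lam).eq 0 = ⟨n, {0, n}, mn_ls g s blk lam⟩ := rfl
  have h1 : ∀ e, (mn_sys g s blk lam).eq (e + 1) = gs_Eqn.triv _ := fun e => rfl
  have hU : gw_Uni (mn_sys g s blk lam).sig n x 0 0 ({0, n} : Finset ℕ) (mn_ls g s blk lam) ↔
      (∀ i : Fin g, x (.inr (0, mn_hoff i)) = 1 ∧ x (.inr (0, mn_hoff i + 1)) = 1 ∧
        x (.inr (0, mn_hoff i + 2)) = 1 ∧ x (.inr (0, mn_hoff i + 3)) = 1) ∧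
      (∀ j : Fin s, mn_PUni x 0 n ({0, n} : Finset ℕ) (mn_poff g blk j) (0 :: mn_cuts (blk j))) := by
    rw [mn_gw_uni_iff, mn_ls, mn_uniOK_append,
      mn_fold_flatMap _ _ _ _ (mn_hw_fold (mn_sys_sig_inl blk lam)), mn_hlen,
      mn_uniOK_flatMap x 0 _ n _ g (mn_hw s) (fun _ => 4) mn_hw_length
        (mn_hw_fold (mn_sys_sig_inl blk lam)),
      mn_uniOK_flatMap x 0 _ n _ s (fun j => mn_w blk lam g j) (mn_len blk) (mn_w_length blk lam)
        (mn_w_fold blk lam)]
    refine and_congr (forall_congr' fun i => mn_hw_uniOK x 0 (mn_sys_sig_inl blk lam) i _)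
      (forall_congr' fun j => ?_)
    exact mn_pw_uniOK x 0 _ 0 _ _ (mn_free_base n) (mn_cuts_chainOK _) (mn_sys_sigOK blk lam j)
  have hV : gs_val x 0 0 (mn_ls g s blk lam) = mn_total blk lam x := by
    rw [mn_ls, mn_val_append, mn_hlen, mn_val_flatMap x 0 g (mn_hw s) (fun _ => 4) mn_hw_length,
      mn_val_flatMap x 0 s (fun j => mn_w blk lam g j) (mn_len blk) (mn_w_length blk lam)]
    rfl
  constructor
  · rintro ⟨hv, he⟩
    obtain ⟨e1, e2, e3⟩ := he 0
    rw [h0] at e1 e2 e3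
    simp only at e1 e2 e3
    rw [mn_ls_length] at e2
    refine ⟨⟨hv, (hU.mp e1).1, (hU.mp e1).2, e2, fun e k => ?_⟩, hV ▸ e3⟩
    have := (he (e + 1)).2.1 k
    rw [h1] at this
    exact this (Nat.zero_le _)
  · rintro ⟨⟨hv, p1, p2, p3, p4⟩, ht⟩
    refine ⟨hv, fun e => ?_⟩
    cases e with
    | zero =>
      rw [h0]
      simp only
      rw [mn_ls_length]
      exact ⟨hU.mpr ⟨p1, p2⟩, p3, hV.trans ht⟩
    | succ e =>
      rw [h1]
      exact ⟨trivial, fun k _ => p4 e k, rfl⟩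

/-! ### flag types and unitriangular matrices -/

theorem mn_lt_of_cut {b : Fin n → ℕ} (hb : Monotone b) {p q : Fin n} {c : ℕ} (hc : c ∈ mn_cuts b)
    (hpc : (p : ℕ) < c) (hcq : c ≤ (q : ℕ)) : b p < b q := by
  obtain ⟨h1, h2, h3⟩ := mn_mem_cuts.mp hc
  have h4 : c - 1 < n := by omega
  simp only [mn_bN, dif_pos h1, dif_pos h4] at h3
  have h5 : b p ≤ b ⟨c - 1, h4⟩ := hb (Fin.le_def.mpr (by simp only; omega))
  have h6 : b ⟨c, h1⟩ ≤ b q := hb (Fin.le_def.mpr hcq)
  omega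

theorem mn_cut_of_lt {b : Fin n → ℕ} (hb : Monotone b) {p q : Fin n} (h : b p < b q) :
    ∃ c ∈ mn_cuts b, (p : ℕ) < c ∧ c ≤ (q : ℕ) := by
  have hpq : p < q := by
    by_contra hqp
    exact absurd (hb (not_lt.mp hqp)) (by omega)
  by_contra hno
  obtain ⟨k, hk⟩ := Nat.exists_eq_add_of_le (Fin.le_def.mp hpq.le)
  have := mn_bN_le_of_no_cut b p k (by rw [← hk]; exact q.2) fun c h1 h2 hc =>
    hno ⟨c, hc, h1, by omega⟩
  rw [← hk] at this
  simp only [mn_bN, dif_pos p.2, dif_pos q.2, Fin.eta] at this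
  omega

theorem mn_type_of_uni (hnN : n ≤ N) {b : Fin n → ℕ} (hb : Monotone b) (l : ℕ → ℂ) {U : gs_Mat N}
    (hU : gs_IsUni n ({0, n} ∪ (mn_cuts b).toFinset) U) :
    top_IsOfType b l (mn_cor hnN (Matrix.diagonal (fun p : Fin N => mn_lamN b l p) * U)) := by
  have key : ∀ p q : Fin n, ¬ b p < b q →
      U (Fin.castLE hnN p) (Fin.castLE hnN q) = if p = q then 1 else 0 := by
    intro p q hpq
    by_contra hne
    have hne' : U (Fin.castLE hnN p) (Fin.castLE hnN q) ≠
        (1 : gs_Mat N) (Fin.castLE hnN p) (Fin.castLE hnN q) := by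
      rw [Matrix.one_apply]
      simpa using hne
    obtain ⟨h1, c, hc, h2, h3⟩ := hU _ _ hne'
    simp only [Fin.val_castLE] at h1 h2 h3
    simp only [Finset.mem_union, Finset.mem_insert, Finset.mem_singleton, List.mem_toFinset] at hc
    rcases hc with (rfl | rfl) | hc
    · omega
    · omega
    · exact hpq (mn_lt_of_cut hb hc h2 h3)
  intro p q
  have hval : mn_cor hnN (Matrix.diagonal (fun p : Fin N => mn_lamN b l p) * U) p q =
      l (b p) * U (Fin.castLE hnN p) (Fin.castLE hnN q) := by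
    rw [mn_cor_apply, Matrix.diagonal_mul]
    simp only [Fin.val_castLE, mn_lamN, dif_pos p.2]
  rw [hval]
  constructor
  · intro h
    rw [key p q (by omega), if_neg (by rintro rfl; omega), mul_zero]
  · intro h
    rw [key p q (by omega)]
    split_ifs <;> simp

theorem mn_uni_of_type {b : Fin n → ℕ} (hb : Monotone b) {l : ℕ → ℂ} (hl : ∀ p, l (b p) ≠ 0)
    {T : Matrix (Fin n) (Fin n) ℂ} (hT : top_IsOfType b l T) :
    gs_IsUni n (mn_cuts b).toFinset
      (mn_ext N n (Matrix.diagonal (fun p : Fin n => (l (b p))⁻¹) * T)) := by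
  intro i j hij
  by_cases h : (i : ℕ) < n ∧ (j : ℕ) < n
  · rw [mn_ext, dif_pos h, Matrix.diagonal_mul] at hij
    refine ⟨h.2, ?_⟩
    have hlt : b ⟨i, h.1⟩ < b ⟨j, h.2⟩ := by
      by_contra hnlt
      apply hij
      rcases lt_or_eq_of_le (not_lt.mp hnlt) with h1 | h1
      · rw [(hT ⟨i, h.1⟩ ⟨j, h.2⟩).1 h1, mul_zero, Matrix.one_apply_ne]
        rintro rfl
        omega
      · rw [(hT ⟨i, h.1⟩ ⟨j, h.2⟩).2 h1.symm, Matrix.one_apply]
        by_cases hij' : i = j
        · subst hij'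
          simp [hl]
        · rw [if_neg hij', if_neg (fun h' => hij' (Fin.ext (by simpa using congrArg Fin.val h'))),
            mul_zero]
    obtain ⟨c, hc, h1, h2⟩ := mn_cut_of_lt hb hlt
    exact ⟨c, List.mem_toFinset.mpr hc, h1, h2⟩
  · exact absurd (by rw [mn_ext, dif_neg h]) hij

theorem mn_diag_eq_ext (b : Fin n → ℕ) (l : ℕ → ℂ) :
    Matrix.diagonal (fun p : Fin N => mn_lamN b l p) =
      mn_ext N n (Matrix.diagonal fun p : Fin n => l (b p)) := by
  ext i j
  by_cases h : (i : ℕ) < n ∧ (j : ℕ) < n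
  · rw [mn_ext, dif_pos h]
    by_cases hij : i = j
    · subst hij
      simp [mn_lamN, h.1]
    · rw [Matrix.diagonal_apply_ne _ hij, Matrix.diagonal_apply_ne]
      intro h'
      exact hij (Fin.ext (by simpa using congrArg Fin.val h'))
  · rw [mn_ext, dif_neg h]
    by_cases hij : i = j
    · subst hij
      have : ¬ (i : ℕ) < n := fun h' => h ⟨h', h'⟩
      simp [mn_lamN, this]
    · rw [Matrix.diagonal_apply_ne _ hij, Matrix.one_apply_ne hij]

/-! ### the transfer map -/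

/-- the matrices of the flag variety, as functions of a point of the main system -/
noncomputable def mn_M (x : gs_Pt (mn_Y g s) N) : top_NGen g s → gs_Mat N
  | .inl (i, k) => ![x (.inl (.inl (i, true))), (x (.inl (.inl (i, true))))⁻¹,
      x (.inl (.inl (i, false))), (x (.inl (.inl (i, false))))⁻¹] k
  | .inr (j, k) => ![mn_left x j (mn_poff g blk j) 0 (0 :: mn_cuts (blk j)),
      mn_leftInv x j (mn_poff g blk j) 0 (0 :: mn_cuts (blk j)),
      mn_leftInv x j (mn_poff g blk j) 0 (0 :: mn_cuts (blk j)) *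
        gs_val x 0 (mn_poff g blk j) (mn_w blk lam g j) *
        mn_left x j (mn_poff g blk j) 0 (0 :: mn_cuts (blk j))] k

/-- the final frame of a puncture -/
def mn_Kinf (b : Fin n → ℕ) : Finset ℕ := {0, n} ∪ (mn_cuts b).toFinset

variable {blk lam}

/-- the structure of a puncture -/
theorem mn_punct (hnN : n ≤ N) {x : gs_Pt (mn_Y g s) N} (hx : mn_Pre blk lam x) (j : Fin s) :
    ∃ U, gs_IsUni n (mn_Kinf (blk j)) U ∧
      mn_M blk lam x (.inr (j, 0)) * mn_M blk lam x (.inr (j, 1)) = 1 ∧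
      mn_M blk lam x (.inr (j, 1)) * mn_M blk lam x (.inr (j, 0)) = 1 ∧
      gs_IsCorner n (mn_M blk lam x (.inr (j, 0))) ∧ gs_IsCorner n (mn_M blk lam x (.inr (j, 1))) ∧
      mn_M blk lam x (.inr (j, 2)) =
        Matrix.diagonal (fun p : Fin N => mn_lamN (blk j) (lam j) p) * U ∧
      gs_val x 0 (mn_poff g blk j) (mn_w blk lam g j) =
        mn_M blk lam x (.inr (j, 0)) * mn_M blk lam x (.inr (j, 2)) * mn_M blk lam x (.inr (j, 1)) := by
  obtain ⟨hv, _, hp, _, _⟩ := hx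
  obtain ⟨U, hU, hEq⟩ := mn_pw_sem (j := j) hnN hv (mn_lamN (blk j) (lam j))
    (Kinf := mn_Kinf (blk j)) (0 :: mn_cuts (blk j)) 0 {0, n} (mn_poff g blk j) 1 (mn_free_base n)
    (mn_cuts_chainOK _) (mn_sys_sigOK blk lam j) (hp j) Finset.subset_union_left
    (fun c hc => by
      rcases List.mem_cons.mp hc with rfl | hc
      · exact Finset.mem_union_left _ (by simp)
      · exact Finset.mem_union_right _ (List.mem_toFinset.mpr hc)) (mn_uni_one _ _)
  obtain ⟨h1, h2, h3, h4⟩ := mn_left_props (j := j) hnN hv (0 :: mn_cuts (blk j)) 0 {0, n}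
    (mn_poff g blk j) (Nat.zero_le n) (mn_cuts_chainOK _) (mn_sys_sigOK blk lam j) (hp j)
  rw [Matrix.mul_one] at hEq
  refine ⟨U, hU, h1, h2, h3, h4, ?_, ?_⟩
  · show mn_leftInv x j _ 0 _ * gs_val x 0 _ _ * mn_left x j _ 0 _ = _
    rw [Matrix.mul_assoc, hEq, ← Matrix.mul_assoc, h2, Matrix.one_mul]
  · show _ = mn_left x j _ 0 _ * (mn_leftInv x j _ 0 _ * gs_val x 0 _ _ * mn_left x j _ 0 _) *
      mn_leftInv x j _ 0 _
    calc _ = (mn_left x j (mn_poff g blk j) 0 (0 :: mn_cuts (blk j)) *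
          mn_leftInv x j (mn_poff g blk j) 0 (0 :: mn_cuts (blk j))) *
          gs_val x 0 (mn_poff g blk j) (mn_w blk lam g j) *
          (mn_left x j (mn_poff g blk j) 0 (0 :: mn_cuts (blk j)) *
          mn_leftInv x j (mn_poff g blk j) 0 (0 :: mn_cuts (blk j))) := by
            rw [h1, Matrix.one_mul, Matrix.mul_one]
      _ = _ := by simp only [Matrix.mul_assoc]

/-- the structure of a handle -/
theorem mn_handle {x : gs_Pt (mn_Y g s) N} (hx : mn_Pre blk lam x) (i : Fin g) :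
    mn_M blk lam x (.inl (i, 0)) * mn_M blk lam x (.inl (i, 1)) = 1 ∧
    mn_M blk lam x (.inl (i, 2)) * mn_M blk lam x (.inl (i, 3)) = 1 ∧
    (∀ k, gs_IsCorner n (mn_M blk lam x (.inl (i, k)))) ∧
    gs_val x 0 (mn_hoff i) (mn_hw s i) =
      mn_M blk lam x (.inl (i, 0)) * mn_M blk lam x (.inl (i, 2)) * mn_M blk lam x (.inl (i, 1)) *
        mn_M blk lam x (.inl (i, 3)) := by
  obtain ⟨hv, hh, _, _, _⟩ := hx
  obtain ⟨a1, a2⟩ := hv (.inl (i, true))
  obtain ⟨b1, b2⟩ := hv (.inl (i, false))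
  obtain ⟨u0, u1, u2, u3⟩ := hh i
  refine ⟨Matrix.mul_nonsing_inv _ a1, Matrix.mul_nonsing_inv _ b1, fun k => ?_, ?_⟩
  · fin_cases k
    · exact a2
    · exact gm_corner_inv a2 a1
    · exact b2
    · exact gm_corner_inv b2 b1
  · show _ = x (.inl (.inl (i, true))) * x (.inl (.inl (i, false))) * (x (.inl (.inl (i, true))))⁻¹ *
      (x (.inl (.inl (i, false))))⁻¹
    simp only [mn_hw, gs_val, gs_lmat, gm_emb_zero, u0, u1, u2, u3, Matrix.mul_one, Matrix.mul_assoc]

variable (blk lam)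

/-- **the transfer map** -/
noncomputable def mn_pi (hnN : n ≤ N) (x : gs_Pt (mn_Y g s) N) : top_NGen g s × Fin n × Fin n → ℂ :=
  top_vec fun k => mn_cor hnN (mn_M blk lam x k)

theorem mn_mat_pi (hnN : n ≤ N) (x : gs_Pt (mn_Y g s) N) (k : top_NGen g s) :
    top_mat (mn_pi blk lam hnN x) k = mn_cor hnN (mn_M blk lam x k) := rfl

variable {blk lam}

theorem mn_diag_corner (j : Fin s) :
    gs_IsCorner n (Matrix.diagonal (fun p : Fin N => mn_lamN (blk j) (lam j) p)) :=
  gw_diag_corner fun p hp => by simp only [mn_lamN, dif_neg (not_lt.mpr hp)]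

theorem mn_M_corner (hnN : n ≤ N) {x : gs_Pt (mn_Y g s) N} (hx : mn_Pre blk lam x)
    (k : top_NGen g s) : gs_IsCorner n (mn_M blk lam x k) := by
  rcases k with ⟨i, k⟩ | ⟨j, k⟩
  · exact (mn_handle hx i).2.2.1 k
  · obtain ⟨U, hU, _, _, h3, h4, h5, _⟩ := mn_punct hnN hx j
    fin_cases k
    · exact h3
    · exact h4
    · show gs_IsCorner n (mn_M blk lam x (.inr (j, 2)))
      rw [h5]
      exact gm_corner_mul (mn_diag_corner j) (mn_uni_corner hU)

/-- the equation of the main system is the relation of the flag variety -/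
theorem mn_rel_iff (hnN : n ≤ N) {x : gs_Pt (mn_Y g s) N} (hx : mn_Pre blk lam x) :
    mn_total blk lam x = 1 ↔
    ((List.finRange g).map fun i =>
      top_mat (mn_pi blk lam hnN x) (Sum.inl (i, 0)) * top_mat (mn_pi blk lam hnN x) (Sum.inl (i, 2)) *
        top_mat (mn_pi blk lam hnN x) (Sum.inl (i, 1)) *
        top_mat (mn_pi blk lam hnN x) (Sum.inl (i, 3))).prod *
    ((List.finRange s).map fun j =>
      top_mat (mn_pi blk lam hnN x) (Sum.inr (j, 0)) * top_mat (mn_pi blk lam hnN x) (Sum.inr (j, 2)) *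
        top_mat (mn_pi blk lam hnN x) (Sum.inr (j, 1))).prod = 1 := by
  have hc := mn_M_corner hnN hx
  have c1 : ∀ i : Fin g, gs_IsCorner n (gs_val x 0 (mn_hoff i) (mn_hw s i)) := fun i => by
    rw [(mn_handle hx i).2.2.2]
    exact gm_corner_mul (gm_corner_mul (gm_corner_mul (hc _) (hc _)) (hc _)) (hc _)
  have c2 : ∀ j : Fin s, gs_IsCorner n (gs_val x 0 (mn_poff g blk j) (mn_w blk lam g j)) := fun j => by
    obtain ⟨U, _, _, _, _, _, _, h6⟩ := mn_punct hnN hx j
    rw [h6]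
    exact gm_corner_mul (gm_corner_mul (hc _) (hc _)) (hc _)
  have e1 : ∀ i : Fin g, top_mat (mn_pi blk lam hnN x) (Sum.inl (i, 0)) *
      top_mat (mn_pi blk lam hnN x) (Sum.inl (i, 2)) * top_mat (mn_pi blk lam hnN x) (Sum.inl (i, 1)) *
      top_mat (mn_pi blk lam hnN x) (Sum.inl (i, 3)) =
      mn_cor hnN (gs_val x 0 (mn_hoff i) (mn_hw s i)) := fun i => by
    rw [(mn_handle hx i).2.2.2, mn_cor_mul hnN (gm_corner_mul (gm_corner_mul (hc _) (hc _)) (hc _)),
      mn_cor_mul hnN (gm_corner_mul (hc _) (hc _)), mn_cor_mul hnN (hc _)]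
    rfl
  have e2 : ∀ j : Fin s, top_mat (mn_pi blk lam hnN x) (Sum.inr (j, 0)) *
      top_mat (mn_pi blk lam hnN x) (Sum.inr (j, 2)) * top_mat (mn_pi blk lam hnN x) (Sum.inr (j, 1)) =
      mn_cor hnN (gs_val x 0 (mn_poff g blk j) (mn_w blk lam g j)) := fun j => by
    obtain ⟨U, _, _, _, _, _, _, h6⟩ := mn_punct hnN hx j
    rw [h6, mn_cor_mul hnN (gm_corner_mul (hc _) (hc _)), mn_cor_mul hnN (hc _)]
    rfl
  simp only [e1, e2]
  have hL : ∀ M ∈ ((List.finRange g).map fun i : Fin g => gs_val x 0 (mn_hoff i) (mn_hw s i)) ++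
      ((List.finRange s).map fun j : Fin s => gs_val x 0 (mn_poff g blk j) (mn_w blk lam g j)),
      gs_IsCorner n M := by
    intro M hM
    rcases List.mem_append.mp hM with h | h
    · obtain ⟨i, _, rfl⟩ := List.mem_map.mp h
      exact c1 i
    · obtain ⟨j, _, rfl⟩ := List.mem_map.mp h
      exact c2 j
  have hcor := mn_cor_list_prod hnN hL
  rw [List.prod_append, List.map_append, List.prod_append, List.map_map, List.map_map] at hcor
  have htot : gs_IsCorner n (mn_total blk lam x) := by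
    have : ∀ L : List (gs_Mat N), (∀ M ∈ L, gs_IsCorner n M) → gs_IsCorner n L.prod := by
      intro L
      induction L with
      | nil => intro _; exact gm_corner_one n
      | cons M L ih =>
        intro h
        rw [List.prod_cons]
        exact gm_corner_mul (h M (List.mem_cons_self ..)) (ih fun M' hM' => h M' (List.mem_cons_of_mem _ hM'))
    have h2 := this _ hL
    rwa [List.prod_append] at h2
  constructor
  · intro h
    have : mn_cor hnN (mn_total blk lam x) = 1 := by rw [h, mn_cor_one]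
    rw [← this]
    exact hcor.symm
  · intro h
    have h3 : mn_cor hnN (mn_total blk lam x) = 1 := hcor.trans h
    rw [← mn_ext_cor hnN htot, h3, mn_ext_one hnN]

theorem mn_pi_maps (hnN : n ≤ N) (hb : ∀ j, Monotone (blk j)) {x : gs_Pt (mn_Y g s) N}
    (hx : x ∈ gs_Sol N (mn_sys g s blk lam)) : mn_pi blk lam hnN x ∈ top_NSol g s blk lam := by
  obtain ⟨hP, ht⟩ := (mn_sol_iff blk lam x).mp hx
  have hc := mn_M_corner hnN hP
  refine ⟨fun i => ?_, fun i => ?_, fun j => ?_, fun j => ?_, (mn_rel_iff hnN hP).mp ht⟩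
  · rw [mn_mat_pi, mn_mat_pi, ← mn_cor_mul hnN (hc _), (mn_handle hP i).1, mn_cor_one]
  · rw [mn_mat_pi, mn_mat_pi, ← mn_cor_mul hnN (hc _), (mn_handle hP i).2.1, mn_cor_one]
  · obtain ⟨U, _, h1, _⟩ := mn_punct hnN hP j
    rw [mn_mat_pi, mn_mat_pi, ← mn_cor_mul hnN (hc _), h1, mn_cor_one]
  · obtain ⟨U, hU, _, _, _, _, h5, _⟩ := mn_punct hnN hP j
    rw [mn_mat_pi, h5]
    exact mn_type_of_uni hnN (hb j) (lam j) hU

theorem mn_M_reg {R : Subring ℂ} {S : Set (gs_Pt (mn_Y g s) N)} (hlam : ∀ j p, lam j (blk j p) ∈ R)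
    (k : top_NGen g s) :
    rg_MatOn R (rg_matCoord (mn_Y g s ⊕ ℕ × ℕ) (Fin N)) S (fun x => mn_M blk lam x k) := by
  rcases k with ⟨i, k⟩ | ⟨j, k⟩
  · fin_cases k
    · exact rg_matCoord_mat _
    · exact rg_matCoord_inv _
    · exact rg_matCoord_mat _
    · exact rg_matCoord_inv _
  · fin_cases k
    · exact mn_left_reg j _ _ _
    · exact mn_leftInv_reg j _ _ _
    · refine ((mn_leftInv_reg j _ _ _).mul (gw_val_reg_id 0 _ _ fun l hl p => ?_)).mul
        (mn_left_reg j _ _ _)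
      rw [mn_mem_pw_L hl]
      by_cases hp : p < n
      · simp only [mn_lamN, dif_pos hp]
        exact hlam j _
      · simp only [mn_lamN, dif_neg hp]
        exact R.one_mem

theorem mn_pi_reg {R : Subring ℂ} {S : Set (gs_Pt (mn_Y g s) N)} (hnN : n ≤ N)
    (hlam : ∀ j p, lam j (blk j p) ∈ R) (v : top_NGen g s × Fin n × Fin n) :
    rg_RegOn R (rg_matCoord (mn_Y g s ⊕ ℕ × ℕ) (Fin N)) S (fun x => mn_pi blk lam hnN x v) :=
  mn_M_reg hlam v.1 _ _

/-! ### surjectivity -/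

variable (g blk) in
/-- position of the unipotent after the letter `L` of the `j`-th puncture -/
def mn_pos (j : Fin s) : ℕ := mn_poff g blk j + 1 + (mn_cuts (blk j)).length

theorem mn_pos_unique {j j' : Fin s} {k : ℕ} (h1 : mn_poff g blk j ≤ k)
    (h2 : k < mn_poff g blk j + mn_len blk j) (h3 : k = mn_pos g blk j') : j' = j := by
  have e1 := mn_len_eq blk j'
  rcases lt_trichotomy (j : ℕ) (j' : ℕ) with h | h | h
  · have := mn_off_add_le (mn_len blk) (mn_hoff g) h
    simp only [mn_pos, mn_poff] at *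
    omega
  · exact (Fin.ext h).symm
  · have := mn_off_add_le (mn_len blk) (mn_hoff g) h
    simp only [mn_pos, mn_poff] at *
    omega

variable (blk lam) in
/-- the unipotent part of `T_j` -/
noncomputable def mn_U (N : ℕ) (z : top_NGen g s × Fin n × Fin n → ℂ) (j : Fin s) : gs_Mat N :=
  mn_ext N n (Matrix.diagonal (fun p : Fin n => (lam j (blk j p))⁻¹) * top_mat z (.inr (j, 2)))

variable (blk lam) in
open Classical in
/-- the preimage of a point of the flag variety -/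
noncomputable def mn_x0 (N : ℕ) (z : top_NGen g s × Fin n × Fin n → ℂ) : gs_Pt (mn_Y g s) N
  | .inl (.inl (i, true)) => mn_ext N n (top_mat z (.inl (i, 0)))
  | .inl (.inl (i, false)) => mn_ext N n (top_mat z (.inl (i, 2)))
  | .inl (.inr (j, o, c)) => if o = 0 ∧ c = 0 then mn_ext N n (top_mat z (.inr (j, 0))) else 1
  | .inr (e, k) =>
    if h : e = 0 ∧ ∃ j : Fin s, k = mn_pos g blk j then mn_U blk lam N z (Classical.choose h.2) else 1

section x0
variable {z : top_NGen g s × Fin n × Fin n → ℂ}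

theorem mn_x0_pos (j : Fin s) : mn_x0 blk lam N z (.inr (0, mn_pos g blk j)) = mn_U blk lam N z j := by
  have h : (0 : ℕ) = 0 ∧ ∃ j' : Fin s, mn_pos g blk j = mn_pos g blk j' := ⟨rfl, j, rfl⟩
  rw [mn_x0, dif_pos h]
  congr 1
  have e1 := mn_len_eq blk j
  exact mn_pos_unique (j := j) (k := mn_pos g blk j) (by simp only [mn_pos]; omega)
    (by simp only [mn_pos]; omega) (Classical.choose_spec h.2)

theorem mn_x0_ne {k : ℕ} (h : ∀ j : Fin s, k ≠ mn_pos g blk j) :
    mn_x0 blk lam N z (.inr (0, k)) = 1 := by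
  simp only [mn_x0]
  rw [dif_neg]
  rintro ⟨_, j, hj⟩
  exact h j hj

theorem mn_x0_succ (e k : ℕ) : mn_x0 blk lam N z (.inr (e + 1, k)) = 1 := by
  simp only [mn_x0]
  rw [dif_neg]
  rintro ⟨h, _⟩
  omega

theorem mn_x0_in {j : Fin s} {k : ℕ} (h1 : mn_poff g blk j ≤ k)
    (h2 : k < mn_poff g blk j + mn_len blk j) (h3 : k ≠ mn_pos g blk j) :
    mn_x0 blk lam N z (.inr (0, k)) = 1 :=
  mn_x0_ne fun j' hj' => h3 (by rw [hj', mn_pos_unique h1 h2 hj'])

/-- the local structure of the preimage at a puncture -/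
theorem mn_x0_local (j : Fin s) :
    mn_x0 blk lam N z (.inr (0, mn_poff g blk j)) = 1 ∧
    mn_Triv (mn_x0 blk lam N z) j (mn_U blk lam N z j) (mn_poff g blk j + 1) 0 (mn_cuts (blk j)) ∧
    mn_x0 blk lam N z (.inr (0, mn_poff g blk j + 1 + (2 * (mn_cuts (blk j)).length + 1))) = 1 ∧
    mn_x0 blk lam N z (.inl (.inr (j, 0, 0))) = mn_ext N n (top_mat z (.inr (j, 0))) := by
  have e1 := mn_len_eq blk j
  refine ⟨mn_x0_in le_rfl (by omega) (by simp only [mn_pos]; omega), mn_triv_of _ _ _ (mn_x0_pos j)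
    (fun k h1 h2 h3 => mn_x0_in (j := j) (by omega) (by omega) h3) (fun o c hc => ?_),
    mn_x0_in (j := j) (by omega) (by omega) (by simp only [mn_pos]; omega), ?_⟩
  · have := (mn_mem_cuts.mp hc).2.1
    simp only [mn_x0]
    rw [if_neg (by omega)]
  · rw [mn_x0, if_pos ⟨rfl, rfl⟩]

theorem mn_x0_pre (hnN : n ≤ N) (hb : ∀ j, Monotone (blk j)) (hl : ∀ j p, lam j (blk j p) ≠ 0)
    (hz : z ∈ top_NSol g s blk lam) : mn_Pre blk lam (mn_x0 blk lam N z) := by
  obtain ⟨hA, hB, hG, hT, _⟩ := hz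
  refine ⟨?_, fun i => ?_, fun j => ?_, fun k hk => ?_, mn_x0_succ⟩
  · rintro ((⟨i, _ | _⟩) | ⟨j, o, c⟩)
    · exact ⟨(mn_ext_inv hnN (hB i)).1, mn_ext_corner _⟩
    · exact ⟨(mn_ext_inv hnN (hA i)).1, mn_ext_corner _⟩
    · by_cases h : o = 0 ∧ c = 0
      · obtain ⟨rfl, rfl⟩ := h
        rw [(mn_x0_local j).2.2.2, (mn_sys_sigOK blk lam j).1]
        exact ⟨(mn_ext_inv hnN (hG j)).1, mn_ext_corner _⟩
      · rw [mn_x0, if_neg h]
        exact ⟨by simp, gm_corner_one _⟩
  · have h1 : mn_hoff (i : ℕ) + 4 ≤ mn_hoff g := mn_off_add_le (fun _ => 4) 0 i.2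
    have h2 : ∀ j : Fin s, mn_hoff g ≤ mn_pos g blk j := fun j =>
      (mn_le_off (mn_len blk) (mn_hoff g) j).trans (by simp only [mn_pos, mn_poff]; omega)
    refine ⟨mn_x0_ne fun j => ?_, mn_x0_ne fun j => ?_, mn_x0_ne fun j => ?_, mn_x0_ne fun j => ?_⟩ <;>
    · have := h2 j
      omega
  · obtain ⟨h1, h2, h3, _⟩ := mn_x0_local (N := N) (blk := blk) (lam := lam) (z := z) j
    refine ⟨h1 ▸ mn_uni_one _ _, ?_, h3 ▸ mn_uni_one _ _⟩
    exact mn_triv_puni (mn_uni_of_type (hb j) (hl j) (hT j)) _ _ _ _ h2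
      fun d hd => Or.inr (List.mem_toFinset.mp hd)
  · refine mn_x0_ne fun j hj => ?_
    have h1 := mn_off_add_le (mn_len blk) (mn_hoff g) j.2
    have e1 := mn_len_eq blk j
    simp only [mn_pos, mn_poff] at *
    omega

theorem mn_x0_M (hnN : n ≤ N) (hl : ∀ j p, lam j (blk j p) ≠ 0)
    (hz : z ∈ top_NSol g s blk lam) (k : top_NGen g s) :
    mn_M blk lam (mn_x0 blk lam N z) k = mn_ext N n (top_mat z k) := by
  obtain ⟨hA, hB, hG, hT, _⟩ := hz
  rcases k with ⟨i, k⟩ | ⟨j, k⟩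
  · fin_cases k
    · rfl
    · exact (mn_ext_inv hnN (hA i)).2
    · rfl
    · exact (mn_ext_inv hnN (hB i)).2
  · obtain ⟨h1, h2, h3, h4⟩ := mn_x0_local (N := N) (blk := blk) (lam := lam) (z := z) j
    obtain ⟨t1, t2, t3⟩ := mn_triv_val (mn_lamN (blk j) (lam j)) _ _ _ h2
    have hinv := (mn_ext_inv hnN (hG j)).2
    have hL : mn_left (mn_x0 blk lam N z) j (mn_poff g blk j) 0 (0 :: mn_cuts (blk j)) =
        mn_ext N n (top_mat z (.inr (j, 0))) := by
      simp only [mn_left, h1, h4, t2, gm_emb_zero, Matrix.mul_one]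
    have hL' : mn_leftInv (mn_x0 blk lam N z) j (mn_poff g blk j) 0 (0 :: mn_cuts (blk j)) =
        mn_ext N n (top_mat z (.inr (j, 1))) := by
      simp only [mn_leftInv, h1, h4, t3, gm_emb_zero, Matrix.one_mul, inv_one, hinv]
    have hDU : Matrix.diagonal (fun p : Fin N => mn_lamN (blk j) (lam j) p) * mn_U blk lam N z j =
        mn_ext N n (top_mat z (.inr (j, 2))) := by
      rw [mn_diag_eq_ext, mn_U, ← mn_ext_mul hnN, ← Matrix.mul_assoc, Matrix.diagonal_mul_diagonal]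
      have : (fun p : Fin n => lam j (blk j p) * (lam j (blk j p))⁻¹) = fun _ => 1 := by
        funext p
        exact mul_inv_cancel₀ (hl j p)
      rw [this, Matrix.diagonal_one, Matrix.one_mul]
    have hV : gs_val (mn_x0 blk lam N z) 0 (mn_poff g blk j) (mn_w blk lam g j) =
        mn_ext N n (top_mat z (.inr (j, 0))) * mn_ext N n (top_mat z (.inr (j, 2))) *
          mn_ext N n (top_mat z (.inr (j, 1))) := by
      simp only [mn_w, mn_pw, gs_val, mn_val_append, gs_lmat, mn_pw_length, h1, h3, h4, t1, hDU,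
        gm_emb_zero, Matrix.mul_one, hinv, Matrix.mul_assoc]
    have hG' : top_mat z (.inr (j, 1)) * top_mat z (.inr (j, 0)) = 1 :=
      mul_eq_one_comm.mp (hG j)
    fin_cases k
    · exact hL
    · exact hL'
    · show mn_leftInv _ j _ 0 _ * gs_val _ 0 _ _ * mn_left _ j _ 0 _ = _
      rw [hL, hL', hV]
      simp only [← mn_ext_mul hnN]
      congr 1
      calc _ = (top_mat z (.inr (j, 1)) * top_mat z (.inr (j, 0))) * top_mat z (.inr (j, 2)) *
            (top_mat z (.inr (j, 1)) * top_mat z (.inr (j, 0))) := by simp only [Matrix.mul_assoc]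
        _ = _ := by rw [hG', Matrix.one_mul, Matrix.mul_one]; rfl

theorem mn_pi_onto (hnN : n ≤ N) (hb : ∀ j, Monotone (blk j)) (hl : ∀ j p, lam j (blk j p) ≠ 0)
    (hz : z ∈ top_NSol g s blk lam) :
    ∃ x ∈ gs_Sol N (mn_sys g s blk lam), mn_pi blk lam hnN x = z := by
  have hP := mn_x0_pre hnN hb hl hz
  have hpi : mn_pi blk lam hnN (mn_x0 blk lam N z) = z := by
    funext ⟨k, p, q⟩
    show mn_cor hnN (mn_M blk lam (mn_x0 blk lam N z) k) p q = _
    rw [mn_x0_M hnN hl hz, mn_cor_ext]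
    rfl
  refine ⟨mn_x0 blk lam N z, (mn_sol_iff blk lam _).mpr ⟨hP, (mn_rel_iff hnN hP).mpr ?_⟩, hpi⟩
  rw [hpi]
  exact hz.2.2.2.2

end x0

end sys

/-- **G-MAINSYS**: density for the main system implies density for the flag variety -/
theorem mn_main (N : ℕ) (R : Subring ℂ) : StMainMono N R := by
  intro n hnN g s blk lam hb hlam
  refine ⟨mn_Y g s, mn_sys g s blk lam, mn_sys_good blk lam hnN hb hlam, mn_sys_noImp blk lam hb,
    fun hD => ?_⟩
  exact mn_zcl_of_dense hD _ (mn_pi blk lam hnN) (mn_pi_reg hnN fun j p => (hlam j p).2.1)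
    (fun x hx => mn_pi_maps hnN hb hx) (fun z hz => mn_pi_onto hnN hb (fun j p => (hlam j p).1) hz)

theorem mn_mainSys (N : ℕ) (R : Subring ℂ) : StMainSys N R := mn_mainSys_of_mono (mn_main N R)

end Claimed.Agent.R236
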