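import Mathlib
import Claimed.Agent.R236.GInduct

/-!
# Row 236, Model G2: toolkit for operations on words (owner helper215, prefix gmg_)

* values of words: append, congruence;
* typed paths `gmg_Path` (recursive form of `gs_Eqn.WF.app` + `closed`);
* frames: append / take / drop, invariants, dependence on the signature;
* occurrences: `gs_occL` of append, uniqueness of the occurrences in a balanced system;
* corner property and regularity of the value of a word.
-/

set_option autoImplicit false

namespace Claimed.Agent.R236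

variable {Y : Type} {N : ℕ}

/-! ## values of words -/

theorem gmg_val_append (x : gs_Pt Y N) (e i : ℕ) (l1 l2 : List (gs_Letter Y)) :
    gs_val x e i (l1 ++ l2) = gs_val x e i l1 * gs_val x e (i + l1.length) l2 := by
  induction l1 generalizing i with
  | nil => simp [gs_val]
  | cons l l1 ih =>
    simp only [List.cons_append, gs_val, ih, List.length_cons]
    rw [show i + 1 + l1.length = i + (l1.length + 1) by omega]
    simp only [Matrix.mul_assoc]

theorem gmg_val_congr (x x' : gs_Pt Y N) (e e' i i' : ℕ) (ls : List (gs_Letter Y))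
    (hl : ∀ l ∈ ls, gs_lmat x l = gs_lmat x' l)
    (hu : ∀ j, j < ls.length → x (.inr (e, i + j)) = x' (.inr (e', i' + j))) :
    gs_val x e i ls = gs_val x' e' i' ls := by
  induction ls generalizing i i' with
  | nil => rfl
  | cons l ls ih =>
    simp only [gs_val]
    rw [hl l (List.mem_cons_self ..), ih (i + 1) (i' + 1)
      (fun l' h => hl l' (List.mem_cons_of_mem _ h)) (fun j hj => by
        have := hu (j + 1) (by simpa using hj)
        rwa [show i + (j + 1) = i + 1 + j by omega, show i' + (j + 1) = i' + 1 + j by omega] at this)]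
    have := hu 0 (by simp)
    simp only [Nat.add_zero] at this
    rw [this]

theorem gmg_emb_zero (A : gs_Mat N) : gs_emb 0 A = A := by
  funext i j
  simp [gs_emb]

theorem gmg_lmat_one (x : gs_Pt Y N) : gs_lmat x (.L fun _ => 1) = 1 := by
  simp [gs_lmat]

/-- the variable `y` does not occur in the word -/
def gmg_Free (y : Y) (ls : List (gs_Letter Y)) : Prop :=
  ∀ inv o, gs_Letter.G inv y o ∉ ls

theorem gmg_lmat_congr (x x' : gs_Pt Y N) (y : Y) (h : ∀ y', y' ≠ y → x (.inl y') = x' (.inl y'))
    (ls : List (gs_Letter Y)) (hf : gmg_Free y ls) : ∀ l ∈ ls, gs_lmat x l = gs_lmat x' l := by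
  intro l hl
  match l, hl with
  | .G false y' o, hl =>
    have : y' ≠ y := by rintro rfl; exact hf _ _ hl
    simp [gs_lmat, h y' this]
  | .G true y' o, hl =>
    have : y' ≠ y := by rintro rfl; exact hf _ _ hl
    simp [gs_lmat, h y' this]
  | .S o a b, _ => rfl
  | .L lam, _ => rfl

/-! ## typed paths -/

/-- `ls` is a well typed word of rank `n` from the frame `K` to the frame `K'` -/
def gmg_Path (sig : Y → gs_Sig) (n : ℕ) : Finset ℕ → List (gs_Letter Y) → Finset ℕ → Prop
  | K, [], K' => K = K'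
  | K, l :: ls, K' => gs_app sig n K l ∧ gmg_Path sig n (gs_step sig K l) ls K'

theorem gmg_frame_zero (sig : Y → gs_Sig) (K : Finset ℕ) (ls : List (gs_Letter Y)) :
    gs_frame sig K ls 0 = K := by simp [gs_frame]

theorem gmg_frame_cons (sig : Y → gs_Sig) (K : Finset ℕ) (l : gs_Letter Y)
    (ls : List (gs_Letter Y)) (i : ℕ) :
    gs_frame sig K (l :: ls) (i + 1) = gs_frame sig (gs_step sig K l) ls i := by
  simp [gs_frame]

theorem gmg_path_iff (sig : Y → gs_Sig) (n : ℕ) (K K' : Finset ℕ) (ls : List (gs_Letter Y)) :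
    gmg_Path sig n K ls K' ↔
      (∀ (i : ℕ) (h : i < ls.length), gs_app sig n (gs_frame sig K ls i) ls[i]) ∧
        gs_frame sig K ls ls.length = K' := by
  induction ls generalizing K with
  | nil => simp [gmg_Path, gs_frame]
  | cons l ls ih =>
    simp only [gmg_Path, ih, List.length_cons, gmg_frame_cons]
    constructor
    · rintro ⟨h1, h2, h3⟩
      refine ⟨fun i hi => ?_, h3⟩
      cases i with
      | zero => simpa [gmg_frame_zero] using h1
      | succ i => simpa [gmg_frame_cons] using h2 i (by simpa using hi)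
    · rintro ⟨h1, h3⟩
      refine ⟨by simpa [gmg_frame_zero] using h1 0 (by simp), fun i hi => ?_, h3⟩
      have := h1 (i + 1) (by simpa using hi)
      rw [gmg_frame_cons] at this
      simpa only [List.getElem_cons_succ] using this

theorem gmg_path_frame {sig : Y → gs_Sig} {n : ℕ} {K K' : Finset ℕ} {ls : List (gs_Letter Y)}
    (h : gmg_Path sig n K ls K') : gs_frame sig K ls ls.length = K' :=
  ((gmg_path_iff sig n K K' ls).1 h).2

theorem gmg_path_append (sig : Y → gs_Sig) (n : ℕ) (K K'' : Finset ℕ)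
    (l1 l2 : List (gs_Letter Y)) :
    gmg_Path sig n K (l1 ++ l2) K'' ↔
      gmg_Path sig n K l1 (gs_frame sig K l1 l1.length) ∧
        gmg_Path sig n (gs_frame sig K l1 l1.length) l2 K'' := by
  induction l1 generalizing K with
  | nil => simp [gmg_Path, gs_frame]
  | cons l l1 ih =>
    simp only [List.cons_append, gmg_Path, ih, List.length_cons, gmg_frame_cons, and_assoc]

theorem gmg_path_trans {sig : Y → gs_Sig} {n : ℕ} {K K' K'' : Finset ℕ}
    {l1 l2 : List (gs_Letter Y)} (h1 : gmg_Path sig n K l1 K') (h2 : gmg_Path sig n K' l2 K'') :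
    gmg_Path sig n K (l1 ++ l2) K'' := by
  rw [gmg_path_append, gmg_path_frame h1]
  exact ⟨h1, h2⟩

/-! ## frames -/

theorem gmg_frame_append_left (sig : Y → gs_Sig) (K : Finset ℕ) (l1 l2 : List (gs_Letter Y))
    (j : ℕ) (hj : j ≤ l1.length) : gs_frame sig K (l1 ++ l2) j = gs_frame sig K l1 j := by
  simp only [gs_frame]
  rw [List.take_append_of_le_length hj]

theorem gmg_frame_append_right (sig : Y → gs_Sig) (K : Finset ℕ) (l1 l2 : List (gs_Letter Y))
    (j : ℕ) : gs_frame sig K (l1 ++ l2) (l1.length + j) =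
      gs_frame sig (gs_frame sig K l1 l1.length) l2 j := by
  simp only [gs_frame]
  rw [List.take_length_add_append, List.foldl_append, List.take_length]

theorem gmg_frame_take (sig : Y → gs_Sig) (K : Finset ℕ) (ls : List (gs_Letter Y)) (i j : ℕ)
    (hj : j ≤ i) : gs_frame sig K (ls.take i) j = gs_frame sig K ls j := by
  simp only [gs_frame, List.take_take, Nat.min_eq_left hj]

theorem gmg_frame_drop (sig : Y → gs_Sig) (K : Finset ℕ) (ls : List (gs_Letter Y)) (i j : ℕ) :
    gs_frame sig (gs_frame sig K ls i) (ls.drop i) j = gs_frame sig K ls (i + j) := by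
  simp only [gs_frame]
  rw [← List.foldl_append, List.take_add]

theorem gmg_frame_take_length (sig : Y → gs_Sig) (K : Finset ℕ) (ls : List (gs_Letter Y)) (i : ℕ) :
    gs_frame sig K (ls.take i) (ls.take i).length = gs_frame sig K ls i := by
  simp only [gs_frame, List.take_length]

theorem gmg_path_take {sig : Y → gs_Sig} {n : ℕ} {K K' : Finset ℕ} {ls : List (gs_Letter Y)}
    (h : gmg_Path sig n K ls K') (i : ℕ) :
    gmg_Path sig n K (ls.take i) (gs_frame sig K ls i) := by
  rw [← List.take_append_drop i ls, gmg_path_append, gmg_frame_take_length] at h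
  simpa using h.1

theorem gmg_path_drop {sig : Y → gs_Sig} {n : ℕ} {K K' : Finset ℕ} {ls : List (gs_Letter Y)}
    (h : gmg_Path sig n K ls K') (i : ℕ) :
    gmg_Path sig n (gs_frame sig K ls i) (ls.drop i) K' := by
  rw [← List.take_append_drop i ls, gmg_path_append, gmg_frame_take_length] at h
  simpa using h.2

theorem gmg_free_cons {y : Y} {l : gs_Letter Y} {ls : List (gs_Letter Y)}
    (h : gmg_Free y (l :: ls)) : gmg_Free y ls :=
  fun inv o hm => h inv o (List.mem_cons_of_mem _ hm)

theorem gmg_free_append {y : Y} {l1 l2 : List (gs_Letter Y)} :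
    gmg_Free y (l1 ++ l2) ↔ gmg_Free y l1 ∧ gmg_Free y l2 := by
  simp only [gmg_Free, List.mem_append, not_or]
  exact ⟨fun h => ⟨fun i o => (h i o).1, fun i o => (h i o).2⟩, fun h i o => ⟨h.1 i o, h.2 i o⟩⟩

theorem gmg_step_congr_sig {sig sig' : Y → gs_Sig} {y : Y} (h : ∀ y', y' ≠ y → sig y' = sig' y')
    (K : Finset ℕ) (l : gs_Letter Y) (hl : ∀ inv o, l ≠ .G inv y o) :
    gs_step sig K l = gs_step sig' K l := by
  match l, hl with
  | .G inv y' o, hl =>
    have : y' ≠ y := by rintro rfl; exact hl _ _ rfl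
    simp [gs_step, h y' this]
  | .S o a b, _ => rfl
  | .L lam, _ => rfl

theorem gmg_app_congr_sig {sig sig' : Y → gs_Sig} {y : Y} (h : ∀ y', y' ≠ y → sig y' = sig' y')
    (n : ℕ) (K : Finset ℕ) (l : gs_Letter Y) (hl : ∀ inv o, l ≠ .G inv y o) :
    gs_app sig n K l ↔ gs_app sig' n K l := by
  match l, hl with
  | .G inv y' o, hl =>
    have : y' ≠ y := by rintro rfl; exact hl _ _ rfl
    simp [gs_app, h y' this]
  | .S o a b, _ => exact Iff.rfl
  | .L lam, _ => exact Iff.rfl

theorem gmg_path_congr_sig {sig sig' : Y → gs_Sig} {y : Y} (h : ∀ y', y' ≠ y → sig y' = sig' y')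
    (n : ℕ) (K K' : Finset ℕ) (ls : List (gs_Letter Y)) (hf : gmg_Free y ls) :
    gmg_Path sig n K ls K' ↔ gmg_Path sig' n K ls K' := by
  induction ls generalizing K with
  | nil => exact Iff.rfl
  | cons l ls ih =>
    have hl : ∀ inv o, l ≠ .G inv y o := fun inv o he => hf inv o (he ▸ List.mem_cons_self ..)
    simp only [gmg_Path]
    rw [gmg_app_congr_sig h n K l hl, gmg_step_congr_sig h K l hl, ih _ (gmg_free_cons hf)]

theorem gmg_frame_congr_sig {sig sig' : Y → gs_Sig} {y : Y} (h : ∀ y', y' ≠ y → sig y' = sig' y')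
    (K : Finset ℕ) (ls : List (gs_Letter Y)) (hf : gmg_Free y ls) (i : ℕ) :
    gs_frame sig K ls i = gs_frame sig' K ls i := by
  induction ls generalizing K i with
  | nil => simp [gs_frame]
  | cons l ls ih =>
    have hl : ∀ inv o, l ≠ .G inv y o := fun inv o he => hf inv o (he ▸ List.mem_cons_self ..)
    cases i with
    | zero => simp [gs_frame]
    | succ i => rw [gmg_frame_cons, gmg_frame_cons, gmg_step_congr_sig h K l hl,
        ih _ (gmg_free_cons hf)]

/-- a frame of rank `n` -/
def gmg_FrameOK (n : ℕ) (K : Finset ℕ) : Prop := 0 ∈ K ∧ n ∈ K ∧ ∀ d ∈ K, d ≤ n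

theorem gmg_cutRepl_ok {n : ℕ} {K : Finset ℕ} (hK : gmg_FrameOK n K) {o m a c : ℕ}
    (hm : gs_midOK K o m a) (hc : c ≤ m) : gmg_FrameOK n (gs_cutRepl K o m c) := by
  obtain ⟨h0, hn, hle⟩ := hK
  obtain ⟨-, -, hom, -, -⟩ := hm
  have h1 := hle _ hom
  refine ⟨?_, ?_, ?_⟩
  · simp only [gs_cutRepl, Finset.mem_insert, Finset.mem_filter]
    exact Or.inr ⟨h0, Or.inl (Nat.zero_le _)⟩
  · simp only [gs_cutRepl, Finset.mem_insert, Finset.mem_filter]
    exact Or.inr ⟨hn, Or.inr h1⟩
  · intro d hd
    simp only [gs_cutRepl, Finset.mem_insert, Finset.mem_filter] at hd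
    rcases hd with rfl | hd
    · omega
    · exact hle d hd.1

theorem gmg_step_ok {sig : Y → gs_Sig} (hs : ∀ y, (sig y).s ≤ (sig y).rk)
    (ht : ∀ y, (sig y).t ≤ (sig y).rk) {n : ℕ} {K : Finset ℕ} (hK : gmg_FrameOK n K)
    {l : gs_Letter Y} (hl : gs_app sig n K l) : gmg_FrameOK n (gs_step sig K l) := by
  match l, hl with
  | .G inv y o, hl =>
    refine gmg_cutRepl_ok hK hl ?_
    cases inv
    · simpa [gs_Sig.tgt] using ht y
    · simpa [gs_Sig.tgt] using hs y
  | .S o a b, hl => exact gmg_cutRepl_ok hK hl (by omega)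
  | .L lam, _ => exact hK

theorem gmg_path_ok {sig : Y → gs_Sig} (hs : ∀ y, (sig y).s ≤ (sig y).rk)
    (ht : ∀ y, (sig y).t ≤ (sig y).rk) {n : ℕ} {K K' : Finset ℕ} (hK : gmg_FrameOK n K)
    {ls : List (gs_Letter Y)} (h : gmg_Path sig n K ls K') (i : ℕ) :
    gmg_FrameOK n (gs_frame sig K ls i) := by
  induction ls generalizing K i with
  | nil => simpa [gs_frame] using hK
  | cons l ls ih =>
    cases i with
    | zero => simpa [gs_frame] using hK
    | succ i =>
      rw [gmg_frame_cons]
      exact ih (gmg_step_ok hs ht hK h.1) h.2 i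

/-- a frame at which a letter of full rank can be applied -/
theorem gmg_full_frame {n : ℕ} {K : Finset ℕ} (hK : gmg_FrameOK n K) {a : ℕ}
    (h : gs_midOK K 0 n a) : K = {0, a, n} := by
  obtain ⟨h0, hn, hle⟩ := hK
  obtain ⟨-, ha, -, -, hd⟩ := h
  ext d
  simp only [Finset.mem_insert, Finset.mem_singleton]
  constructor
  · intro hdK
    have h1 := hle d hdK
    by_cases h2 : d = 0
    · exact Or.inl h2
    · by_cases h3 : d = n
      · exact Or.inr (Or.inr h3)
      · have := hd d hdK (by omega) (by omega)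
        exact Or.inr (Or.inl (by omega))
  · rintro (rfl | rfl | rfl)
    · exact h0
    · simpa using ha
    · exact hn

theorem gmg_full_cutRepl {n : ℕ} {K : Finset ℕ} (hK : gmg_FrameOK n K) (c : ℕ) :
    gs_cutRepl K 0 n c = {0, c, n} := by
  obtain ⟨h0, hn, hle⟩ := hK
  ext d
  simp only [gs_cutRepl, Finset.mem_insert, Finset.mem_filter, Finset.mem_singleton]
  constructor
  · rintro (rfl | ⟨hdK, h | h⟩)
    · exact Or.inr (Or.inl (by omega))
    · exact Or.inl (by omega)
    · have := hle d hdK
      exact Or.inr (Or.inr (by omega))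
  · rintro (rfl | rfl | rfl)
    · exact Or.inr ⟨h0, Or.inl le_rfl⟩
    · exact Or.inl (by omega)
    · exact Or.inr ⟨hn, Or.inr (by omega)⟩

/-! ## occurrences -/

theorem gmg_occL_append (inv : Bool) (l1 l2 : List (gs_Letter Y)) :
    gs_occL inv (l1 ++ l2) = gs_occL inv l1 ++ gs_occL inv l2 := by
  induction l1 with
  | nil => rfl
  | cons l l1 ih =>
    match l with
    | .G i y o =>
      by_cases h : i = inv
      · simp [gs_occL, h, ih]
      · simp [gs_occL, h, ih]
    | .S o a b => simpa [gs_occL] using ih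
    | .L lam => simpa [gs_occL] using ih

theorem gmg_mem_occL {inv : Bool} {y : Y} {ls : List (gs_Letter Y)} :
    y ∈ gs_occL inv ls ↔ ∃ o, gs_Letter.G inv y o ∈ ls := by
  induction ls with
  | nil => simp [gs_occL]
  | cons l ls ih =>
    match l with
    | .G i y' o =>
      by_cases h : i = inv
      · subst h
        simp only [gs_occL, if_true, List.mem_cons, ih, gs_Letter.G.injEq, true_and]
        constructor
        · rintro (rfl | ⟨o', h⟩)
          · exact ⟨o, Or.inl ⟨rfl, rfl⟩⟩
          · exact ⟨o', Or.inr h⟩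
        · rintro ⟨o', ⟨h1, -⟩ | h⟩
          · exact Or.inl h1
          · exact Or.inr ⟨o', h⟩
      · simp only [gs_occL, if_neg h, List.mem_cons, ih, gs_Letter.G.injEq]
        constructor
        · rintro ⟨o', h'⟩; exact ⟨o', Or.inr h'⟩
        · rintro ⟨o', ⟨h1, -, -⟩ | h'⟩
          · exact absurd h1.symm h
          · exact ⟨o', h'⟩
    | .S o a b => simp [gs_occL, ih]
    | .L lam => simp [gs_occL, ih]

theorem gmg_free_iff {y : Y} {ls : List (gs_Letter Y)} :
    gmg_Free y ls ↔ y ∉ gs_occL false ls ∧ y ∉ gs_occL true ls := by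
  simp only [gmg_mem_occL, not_exists, gmg_Free]
  constructor
  · intro h; exact ⟨fun o => h false o, fun o => h true o⟩
  · rintro ⟨h1, h2⟩ inv o
    cases inv
    · exact h1 o
    · exact h2 o

theorem gmg_split {α : Type*} {ls : List α} {i : ℕ} {a : α} (h : ls[i]? = some a) :
    ls = ls.take i ++ a :: ls.drop (i + 1) := by
  obtain ⟨hi, rfl⟩ := List.getElem?_eq_some_iff.1 h
  simp

/-! ## corner property, regularity -/

/-- the constraints of `gs_Sol` on the variables -/
def gmg_VarOK (sig : Y → gs_Sig) (x : gs_Pt Y N) : Prop :=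
  ∀ y, IsUnit (x (.inl y)).det ∧ gs_IsCorner (sig y).rk (x (.inl y))

theorem gmg_corner_one (m : ℕ) : gs_IsCorner m (1 : gs_Mat N) := fun _ _ _ => rfl

theorem gmg_uni_corner {n : ℕ} {K : Finset ℕ} {u : gs_Mat N} (hu : gs_IsUni n K u) :
    gs_IsCorner n u := by
  intro i j hij
  by_contra h
  obtain ⟨h1, c, -, h2, h3⟩ := hu i j h
  omega

/-- a unipotent of rank `0` is `1` -/
theorem gmg_uni_zero {K : Finset ℕ} {u : gs_Mat N} (hu : gs_IsUni 0 K u) : u = 1 := by
  funext i j
  by_contra h
  exact absurd (hu i j h).1 (by omega)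

theorem gmg_uni_one (n : ℕ) (K : Finset ℕ) : gs_IsUni n K (1 : gs_Mat N) :=
  fun _ _ h => absurd rfl h

/-- a corner matrix of rank `0` is `1` -/
theorem gmg_corner_zero {A : gs_Mat N} (hA : gs_IsCorner 0 A) : A = 1 := by
  funext i j
  exact hA i j (Or.inl (Nat.zero_le _))

end Claimed.Agent.R236
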