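import Mathlib
import Claimed.Agent.R236.GWordMat
import Claimed.Agent.R236.GSteps
import Claimed.Agent.R236.GMergeLib

/-!
# Row 236, Model G2: the operation MERGE (owner helper120, prefix `gmg_`)

`y` a variable whose two letters `G false y 0`, `G true y 0` lie in different equations `e1 ≠ e2` of the rank of `y`:
`ls1 = A1 ++ G y :: B1`, `ls2 = A2 ++ G' y :: B2`.  New system: `y` gets the signature `0`, the equation `e2` becomes
trivial and `e1` becomes `A1 ++ L 1 :: B2 ++ A2 ++ L 1 :: B1`.  The unipotent after the first `L 1` is the old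
`u_(e2,|A2|)`, the one after the second `L 1` is the old `u_(e1,|A1|)`; so the solutions correspond bijectively
(`y = u_(e2,|A2|) * val B2 * val A2`, `y⁻¹ = u_(e1,|A1|) * val B1 * val A1`).

Export: `gmg_mergeStep : StMergeStep N R`.
-/

set_option autoImplicit false

namespace Claimed.Agent.R236

open Matrix

section defs
variable {Y : Type}

/-- the padding letter -/
def gmg_one (Y : Type) : gs_Letter Y := .L fun _ => 1

/-- the spliced word -/
def gmg_word (A1 B1 A2 B2 : List (gs_Letter Y)) : List (gs_Letter Y) :=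
  A1 ++ gmg_one Y :: (B2 ++ (A2 ++ gmg_one Y :: B1))

/-- the spliced equation -/
def gmg_eqn (S : gs_Sys Y) (e1 : ℕ) (A1 B1 A2 B2 : List (gs_Letter Y)) : gs_Eqn Y :=
  ⟨(S.eq e1).rk, (S.eq e1).K0, gmg_word A1 B1 A2 B2⟩

open Classical in
/-- the new signature -/
noncomputable def gmg_sig (S : gs_Sys Y) (y : Y) : Y → gs_Sig := Function.update S.sig y ⟨0, 0, 0⟩

/-- MERGE -/
noncomputable def gmg_merge (S : gs_Sys Y) (y : Y) (e1 e2 : ℕ) (A1 B1 A2 B2 : List (gs_Letter Y)) :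
    gs_Sys Y :=
  ⟨gmg_sig S y, (S.eqs.set e1 (gmg_eqn S e1 A1 B1 A2 B2)).set e2 (gs_Eqn.triv Y)⟩

/-- the hypotheses of MERGE -/
structure gmg_Hyp (N : ℕ) (R : Subring ℂ) (S : gs_Sys Y) (y : Y) (e1 e2 : ℕ)
    (A1 B1 A2 B2 : List (gs_Letter Y)) : Prop where
  wf : S.WF N R
  ne : e1 ≠ e2
  ls1 : (S.eq e1).ls = A1 ++ .G false y 0 :: B1
  ls2 : (S.eq e2).ls = A2 ++ .G true y 0 :: B2
  rk1 : (S.eq e1).rk = (S.sig y).rk
  rk2 : (S.eq e2).rk = (S.sig y).rk

/-- the frame `{0, s, rk}` -/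
def gmg_Ks (S : gs_Sys Y) (y : Y) : Finset ℕ := {0, (S.sig y).s, (S.sig y).rk}

/-- the frame `{0, t, rk}` -/
def gmg_Kt (S : gs_Sys Y) (y : Y) : Finset ℕ := {0, (S.sig y).t, (S.sig y).rk}

theorem gmg_sig_self (S : gs_Sys Y) (y : Y) : gmg_sig S y y = ⟨0, 0, 0⟩ := by
  simp [gmg_sig]

theorem gmg_sig_ne (S : gs_Sys Y) {y z : Y} (h : z ≠ y) : gmg_sig S y z = S.sig z := by
  simp [gmg_sig, h]

theorem gmg_agree (S : gs_Sys Y) {y : Y} {ls : List (gs_Letter Y)} (h : gw_Free y ls) :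
    ∀ inv z o, .G inv z o ∈ ls → gmg_sig S y z = S.sig z := by
  intro inv z o hz
  apply gmg_sig_ne
  rintro rfl
  exact h inv o hz

/-- splitting a well-formed equation at a letter of full rank -/
theorem gmg_split_typed {sig : Y → gs_Sig} (hs : gw_SigOK sig) {N : ℕ} {R : Subring ℂ} {E : gs_Eqn Y}
    (hE : E.WF sig N R) {inv : Bool} {y : Y} {A B : List (gs_Letter Y)}
    (hls : E.ls = A ++ .G inv y 0 :: B) (hrk : E.rk = (sig y).rk) :
    gw_Typed sig (sig y).rk E.K0 A {0, (sig y).src inv, (sig y).rk} ∧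
      gw_Typed sig (sig y).rk {0, (sig y).tgt inv, (sig y).rk} B E.K0 ∧
      gs_step sig {0, (sig y).src inv, (sig y).rk} (.G inv y 0) = {0, (sig y).tgt inv, (sig y).rk} ∧
      gs_app sig (sig y).rk {0, (sig y).src inv, (sig y).rk} (.G inv y 0) ∧
      gw_Fr (sig y).rk {0, (sig y).src inv, (sig y).rk} ∧
      gw_Fr (sig y).rk {0, (sig y).tgt inv, (sig y).rk} := by
  have ht := hE.typed
  have h0 := hE.fr0
  rw [hls, hrk, gw_typed_append, gw_typed_cons] at ht
  rw [hrk] at h0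
  obtain ⟨hA, happ, hB⟩ := ht
  have hfr := hA.fr hs h0
  have hK : gw_end sig E.K0 A = {0, (sig y).src inv, (sig y).rk} := gw_full hfr happ
  have hstep : gs_step sig (gw_end sig E.K0 A) (.G inv y 0) = {0, (sig y).tgt inv, (sig y).rk} :=
    gw_cutRepl_full hfr _
  have hfr2 := gw_fr_step hs hfr happ
  rw [hstep] at hB hfr2
  rw [hK] at hA hstep happ hfr
  exact ⟨hA, hB, hstep, happ, hfr, hfr2⟩

end defs

section hyp
variable {Y : Type} {N : ℕ} {R : Subring ℂ} {S : gs_Sys Y} {y : Y} {e1 e2 : ℕ}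
  {A1 B1 A2 B2 : List (gs_Letter Y)}

namespace gmg_Hyp

variable (H : gmg_Hyp N R S y e1 e2 A1 B1 A2 B2)
include H

theorem at1 : (S.eq e1).ls[A1.length]? = some (.G false y 0) := by
  rw [H.ls1]; simp

theorem at2 : (S.eq e2).ls[A2.length]? = some (.G true y 0) := by
  rw [H.ls2]; simp

theorem lt1 : e1 < S.eqs.length := (gw_lt_of_at H.at1).1

theorem lt2 : e2 < S.eqs.length := (gw_lt_of_at H.at2).1

/-- the equations of the new system -/
theorem eq' (e : ℕ) : (gmg_merge S y e1 e2 A1 B1 A2 B2).eq e =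
    if e = e2 then gs_Eqn.triv Y else if e = e1 then gmg_eqn S e1 A1 B1 A2 B2 else S.eq e := by
  unfold gmg_merge
  rw [gw_eq_set, gw_eq_set]
  have h1 := H.lt1
  have h2 := H.lt2
  simp only [List.length_set, h1, h2, and_true]
  rfl

theorem eq'_1 : (gmg_merge S y e1 e2 A1 B1 A2 B2).eq e1 = gmg_eqn S e1 A1 B1 A2 B2 := by
  rw [H.eq', if_neg H.ne, if_pos rfl]

theorem eq'_2 : (gmg_merge S y e1 e2 A1 B1 A2 B2).eq e2 = gs_Eqn.triv Y := by
  rw [H.eq', if_pos rfl]

theorem eq'_other {e : ℕ} (h1 : e ≠ e1) (h2 : e ≠ e2) :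
    (gmg_merge S y e1 e2 A1 B1 A2 B2).eq e = S.eq e := by
  rw [H.eq', if_neg h2, if_neg h1]

/-- the letters of `y` -/
theorem only {e i o : ℕ} {inv : Bool} (h : (S.eq e).ls[i]? = some (.G inv y o)) :
    (e = e1 ∧ i = A1.length) ∨ (e = e2 ∧ i = A2.length) := by
  cases inv
  · obtain ⟨h1, h2, -⟩ := H.wf.at_unique h H.at1
    exact Or.inl ⟨h1, h2⟩
  · obtain ⟨h1, h2, -⟩ := H.wf.at_unique h H.at2
    exact Or.inr ⟨h1, h2⟩

theorem free_A1 : gw_Free y A1 := by
  intro inv o hm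
  obtain ⟨i, hi, h⟩ := List.getElem_of_mem hm
  have : (S.eq e1).ls[i]? = some (.G inv y o) := by
    rw [H.ls1, List.getElem?_append_left hi, List.getElem?_eq_getElem hi, h]
  rcases H.only this with ⟨-, h2⟩ | ⟨h1, -⟩
  · omega
  · exact H.ne h1

theorem free_A2 : gw_Free y A2 := by
  intro inv o hm
  obtain ⟨i, hi, h⟩ := List.getElem_of_mem hm
  have : (S.eq e2).ls[i]? = some (.G inv y o) := by
    rw [H.ls2, List.getElem?_append_left hi, List.getElem?_eq_getElem hi, h]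
  rcases H.only this with ⟨h1, -⟩ | ⟨-, h2⟩
  · exact H.ne h1.symm
  · omega

theorem free_B1 : gw_Free y B1 := by
  intro inv o hm
  obtain ⟨i, hi, h⟩ := List.getElem_of_mem hm
  have : (S.eq e1).ls[A1.length + (i + 1)]? = some (.G inv y o) := by
    rw [H.ls1, List.getElem?_append_right (by omega)]
    simp [List.getElem?_eq_getElem hi, h]
  rcases H.only this with ⟨-, h2⟩ | ⟨h1, -⟩
  · omega
  · exact H.ne h1

theorem free_B2 : gw_Free y B2 := by
  intro inv o hm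
  obtain ⟨i, hi, h⟩ := List.getElem_of_mem hm
  have : (S.eq e2).ls[A2.length + (i + 1)]? = some (.G inv y o) := by
    rw [H.ls2, List.getElem?_append_right (by omega)]
    simp [List.getElem?_eq_getElem hi, h]
  rcases H.only this with ⟨h1, -⟩ | ⟨-, h2⟩
  · exact H.ne h1.symm
  · omega

theorem free_other {e : ℕ} (h1 : e ≠ e1) (h2 : e ≠ e2) : gw_Free y (S.eq e).ls := by
  intro inv o hm
  obtain ⟨i, hi, h⟩ := List.getElem_of_mem hm
  have : (S.eq e).ls[i]? = some (.G inv y o) := by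
    rw [List.getElem?_eq_getElem hi, h]
  rcases H.only this with ⟨h, -⟩ | ⟨h, -⟩
  · exact h1 h
  · exact h2 h

theorem free_word : gw_Free y (gmg_word A1 B1 A2 B2) := by
  intro inv o hm
  simp only [gmg_word, List.mem_append, List.mem_cons, gmg_one, reduceCtorEq, false_or] at hm
  rcases hm with h | h | h | h
  · exact H.free_A1 inv o h
  · exact H.free_B2 inv o h
  · exact H.free_A2 inv o h
  · exact H.free_B1 inv o h

theorem tA1 : gw_Typed S.sig (S.sig y).rk (S.eq e1).K0 A1 (gmg_Ks S y) :=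
  (gmg_split_typed H.wf.sigOK (H.wf.eq_wf e1) H.ls1 H.rk1).1

theorem tB1 : gw_Typed S.sig (S.sig y).rk (gmg_Kt S y) B1 (S.eq e1).K0 :=
  (gmg_split_typed H.wf.sigOK (H.wf.eq_wf e1) H.ls1 H.rk1).2.1

theorem step1 : gs_step S.sig (gmg_Ks S y) (.G false y 0) = gmg_Kt S y :=
  (gmg_split_typed H.wf.sigOK (H.wf.eq_wf e1) H.ls1 H.rk1).2.2.1

theorem frKs : gw_Fr (S.sig y).rk (gmg_Ks S y) :=
  (gmg_split_typed H.wf.sigOK (H.wf.eq_wf e1) H.ls1 H.rk1).2.2.2.2.1

theorem frKt : gw_Fr (S.sig y).rk (gmg_Kt S y) :=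
  (gmg_split_typed H.wf.sigOK (H.wf.eq_wf e1) H.ls1 H.rk1).2.2.2.2.2

theorem tA2 : gw_Typed S.sig (S.sig y).rk (S.eq e2).K0 A2 (gmg_Kt S y) :=
  (gmg_split_typed H.wf.sigOK (H.wf.eq_wf e2) H.ls2 H.rk2).1

theorem tB2 : gw_Typed S.sig (S.sig y).rk (gmg_Ks S y) B2 (S.eq e2).K0 :=
  (gmg_split_typed H.wf.sigOK (H.wf.eq_wf e2) H.ls2 H.rk2).2.1

theorem step2 : gs_step S.sig (gmg_Kt S y) (.G true y 0) = gmg_Ks S y :=
  (gmg_split_typed H.wf.sigOK (H.wf.eq_wf e2) H.ls2 H.rk2).2.2.1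

/-- the structural lemma: a property along the spliced word -/
theorem all_merge (P' P1 P2 : ℕ → Finset ℕ → gs_Letter Y → Prop)
    (hA1 : ∀ r, r < A1.length → ∀ K, ∀ l ∈ A1, (P' (0 + r) K l ↔ P1 (0 + r) K l))
    (h1 : P' A1.length (gmg_Ks S y) (gmg_one Y) ↔ P2 A2.length (gmg_Kt S y) (.G true y 0))
    (hB2 : ∀ r, r < B2.length → ∀ K, ∀ l ∈ B2,
      (P' (A1.length + 1 + r) K l ↔ P2 (A2.length + 1 + r) K l))
    (hA2 : ∀ r, r < A2.length → ∀ K, ∀ l ∈ A2,
      (P' (A1.length + 1 + B2.length + r) K l ↔ P2 (0 + r) K l))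
    (h2 : P' (A1.length + 1 + B2.length + A2.length) (gmg_Kt S y) (gmg_one Y) ↔
      P1 A1.length (gmg_Ks S y) (.G false y 0))
    (hB1 : ∀ r, r < B1.length → ∀ K, ∀ l ∈ B1,
      (P' (A1.length + 1 + B2.length + A2.length + 1 + r) K l ↔ P1 (A1.length + 1 + r) K l)) :
    gw_All (gmg_sig S y) P' 0 (S.eq e1).K0 (gmg_word A1 B1 A2 B2) ↔
      gw_All S.sig P1 0 (S.eq e1).K0 (A1 ++ .G false y 0 :: B1) ∧
        gw_All S.sig P2 0 (S.eq e2).K0 (A2 ++ .G true y 0 :: B2) := by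
  have st : ∀ {ls : List (gs_Letter Y)}, gw_Free y ls →
      ∀ l ∈ ls, ∀ K, gs_step (gmg_sig S y) K l = gs_step S.sig K l := fun hf l hl K =>
    gw_step_congr (fun inv z o e => gmg_agree S hf inv z o (e ▸ hl)) K
  have eA1 : gw_end (gmg_sig S y) (S.eq e1).K0 A1 = gmg_Ks S y :=
    (gw_end_congr (gmg_agree S H.free_A1) _).trans H.tA1.end_eq
  have eB2 : gw_end (gmg_sig S y) (gmg_Ks S y) B2 = (S.eq e2).K0 :=
    (gw_end_congr (gmg_agree S H.free_B2) _).trans H.tB2.end_eq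
  have eA2 : gw_end (gmg_sig S y) (S.eq e2).K0 A2 = gmg_Kt S y :=
    (gw_end_congr (gmg_agree S H.free_A2) _).trans H.tA2.end_eq
  have s1 : ∀ K, gs_step (gmg_sig S y) K (gmg_one Y) = K := fun _ => rfl
  rw [gmg_word, gw_all_append, gw_all_cons, gw_all_append, gw_all_append, gw_all_cons, eA1, s1, eB2,
    eA2, s1, gw_all_append, gw_all_cons, gw_all_append, gw_all_cons, H.tA1.end_eq, H.tA2.end_eq,
    H.step1, H.step2]
  simp only [Nat.zero_add]
  rw [gw_all_congr (sig := S.sig) (P := P1) 0 0 _ A1 (st H.free_A1) hA1,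
    gw_all_congr (sig := S.sig) (P := P2) (A2.length + 1) (A1.length + 1) _ B2 (st H.free_B2) hB2,
    gw_all_congr (sig := S.sig) (P := P2) 0 (A1.length + 1 + B2.length) _ A2 (st H.free_A2) hA2,
    gw_all_congr (sig := S.sig) (P := P1) (A1.length + 1) (A1.length + 1 + B2.length + A2.length + 1)
      _ B1 (st H.free_B1) hB1, h1, h2]
  tauto

/-- the spliced word is typed -/
theorem typed_word :
    gw_Typed (gmg_sig S y) (S.sig y).rk (S.eq e1).K0 (gmg_word A1 B1 A2 B2) (S.eq e1).K0 := by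
  rw [gw_typed_congr (gmg_agree S H.free_word)]
  have one : ∀ K, gw_Typed S.sig (S.sig y).rk K [gmg_one Y] K := fun K => gw_typed_one _ K
  exact H.tA1.append ((one _).append (H.tB2.append (H.tA2.append ((one _).append H.tB1))))

theorem sigOK' : gw_SigOK (gmg_sig S y) := by
  intro z
  by_cases hz : z = y
  · subst hz
    simp [gmg_sig_self]
  · rw [gmg_sig_ne S hz]
    exact H.wf.sigOK z

/-- all equations of the new system are well formed -/
theorem eq_wf' (e : ℕ) : ((gmg_merge S y e1 e2 A1 B1 A2 B2).eq e).WF (gmg_sig S y) N R := by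
  by_cases h2 : e = e2
  · subst h2
    rw [H.eq'_2]
    exact gw_triv_wf N R
  by_cases h1 : e = e1
  · subst h1
    rw [H.eq'_1, gw_wf_iff]
    have hw := (gw_wf_iff N R _).1 (H.wf.eq_wf e)
    have hw2 := (gw_wf_iff N R _).1 (H.wf.eq_wf e2)
    refine ⟨hw.1, hw.2.1, ?_, ?_⟩
    · have := H.typed_word
      rw [← H.rk1] at this
      exact this
    · intro lam hl
      simp only [gmg_eqn, gmg_word, List.mem_append, List.mem_cons, gmg_one, gs_Letter.L.injEq] at hl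
      have u1 := hw.2.2.2 lam
      have u2 := hw2.2.2.2 lam
      rw [H.ls1] at u1
      rw [H.ls2] at u2
      have one : ∀ j : ℕ, (1 : ℂ) ≠ 0 ∧ (1 : ℂ) ∈ R ∧ (1 : ℂ)⁻¹ ∈ R := fun _ =>
        ⟨one_ne_zero, R.one_mem, by simp⟩
      rcases hl with h | h | h | h | h | h
      · exact u1 (by simp [h])
      · subst h; exact one
      · exact u2 (by simp [h])
      · exact u2 (by simp [h])
      · subst h; exact one
      · exact u1 (by simp [h])
  · rw [H.eq'_other h1 h2, gw_wf_iff, gw_typed_congr (gmg_agree S (H.free_other h1 h2)), ← gw_wf_iff]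
    exact H.wf.eq_wf e

/-- the occurrences -/
theorem occ_perm (inv : Bool) :
    (S.occ inv).Perm (y :: (gmg_merge S y e1 e2 A1 B1 A2 B2).occ inv) := by
  classical
  rw [List.perm_iff_count]
  intro z
  rw [List.count_cons, gw_count_occ, gw_count_occ]
  set f : gs_Eqn Y → ℕ := fun E => (gs_occL inv E.ls).count z with hf
  have h1 := H.lt1
  have h2 := H.lt2
  have a1 := gw_sum_set f S.eqs h1 (gmg_eqn S e1 A1 B1 A2 B2)
  have a2 := gw_sum_set f (S.eqs.set e1 (gmg_eqn S e1 A1 B1 A2 B2)) (e := e2) (by simpa using h2)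
    (gs_Eqn.triv Y)
  rw [List.getElem_set_of_ne H.ne] at a2
  rw [← gw_eq_of_lt h1] at a1
  rw [← gw_eq_of_lt h2] at a2
  have f0 : f (gs_Eqn.triv Y) = 0 := by simp [hf, gs_Eqn.triv]
  have fM : f (gmg_eqn S e1 A1 B1 A2 B2) = (gs_occL inv A1).count z + (gs_occL inv B2).count z +
      (gs_occL inv A2).count z + (gs_occL inv B1).count z := by
    simp only [hf, gmg_eqn, gmg_word, gmg_one, gw_occL_append, gw_occL_cons_L, List.count_append]
    ring
  have f12 : f (S.eq e1) + f (S.eq e2) = (gs_occL inv A1).count z + (gs_occL inv B2).count z +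
      (gs_occL inv A2).count z + (gs_occL inv B1).count z + if y == z then 1 else 0 := by
    simp only [hf, H.ls1, H.ls2, gw_occL_append, List.count_append]
    cases inv
    · have e1' : gs_occL false (gs_Letter.G true y 0 :: B2) = gs_occL false B2 :=
        gw_occL_cons_not false y 0 B2
      rw [gw_occL_cons_self, e1', List.count_cons]
      ring
    · have e1' : gs_occL true (gs_Letter.G false y 0 :: B1) = gs_occL true B1 :=
        gw_occL_cons_not true y 0 B1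
      rw [gw_occL_cons_self, e1', List.count_cons]
      ring
  have : (gmg_merge S y e1 e2 A1 B1 A2 B2).eqs =
      (S.eqs.set e1 (gmg_eqn S e1 A1 B1 A2 B2)).set e2 (gs_Eqn.triv Y) := rfl
  rw [this]
  omega

theorem not_mem_occ' (inv : Bool) : y ∉ (gmg_merge S y e1 e2 A1 B1 A2 B2).occ inv := by
  have := (H.occ_perm inv).nodup_iff.1 (H.wf.nodup' inv)
  exact (List.nodup_cons.1 this).1

/-- the new system is well formed -/
theorem wf' : (gmg_merge S y e1 e2 A1 B1 A2 B2).WF N R where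
  sig_s z := (H.sigOK' z).1
  sig_t z := (H.sigOK' z).2
  eqn E hE := by
    obtain ⟨e, -, rfl⟩ := gw_mem_eqs_iff.1 hE
    exact H.eq_wf' e
  nodup := (List.nodup_cons.1 ((H.occ_perm false).nodup_iff.1 H.wf.nodup)).2
  perm := ((H.occ_perm false).symm.trans (H.wf.perm.trans (H.occ_perm true))).cons_inv
  rk0 z hz := by
    by_cases hzy : z = y
    · subst hzy
      change (gmg_sig S z z).rk = 0
      rw [gmg_sig_self]
    · change (gmg_sig S y z).rk = 0
      rw [gmg_sig_ne S hzy]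
      apply H.wf.rk0
      intro hm
      have := (H.occ_perm false).mem_iff.1 hm
      rcases List.mem_cons.1 this with h | h
      · exact hzy h
      · exact hz h

theorem rkLe' {n : ℕ} (h : S.RkLe n) : (gmg_merge S y e1 e2 A1 B1 A2 B2).RkLe n := by
  intro E hE
  obtain ⟨e, -, rfl⟩ := gw_mem_eqs_iff.1 hE
  rw [H.eq']
  split_ifs with h2 h1
  · exact Nat.zero_le _
  · exact h (S.eq e1) (gw_eq_mem H.lt1)
  · by_cases he : e < S.eqs.length
    · exact h _ (gw_eq_mem he)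
    · rw [gw_eq_of_le (by omega)]
      exact Nat.zero_le _

/-- sums over the occurrences -/
theorem sum_occ (g : gs_Sig → ℕ) :
    ((S.occ false).map fun z => g (S.sig z)).sum =
      g (S.sig y) + (((gmg_merge S y e1 e2 A1 B1 A2 B2).occ false).map fun z =>
        g ((gmg_merge S y e1 e2 A1 B1 A2 B2).sig z)).sum := by
  rw [((H.occ_perm false).map _).sum_eq, List.map_cons, List.sum_cons]
  congr 2
  apply List.map_congr_left
  intro z hz
  have hzy : z ≠ y := by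
    rintro rfl
    exact H.not_mem_occ' false hz
  change g (S.sig z) = g (gmg_sig S y z)
  rw [gmg_sig_ne S hzy]

theorem vn' (n : ℕ) : S.vn n =
    (if (S.sig y).rk = n then 1 else 0) + (gmg_merge S y e1 e2 A1 B1 A2 B2).vn n :=
  H.sum_occ fun σ => if σ.rk = n then 1 else 0

theorem inn' (n : ℕ) : S.inn n =
    (if (S.sig y).rk = n then (S.sig y).imp else 0) + (gmg_merge S y e1 e2 A1 B1 A2 B2).inn n :=
  H.sum_occ fun σ => if σ.rk = n then σ.imp else 0

theorem en' {n : ℕ} (hn : 0 < n) : S.en n =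
    (if (S.eq e2).rk = n then 1 else 0) + (gmg_merge S y e1 e2 A1 B1 A2 B2).en n := by
  set f : gs_Eqn Y → ℕ := fun E => if E.rk = n then 1 else 0 with hf
  have h1 := H.lt1
  have h2 := H.lt2
  have a1 := gw_sum_set f S.eqs h1 (gmg_eqn S e1 A1 B1 A2 B2)
  have a2 := gw_sum_set f (S.eqs.set e1 (gmg_eqn S e1 A1 B1 A2 B2)) (e := e2) (by simpa using h2)
    (gs_Eqn.triv Y)
  rw [List.getElem_set_of_ne H.ne] at a2
  rw [← gw_eq_of_lt h1] at a1
  rw [← gw_eq_of_lt h2] at a2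
  have f0 : f (gs_Eqn.triv Y) = 0 := by
    simp only [hf, gs_Eqn.triv]
    rw [if_neg (by omega)]
  have fM : f (gmg_eqn S e1 A1 B1 A2 B2) = f (S.eq e1) := rfl
  have e0 : S.en n = (S.eqs.map f).sum := rfl
  have e0' : (gmg_merge S y e1 e2 A1 B1 A2 B2).en n =
      (((S.eqs.set e1 (gmg_eqn S e1 A1 B1 A2 B2)).set e2 (gs_Eqn.triv Y)).map f).sum := rfl
  have f2 : f (S.eq e2) = if (S.eq e2).rk = n then 1 else 0 := rfl
  rw [e0, e0', ← f2]
  omega

theorem noImp' {n : ℕ} (hn : 0 < n) (h : S.NoImp n) : (gmg_merge S y e1 e2 A1 B1 A2 B2).NoImp n := by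
  intro E hE hrk hall
  obtain ⟨e, he, rfl⟩ := gw_mem_eqs_iff.1 hE
  have st : ∀ {ls : List (gs_Letter Y)}, gw_Free y ls →
      ∀ l ∈ ls, ∀ K, gs_step (gmg_sig S y) K l = gs_step S.sig K l := fun hf l hl K =>
    gw_step_congr (fun inv z o e => gmg_agree S hf inv z o (e ▸ hl)) K
  by_cases h2 : e = e2
  · subst h2
    rw [H.eq'_2] at hrk
    simp only [gs_Eqn.triv] at hrk
    omega
  by_cases h1 : e = e1
  · subst h1
    rw [H.eq'_1] at hrk hall
    apply h (S.eq e) (gw_eq_mem H.lt1) hrk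
    rw [gw_allImp_iff] at hall ⊢
    refine ⟨hall.1, ?_⟩
    rw [H.ls1]
    refine ((H.all_merge (fun _ K l => ¬ gs_Proper (S.eq e).rk (gs_step (gmg_sig S y) K l))
      (fun _ K l => ¬ gs_Proper (S.eq e).rk (gs_step S.sig K l))
      (fun _ K l => ¬ gs_Proper (S.eq e).rk (gs_step S.sig K l)) ?_ ?_ ?_ ?_ ?_ ?_).1 hall.2).1
    · intro r _ K l hl
      rw [st H.free_A1 l hl]
    · rw [H.step2]
      exact Iff.rfl
    · intro r _ K l hl
      rw [st H.free_B2 l hl]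
    · intro r _ K l hl
      rw [st H.free_A2 l hl]
    · rw [H.step1]
      exact Iff.rfl
    · intro r _ K l hl
      rw [st H.free_B1 l hl]
  · rw [H.eq'_other h1 h2] at hrk hall
    have he' : e < S.eqs.length := by
      simpa [gmg_merge] using he
    apply h (S.eq e) (gw_eq_mem he') hrk
    intro i hi
    have := hall i hi
    change ¬ gs_Proper _ (gs_frame (gmg_sig S y) _ _ _) at this
    rwa [gw_frame_congr (gmg_agree S (H.free_other h1 h2))] at this

end gmg_Hyp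

end hyp

/-! ## the correspondence of the solutions -/

/-- old index of a unipotent `↦` new index -/
def gmg_sigma (e1 e2 a1 a2 b2 : ℕ) (p : ℕ × ℕ) : ℕ × ℕ :=
  if p.1 = e1 then (if p.2 < a1 then (e1, p.2) else (e1, p.2 + (1 + b2 + a2)))
  else if p.1 = e2 then
    (if p.2 < a2 then (e1, a1 + 1 + b2 + p.2)
      else if p.2 < a2 + 1 + b2 then (e1, a1 + (p.2 - a2)) else (e2, p.2))
  else p

/-- new index of a unipotent `↦` old index -/
def gmg_rho (e1 e2 a1 a2 b2 : ℕ) (p : ℕ × ℕ) : ℕ × ℕ :=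
  if p.1 = e1 then
    (if p.2 < a1 then (e1, p.2)
      else if p.2 < a1 + 1 + b2 then (e2, a2 + (p.2 - a1))
      else if p.2 < a1 + 1 + b2 + a2 then (e2, p.2 - (a1 + 1 + b2)) else (e1, p.2 - (1 + b2 + a2)))
  else if p.1 = e2 then (e2, p.2 + (a2 + 1 + b2))
  else p

section sigma
variable {e1 e2 : ℕ} (a1 a2 b2 : ℕ)

theorem gmg_sg_A1 (e2 : ℕ) {r : ℕ} (h : r < a1) : gmg_sigma e1 e2 a1 a2 b2 (e1, 0 + r) = (e1, 0 + r) := by
  simp [gmg_sigma, h]

theorem gmg_sg_p1 (e2 : ℕ) {i : ℕ} (h : a1 ≤ i) :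
    gmg_sigma e1 e2 a1 a2 b2 (e1, i) = (e1, i + (1 + b2 + a2)) := by
  simp [gmg_sigma, Nat.not_lt.2 h]

theorem gmg_sg_u1 (e2 : ℕ) : gmg_sigma e1 e2 a1 a2 b2 (e1, a1) = (e1, a1 + 1 + b2 + a2) := by
  rw [gmg_sg_p1 a1 a2 b2 e2 le_rfl]
  congr 1
  omega

theorem gmg_sg_B1 (e2 r : ℕ) :
    gmg_sigma e1 e2 a1 a2 b2 (e1, a1 + 1 + r) = (e1, a1 + 1 + b2 + a2 + 1 + r) := by
  rw [gmg_sg_p1 a1 a2 b2 e2 (by omega)]
  congr 1
  omega

theorem gmg_sg_A2 (hne : e1 ≠ e2) {r : ℕ} (h : r < a2) :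
    gmg_sigma e1 e2 a1 a2 b2 (e2, 0 + r) = (e1, a1 + 1 + b2 + r) := by
  simp [gmg_sigma, hne.symm, h]

theorem gmg_sg_u2 (hne : e1 ≠ e2) : gmg_sigma e1 e2 a1 a2 b2 (e2, a2) = (e1, a1) := by
  have h2 : a2 < a2 + 1 + b2 := by omega
  simp [gmg_sigma, hne.symm, h2]

theorem gmg_sg_B2 (hne : e1 ≠ e2) {r : ℕ} (h : r < b2) :
    gmg_sigma e1 e2 a1 a2 b2 (e2, a2 + 1 + r) = (e1, a1 + 1 + r) := by
  have h1 : ¬ a2 + 1 + r < a2 := by omega
  have h2 : a2 + 1 + r < a2 + 1 + b2 := by omega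
  simp only [gmg_sigma, hne.symm, if_false, h1, h2, if_true]
  congr 1
  omega

theorem gmg_sg_p2 (hne : e1 ≠ e2) {i : ℕ} (h : a2 + 1 + b2 ≤ i) :
    gmg_sigma e1 e2 a1 a2 b2 (e2, i) = (e2, i) := by
  have h1 : ¬ i < a2 := by omega
  have h2 : ¬ i < a2 + 1 + b2 := by omega
  simp only [gmg_sigma, hne.symm, if_false, h1, h2, if_true]

theorem gmg_sg_o {e : ℕ} (h1 : e ≠ e1) (h2 : e ≠ e2) (i : ℕ) :
    gmg_sigma e1 e2 a1 a2 b2 (e, i) = (e, i) := by
  simp [gmg_sigma, h1, h2]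

/-- `ρ ∘ σ = id` except on the pinned indices of `e2` -/
theorem gmg_rho_sigma (hne : e1 ≠ e2) (p : ℕ × ℕ) (hp : ¬ (p.1 = e2 ∧ a2 + 1 + b2 ≤ p.2)) :
    gmg_rho e1 e2 a1 a2 b2 (gmg_sigma e1 e2 a1 a2 b2 p) = p := by
  obtain ⟨e, i⟩ := p
  simp only at hp
  unfold gmg_sigma
  simp only
  split_ifs with h1 h2 h3 h4 h5
  · subst h1
    simp [gmg_rho, h2]
  · subst h1
    have c1 : ¬ i + (1 + b2 + a2) < a1 := by omega
    have c2 : ¬ i + (1 + b2 + a2) < a1 + 1 + b2 := by omega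
    have c3 : ¬ i + (1 + b2 + a2) < a1 + 1 + b2 + a2 := by omega
    simp only [gmg_rho, if_true, c1, c2, c3, if_false]
    congr 1
    omega
  · subst h3
    have c1 : ¬ a1 + 1 + b2 + i < a1 := by omega
    have c2 : ¬ a1 + 1 + b2 + i < a1 + 1 + b2 := by omega
    have c3 : a1 + 1 + b2 + i < a1 + 1 + b2 + a2 := by omega
    simp only [gmg_rho, if_true, c1, c2, c3, if_false]
    congr 1
    omega
  · subst h3
    have c1 : ¬ a1 + (i - a2) < a1 := by omega
    have c2 : a1 + (i - a2) < a1 + 1 + b2 := by omega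
    simp only [gmg_rho, if_true, c1, c2, if_false]
    congr 1
    omega
  · exact absurd ⟨h3, by omega⟩ hp
  · simp [gmg_rho, h1, h3]

end sigma

/-! ### matrix algebra -/

section alg
variable {N : ℕ}

theorem gmg_alg_fwd {VA1 VB1 VA2 VB2 u1 u2 M : gs_Mat N} (hM : IsUnit M.det)
    (h1 : VA1 * (M * u1 * VB1) = 1) (h2 : VA2 * (M⁻¹ * u2 * VB2) = 1) :
    VA1 * (1 * u2 * (VB2 * (VA2 * (1 * u1 * VB1)))) = 1 ∧ M = u2 * VB2 * VA2 := by
  have h3 : M⁻¹ * u2 * VB2 * VA2 = 1 := mul_eq_one_comm.1 h2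
  have h4 : M = u2 * VB2 * VA2 := by
    have := congrArg (fun X => M * X) h3
    simp only [mul_one, mul_assoc] at this
    rw [Matrix.mul_nonsing_inv_cancel_left _ _ hM] at this
    rw [← this]
    simp only [mul_assoc]
  refine ⟨?_, h4⟩
  have h5 : VA1 * (1 * u2 * (VB2 * (VA2 * (1 * u1 * VB1)))) = VA1 * (u2 * VB2 * VA2 * u1 * VB1) := by
    simp only [one_mul, mul_assoc]
  rw [h5, ← h4, h1]

theorem gmg_alg_bwd {VA1 VB1 VA2 VB2 u1 u2 : gs_Mat N}
    (h : VA1 * (1 * u2 * (VB2 * (VA2 * (1 * u1 * VB1)))) = 1) :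
    (u2 * VB2 * VA2) * (u1 * VB1 * VA1) = 1 ∧ VA1 * ((u2 * VB2 * VA2) * u1 * VB1) = 1 ∧
      VA2 * ((u2 * VB2 * VA2)⁻¹ * u2 * VB2) = 1 := by
  have h1 : VA1 * ((u2 * VB2 * VA2) * u1 * VB1) = 1 := by
    rw [← h]
    simp only [one_mul, mul_assoc]
  have h2 : (u2 * VB2 * VA2) * (u1 * VB1 * VA1) = 1 := by
    have := mul_eq_one_comm.1 h1
    rw [← this]
    simp only [mul_assoc]
  refine ⟨h2, h1, ?_⟩
  have hu : IsUnit (u2 * VB2 * VA2).det := Matrix.isUnit_det_of_right_inverse h2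
  apply mul_eq_one_comm.1
  have := Matrix.nonsing_inv_mul _ hu
  rw [← this]
  simp only [mul_assoc]

end alg

/-! ### the relation between old and new points -/

section rel
variable {Y : Type} {N : ℕ}

/-- the value of `y` -/
noncomputable def gmg_M (e1 : ℕ) (A1 A2 B2 : List (gs_Letter Y)) (x' : gs_Pt Y N) : gs_Mat N :=
  x' (.inr (e1, A1.length)) * gs_val x' e1 (A1.length + 1) B2 *
    gs_val x' e1 (A1.length + 1 + B2.length) A2

/-- the value of `y⁻¹` -/
noncomputable def gmg_M' (e1 : ℕ) (A1 B1 A2 B2 : List (gs_Letter Y)) (x' : gs_Pt Y N) : gs_Mat N :=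
  x' (.inr (e1, A1.length + 1 + B2.length + A2.length)) *
    gs_val x' e1 (A1.length + 1 + B2.length + A2.length + 1) B1 * gs_val x' e1 0 A1

/-- `x` (old) and `x'` (new) correspond to each other -/
structure gmg_Rel (y : Y) (e1 e2 : ℕ) (A1 A2 B2 : List (gs_Letter Y)) (x x' : gs_Pt Y N) : Prop where
  var : ∀ z, z ≠ y → x (.inl z) = x' (.inl z)
  uni : ∀ p, x (.inr p) = x' (.inr (gmg_sigma e1 e2 A1.length A2.length B2.length p))
  y1 : x' (.inl y) = 1
  e2 : ∀ j, x' (.inr (e2, j)) = 1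

variable {R : Subring ℂ} {S : gs_Sys Y} {y : Y} {e1 e2 : ℕ} {A1 B1 A2 B2 : List (gs_Letter Y)}
  {x x' : gs_Pt Y N}

theorem gmg_Rel.lmat (h : gmg_Rel y e1 e2 A1 A2 B2 x x') {ls : List (gs_Letter Y)} (hf : gw_Free y ls) :
    ∀ l ∈ ls, gs_lmat x l = gs_lmat x' l := by
  intro l hl
  apply gw_lmat_congr
  rintro inv z o rfl
  apply h.var
  rintro rfl
  exact hf inv o hl

namespace gmg_Hyp

variable (H : gmg_Hyp N R S y e1 e2 A1 B1 A2 B2) (h : gmg_Rel y e1 e2 A1 A2 B2 x x')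
include H h

theorem vA1 : gs_val x e1 0 A1 = gs_val x' e1 0 A1 :=
  gw_val_congr e1 e1 0 0 A1 (h.lmat H.free_A1) fun r hr => by
    rw [h.uni, gmg_sg_A1 _ _ _ _ hr]

theorem vB1 : gs_val x e1 (A1.length + 1) B1 =
    gs_val x' e1 (A1.length + 1 + B2.length + A2.length + 1) B1 :=
  gw_val_congr e1 e1 _ _ B1 (h.lmat H.free_B1) fun r _ => by
    rw [h.uni, gmg_sg_B1]

theorem vA2 : gs_val x e2 0 A2 = gs_val x' e1 (A1.length + 1 + B2.length) A2 :=
  gw_val_congr e1 e2 _ _ A2 (h.lmat H.free_A2) fun r hr => by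
    rw [h.uni, gmg_sg_A2 _ _ _ H.ne hr]

theorem vB2 : gs_val x e2 (A2.length + 1) B2 = gs_val x' e1 (A1.length + 1) B2 :=
  gw_val_congr e1 e2 _ _ B2 (h.lmat H.free_B2) fun r hr => by
    rw [h.uni, gmg_sg_B2 _ _ _ H.ne hr]

omit H in
theorem _root_.Claimed.Agent.R236.gmg_Rel.u1 :
    x (.inr (e1, A1.length)) = x' (.inr (e1, A1.length + 1 + B2.length + A2.length)) := by
  rw [h.uni, gmg_sg_u1]

theorem u2 : x (.inr (e2, A2.length)) = x' (.inr (e1, A1.length)) := by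
  rw [h.uni, gmg_sg_u2 _ _ _ H.ne]

theorem v_other {e : ℕ} (h1 : e ≠ e1) (h2 : e ≠ e2) :
    gs_val x e 0 (S.eq e).ls = gs_val x' e 0 (S.eq e).ls :=
  gw_val_congr e e 0 0 _ (h.lmat (H.free_other h1 h2)) fun r _ => by
    rw [h.uni, gmg_sg_o _ _ _ h1 h2]

omit h in
theorem val_1 (x : gs_Pt Y N) : gs_val x e1 0 (S.eq e1).ls = gs_val x e1 0 A1 *
    (x (.inl y) * x (.inr (e1, A1.length)) * gs_val x e1 (A1.length + 1) B1) := by
  rw [H.ls1, gw_val_append, gw_val_cons]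
  simp only [Nat.zero_add, gs_lmat, gm_emb_zero]

omit h in
theorem val_2 (x : gs_Pt Y N) : gs_val x e2 0 (S.eq e2).ls = gs_val x e2 0 A2 *
    ((x (.inl y))⁻¹ * x (.inr (e2, A2.length)) * gs_val x e2 (A2.length + 1) B2) := by
  rw [H.ls2, gw_val_append, gw_val_cons]
  simp only [Nat.zero_add, gs_lmat, gm_emb_zero]

omit H h in
theorem _root_.Claimed.Agent.R236.gmg_val_word (x' : gs_Pt Y N) (e1 : ℕ) (A1 B1 A2 B2 : List (gs_Letter Y)) :
    gs_val x' e1 0 (gmg_word A1 B1 A2 B2) = gs_val x' e1 0 A1 *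
      (1 * x' (.inr (e1, A1.length)) * (gs_val x' e1 (A1.length + 1) B2 *
        (gs_val x' e1 (A1.length + 1 + B2.length) A2 *
          (1 * x' (.inr (e1, A1.length + 1 + B2.length + A2.length)) *
            gs_val x' e1 (A1.length + 1 + B2.length + A2.length + 1) B1)))) := by
  rw [gmg_word, gw_val_append, gw_val_cons, gw_val_append, gw_val_append, gw_val_cons]
  simp only [Nat.zero_add, gmg_one, gw_lmat_one]

/-- the unipotents correspond to each other -/
theorem uni_iff : gw_Uni (gmg_sig S y) (S.sig y).rk x' e1 0 (S.eq e1).K0 (gmg_word A1 B1 A2 B2) ↔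
    gw_Uni S.sig (S.sig y).rk x e1 0 (S.eq e1).K0 (A1 ++ .G false y 0 :: B1) ∧
      gw_Uni S.sig (S.sig y).rk x e2 0 (S.eq e2).K0 (A2 ++ .G true y 0 :: B2) := by
  have st : ∀ {ls : List (gs_Letter Y)}, gw_Free y ls →
      ∀ l ∈ ls, ∀ K, gs_step (gmg_sig S y) K l = gs_step S.sig K l := fun hf l hl K =>
    gw_step_congr (fun inv z o e => gmg_agree S hf inv z o (e ▸ hl)) K
  refine H.all_merge _ _ _ ?_ ?_ ?_ ?_ ?_ ?_
  · intro r hr K l hl
    rw [st H.free_A1 l hl, h.uni, gmg_sg_A1 _ _ _ _ hr]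
  · rw [H.step2, H.u2 h]
    exact Iff.rfl
  · intro r hr K l hl
    rw [st H.free_B2 l hl, h.uni, gmg_sg_B2 _ _ _ H.ne hr]
  · intro r hr K l hl
    rw [st H.free_A2 l hl, h.uni, gmg_sg_A2 _ _ _ H.ne hr]
  · rw [H.step1, h.u1]
    exact Iff.rfl
  · intro r _ K l hl
    rw [st H.free_B1 l hl, h.uni, gmg_sg_B1]

/-- the unipotents of the other equations -/
theorem uni_other {e : ℕ} (h1 : e ≠ e1) (h2 : e ≠ e2) :
    gw_Uni (gmg_sig S y) (S.eq e).rk x' e 0 (S.eq e).K0 (S.eq e).ls ↔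
      gw_Uni S.sig (S.eq e).rk x e 0 (S.eq e).K0 (S.eq e).ls := by
  refine gw_all_congr 0 0 _ _ (fun l hl K => gw_step_congr (fun inv z o e' =>
    gmg_agree S (H.free_other h1 h2) inv z o (e' ▸ hl)) K) (fun r _ K l hl => ?_)
  rw [gw_step_congr (fun inv z o e' => gmg_agree S (H.free_other h1 h2) inv z o (e' ▸ hl)) K, h.uni,
    gmg_sg_o _ _ _ h1 h2]

/-- **the correspondence** -/
theorem core : x ∈ gs_Sol N S ↔
    x' ∈ gs_Sol N (gmg_merge S y e1 e2 A1 B1 A2 B2) ∧ x (.inl y) = gmg_M e1 A1 A2 B2 x' := by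
  rw [gw_mem_sol_iff, gw_mem_sol_iff]
  have hU := H.uni_iff h
  have hlen1 : (S.eq e1).ls.length = A1.length + 1 + B1.length := by
    rw [H.ls1]; simp; omega
  have hlen2 : (S.eq e2).ls.length = A2.length + 1 + B2.length := by
    rw [H.ls2]; simp; omega
  have hlenw : (gmg_word A1 B1 A2 B2).length =
      A1.length + 1 + B2.length + A2.length + 1 + B1.length := by
    simp [gmg_word]; omega
  constructor
  · rintro ⟨hv, he⟩
    obtain ⟨hu1, hp1, hv1⟩ := he e1
    obtain ⟨hu2, hp2, hv2⟩ := he e2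
    rw [H.val_1, H.vA1 h, H.vB1 h, h.u1] at hv1
    rw [H.val_2, H.vA2 h, H.vB2 h, H.u2 h] at hv2
    obtain ⟨hw, hM⟩ := gmg_alg_fwd (hv y).1 hv1 hv2
    refine ⟨⟨?_, fun e => ?_⟩, hM⟩
    · intro z
      change IsUnit (x' (.inl z)).det ∧ gs_IsCorner (gmg_sig S y z).rk (x' (.inl z))
      by_cases hz : z = y
      · subst hz
        rw [h.y1]
        exact ⟨by simp, gm_corner_one _⟩
      · rw [gmg_sig_ne S hz, ← h.var z hz]
        exact hv z
    · by_cases h2 : e = e2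
      · subst h2
        rw [H.eq'_2]
        exact ⟨trivial, fun i _ => h.e2 i, rfl⟩
      by_cases h1 : e = e1
      · subst h1
        rw [H.eq'_1]
        refine ⟨?_, fun i hi => ?_, ?_⟩
        · change gw_Uni (gmg_sig S y) (S.eq e).rk x' e 0 (S.eq e).K0 (gmg_word A1 B1 A2 B2)
          rw [H.rk1, hU, ← H.ls1, ← H.ls2]
          rw [H.rk1] at hu1
          rw [H.rk2] at hu2
          exact ⟨hu1, hu2⟩
        · change (gmg_word A1 B1 A2 B2).length ≤ i at hi
          have := hp1 (i - (1 + B2.length + A2.length)) (by omega)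
          rw [h.uni, gmg_sg_p1 _ _ _ _ (by omega)] at this
          have e' : i - (1 + B2.length + A2.length) + (1 + B2.length + A2.length) = i := by omega
          rwa [e'] at this
        · change gs_val x' e 0 (gmg_word A1 B1 A2 B2) = 1
          rw [gmg_val_word]
          exact hw
      · rw [H.eq'_other h1 h2]
        obtain ⟨a, b, c⟩ := he e
        refine ⟨(H.uni_other h h1 h2).2 a, fun i hi => ?_, ?_⟩
        · have := b i hi
          rwa [h.uni, gmg_sg_o _ _ _ h1 h2] at this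
        · rw [← H.v_other h h1 h2]
          exact c
  · rintro ⟨⟨hv, he⟩, hM⟩
    obtain ⟨hu1, hp1, hv1⟩ := he e1
    rw [H.eq'_1] at hu1 hp1 hv1
    change gw_Uni (gmg_sig S y) (S.eq e1).rk x' e1 0 (S.eq e1).K0 (gmg_word A1 B1 A2 B2) at hu1
    change ∀ i, (gmg_word A1 B1 A2 B2).length ≤ i → _ at hp1
    change gs_val x' e1 0 (gmg_word A1 B1 A2 B2) = 1 at hv1
    rw [H.rk1, hU] at hu1
    rw [gmg_val_word] at hv1
    obtain ⟨hinv, hq1, hq2⟩ := gmg_alg_bwd hv1
    -- the other variables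
    have hvz : ∀ z, z ≠ y → IsUnit (x (.inl z)).det ∧ gs_IsCorner (S.sig z).rk (x (.inl z)) := by
      intro z hz
      have := hv z
      change IsUnit (x' (.inl z)).det ∧ gs_IsCorner (gmg_sig S y z).rk (x' (.inl z)) at this
      rwa [gmg_sig_ne S hz, ← h.var z hz] at this
    have hvf : ∀ {ls : List (gs_Letter Y)}, gw_Free y ls → ∀ inv z o, gs_Letter.G inv z o ∈ ls →
        IsUnit (x (.inl z)).det ∧ gs_IsCorner (S.sig z).rk (x (.inl z)) := by
      intro ls hf inv z o hz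
      apply hvz
      rintro rfl
      exact hf inv o hz
    -- the corner property of `y`
    have hcorner : gs_IsCorner (S.sig y).rk (x (.inl y)) := by
      have hu2 := hu1.2
      rw [gw_Uni, gw_all_append, gw_all_cons, H.tA2.end_eq, H.step2] at hu2
      obtain ⟨c1, c2, c3⟩ := hu2
      simp only [Nat.zero_add] at c2 c3
      have hfr0 : gw_Fr (S.sig y).rk (S.eq e2).K0 := by
        have := (H.wf.eq_wf e2).fr0
        rwa [H.rk2] at this
      rw [hM, gmg_M, ← H.u2 h, ← H.vB2 h, ← H.vA2 h]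
      exact gm_corner_mul (gm_corner_mul (gw_uni_corner c2)
        (gw_val_corner H.wf.sigOK (hvf H.free_B2) H.frKs H.tB2 c3))
        (gw_val_corner H.wf.sigOK (hvf H.free_A2) hfr0 H.tA2 c1)
    have hunit : IsUnit (x (.inl y)).det := by
      rw [hM]
      exact Matrix.isUnit_det_of_right_inverse hinv
    refine ⟨?_, fun e => ?_⟩
    · intro z
      by_cases hz : z = y
      · subst hz
        exact ⟨hunit, hcorner⟩
      · exact hvz z hz
    · by_cases h2 : e = e2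
      · subst h2
        refine ⟨?_, fun i hi => ?_, ?_⟩
        · rw [H.rk2, H.ls2]
          exact hu1.2
        · rw [h.uni, gmg_sg_p2 _ _ _ H.ne (by omega)]
          exact h.e2 i
        · rw [H.val_2, H.vA2 h, H.vB2 h, H.u2 h, hM]
          exact hq2
      by_cases h1 : e = e1
      · subst h1
        refine ⟨?_, fun i hi => ?_, ?_⟩
        · rw [H.rk1, H.ls1]
          exact hu1.1
        · rw [h.uni, gmg_sg_p1 _ _ _ _ (by omega)]
          exact hp1 _ (by omega)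
        · rw [H.val_1, H.vA1 h, H.vB1 h, h.u1, hM]
          exact hq1
      · obtain ⟨a, b, c⟩ := he e
        rw [H.eq'_other h1 h2] at a b c
        refine ⟨(H.uni_other h h1 h2).1 a, fun i hi => ?_, ?_⟩
        · rw [h.uni, gmg_sg_o _ _ _ h1 h2]
          exact b i hi
        · rw [H.v_other h h1 h2]
          exact c

end gmg_Hyp

end rel

/-! ## density -/

section dense
variable {Y : Type} {N : ℕ}

open Classical in
/-- new solutions `↦` old solutions -/
noncomputable def gmg_Phi (y : Y) (e1 e2 : ℕ) (A1 A2 B2 : List (gs_Letter Y)) (x' : gs_Pt Y N) :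
    gs_Pt Y N
  | .inl z => if z = y then gmg_M e1 A1 A2 B2 x' else x' (.inl z)
  | .inr p => x' (.inr (gmg_sigma e1 e2 A1.length A2.length B2.length p))

open Classical in
/-- old solutions `↦` new solutions -/
noncomputable def gmg_Psi (y : Y) (e1 e2 : ℕ) (A1 A2 B2 : List (gs_Letter Y)) (x : gs_Pt Y N) :
    gs_Pt Y N
  | .inl z => if z = y then 1 else x (.inl z)
  | .inr p => x (.inr (gmg_rho e1 e2 A1.length A2.length B2.length p))

variable {R : Subring ℂ} {S : gs_Sys Y} {y : Y} {e1 e2 : ℕ} {A1 B1 A2 B2 : List (gs_Letter Y)}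

namespace gmg_Hyp

variable (H : gmg_Hyp N R S y e1 e2 A1 B1 A2 B2)
include H

theorem rel_Phi {x' : gs_Pt Y N} (hx : x' ∈ gs_Sol N (gmg_merge S y e1 e2 A1 B1 A2 B2)) :
    gmg_Rel y e1 e2 A1 A2 B2 (gmg_Phi y e1 e2 A1 A2 B2 x') x' where
  var z hz := by simp [gmg_Phi, hz]
  uni p := rfl
  y1 := by
    have := (hx.1 y).2
    change gs_IsCorner (gmg_sig S y y).rk _ at this
    rw [gmg_sig_self] at this
    exact gm_corner_zero_iff.1 this
  e2 j := by
    have := ((gw_mem_sol_iff _ _).1 hx).2 e2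
    rw [H.eq'_2] at this
    exact this.2.1 j (Nat.zero_le _)

theorem rel_Psi {x : gs_Pt Y N} (hx : x ∈ gs_Sol N S) :
    gmg_Rel y e1 e2 A1 A2 B2 x (gmg_Psi y e1 e2 A1 A2 B2 x) where
  var z hz := by simp [gmg_Psi, hz]
  uni p := by
    change x (.inr p) = x (.inr (gmg_rho _ _ _ _ _ (gmg_sigma _ _ _ _ _ p)))
    have hlen2 : (S.eq e2).ls.length = A2.length + 1 + B2.length := by
      rw [H.ls2]; simp; omega
    have hpin := (((gw_mem_sol_iff _ _).1 hx).2 e2).2.1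
    by_cases hp : p.1 = e2 ∧ A2.length + 1 + B2.length ≤ p.2
    · obtain ⟨e, i⟩ := p
      obtain ⟨rfl, hi⟩ := hp
      simp only at hi
      rw [gmg_sg_p2 _ _ _ H.ne hi, hpin i (by omega)]
      have : gmg_rho e1 e A1.length A2.length B2.length (e, i) = (e, i + (A2.length + 1 + B2.length)) := by
        simp [gmg_rho, H.ne.symm]
      rw [this, hpin _ (by omega)]
    · rw [gmg_rho_sigma _ _ _ H.ne p hp]
  y1 := by simp [gmg_Psi]
  e2 j := by
    have hlen2 : (S.eq e2).ls.length = A2.length + 1 + B2.length := by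
      rw [H.ls2]; simp; omega
    have hpin := (((gw_mem_sol_iff _ _).1 hx).2 e2).2.1
    change x (.inr (gmg_rho _ _ _ _ _ (e2, j))) = 1
    have : gmg_rho e1 e2 A1.length A2.length B2.length (e2, j) = (e2, j + (A2.length + 1 + B2.length)) := by
      simp [gmg_rho, H.ne.symm]
    rw [this, hpin _ (by omega)]

theorem lam_mem {lam : ℕ → ℂ} (hl : gs_Letter.L lam ∈ A1 ∨ gs_Letter.L lam ∈ B1 ∨
    gs_Letter.L lam ∈ A2 ∨ gs_Letter.L lam ∈ B2) (j : ℕ) : lam j ∈ R := by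
  have u1 := (H.wf.eq_wf e1).unit lam
  have u2 := (H.wf.eq_wf e2).unit lam
  rw [H.ls1] at u1
  rw [H.ls2] at u2
  rcases hl with h | h | h | h
  · exact (u1 (by simp [h]) j).2.1
  · exact (u1 (by simp [h]) j).2.1
  · exact (u2 (by simp [h]) j).2.1
  · exact (u2 (by simp [h]) j).2.1

/-- on the new solutions `M * M' = 1` -/
theorem M_mul_M' {x' : gs_Pt Y N} (hx : x' ∈ gs_Sol N (gmg_merge S y e1 e2 A1 B1 A2 B2)) :
    gmg_M e1 A1 A2 B2 x' * gmg_M' e1 A1 B1 A2 B2 x' = 1 := by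
  have := (((gw_mem_sol_iff _ _).1 hx).2 e1).2.2
  rw [H.eq'_1] at this
  change gs_val x' e1 0 (gmg_word A1 B1 A2 B2) = 1 at this
  rw [gmg_val_word] at this
  exact (gmg_alg_bwd this).1

/-- **MERGE preserves density** -/
theorem dense (hD : gs_Dense N R (gmg_merge S y e1 e2 A1 B1 A2 B2)) : gs_Dense N R S := by
  classical
  refine rg_Dense.transfer₁ (gmg_Phi y e1 e2 A1 A2 B2) ?_ ?_ ?_ hD
  · -- regularity
    have hM : rg_MatOn R (rg_matCoord (Y ⊕ ℕ × ℕ) (Fin N)) (gs_Sol N (gmg_merge S y e1 e2 A1 B1 A2 B2))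
        (fun x' => gmg_M e1 A1 A2 B2 x') :=
      ((rg_matCoord_mat _).mul (gw_val_reg_id _ _ _ fun lam hl => H.lam_mem (Or.inr (Or.inr (Or.inr hl))))).mul
        (gw_val_reg_id _ _ _ fun lam hl => H.lam_mem (Or.inr (Or.inr (Or.inl hl))))
    have hM' : rg_MatOn R (rg_matCoord (Y ⊕ ℕ × ℕ) (Fin N)) (gs_Sol N (gmg_merge S y e1 e2 A1 B1 A2 B2))
        (fun x' => gmg_M' e1 A1 B1 A2 B2 x') :=
      ((rg_matCoord_mat _).mul (gw_val_reg_id _ _ _ fun lam hl => H.lam_mem (Or.inr (Or.inl hl)))).mul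
        (gw_val_reg_id _ _ _ fun lam hl => H.lam_mem (Or.inl hl))
    refine rg_matCoord_regOn (fun k => ?_) (fun k => ?_)
    · rcases k with z | p
      · by_cases hz : z = y
        · simpa [gmg_Phi, hz] using hM
        · simpa [gmg_Phi, hz] using rg_matCoord_mat (R := R) (Sum.inl z : Y ⊕ ℕ × ℕ)
      · exact rg_matCoord_mat _
    · rcases k with z | p
      · by_cases hz : z = y
        · refine hM'.congr fun x' hx => ?_
          simp only [gmg_Phi, hz, if_true]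
          exact Matrix.inv_eq_right_inv (H.M_mul_M' hx)
        · simpa [gmg_Phi, hz] using rg_matCoord_inv (R := R) (Sum.inl z : Y ⊕ ℕ × ℕ)
      · exact rg_matCoord_inv _
  · intro x' hx
    exact (H.core (H.rel_Phi hx)).2 ⟨hx, by simp [gmg_Phi]⟩
  · intro x hx
    have hrel := H.rel_Psi hx
    obtain ⟨h1, h2⟩ := (H.core hrel).1 hx
    refine ⟨_, h1, ?_⟩
    funext k
    rcases k with z | p
    · by_cases hz : z = y
      · subst hz
        simp only [gmg_Phi, if_true]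
        exact h2.symm
      · simp only [gmg_Phi, hz, if_false]
        exact (hrel.var z hz).symm
    · exact (hrel.uni p).symm

end gmg_Hyp

end dense

/-! ## the export -/

theorem gmg_eq_mem {Y : Type} {S : gs_Sys Y} {e : ℕ} (he : e < S.eqs.length) : S.eq e ∈ S.eqs :=
  gw_eq_mem he

/-- location of an occurrence -/
theorem gmg_exists_pos {Y : Type} {S : gs_Sys Y} {inv : Bool} {y : Y} (h : y ∈ S.occ inv) :
    ∃ e i o : ℕ, e < S.eqs.length ∧ (S.eq e).ls[i]? = some (gs_Letter.G inv y o) := by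
  obtain ⟨e, i, o, h⟩ := gw_mem_occ.1 h
  exact ⟨e, i, o, (gw_lt_of_at h).1, h⟩

/-- MERGE for the letters `G false y` in `e1`, `G true y` in `e2` -/
theorem gmg_step_aux {N : ℕ} {R : Subring ℂ} {Y : Type} {S : gs_Sys Y} {n : ℕ} (hn : 0 < n)
    (hG : S.Good N R n) {y : Y} {e1 i1 e2 i2 o1 o2 : ℕ} (hr : (S.sig y).rk = n) (hne : e1 ≠ e2)
    (h1 : S.At e1 i1 (.G false y o1)) (h2 : S.At e2 i2 (.G true y o2)) :
    ∃ (Y' : Type) (S' : gs_Sys Y'), S'.Good N R n ∧ S'.vn n < S.vn n ∧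
      (S.NoImp n → S'.NoImp n) ∧ (gs_Dense N R S' → gs_Dense N R S) := by
  have r1 : (S.eq e1).rk ≤ (S.sig y).rk := hr ▸ hG.rkLe _ (gw_eq_mem (gw_lt_of_at h1).1)
  have r2 : (S.eq e2).rk ≤ (S.sig y).rk := hr ▸ hG.rkLe _ (gw_eq_mem (gw_lt_of_at h2).1)
  obtain ⟨rfl, k1⟩ := hG.wf.offset_zero h1 r1
  obtain ⟨rfl, k2⟩ := hG.wf.offset_zero h2 r2
  have H : gmg_Hyp N R S y e1 e2 ((S.eq e1).ls.take i1) ((S.eq e1).ls.drop (i1 + 1))
      ((S.eq e2).ls.take i2) ((S.eq e2).ls.drop (i2 + 1)) :=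
    ⟨hG.wf, hne, gw_split_of_at h1, gw_split_of_at h2, k1, k2⟩
  refine ⟨Y, _, ⟨H.wf', H.rkLe' hG.rkLe⟩, ?_, H.noImp' hn, H.dense⟩
  rw [H.vn' n, if_pos hr]
  omega

/-- **MERGE** -/
theorem gmg_mergeStep (N : ℕ) (R : Subring ℂ) : StMergeStep N R := by
  intro Y S n hn hG y inv e1 i1 e2 i2 o1 o2 hr hne h1 h2
  cases inv
  · exact gmg_step_aux hn hG hr hne h1 h2
  · exact gmg_step_aux hn hG hr hne.symm h2 h1

end Claimed.Agent.R236
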