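import Mathlib
import Claimed.Agent.R236.GSteps

/-!
# Row 236, Model G2: ROTATE and the search of the pattern (owner helper95, prefix gpt_)

Goal: `gpt_pattern : StPattern N R`.
-/

set_option autoImplicit false

namespace Claimed.Agent.R236

section words
variable {Y : Type} {N : ℕ}

theorem gpt_val_append (x : gs_Pt Y N) (e : ℕ) (l₁ l₂ : List (gs_Letter Y)) (i : ℕ) :
    gs_val x e i (l₁ ++ l₂) = gs_val x e i l₁ * gs_val x e (i + l₁.length) l₂ := by
  induction l₁ generalizing i with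
  | nil => simp [gs_val]
  | cons l ls ih =>
    simp only [List.cons_append, gs_val, ih, List.length_cons, mul_assoc]
    congr 4
    omega

theorem gpt_lmat_congr {x x' : gs_Pt Y N} (h : ∀ y, x (.inl y) = x' (.inl y)) (l : gs_Letter Y) :
    gs_lmat x l = gs_lmat x' l := by
  cases l with
  | G inv y o => cases inv <;> simp [gs_lmat, h]
  | S o a b => rfl
  | L lam => rfl

theorem gpt_val_congr {x x' : gs_Pt Y N} (h : ∀ y, x (.inl y) = x' (.inl y)) (e e' : ℕ)
    (ls : List (gs_Letter Y)) (i i' : ℕ)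
    (hu : ∀ j, j < ls.length → x (.inr (e, i + j)) = x' (.inr (e', i' + j))) :
    gs_val x e i ls = gs_val x' e' i' ls := by
  induction ls generalizing i i' with
  | nil => rfl
  | cons l ls ih =>
    simp only [gs_val]
    rw [gpt_lmat_congr h l, ih (i + 1) (i' + 1), show x (.inr (e, i)) = x' (.inr (e', i')) from by
      simpa using hu 0 (by simp)]
    intro j hj
    have := hu (j + 1) (by simpa using hj)
    rwa [show i + 1 + j = i + (j + 1) by omega, show i' + 1 + j = i' + (j + 1) by omega]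

variable (sig : Y → gs_Sig)

theorem gpt_frame_zero (K0 : Finset ℕ) (ls : List (gs_Letter Y)) : gs_frame sig K0 ls 0 = K0 := by
  simp [gs_frame]

theorem gpt_frame_cons (K0 : Finset ℕ) (l : gs_Letter Y) (ls : List (gs_Letter Y)) (i : ℕ) :
    gs_frame sig K0 (l :: ls) (i + 1) = gs_frame sig (gs_step sig K0 l) ls i := by
  simp [gs_frame]

theorem gpt_frame_add (K0 : Finset ℕ) (ls : List (gs_Letter Y)) (i j : ℕ) :
    gs_frame sig K0 ls (i + j) = gs_frame sig (gs_frame sig K0 ls i) (ls.drop i) j := by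
  simp only [gs_frame]
  rw [List.take_add, List.foldl_append]

theorem gpt_frame_append_le (K0 : Finset ℕ) (l₁ l₂ : List (gs_Letter Y)) (i : ℕ)
    (h : i ≤ l₁.length) : gs_frame sig K0 (l₁ ++ l₂) i = gs_frame sig K0 l₁ i := by
  simp only [gs_frame]
  rw [List.take_append_of_le_length h]

theorem gpt_frame_append_add (K0 : Finset ℕ) (l₁ l₂ : List (gs_Letter Y)) (i : ℕ) :
    gs_frame sig K0 (l₁ ++ l₂) (l₁.length + i) =
      gs_frame sig (gs_frame sig K0 l₁ l₁.length) l₂ i := by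
  simp only [gs_frame]
  rw [List.take_length_add_append, List.foldl_append, List.take_length]

theorem gpt_frame_ge (K0 : Finset ℕ) (ls : List (gs_Letter Y)) (i : ℕ) (h : ls.length ≤ i) :
    gs_frame sig K0 ls i = gs_frame sig K0 ls ls.length := by
  simp only [gs_frame]
  rw [List.take_of_length_le h, List.take_length]

end words


/-! ### invariants of frames -/

section frames
variable {Y : Type} {sig : Y → gs_Sig}

/-- the basic invariant of a frame of rank `n` -/
def gpt_FrOK (n : ℕ) (K : Finset ℕ) : Prop := 0 ∈ K ∧ n ∈ K ∧ ∀ d ∈ K, d ≤ n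

theorem gpt_cutRepl_ok {n : ℕ} {K : Finset ℕ} (hK : gpt_FrOK n K) {o m a c : ℕ}
    (hm : gs_midOK K o m a) (hc : c ≤ m) : gpt_FrOK n (gs_cutRepl K o m c) := by
  obtain ⟨h0, hn, hle⟩ := hK
  obtain ⟨ho, _, hom, _, _⟩ := hm
  have h1 := hle _ hom
  refine ⟨?_, ?_, ?_⟩
  · simp [gs_cutRepl, h0]
  · simp only [gs_cutRepl, Finset.mem_insert, Finset.mem_filter]
    exact Or.inr ⟨hn, Or.inr h1⟩
  · intro d hd
    simp only [gs_cutRepl, Finset.mem_insert, Finset.mem_filter] at hd
    rcases hd with rfl | ⟨hd, _⟩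
    · omega
    · exact hle d hd

theorem gpt_step_ok (hs : ∀ y, (sig y).s ≤ (sig y).rk) (ht : ∀ y, (sig y).t ≤ (sig y).rk)
    {n : ℕ} {K : Finset ℕ} (hK : gpt_FrOK n K) {l : gs_Letter Y} (hl : gs_app sig n K l) :
    gpt_FrOK n (gs_step sig K l) := by
  cases l with
  | G inv y o =>
    refine gpt_cutRepl_ok hK hl ?_
    cases inv
    · simpa [gs_Sig.tgt] using ht y
    · simpa [gs_Sig.tgt] using hs y
  | S o a b => exact gpt_cutRepl_ok hK hl (by omega)
  | L lam => exact hK

theorem gpt_frame_succ (K0 : Finset ℕ) (ls : List (gs_Letter Y)) (i : ℕ) (h : i < ls.length) :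
    gs_frame sig K0 ls (i + 1) = gs_step sig (gs_frame sig K0 ls i) ls[i] := by
  simp only [gs_frame]
  rw [List.take_add_one, List.foldl_append]
  simp [h]

theorem gpt_frame_ok (hs : ∀ y, (sig y).s ≤ (sig y).rk) (ht : ∀ y, (sig y).t ≤ (sig y).rk)
    {N : ℕ} {R : Subring ℂ} {E : gs_Eqn Y} (hE : E.WF sig N R) (i : ℕ) :
    gpt_FrOK E.rk (gs_frame sig E.K0 E.ls i) := by
  induction i with
  | zero =>
    rw [gpt_frame_zero]
    exact ⟨hE.zero_mem, hE.rk_mem, hE.le_rk⟩
  | succ i ih =>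
    by_cases h : i < E.ls.length
    · rw [gpt_frame_succ _ _ _ h]
      exact gpt_step_ok hs ht ih (hE.app i h)
    · rw [gpt_frame_ge _ _ _ _ (by omega)]
      rw [gpt_frame_ge _ _ _ _ (by omega : E.ls.length ≤ i)] at ih
      exact ih

end frames

/-! ### rotation of an equation -/

section rot
variable {Y : Type}

/-- rotation by `r` letters -/
def gpt_rotEqn (sig : Y → gs_Sig) (E : gs_Eqn Y) (r : ℕ) : gs_Eqn Y :=
  ⟨E.rk, gs_frame sig E.K0 E.ls r, E.ls.drop r ++ E.ls.take r⟩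

variable {sig : Y → gs_Sig}

theorem gpt_rot_length (E : gs_Eqn Y) (r : ℕ) (hr : r ≤ E.ls.length) :
    (gpt_rotEqn sig E r).ls.length = E.ls.length := by
  simp [gpt_rotEqn]
  omega

/-- frames of the rotated equation, first part -/
theorem gpt_rot_frame_lo (E : gs_Eqn Y) (r j : ℕ) (hj : r + j ≤ E.ls.length) :
    gs_frame sig (gpt_rotEqn sig E r).K0 (gpt_rotEqn sig E r).ls j = gs_frame sig E.K0 E.ls (r + j) := by
  simp only [gpt_rotEqn]
  rw [gpt_frame_append_le _ _ _ _ _ (by simp; omega), gpt_frame_add]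

/-- frames of the rotated equation, second part -/
theorem gpt_rot_frame_hi (E : gs_Eqn Y) (hcl : gs_frame sig E.K0 E.ls E.ls.length = E.K0)
    (r t : ℕ) (hr : r ≤ E.ls.length) (ht : t ≤ r) :
    gs_frame sig (gpt_rotEqn sig E r).K0 (gpt_rotEqn sig E r).ls (E.ls.length - r + t) =
      gs_frame sig E.K0 E.ls t := by
  simp only [gpt_rotEqn]
  have h1 : (E.ls.drop r).length = E.ls.length - r := by simp
  rw [← h1, gpt_frame_append_add, h1, ← gpt_frame_add, show r + (E.ls.length - r) = E.ls.length by omega,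
    hcl]
  simp only [gs_frame]
  rw [List.take_take, min_eq_left ht]

theorem gpt_rot_get_lo (E : gs_Eqn Y) (r j : ℕ) (hj : r + j < E.ls.length) :
    (gpt_rotEqn sig E r).ls[j]? = E.ls[r + j]? := by
  simp only [gpt_rotEqn]
  rw [List.getElem?_append_left (by simp; omega), List.getElem?_drop]

theorem gpt_rot_get_hi (E : gs_Eqn Y) (r t : ℕ) (hr : r ≤ E.ls.length) (ht : t < r) :
    (gpt_rotEqn sig E r).ls[E.ls.length - r + t]? = E.ls[t]? := by
  simp only [gpt_rotEqn]
  rw [List.getElem?_append_right (by simp), List.length_drop,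
    show E.ls.length - r + t - (E.ls.length - r) = t by omega, List.getElem?_take_of_lt ht]

end rot


section rotWF
variable {Y : Type} {sig : Y → gs_Sig} {N : ℕ} {R : Subring ℂ}

theorem gpt_rotEqn_wf (hs : ∀ y, (sig y).s ≤ (sig y).rk) (ht : ∀ y, (sig y).t ≤ (sig y).rk)
    {E : gs_Eqn Y} (hE : E.WF sig N R) (r : ℕ) (hr : r ≤ E.ls.length) :
    (gpt_rotEqn sig E r).WF sig N R := by
  have hok := gpt_frame_ok hs ht hE r
  have hlen := gpt_rot_length (sig := sig) E r hr
  refine ⟨hE.rk_le, hok.1, hok.2.1, hok.2.2, ?_, ?_, ?_⟩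
  · intro j hj
    rw [hlen] at hj
    by_cases h : r + j < E.ls.length
    · have h1 := gpt_rot_get_lo (sig := sig) E r j h
      rw [List.getElem?_eq_getElem (by rw [hlen]; omega), List.getElem?_eq_getElem h] at h1
      rw [Option.some.inj h1, gpt_rot_frame_lo E r j (by omega)]
      exact hE.app (r + j) h
    · obtain ⟨t, rfl⟩ : ∃ t, j = E.ls.length - r + t := ⟨j - (E.ls.length - r), by omega⟩
      have ht' : t < r := by omega
      have h1 := gpt_rot_get_hi (sig := sig) E r t hr ht'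
      rw [List.getElem?_eq_getElem (by rw [hlen]; omega), List.getElem?_eq_getElem (by omega)] at h1
      rw [Option.some.inj h1, gpt_rot_frame_hi E hE.closed r t hr (by omega)]
      exact hE.app t (by omega)
  · rw [hlen]
    have := gpt_rot_frame_hi E hE.closed r r hr le_rfl
    rw [show E.ls.length - r + r = E.ls.length by omega] at this
    rw [this]
    rfl
  · intro lam hl j
    apply hE.unit lam _ j
    simp only [gpt_rotEqn, List.mem_append] at hl
    rcases hl with hl | hl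
    · exact List.mem_of_mem_drop hl
    · exact List.mem_of_mem_take hl

theorem gpt_occL_append (inv : Bool) (l₁ l₂ : List (gs_Letter Y)) :
    gs_occL inv (l₁ ++ l₂) = gs_occL inv l₁ ++ gs_occL inv l₂ := by
  induction l₁ with
  | nil => rfl
  | cons l ls ih =>
    cases l with
    | G i y o =>
      simp only [List.cons_append, gs_occL]
      split_ifs <;> simp [ih]
    | S o a b => simpa [gs_occL] using ih
    | L lam => simpa [gs_occL] using ih

theorem gpt_occL_rot (inv : Bool) (E : gs_Eqn Y) (r : ℕ) :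
    (gs_occL inv (gpt_rotEqn sig E r).ls).Perm (gs_occL inv E.ls) := by
  simp only [gpt_rotEqn]
  rw [gpt_occL_append]
  refine List.perm_append_comm.trans ?_
  rw [← gpt_occL_append, List.take_append_drop]

end rotWF

/-! ### rotation of a system -/

section rotSys
variable {Y : Type}

/-- rotate the `e0`-th equation by `r` letters -/
def gpt_rot (S : gs_Sys Y) (e0 r : ℕ) : gs_Sys Y :=
  ⟨S.sig, S.eqs.set e0 (gpt_rotEqn S.sig (S.eq e0) r)⟩

@[simp] theorem gpt_rot_sig (S : gs_Sys Y) (e0 r : ℕ) : (gpt_rot S e0 r).sig = S.sig := rfl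

theorem gpt_rot_eq_self (S : gs_Sys Y) (e0 r : ℕ) (h0 : e0 < S.eqs.length) :
    (gpt_rot S e0 r).eq e0 = gpt_rotEqn S.sig (S.eq e0) r := by
  simp [gs_Sys.eq, gpt_rot, List.getD_eq_getElem?_getD, h0]

theorem gpt_rot_eq_ne (S : gs_Sys Y) (e0 r e : ℕ) (h : e ≠ e0) :
    (gpt_rot S e0 r).eq e = S.eq e := by
  simp [gs_Sys.eq, gpt_rot, List.getD_eq_getElem?_getD, List.getElem?_set_ne (Ne.symm h)]

/-- splitting the list of equations at `e0` -/
theorem gpt_split (S : gs_Sys Y) (e0 : ℕ) (h0 : e0 < S.eqs.length) :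
    S.eqs = S.eqs.take e0 ++ S.eq e0 :: S.eqs.drop (e0 + 1) := by
  have : S.eq e0 = S.eqs[e0] := by
    simp [gs_Sys.eq, List.getD_eq_getElem?_getD, h0]
  rw [this]
  simp

theorem gpt_rot_split (S : gs_Sys Y) (e0 r : ℕ) (h0 : e0 < S.eqs.length) :
    (gpt_rot S e0 r).eqs =
      S.eqs.take e0 ++ gpt_rotEqn S.sig (S.eq e0) r :: S.eqs.drop (e0 + 1) := by
  simp only [gpt_rot]
  rw [List.set_eq_take_append_cons_drop, if_pos h0]

theorem gpt_rot_occ (S : gs_Sys Y) (e0 r : ℕ) (h0 : e0 < S.eqs.length) (inv : Bool) :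
    ((gpt_rot S e0 r).occ inv).Perm (S.occ inv) := by
  unfold gs_Sys.occ
  rw [gpt_rot_split S e0 r h0]
  conv_rhs => rw [gpt_split S e0 h0]
  simp only [List.flatMap_append, List.flatMap_cons]
  exact List.Perm.append_left _ (List.Perm.append_right _ (gpt_occL_rot inv _ r))

end rotSys


section rotProps
variable {Y : Type} {N : ℕ} {R : Subring ℂ}

theorem gpt_eq_mem (S : gs_Sys Y) (e0 : ℕ) (h0 : e0 < S.eqs.length) : S.eq e0 ∈ S.eqs := by
  have : S.eq e0 = S.eqs[e0] := by
    simp [gs_Sys.eq, List.getD_eq_getElem?_getD, h0]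
  rw [this]
  exact List.getElem_mem h0

theorem gpt_mem_rot {S : gs_Sys Y} {e0 r : ℕ} (h0 : e0 < S.eqs.length) {E : gs_Eqn Y}
    (hE : E ∈ (gpt_rot S e0 r).eqs) : E ∈ S.eqs ∨ E = gpt_rotEqn S.sig (S.eq e0) r := by
  rw [gpt_rot_split S e0 r h0] at hE
  simp only [List.mem_append, List.mem_cons] at hE
  rcases hE with h | h | h
  · exact Or.inl (List.mem_of_mem_take h)
  · exact Or.inr h
  · exact Or.inl (List.mem_of_mem_drop h)

theorem gpt_rot_wf {S : gs_Sys Y} (hS : S.WF N R) (e0 r : ℕ) (h0 : e0 < S.eqs.length)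
    (hr : r ≤ (S.eq e0).ls.length) : (gpt_rot S e0 r).WF N R := by
  refine ⟨hS.sig_s, hS.sig_t, ?_, ?_, ?_, ?_⟩
  · intro E hE
    rcases gpt_mem_rot h0 hE with h | rfl
    · exact hS.eqn E h
    · exact gpt_rotEqn_wf hS.sig_s hS.sig_t (hS.eqn _ (gpt_eq_mem S e0 h0)) r hr
  · exact (gpt_rot_occ S e0 r h0 false).nodup_iff.mpr hS.nodup
  · exact (gpt_rot_occ S e0 r h0 false).trans (hS.perm.trans (gpt_rot_occ S e0 r h0 true).symm)
  · intro y hy
    exact hS.rk0 y fun h => hy ((gpt_rot_occ S e0 r h0 false).mem_iff.mpr h)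

theorem gpt_rot_rkLe {S : gs_Sys Y} {n : ℕ} (hS : S.RkLe n) (e0 r : ℕ) (h0 : e0 < S.eqs.length) :
    (gpt_rot S e0 r).RkLe n := by
  intro E hE
  rcases gpt_mem_rot h0 hE with h | rfl
  · exact hS E h
  · exact hS (S.eq e0) (gpt_eq_mem S e0 h0)

theorem gpt_rot_mu (S : gs_Sys Y) (e0 r : ℕ) (h0 : e0 < S.eqs.length) (n : ℕ) :
    (gpt_rot S e0 r).mu n = S.mu n := by
  have h1 : (gpt_rot S e0 r).vn n = S.vn n :=
    ((gpt_rot_occ S e0 r h0 false).map _).sum_eq
  have h2 : (gpt_rot S e0 r).inn n = S.inn n :=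
    ((gpt_rot_occ S e0 r h0 false).map _).sum_eq
  have h3 : (gpt_rot S e0 r).en n = S.en n := by
    unfold gs_Sys.en
    rw [gpt_rot_split S e0 r h0]
    conv_rhs => rw [gpt_split S e0 h0]
    simp [gpt_rotEqn]
  simp only [gs_Sys.mu, h1, h2, h3]

theorem gpt_rot_allImp {sig : Y → gs_Sig} {E : gs_Eqn Y}
    (hcl : gs_frame sig E.K0 E.ls E.ls.length = E.K0) (r : ℕ) (hr : r ≤ E.ls.length)
    (h : (gpt_rotEqn sig E r).AllImp sig) : E.AllImp sig := by
  intro i hi
  have hlen := gpt_rot_length (sig := sig) E r hr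
  by_cases hir : r ≤ i
  · have := h (i - r) (by rw [hlen]; omega)
    rw [gpt_rot_frame_lo E r (i - r) (by omega), show r + (i - r) = i by omega] at this
    exact this
  · have := h (E.ls.length - r + i) (by rw [hlen]; omega)
    rw [gpt_rot_frame_hi E hcl r i hr (by omega)] at this
    exact this

theorem gpt_rot_noImp {S : gs_Sys Y} (hS : S.WF N R) (e0 r : ℕ) (h0 : e0 < S.eqs.length)
    (hr : r ≤ (S.eq e0).ls.length) (n : ℕ) (h : S.NoImp n) : (gpt_rot S e0 r).NoImp n := by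
  intro E hE hn
  rcases gpt_mem_rot h0 hE with h1 | rfl
  · exact h E h1 hn
  · intro hi
    exact h _ (gpt_eq_mem S e0 h0) hn
      (gpt_rot_allImp (hS.eqn _ (gpt_eq_mem S e0 h0)).closed r hr hi)

theorem gpt_at_mem {S : gs_Sys Y} {e i : ℕ} {l : gs_Letter Y} (h : S.At e i l) :
    l ∈ (S.eq e).ls := List.mem_of_getElem? h

theorem gpt_mem_at {S : gs_Sys Y} {e : ℕ} {l : gs_Letter Y} (h : l ∈ (S.eq e).ls) :
    ∃ i, S.At e i l := by
  obtain ⟨i, hi, h1⟩ := List.getElem_of_mem h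
  exact ⟨i, by unfold gs_Sys.At; rw [List.getElem?_eq_getElem hi, h1]⟩

theorem gpt_rot_mem_ls (S : gs_Sys Y) (e0 r e : ℕ) (h0 : e0 < S.eqs.length) (l : gs_Letter Y) :
    l ∈ ((gpt_rot S e0 r).eq e).ls ↔ l ∈ (S.eq e).ls := by
  by_cases h : e = e0
  · subst h
    rw [gpt_rot_eq_self S e r h0]
    simp only [gpt_rotEqn, List.mem_append]
    constructor
    · rintro (h | h)
      · exact List.mem_of_mem_drop h
      · exact List.mem_of_mem_take h
    · intro h
      rw [← List.take_append_drop r (S.eq e).ls, List.mem_append] at h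
      exact h.symm
  · rw [gpt_rot_eq_ne S e0 r e h]

theorem gpt_rot_self {S : gs_Sys Y} (e0 r : ℕ) (h0 : e0 < S.eqs.length) (n : ℕ) (h : S.Self n) :
    (gpt_rot S e0 r).Self n := by
  intro y inv e1 i1 e2 i2 o1 o2 hr h1 h2
  obtain ⟨j1, hj1⟩ := gpt_mem_at ((gpt_rot_mem_ls S e0 r e1 h0 _).mp (gpt_at_mem h1))
  obtain ⟨j2, hj2⟩ := gpt_mem_at ((gpt_rot_mem_ls S e0 r e2 h0 _).mp (gpt_at_mem h2))
  exact h y inv e1 j1 e2 j2 o1 o2 hr hj1 hj2

end rotProps


/-! ### density and rotation -/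

section rotDense
variable {Y : Type} {N : ℕ} {R : Subring ℂ}

/-- old index of a letter `↦` new index -/
def gpt_idx (len r i : ℕ) : ℕ := if i < r then i + (len - r) else if i < len then i - r else i

theorem gpt_idx_idx (len r i : ℕ) (hr : r ≤ len) : gpt_idx len r (gpt_idx len (len - r) i) = i := by
  unfold gpt_idx
  split_ifs <;> omega

/-- the map of coordinates -/
def gpt_f (e0 len r : ℕ) : Y ⊕ ℕ × ℕ → Y ⊕ ℕ × ℕ
  | .inl y => .inl y
  | .inr (e, i) => if e = e0 then .inr (e, gpt_idx len r i) else .inr (e, i)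

theorem gpt_isUni_zero (K K' : Finset ℕ) (u : gs_Mat N) (h : gs_IsUni 0 K u) : gs_IsUni 0 K' u := by
  intro i j hij
  exact absurd (h i j hij).1 (Nat.not_lt_zero _)

theorem gpt_cond {S : gs_Sys Y} (hS : S.WF N R) (e0 r : ℕ) (h0 : e0 < S.eqs.length)
    (hr : r ≤ (S.eq e0).ls.length) (i : ℕ) (u : gs_Mat N) :
    gs_IsUni (S.urk e0 i) (S.frame e0 (i + 1)) u ↔
      gs_IsUni ((gpt_rot S e0 r).urk e0 (gpt_idx (S.eq e0).ls.length r i))
        ((gpt_rot S e0 r).frame e0 (gpt_idx (S.eq e0).ls.length r i + 1)) u := by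
  have hcl := (hS.eqn _ (gpt_eq_mem S e0 h0)).closed
  have hlen := gpt_rot_length (sig := S.sig) (S.eq e0) r hr
  simp only [gs_Sys.urk, gs_Sys.frame, gpt_rot_eq_self S e0 r h0, hlen]
  have hsig : (gpt_rot S e0 r).sig = S.sig := rfl
  rw [hsig]
  by_cases h1 : i < r
  · have hi : gpt_idx (S.eq e0).ls.length r i = (S.eq e0).ls.length - r + i := by
      unfold gpt_idx; rw [if_pos h1]; omega
    rw [hi, if_pos (by omega), if_pos (by omega), add_assoc,
      gpt_rot_frame_hi _ hcl r (i + 1) hr (by omega)]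
    rfl
  · by_cases h2 : i < (S.eq e0).ls.length
    · have hi : gpt_idx (S.eq e0).ls.length r i = i - r := by
        unfold gpt_idx; rw [if_neg h1, if_pos h2]
      rw [hi, if_pos h2, if_pos (by omega), gpt_rot_frame_lo _ r (i - r + 1) (by omega),
        show r + (i - r + 1) = i + 1 by omega]
      rfl
    · have hi : gpt_idx (S.eq e0).ls.length r i = i := by
        unfold gpt_idx; rw [if_neg h1, if_neg h2]
      rw [hi, if_neg h2, if_neg h2]
      exact ⟨gpt_isUni_zero _ _ u, gpt_isUni_zero _ _ u⟩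

theorem gpt_val_rot {S : gs_Sys Y} (e0 r : ℕ) (hr : r ≤ (S.eq e0).ls.length) (x' : gs_Pt Y N) :
    (gs_val (x' ∘ gpt_f e0 (S.eq e0).ls.length r) e0 0 (S.eq e0).ls = 1 ↔
      gs_val x' e0 0 (gpt_rotEqn S.sig (S.eq e0) r).ls = 1) := by
  set ls := (S.eq e0).ls with hls
  set x := x' ∘ gpt_f e0 ls.length r with hx
  have hv : ∀ y, x (.inl y) = x' (.inl y) := fun y => rfl
  have hA : gs_val x e0 0 (ls.take r) = gs_val x' e0 (ls.length - r) (ls.take r) := by
    apply gpt_val_congr hv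
    intro j hj
    have hj' : j < r := by
      rw [List.length_take] at hj; omega
    simp only [hx, Function.comp, gpt_f, if_true, gpt_idx, zero_add, if_pos hj']
    rw [add_comm]
  have hB : gs_val x e0 r (ls.drop r) = gs_val x' e0 0 (ls.drop r) := by
    apply gpt_val_congr hv
    intro j hj
    have hj' : r + j < ls.length := by
      rw [List.length_drop] at hj; omega
    simp only [hx, Function.comp, gpt_f, if_true, gpt_idx, zero_add,
      if_neg (show ¬ r + j < r by omega), if_pos hj']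
    rw [show r + j - r = j by omega]
  have h1 : gs_val x e0 0 ls = gs_val x e0 0 (ls.take r) * gs_val x e0 r (ls.drop r) := by
    conv_lhs => rw [← List.take_append_drop r ls]
    rw [gpt_val_append, List.length_take, min_eq_left hr, zero_add]
  have h2 : gs_val x' e0 0 (gpt_rotEqn S.sig (S.eq e0) r).ls =
      gs_val x' e0 0 (ls.drop r) * gs_val x' e0 (ls.length - r) (ls.take r) := by
    simp only [gpt_rotEqn]
    rw [gpt_val_append, List.length_drop, zero_add]
  rw [h1, h2, hA, hB]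
  exact mul_eq_one_comm

theorem gpt_sol_iff {S : gs_Sys Y} (hS : S.WF N R) (e0 r : ℕ) (h0 : e0 < S.eqs.length)
    (hr : r ≤ (S.eq e0).ls.length) (x' : gs_Pt Y N) :
    x' ∘ gpt_f e0 (S.eq e0).ls.length r ∈ gs_Sol N S ↔ x' ∈ gs_Sol N (gpt_rot S e0 r) := by
  simp only [gs_Sol, Set.mem_ofPred_eq]
  refine and_congr Iff.rfl (and_congr ?_ ?_)
  · constructor
    · intro h e i
      by_cases he : e = e0
      · subst he
        have := h e (gpt_idx (S.eq e).ls.length ((S.eq e).ls.length - r) i)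
        rw [gpt_cond hS e r h0 hr, gpt_idx_idx _ _ _ hr] at this
        simpa [gpt_f, gpt_idx_idx _ _ _ hr] using this
      · have := h e i
        simp only [gs_Sys.urk, gs_Sys.frame, gpt_rot_eq_ne S e0 r e he, gpt_rot_sig]
        simpa [gpt_f, he, gs_Sys.urk, gs_Sys.frame] using this
    · intro h e i
      by_cases he : e = e0
      · subst he
        rw [gpt_cond hS e r h0 hr]
        simpa [gpt_f] using h e (gpt_idx (S.eq e).ls.length r i)
      · have := h e i
        simp only [gs_Sys.urk, gs_Sys.frame, gpt_rot_eq_ne S e0 r e he, gpt_rot_sig] at this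
        simpa [gpt_f, he, gs_Sys.urk, gs_Sys.frame] using this
  · refine forall_congr' fun e => ?_
    by_cases he : e = e0
    · subst he
      rw [gpt_rot_eq_self S e r h0]
      exact gpt_val_rot e r hr x'
    · rw [gpt_rot_eq_ne S e0 r e he]
      have : gs_val (x' ∘ gpt_f e0 (S.eq e0).ls.length r) e 0 (S.eq e).ls =
          gs_val x' e 0 (S.eq e).ls := by
        apply gpt_val_congr (x := x' ∘ gpt_f e0 (S.eq e0).ls.length r) (x' := x') (fun y => rfl)
        intro j _
        simp [gpt_f, he]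
      rw [this]

/-- the inverse map of coordinates -/
theorem gpt_f_f (e0 len r : ℕ) (hr : r ≤ len) (k : Y ⊕ ℕ × ℕ) :
    gpt_f e0 len r (gpt_f e0 len (len - r) k) = k := by
  rcases k with y | ⟨e, i⟩
  · rfl
  · by_cases he : e = e0
    · simp [gpt_f, he, gpt_idx_idx _ _ _ hr]
    · simp [gpt_f, he]

theorem gpt_f_f' (e0 len r : ℕ) (hr : r ≤ len) (k : Y ⊕ ℕ × ℕ) :
    gpt_f e0 len (len - r) (gpt_f e0 len r k) = k := by
  have := gpt_f_f (Y := Y) e0 len (len - r) (Nat.sub_le _ _) k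
  rwa [Nat.sub_sub_self hr] at this

theorem gpt_rot_dense {S : gs_Sys Y} (hS : S.WF N R) (e0 r : ℕ) (h0 : e0 < S.eqs.length)
    (hr : r ≤ (S.eq e0).ls.length) (hD : gs_Dense N R (gpt_rot S e0 r)) : gs_Dense N R S := by
  unfold gs_Dense at hD ⊢
  refine rg_Dense.transfer₁ (fun x' => x' ∘ gpt_f e0 (S.eq e0).ls.length r) ?_ ?_ ?_ hD
  · rintro ⟨k, b, a, c⟩
    have : (fun x : gs_Pt Y N => rg_matCoord (Y ⊕ ℕ × ℕ) (Fin N) (k, b, a, c)
        (x ∘ gpt_f e0 (S.eq e0).ls.length r)) =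
        rg_matCoord (Y ⊕ ℕ × ℕ) (Fin N) (gpt_f e0 (S.eq e0).ls.length r k, b, a, c) := by
      funext x
      cases b <;> rfl
    rw [this]
    exact rg_RegOn.coord _
  · intro x' hx'
    exact (gpt_sol_iff hS e0 r h0 hr x').mpr hx'
  · intro x hx
    refine ⟨x ∘ gpt_f e0 (S.eq e0).ls.length ((S.eq e0).ls.length - r), ?_, ?_⟩
    · rw [← gpt_sol_iff hS e0 r h0 hr]
      have : (x ∘ gpt_f e0 (S.eq e0).ls.length ((S.eq e0).ls.length - r)) ∘
          gpt_f e0 (S.eq e0).ls.length r = x := by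
        funext k
        simp only [Function.comp]
        rw [gpt_f_f' _ _ _ hr]
      rw [this]
      exact hx
    · funext k
      simp only [Function.comp]
      rw [gpt_f_f' _ _ _ hr]

end rotDense


/-! ### only letters of variables of top rank change properness -/

section proper
variable {Y : Type} {sig : Y → gs_Sig}

theorem gpt_mem_cutRepl {K : Finset ℕ} {o m c d : ℕ} :
    d ∈ gs_cutRepl K o m c ↔ d = o + c ∨ (d ∈ K ∧ (d ≤ o ∨ o + m ≤ d)) := by
  simp [gs_cutRepl]

theorem gpt_proper_cutRepl {n : ℕ} {K : Finset ℕ} (hK : gpt_FrOK n K) {o m a c : ℕ}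
    (hm : gs_midOK K o m a) (hc : c ≤ m)
    (hn : m = n → ((0 < a ∧ a < n) ↔ (0 < c ∧ c < n))) :
    gs_Proper n (gs_cutRepl K o m c) ↔ gs_Proper n K := by
  obtain ⟨_, _, hle⟩ := hK
  obtain ⟨ho, hoa, hom, ham, hin⟩ := hm
  have h1 := hle _ hom
  constructor
  · rintro ⟨d, hd, hd0, hdn⟩
    rcases gpt_mem_cutRepl.mp hd with rfl | ⟨hdK, _⟩
    · by_cases hc0 : c = 0
      · exact ⟨o, ho, by omega, by omega⟩
      by_cases hcm : c = m
      · exact ⟨o + m, hom, by omega, by omega⟩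
      by_cases ho0 : 0 < o
      · exact ⟨o, ho, ho0, by omega⟩
      by_cases hmn : m = n
      · have := (hn hmn).mpr ⟨by omega, by omega⟩
        exact ⟨o + a, hoa, by omega, by omega⟩
      · exact ⟨o + m, hom, by omega, by omega⟩
    · exact ⟨d, hdK, hd0, hdn⟩
  · rintro ⟨d, hd, hd0, hdn⟩
    by_cases h : d ≤ o ∨ o + m ≤ d
    · exact ⟨d, gpt_mem_cutRepl.mpr (Or.inr ⟨hd, h⟩), hd0, hdn⟩
    · push Not at h
      have hda := hin d hd h.1 h.2
      by_cases ho0 : 0 < o
      · exact ⟨o, gpt_mem_cutRepl.mpr (Or.inr ⟨ho, Or.inl le_rfl⟩), ho0, by omega⟩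
      by_cases hmn : m = n
      · have := (hn hmn).mp ⟨by omega, by omega⟩
        exact ⟨o + c, gpt_mem_cutRepl.mpr (Or.inl rfl), by omega, by omega⟩
      · exact ⟨o + m, gpt_mem_cutRepl.mpr (Or.inr ⟨hom, Or.inr le_rfl⟩), by omega, by omega⟩

theorem gpt_proper_step (hs : ∀ y, (sig y).s ≤ (sig y).rk) (ht : ∀ y, (sig y).t ≤ (sig y).rk)
    {n : ℕ} {K : Finset ℕ} (hK : gpt_FrOK n K) {l : gs_Letter Y} (hl : gs_app sig n K l)
    (hj : gt_Junk sig n l) : gs_Proper n (gs_step sig K l) ↔ gs_Proper n K := by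
  cases l with
  | G inv y o =>
    refine gpt_proper_cutRepl hK hl ?_ fun h => absurd h hj
    cases inv
    · simpa [gs_Sig.tgt] using ht y
    · simpa [gs_Sig.tgt] using hs y
  | S o a b =>
    refine gpt_proper_cutRepl hK hl (by omega) fun h => ?_
    constructor <;> rintro ⟨h1, h2⟩ <;> constructor <;> omega
  | L lam => exact Iff.rfl

/-- a letter which is not junk is `G inv y 0` with `y` of rank `n` -/
theorem gpt_not_junk {n : ℕ} {K : Finset ℕ} (hK : gpt_FrOK n K) {l : gs_Letter Y}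
    (hl : gs_app sig n K l) (hj : ¬ gt_Junk sig n l) :
    ∃ inv y, l = .G inv y 0 ∧ (sig y).rk = n := by
  cases l with
  | G inv y o =>
    have hr : (sig y).rk = n := by
      by_contra h
      exact hj h
    have h1 := hK.2.2 _ hl.2.2.1
    have : o = 0 := by omega
    subst this
    exact ⟨inv, y, rfl, hr⟩
  | S o a b => exact absurd trivial hj
  | L lam => exact absurd trivial hj

theorem gpt_first {α : Type} (p : α → Prop) (l : List α) (h : ∃ x ∈ l, ¬ p x) :
    ∃ J x post, l = J ++ x :: post ∧ (∀ y ∈ J, p y) ∧ ¬ p x := by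
  induction l with
  | nil => simp at h
  | cons a l ih =>
    by_cases ha : p a
    · obtain ⟨x, hx, hpx⟩ := h
      have hx' : x ∈ l := by
        rcases List.mem_cons.mp hx with rfl | h
        · exact absurd ha hpx
        · exact h
      obtain ⟨J, y, post, rfl, hJ, hy⟩ := ih ⟨x, hx', hpx⟩
      refine ⟨a :: J, y, post, rfl, ?_, hy⟩
      intro z hz
      rcases List.mem_cons.mp hz with rfl | h
      · exact ha
      · exact hJ z h
    · exact ⟨[], a, l, rfl, by simp, ha⟩

end proper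


/-! ### the search of the pattern -/

section search
variable {Y : Type} {sig : Y → gs_Sig} {N : ℕ} {R : Subring ℂ}

/-- a mixed closed equation has a letter leading from a proper frame to an improper one -/
theorem gpt_exists_drop {E : gs_Eqn Y} (hE : E.WF sig N R) (hi : ¬ E.AllImp sig)
    (hp : ¬ E.AllProp sig) :
    ∃ i, i < E.ls.length ∧ gs_Proper E.rk (gs_frame sig E.K0 E.ls i) ∧
      ¬ gs_Proper E.rk (gs_frame sig E.K0 E.ls (i + 1)) := by
  by_contra hcon
  push Not at hcon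
  unfold gs_Eqn.AllImp at hi
  unfold gs_Eqn.AllProp at hp
  push Not at hi hp
  obtain ⟨a, ha, hPa⟩ := hi
  obtain ⟨b, hb, hPb⟩ := hp
  have up : ∀ a, a ≤ E.ls.length → gs_Proper E.rk (gs_frame sig E.K0 E.ls a) →
      ∀ d, a + d ≤ E.ls.length → gs_Proper E.rk (gs_frame sig E.K0 E.ls (a + d)) := by
    intro a _ hPa d
    induction d with
    | zero => intro _; exact hPa
    | succ d ih =>
      intro hd
      exact hcon (a + d) (by omega) (ih (by omega))
  have h1 := up a ha hPa (E.ls.length - a) (by omega)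
  rw [show a + (E.ls.length - a) = E.ls.length by omega, hE.closed] at h1
  have h2 := up 0 (Nat.zero_le _) (by rw [gpt_frame_zero]; exact h1) b (by omega)
  rw [Nat.zero_add] at h2
  exact hPb h2

/-- the pattern at the beginning of an equation -/
theorem gpt_eqn_pattern (hs : ∀ y, (sig y).s ≤ (sig y).rk) (ht : ∀ y, (sig y).t ≤ (sig y).rk)
    {E : gs_Eqn Y} (hE : E.WF sig N R) (hlen : 0 < E.ls.length) (h0 : gs_Proper E.rk E.K0)
    (h1 : ¬ gs_Proper E.rk (gs_frame sig E.K0 E.ls 1)) :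
    ∃ i1 y1 J i2 y2 post, E.ls = .G i1 y1 0 :: (J ++ .G i2 y2 0 :: post) ∧
      (sig y1).rk = E.rk ∧ (sig y2).rk = E.rk ∧ ∀ l ∈ J, gt_Junk sig E.rk l := by
  have hok := gpt_frame_ok hs ht hE
  -- the first letter
  have hX1 : ¬ gt_Junk sig E.rk E.ls[0] := by
    intro hj
    have := gpt_proper_step hs ht (hok 0) (hE.app 0 hlen) hj
    rw [← gpt_frame_succ _ _ _ hlen, gpt_frame_zero] at this
    exact h1 (this.mpr h0)
  obtain ⟨i1, y1, hl1, hr1⟩ := gpt_not_junk (hok 0) (hE.app 0 hlen) hX1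
  obtain ⟨rest, hrest⟩ : ∃ rest, E.ls = E.ls[0] :: rest := by
    refine ⟨E.ls.tail, ?_⟩
    rw [← List.head_eq_getElem (List.ne_nil_of_length_pos hlen)]
    exact (List.cons_head_tail _).symm
  -- the rest contains a letter of a variable of top rank
  have hex : ∃ x ∈ rest, ¬ gt_Junk sig E.rk x := by
    by_contra hcon
    push Not at hcon
    have himp : ∀ d, 1 + d ≤ E.ls.length → ¬ gs_Proper E.rk (gs_frame sig E.K0 E.ls (1 + d)) := by
      intro d
      induction d with
      | zero => intro _; exact h1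
      | succ d ih =>
        intro hd
        have hlt : 1 + d < E.ls.length := by omega
        have hmem : E.ls[1 + d] ∈ rest := by
          have h2 : E.ls[1 + d]? = rest[d]? := by
            conv_lhs => rw [hrest]
            rw [Nat.add_comm 1 d, List.getElem?_cons_succ]
          rw [List.getElem?_eq_getElem hlt] at h2
          exact List.mem_of_getElem? h2.symm
        have := gpt_proper_step hs ht (hok (1 + d)) (hE.app (1 + d) hlt) (hcon _ hmem)
        rw [← gpt_frame_succ _ _ _ hlt] at this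
        intro h3
        exact ih (by omega) (this.mp h3)
    have := himp (E.ls.length - 1) (by omega)
    rw [show 1 + (E.ls.length - 1) = E.ls.length by omega, hE.closed] at this
    exact this h0
  obtain ⟨J, X2, post, hJ, hjunk, hX2⟩ := gpt_first _ rest hex
  have hls : E.ls = E.ls[0] :: (J ++ X2 :: post) := by rw [← hJ]; exact hrest
  have hlt2 : 1 + J.length < E.ls.length := by
    rw [hls]
    simp
    omega
  have hget : E.ls[1 + J.length] = X2 := by
    have h2 : E.ls[1 + J.length]? = some X2 := by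
      conv_lhs => rw [hls]
      rw [Nat.add_comm 1, List.getElem?_cons_succ]
      simp
    rw [List.getElem?_eq_getElem hlt2] at h2
    exact Option.some.inj h2
  have happ := hE.app (1 + J.length) hlt2
  rw [hget] at happ
  obtain ⟨i2, y2, hl2, hr2⟩ := gpt_not_junk (hok _) happ hX2
  refine ⟨i1, y1, J, i2, y2, post, ?_, hr1, hr2, hjunk⟩
  rw [← hl1, ← hl2]
  exact hls

end search

/-! ### the statement -/

section main
variable {Y : Type} {N : ℕ} {R : Subring ℂ}

/-- `S₁` may replace `S` -/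
def gpt_Rel (N : ℕ) (R : Subring ℂ) (n : ℕ) (S S₁ : gs_Sys Y) : Prop :=
  S₁.Good N R n ∧ S₁.mu n = S.mu n ∧ (S.NoImp n → S₁.NoImp n) ∧
    (S.Self n → S₁.Self n) ∧ (gs_Dense N R S₁ → gs_Dense N R S)

theorem gpt_rel_rot {S : gs_Sys Y} {n : ℕ} (hG : S.Good N R n) (e0 r : ℕ) (h0 : e0 < S.eqs.length)
    (hr : r ≤ (S.eq e0).ls.length) : gpt_Rel N R n S (gpt_rot S e0 r) :=
  ⟨⟨gpt_rot_wf hG.wf e0 r h0 hr, gpt_rot_rkLe hG.rkLe e0 r h0⟩, gpt_rot_mu S e0 r h0 n,
    gpt_rot_noImp hG.wf e0 r h0 hr n, gpt_rot_self e0 r h0 n, gpt_rot_dense hG.wf e0 r h0 hr⟩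

theorem gpt_rel_trans {S S₁ S₂ : gs_Sys Y} {n : ℕ} (h1 : gpt_Rel N R n S S₁)
    (h2 : gpt_Rel N R n S₁ S₂) : gpt_Rel N R n S S₂ :=
  ⟨h2.1, h2.2.1.trans h1.2.1, fun h => h2.2.2.1 (h1.2.2.1 h), fun h => h2.2.2.2.1 (h1.2.2.2.1 h),
    fun h => h1.2.2.2.2 (h2.2.2.2.2 h)⟩

theorem gpt_rot_eqs_length (S : gs_Sys Y) (e0 r : ℕ) : (gpt_rot S e0 r).eqs.length = S.eqs.length := by
  simp [gpt_rot]

/-- **ROTATE + search of the pattern** -/
theorem gpt_pattern : StPattern N R := by
  intro Y S n hG E hEm he hi hp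
  obtain ⟨e0, he0, hEe⟩ : ∃ e0, e0 < S.eqs.length ∧ S.eq e0 = E := by
    obtain ⟨e0, h0, h1⟩ := List.getElem_of_mem hEm
    refine ⟨e0, h0, ?_⟩
    unfold gs_Sys.eq
    rw [List.getD_eq_getElem _ _ h0, h1]
  subst hEe
  have hEwf := hG.wf.eqn _ hEm
  obtain ⟨i, hilt, hPi, hPi'⟩ := gpt_exists_drop hEwf hi hp
  -- first rotation
  have hrel1 := gpt_rel_rot hG e0 i he0 hilt.le
  set S₁ := gpt_rot S e0 i with hS₁
  have he0₁ : e0 < S₁.eqs.length := by rw [hS₁, gpt_rot_eqs_length]; exact he0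
  have heq₁ : S₁.eq e0 = gpt_rotEqn S.sig (S.eq e0) i := gpt_rot_eq_self S e0 i he0
  have hsig₁ : S₁.sig = S.sig := rfl
  have hE₁wf : (S₁.eq e0).WF S.sig N R := hrel1.1.wf.eqn _ (gpt_eq_mem S₁ e0 he0₁)
  have hlen₁ : (S₁.eq e0).ls.length = (S.eq e0).ls.length := by
    rw [heq₁]; exact gpt_rot_length _ _ hilt.le
  have hrk₁ : (S₁.eq e0).rk = n := by rw [heq₁]; exact he
  have hK₁ : gs_Proper (S₁.eq e0).rk (S₁.eq e0).K0 := by rw [heq₁]; exact hPi
  have hF₁ : ¬ gs_Proper (S₁.eq e0).rk (gs_frame S.sig (S₁.eq e0).K0 (S₁.eq e0).ls 1) := by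
    rw [heq₁, gpt_rot_frame_lo _ _ _ (by omega)]
    exact hPi'
  obtain ⟨i1, y1, J, i2, y2, post, hls, hr1, hr2, hjunk⟩ :=
    gpt_eqn_pattern hG.wf.sig_s hG.wf.sig_t hE₁wf (by omega) hK₁ hF₁
  rw [hrk₁] at hr1 hr2 hjunk hK₁ hF₁
  by_cases hpost : post = []
  · refine ⟨S₁, hrel1.1, hrel1.2.1, hrel1.2.2.1, hrel1.2.2.2.1, hrel1.2.2.2.2,
      e0, i1, i2, y1, y2, [], J, post, ?_⟩
    refine ⟨he0₁, by simpa using hls, hrk₁, hr1, hr2, ?_, ?_, hjunk, Or.inr hpost⟩
    · simpa [gs_Sys.frame, gpt_frame_zero] using hK₁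
    · exact hF₁
  · -- second rotation
    obtain ⟨post', p, rfl⟩ : ∃ post' p, post = post' ++ [p] :=
      ⟨post.dropLast, post.getLast hpost, (List.dropLast_append_getLast hpost).symm⟩
    set r := (S₁.eq e0).ls.length - 1 with hr
    have hrel2 := gpt_rel_rot hrel1.1 e0 r he0₁ (Nat.sub_le _ _)
    set S₂ := gpt_rot S₁ e0 r with hS₂
    have he0₂ : e0 < S₂.eqs.length := by rw [hS₂, gpt_rot_eqs_length]; exact he0₁
    have heq₂ : S₂.eq e0 = gpt_rotEqn S.sig (S₁.eq e0) r := gpt_rot_eq_self S₁ e0 r he0₁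
    have hrel := gpt_rel_trans hrel1 hrel2
    have hlen3 : (S₁.eq e0).ls.length = J.length + post'.length + 3 := by
      rw [hls]
      simp
      omega
    have hls' : (S₁.eq e0).ls = (.G i1 y1 0 :: (J ++ .G i2 y2 0 :: post')) ++ [p] := by
      rw [hls]
      simp
    have hr' : r = (gs_Letter.G i1 y1 0 :: (J ++ .G i2 y2 0 :: post')).length := by
      rw [hr, hlen3]
      simp
      omega
    refine ⟨S₂, hrel.1, hrel.2.1, hrel.2.2.1, hrel.2.2.2.1, hrel.2.2.2.2,
      e0, i1, i2, y1, y2, [p], J, post', ?_⟩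
    refine ⟨he0₂, ?_, by rw [heq₂]; exact hrk₁, hr1, hr2, ?_, ?_, hjunk, Or.inl (by simp)⟩
    · rw [heq₂]
      simp only [gpt_rotEqn]
      rw [hls', hr', List.drop_left, List.take_left]
    · have := gpt_rot_frame_hi (sig := S.sig) (S₁.eq e0) hE₁wf.closed r 0 (Nat.sub_le _ _)
        (Nat.zero_le _)
      rw [show (S₁.eq e0).ls.length - r + 0 = 1 by omega, gpt_frame_zero] at this
      simp only [gs_Sys.frame, List.length_singleton]
      rw [heq₂]
      change gs_Proper n (gs_frame S.sig _ _ 1)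
      rw [this]
      exact hK₁
    · have := gpt_rot_frame_hi (sig := S.sig) (S₁.eq e0) hE₁wf.closed r 1 (Nat.sub_le _ _)
        (by omega)
      rw [show (S₁.eq e0).ls.length - r + 1 = 2 by omega] at this
      simp only [gs_Sys.frame, List.length_singleton]
      rw [heq₂]
      change ¬ gs_Proper n (gs_frame S.sig _ _ 2)
      rw [this]
      exact hF₁

end main

end Claimed.Agent.R236
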