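import Mathlib
import Claimed.Agent.R236.GReduceWF
import Claimed.Agent.R236.GWord

/-!
# Row 236, REDUCE: the reduced system is balanced (`StRedWFOcc`) (owner helper215, prefix gro_)

Purely combinatorial: for every variable `v` of the reduced system and both exponents the number of
occurrences is computed (`gro_count`); it does not depend on the exponent, is `≤ 1`, and vanishes only
for variables of rank `0`.
-/

set_option autoImplicit false

namespace Claimed.Agent.R236

open Classical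

/-- indicator of a proposition -/
noncomputable def gro_b (p : Prop) : ℕ := if p then 1 else 0

theorem gro_b_pos {p : Prop} (h : p) : gro_b p = 1 := if_pos h

theorem gro_b_neg {p : Prop} (h : ¬ p) : gro_b p = 0 := if_neg h

@[simp] theorem gro_b_true : gro_b True = 1 := if_pos trivial

@[simp] theorem gro_b_false : gro_b False = 0 := if_neg id

theorem gro_b_le (p : Prop) : gro_b p ≤ 1 := by
  by_cases h : p
  · rw [gro_b_pos h]
  · rw [gro_b_neg h]; exact Nat.zero_le _

theorem gro_b_eq_zero {p : Prop} : gro_b p = 0 ↔ ¬ p := by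
  by_cases h : p
  · simp [h]
  · simp [h]

theorem gro_b_congr {p q : Prop} (h : p ↔ q) : gro_b p = gro_b q := by rw [propext h]

section cnt
variable {Y : Type}

/-- number of occurrences of `v` with exponent `inv` in a word -/
noncomputable def gro_cnt (inv : Bool) (v : Y) (ls : List (gs_Letter Y)) : ℕ :=
  (gs_occL inv ls).count v

@[simp] theorem gro_cnt_nil (inv : Bool) (v : Y) : gro_cnt inv v [] = 0 := rfl

@[simp] theorem gro_cnt_G (inv : Bool) (v : Y) (i : Bool) (y : Y) (o : ℕ)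
    (ls : List (gs_Letter Y)) :
    gro_cnt inv v (.G i y o :: ls) = gro_b (i = inv ∧ y = v) + gro_cnt inv v ls := by
  unfold gro_cnt
  rw [gw_occL_cons_G]
  by_cases h : i = inv
  · by_cases h' : y = v
    · simp [h, h', add_comm]
    · simp [h, h']
  · simp [h]

@[simp] theorem gro_cnt_S (inv : Bool) (v : Y) (o a b : ℕ) (ls : List (gs_Letter Y)) :
    gro_cnt inv v (.S o a b :: ls) = gro_cnt inv v ls := rfl

@[simp] theorem gro_cnt_L (inv : Bool) (v : Y) (lam : ℕ → ℂ) (ls : List (gs_Letter Y)) :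
    gro_cnt inv v (.L lam :: ls) = gro_cnt inv v ls := rfl

@[simp] theorem gro_cnt_append (inv : Bool) (v : Y) (A B : List (gs_Letter Y)) :
    gro_cnt inv v (A ++ B) = gro_cnt inv v A + gro_cnt inv v B := by
  unfold gro_cnt
  rw [gw_occL_append, List.count_append]

theorem gro_cnt_flatMap {α : Type*} (inv : Bool) (v : Y) (l : List α)
    (f : α → List (gs_Letter Y)) :
    gro_cnt inv v (l.flatMap f) = (l.map fun a => gro_cnt inv v (f a)).sum := by
  induction l with
  | nil => rfl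
  | cons a l ih => simp [List.flatMap_cons, ih]

/-- an optional letter -/
@[simp] theorem gro_cnt_ite (inv : Bool) (v : Y) (p : Prop) [Decidable p] (i : Bool) (y : Y)
    (o : ℕ) (lam : ℕ → ℂ) (ls : List (gs_Letter Y)) :
    gro_cnt inv v ((if p then .G i y o else .L lam) :: ls) =
      gro_b (p ∧ i = inv ∧ y = v) + gro_cnt inv v ls := by
  by_cases h : p
  · simp [h]
  · simp [h]

theorem gro_cnt_map_inl {Z : Type} (inv : Bool) (y : Y) (ls : List (gs_Letter Y)) :
    gro_cnt inv (Sum.inl y : Y ⊕ Z) (ls.map (gs_Letter.map Sum.inl)) = gro_cnt inv y ls := by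
  induction ls with
  | nil => rfl
  | cons l ls ih => cases l <;> simp [gs_Letter.map, ih]

theorem gro_cnt_map_inr {Z : Type} (inv : Bool) (w : Z) (ls : List (gs_Letter Y)) :
    gro_cnt inv (Sum.inr w : Y ⊕ Z) (ls.map (gs_Letter.map Sum.inl)) = 0 := by
  induction ls with
  | nil => rfl
  | cons l ls ih => cases l <;> simp [gs_Letter.map, ih]

/-- number of occurrences of `v` with exponent `inv` in a system -/
noncomputable def gro_num (S : gs_Sys Y) (inv : Bool) (v : Y) : ℕ := (S.occ inv).count v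

theorem gro_count_occ (S : gs_Sys Y) (inv : Bool) (v : Y) :
    gro_num S inv v = (S.eqs.map fun E => gro_cnt inv v E.ls).sum :=
  gw_count_occ S inv v

/-- a system is balanced as soon as the number of occurrences is a function `T ≤ 1` of the variable
which vanishes only for variables of rank `0` -/
theorem gro_balanced (S : gs_Sys Y) (T : Y → ℕ) (h : ∀ inv v, gro_num S inv v = T v)
    (h1 : ∀ v, T v ≤ 1) (h0 : ∀ v, T v = 0 → (S.sig v).rk = 0) :
    (S.occ false).Nodup ∧ (S.occ false).Perm (S.occ true) ∧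
      ∀ y, y ∉ S.occ false → (S.sig y).rk = 0 := by
  refine ⟨List.nodup_iff_count_le_one.2 fun v => (h false v).le.trans (h1 v),
    List.perm_iff_count.2 fun v => (h false v).trans (h true v).symm, fun y hy => h0 y ?_⟩
  rw [← h false y]
  exact List.count_eq_zero.2 hy

end cnt

/-! ## sums -/

theorem gro_sum_range (n : ℕ) (f : ℕ → ℕ) :
    ((List.range n).map f).sum = ∑ i ∈ Finset.range n, f i := by
  induction n with
  | zero => rfl
  | succ n ih => rw [List.range_succ, List.map_append, List.sum_append, ih, Finset.sum_range_succ]; simp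

theorem gro_sum_divmod (len M : ℕ) (hM : 0 < M) (F : ℕ → ℕ → ℕ) :
    ∑ t ∈ Finset.range (len * M), F (t / M) (t % M) =
      ∑ i ∈ Finset.range len, ∑ s ∈ Finset.range M, F i s := by
  induction len with
  | zero => simp
  | succ len ih =>
    rw [Nat.succ_mul, Finset.sum_range_add, ih, Finset.sum_range_succ]
    congr 1
    refine Finset.sum_congr rfl fun s hs => ?_
    have hs' : s < M := Finset.mem_range.1 hs
    rw [Nat.mul_comm len M, Nat.mul_add_div hM, Nat.div_eq_of_lt hs', Nat.add_zero,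
      Nat.mul_add_mod, Nat.mod_eq_of_lt hs']

theorem gro_sum_zipIdx {α : Type*} (l : List α) (d : α) (g : α → ℕ → ℕ) (k : ℕ) :
    ((l.zipIdx k).map fun p => g p.1 p.2).sum =
      ∑ i ∈ Finset.range l.length, g (l.getD i d) (k + i) := by
  induction l generalizing k with
  | nil => simp
  | cons a l ih =>
    rw [List.zipIdx_cons, List.map_cons, List.sum_cons, ih, List.length_cons,
      Finset.sum_range_succ']
    simp only [List.getD_cons_succ, List.getD_cons_zero, Nat.add_zero]
    rw [add_comm]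
    congr 1
    refine Finset.sum_congr rfl fun i _ => ?_
    rw [show k + 1 + i = k + (i + 1) by omega]

/-- cyclic shift of a sum -/
theorem gro_sum_shift (len : ℕ) (g : ℕ → ℕ) :
    ∑ i ∈ Finset.range len, g ((i + 1) % len) = ∑ i ∈ Finset.range len, g i := by
  cases len with
  | zero => simp
  | succ m =>
    rw [Finset.sum_range_succ, Finset.sum_range_succ', Nat.mod_self]
    congr 1
    refine Finset.sum_congr rfl fun i hi => ?_
    rw [Nat.mod_eq_of_lt (by have := Finset.mem_range.1 hi; omega)]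

/-- sum of an indicator -/
theorem gro_sum_ind (len j : ℕ) (P : ℕ → Prop) :
    ∑ i ∈ Finset.range len, gro_b (j = i ∧ P i) = gro_b (j < len ∧ P j) := by
  by_cases hj : j < len ∧ P j
  · rw [gro_b_pos hj, Finset.sum_eq_single j]
    · rw [gro_b_pos ⟨rfl, hj.2⟩]
    · intro b _ hb
      rw [gro_b_neg fun h => hb h.1.symm]
    · intro h
      exact absurd (Finset.mem_range.2 hj.1) h
  · rw [gro_b_neg hj]
    refine Finset.sum_eq_zero fun i hi => gro_b_neg ?_
    rintro ⟨rfl, h⟩
    exact hj ⟨Finset.mem_range.1 hi, h⟩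

/-! ## the decomposition of the number of occurrences -/

section total
variable {Y : Type}

/-- the occurrences contributed by the `i`-th letter `l` -/
noncomputable def gro_W (C : gr_Ctx Y) (N : ℕ) (inv : Bool) (v : Y ⊕ gr_Var) (i : ℕ)
    (l : gs_Letter Y) : ℕ :=
  gro_cnt inv v (C.segU i l) + gro_cnt inv v (C.segQ i l) +
    (gro_cnt inv v (C.link i 0).ls + gro_cnt inv v (C.link i 1).ls +
      ∑ c ∈ Finset.range N, gro_cnt inv v (C.link i (c + 2)).ls)

theorem gro_total (N : ℕ) (S : gs_Sys Y) (e0 k : ℕ) (col : ℕ → ℕ → Bool) (he : e0 < S.eqs.length)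
    (inv : Bool) (v : Y ⊕ gr_Var) :
    gro_num (gr_reduce N S e0 k col) inv v +
        gro_cnt inv v ((S.eq e0).ls.map (gs_Letter.map Sum.inl)) =
      (S.eqs.map fun E => gro_cnt inv v (E.ls.map (gs_Letter.map Sum.inl))).sum +
        ∑ i ∈ Finset.range (gr_ctx S e0 k col).len,
          gro_W (gr_ctx S e0 k col) N inv v i ((gr_ctx S e0 k col).letter i) := by
  set C := gr_ctx S e0 k col with hC
  rw [gro_count_occ]
  have hE : (gr_reduce N S e0 k col).eqs = (S.eqs.map (gs_Eqn.map Sum.inl)).set e0 C.eU ++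
      C.eQ :: (List.range (C.len * (N + 2))).map fun t => C.link (t / (N + 2)) (t % (N + 2)) := rfl
  have he' : e0 < (S.eqs.map (gs_Eqn.map (Sum.inl : Y → Y ⊕ gr_Var))).length := by simpa using he
  have h1 := gw_sum_set (fun E : gs_Eqn (Y ⊕ gr_Var) => gro_cnt inv v E.ls)
    (S.eqs.map (gs_Eqn.map Sum.inl)) he' C.eU
  have h2 : ((S.eqs.map (gs_Eqn.map (Sum.inl : Y → Y ⊕ gr_Var)))[e0]'he').ls =
      (S.eq e0).ls.map (gs_Letter.map Sum.inl) := by
    rw [List.getElem_map, gw_eq_of_lt he]; rfl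
  have hU : gro_cnt inv v C.eU.ls =
      ∑ i ∈ Finset.range C.len, gro_cnt inv v (C.segU i (C.letter i)) := by
    have := gro_sum_zipIdx C.E.ls (.L fun _ => 1) (fun l i => gro_cnt inv v (C.segU i l)) 0
    simp only [Nat.zero_add] at this
    exact (gro_cnt_flatMap inv v _ _).trans this
  have hQ : gro_cnt inv v C.eQ.ls =
      ∑ i ∈ Finset.range C.len, gro_cnt inv v (C.segQ i (C.letter i)) := by
    have := gro_sum_zipIdx C.E.ls (.L fun _ => 1) (fun l i => gro_cnt inv v (C.segQ i l)) 0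
    simp only [Nat.zero_add] at this
    exact (gro_cnt_flatMap inv v _ _).trans this
  have hL : (((List.range (C.len * (N + 2))).map
      fun t => C.link (t / (N + 2)) (t % (N + 2))).map fun E => gro_cnt inv v E.ls).sum =
      ∑ i ∈ Finset.range C.len, (gro_cnt inv v (C.link i 0).ls + gro_cnt inv v (C.link i 1).ls +
        ∑ c ∈ Finset.range N, gro_cnt inv v (C.link i (c + 2)).ls) := by
    rw [List.map_map]
    have := gro_sum_range (C.len * (N + 2))
      (fun t => gro_cnt inv v (C.link (t / (N + 2)) (t % (N + 2))).ls)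
    refine this.trans ?_
    rw [gro_sum_divmod C.len (N + 2) (by omega) fun i s => gro_cnt inv v (C.link i s).ls]
    refine Finset.sum_congr rfl fun i _ => ?_
    rw [Finset.sum_range_succ', Finset.sum_range_succ']
    simp only [Nat.zero_add, Nat.add_assoc, Nat.reduceAdd]
    omega
  rw [hE, List.map_append, List.sum_append, List.map_cons, List.sum_cons, hL, hQ]
  simp only [h2, hU, List.map_map] at h1
  simp only [gro_W, Finset.sum_add_distrib]
  have h3 : (S.eqs.map ((fun E : gs_Eqn (Y ⊕ gr_Var) => gro_cnt inv v E.ls) ∘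
      gs_Eqn.map Sum.inl)).sum =
      (S.eqs.map fun E => gro_cnt inv v (E.ls.map (gs_Letter.map Sum.inl))).sum := rfl
  rw [h3] at h1
  omega

end total

/-! ## the contribution of one letter -/

section letters
variable {Y : Type}

theorem gro_ind {K : Finset ℕ} {n o m a : ℕ} (c' : ℕ) (h : gs_midOK K o m a) (hK : ∀ d ∈ K, d ≤ n) :
    gro_b (0 < a ∧ o = c') + gro_b (a < m ∧ o + a = c') +
      gro_b (c' ∈ K ∧ c' < n ∧ (c' < o ∨ o + m ≤ c')) = gro_b (c' ∈ K ∧ c' < n) := by
  obtain ⟨h1, h2, h3, h4, h5⟩ := h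
  have h6 := hK _ h3
  by_cases hc : c' ∈ K
  · have h5' := h5 c' hc
    simp only [hc, true_and, gro_b]
    split_ifs <;> omega
  · have e1 : o ≠ c' := fun h => hc (h ▸ h1)
    have e2 : o + a ≠ c' := fun h => hc (h ▸ h2)
    simp [hc, e1, e2]

theorem gro_link_un (C : gr_Ctx Y) {i : ℕ} {l : gs_Letter Y} (hl : C.E.ls[i]? = some l) (inv : Bool)
    (v : Y ⊕ gr_Var) (c : ℕ) :
    gro_cnt inv v (C.link i (c + 2)).ls =
      gro_b ((c ∈ C.K i ∧ c < C.n ∧
          (c < (gs_mid C.sig l).1 ∨ (gs_mid C.sig l).1 + (gs_mid C.sig l).2 ≤ c)) ∧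
          false = inv ∧ Sum.inr (gr_Var.H (C.w (i + 1)) c) = v) +
        gro_b ((c ∈ C.K i ∧ c < C.n ∧
          (c < (gs_mid C.sig l).1 ∨ (gs_mid C.sig l).1 + (gs_mid C.sig l).2 ≤ c)) ∧
          true = inv ∧ Sum.inr (gr_Var.H i c) = v) := by
  simp only [gr_Ctx.link, hl]
  by_cases h : c ∈ C.K i ∧ c < C.n ∧
      (c < (gs_mid C.sig l).1 ∨ (gs_mid C.sig l).1 + (gs_mid C.sig l).2 ≤ c)
  · rw [if_pos h]
    simp only [gr_Ctx.linkUn, gro_cnt_G, gro_cnt_nil, Nat.add_zero, h, true_and]
  · rw [if_neg h]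
    simp only [h, false_and, gro_b_false]
    rfl

/-- the spectator links: variables `H` -/
theorem gro_un_true (C : gr_Ctx Y) (N : ℕ) (hN : C.n ≤ N) {i : ℕ} {l : gs_Letter Y}
    (hl : C.E.ls[i]? = some l) (j c' : ℕ) :
    ∑ c ∈ Finset.range N, gro_cnt true (Sum.inr (gr_Var.H j c')) (C.link i (c + 2)).ls =
      gro_b (i = j ∧ c' ∈ C.K i ∧ c' < C.n ∧
          (c' < (gs_mid C.sig l).1 ∨ (gs_mid C.sig l).1 + (gs_mid C.sig l).2 ≤ c')) := by
  rw [gro_b_congr (q := c' < N ∧ (i = j ∧ c' ∈ C.K i ∧ c' < C.n ∧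
          (c' < (gs_mid C.sig l).1 ∨ (gs_mid C.sig l).1 + (gs_mid C.sig l).2 ≤ c')))
      ⟨fun h => ⟨h.2.2.1.trans_le hN, h⟩, fun h => h.2⟩, ← gro_sum_ind N c' fun c' => (i = j ∧ c' ∈ C.K i ∧ c' < C.n ∧
          (c' < (gs_mid C.sig l).1 ∨ (gs_mid C.sig l).1 + (gs_mid C.sig l).2 ≤ c'))]
  refine Finset.sum_congr rfl fun c _ => ?_
  rw [gro_link_un C hl]
  simp only [Bool.false_eq_true, false_and, and_false, gro_b_false, Nat.zero_add, true_and,
    Sum.inr.injEq, gr_Var.H.injEq]
  exact gro_b_congr (by tauto)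

theorem gro_un_false (C : gr_Ctx Y) (N : ℕ) (hN : C.n ≤ N) {i : ℕ} {l : gs_Letter Y}
    (hl : C.E.ls[i]? = some l) (j c' : ℕ) :
    ∑ c ∈ Finset.range N, gro_cnt false (Sum.inr (gr_Var.H j c')) (C.link i (c + 2)).ls =
      gro_b (C.w (i + 1) = j ∧ c' ∈ C.K i ∧ c' < C.n ∧
          (c' < (gs_mid C.sig l).1 ∨ (gs_mid C.sig l).1 + (gs_mid C.sig l).2 ≤ c')) := by
  rw [gro_b_congr (q := c' < N ∧ (C.w (i + 1) = j ∧ c' ∈ C.K i ∧ c' < C.n ∧
          (c' < (gs_mid C.sig l).1 ∨ (gs_mid C.sig l).1 + (gs_mid C.sig l).2 ≤ c')))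
      ⟨fun h => ⟨h.2.2.1.trans_le hN, h⟩, fun h => h.2⟩, ← gro_sum_ind N c' fun c' => (C.w (i + 1) = j ∧ c' ∈ C.K i ∧ c' < C.n ∧
          (c' < (gs_mid C.sig l).1 ∨ (gs_mid C.sig l).1 + (gs_mid C.sig l).2 ≤ c'))]
  refine Finset.sum_congr rfl fun c _ => ?_
  rw [gro_link_un C hl]
  simp only [Bool.true_eq_false, false_and, and_false, gro_b_false, Nat.add_zero, true_and,
    Sum.inr.injEq, gr_Var.H.injEq]
  exact gro_b_congr (by tauto)

/-- the spectator links: the other variables -/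
theorem gro_un_other (C : gr_Ctx Y) (N : ℕ) {i : ℕ} {l : gs_Letter Y} (hl : C.E.ls[i]? = some l)
    (inv : Bool) (v : Y ⊕ gr_Var) (hv : ∀ j c, Sum.inr (gr_Var.H j c) ≠ v) :
    ∑ c ∈ Finset.range N, gro_cnt inv v (C.link i (c + 2)).ls = 0 := by
  refine Finset.sum_eq_zero fun c _ => ?_
  rw [gro_link_un C hl]
  simp [hv]

theorem gro_ind' {K : Finset ℕ} {n o m a c : ℕ} (c' : ℕ) (h : gs_midOK K o m a) (hc : c ≤ m)
    (hK : ∀ d ∈ K, d ≤ n) :
    gro_b (0 < c ∧ o = c') + gro_b (c < m ∧ o + c = c') +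
      gro_b (c' ∈ K ∧ c' < n ∧ (c' < o ∨ o + m ≤ c')) = gro_b (c' ∈ gs_cutRepl K o m c ∧ c' < n) := by
  obtain ⟨h1, h2, h3, h4, h5⟩ := h
  have h6 := hK _ h3
  have hm : gs_midOK (gs_cutRepl K o m c) o m c := by
    refine ⟨gf_mem_cutRepl.2 (Or.inr ⟨h1, Or.inl le_rfl⟩), gf_mem_cutRepl.2 (Or.inl rfl),
      gf_mem_cutRepl.2 (Or.inr ⟨h3, Or.inr le_rfl⟩), hc, fun d hd h7 h8 => ?_⟩
    rcases gf_mem_cutRepl.1 hd with rfl | ⟨-, h9⟩
    · rfl
    · omega
  have hK' : ∀ d ∈ gs_cutRepl K o m c, d ≤ n := by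
    intro d hd
    rcases gf_mem_cutRepl.1 hd with rfl | ⟨h9, -⟩
    · omega
    · exact hK d h9
  rw [← gro_ind c' hm hK']
  congr 1
  refine gro_b_congr ?_
  rw [gf_mem_cutRepl]
  constructor
  · rintro ⟨h7, h8, h9⟩
    exact ⟨Or.inr ⟨h7, by omega⟩, h8, h9⟩
  · rintro ⟨h7 | h7, h8, h9⟩
    · have : c' = o + m := by omega
      exact ⟨this ▸ h3, h8, h9⟩
    · exact ⟨h7.1, h8, h9⟩

theorem gro_W_H_true (C : gr_Ctx Y) (N : ℕ) (hN : C.n ≤ N) {i : ℕ} {l : gs_Letter Y}
    (hl : C.E.ls[i]? = some l) (happ : gs_app C.sig C.n (C.K i) l) (hK : ∀ d ∈ C.K i, d ≤ C.n)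
    (j c' : ℕ) :
    gro_W C N true (Sum.inr (gr_Var.H j c')) i l = gro_b (j = i ∧ c' ∈ C.K i ∧ c' < C.n) := by
  unfold gro_W
  rw [gro_un_true C N hN hl]
  by_cases hj : i = j
  · subst hj
    cases l with
    | L lam =>
      simp [gr_Ctx.segU, gr_Ctx.segQ, gr_Ctx.link, hl, gs_Eqn.triv, gr_one, gs_mid]
    | G inv y o =>
      have := gro_ind c' happ hK
      simpa [gr_Ctx.segU, gr_Ctx.segQ, gr_Ctx.link, hl, gs_Eqn.triv, gr_one, gs_mid,
        gr_Ctx.linkG] using this
    | S o A B =>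
      have := gro_ind c' happ hK
      simpa [gr_Ctx.segU, gr_Ctx.segQ, gr_Ctx.link, hl, gr_one, gs_mid, gr_Ctx.linkA,
        gr_Ctx.linkB] using this
  · have hj' : ¬ j = i := fun e => hj e.symm
    cases l <;>
      simp [gr_Ctx.segU, gr_Ctx.segQ, gr_Ctx.link, hl, gs_Eqn.triv, gr_one, gs_mid, gr_Ctx.linkA,
        gr_Ctx.linkB, gr_Ctx.linkG, hj, hj']

theorem gro_W_H_false (C : gr_Ctx Y) (N : ℕ) (hN : C.n ≤ N) {i : ℕ} {l : gs_Letter Y}
    (hl : C.E.ls[i]? = some l) (happ : gs_app C.sig C.n (C.K i) l) (hK : ∀ d ∈ C.K i, d ≤ C.n)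
    (hsig : ∀ y inv, (C.sig y).tgt inv ≤ (C.sig y).rk) (j c' : ℕ) :
    gro_W C N false (Sum.inr (gr_Var.H j c')) i l =
      gro_b (j = C.w (i + 1) ∧ c' ∈ gs_step C.sig (C.K i) l ∧ c' < C.n) := by
  unfold gro_W
  rw [gro_un_false C N hN hl]
  by_cases hj : C.w (i + 1) = j
  · subst hj
    cases l with
    | L lam =>
      simp [gr_Ctx.segU, gr_Ctx.segQ, gr_Ctx.link, hl, gs_Eqn.triv, gr_one, gs_mid, gs_step]
    | G inv y o =>
      have := gro_ind' c' happ (hsig y inv) hK
      simpa [gr_Ctx.segU, gr_Ctx.segQ, gr_Ctx.link, hl, gs_Eqn.triv, gr_one, gs_mid,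
        gr_Ctx.linkG, gs_step] using this
    | S o A B =>
      have := gro_ind' c' happ (Nat.le_add_left B A) hK
      rw [add_comm (gro_b (0 < B ∧ o = c'))] at this
      simpa [gr_Ctx.segU, gr_Ctx.segQ, gr_Ctx.link, hl, gr_one, gs_mid, gr_Ctx.linkA,
        gr_Ctx.linkB, gs_step] using this
  · have hj' : ¬ j = C.w (i + 1) := fun e => hj e.symm
    cases l <;>
      simp [gr_Ctx.segU, gr_Ctx.segQ, gr_Ctx.link, hl, gs_Eqn.triv, gr_one, gs_mid, gr_Ctx.linkA,
        gr_Ctx.linkB, gr_Ctx.linkG, hj, hj']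

/-- the letter is a variable -/
def gro_isG : gs_Letter Y → Prop
  | .G _ _ _ => True
  | _ => False

/-- the letter is a swap -/
def gro_isS : gs_Letter Y → Prop
  | .S _ _ _ => True
  | _ => False

theorem gro_W_inl (C : gr_Ctx Y) (N : ℕ) {i : ℕ} {l : gs_Letter Y} (hl : C.E.ls[i]? = some l)
    (inv : Bool) (y : Y) : gro_W C N inv (Sum.inl y) i l = gro_cnt inv y [l] := by
  unfold gro_W
  rw [gro_un_other C N hl inv _ (by simp)]
  cases l <;>
    simp [gr_Ctx.segU, gr_Ctx.segQ, gr_Ctx.link, hl, gs_Eqn.triv, gr_one, gr_Ctx.linkA,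
      gr_Ctx.linkB, gr_Ctx.linkG]

theorem gro_W_G (C : gr_Ctx Y) (N : ℕ) {i : ℕ} {l : gs_Letter Y} (hl : C.E.ls[i]? = some l)
    (inv : Bool) (j : ℕ) :
    gro_W C N inv (Sum.inr (gr_Var.YU j)) i l = gro_b (i = j ∧ gro_isG l) ∧
    gro_W C N inv (Sum.inr (gr_Var.YQ j)) i l = gro_b (i = j ∧ gro_isG l) := by
  unfold gro_W
  rw [gro_un_other C N hl inv _ (by simp), gro_un_other C N hl inv _ (by simp)]
  cases l <;> cases inv <;>
    simp [gr_Ctx.segU, gr_Ctx.segQ, gr_Ctx.link, hl, gs_Eqn.triv, gr_one, gr_Ctx.linkA,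
      gr_Ctx.linkB, gr_Ctx.linkG, gro_isG]

theorem gro_W_S (C : gr_Ctx Y) (N : ℕ) {i : ℕ} {l : gs_Letter Y} (hl : C.E.ls[i]? = some l)
    (inv : Bool) (j : ℕ) :
    gro_W C N inv (Sum.inr (gr_Var.T j)) i l = gro_b (i = j ∧ gro_isS l) ∧
    gro_W C N inv (Sum.inr (gr_Var.S j)) i l = gro_b (i = j ∧ gro_isS l) ∧
    gro_W C N inv (Sum.inr (gr_Var.R j)) i l = gro_b (i = j ∧ gro_isS l) ∧
    gro_W C N inv (Sum.inr (gr_Var.V j)) i l = gro_b (i = j ∧ gro_isS l) := by
  unfold gro_W
  rw [gro_un_other C N hl inv _ (by simp), gro_un_other C N hl inv _ (by simp),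
    gro_un_other C N hl inv _ (by simp), gro_un_other C N hl inv _ (by simp)]
  cases l <;> cases inv <;>
    simp [gr_Ctx.segU, gr_Ctx.segQ, gr_Ctx.link, hl, gs_Eqn.triv, gr_one, gr_Ctx.linkA,
      gr_Ctx.linkB, gr_Ctx.linkG, gro_isS]

end letters

/-! ## the number of occurrences -/

section final
variable {Y : Type}

theorem gro_sum_ind' (len j : ℕ) (P : ℕ → Prop) :
    ∑ i ∈ Finset.range len, gro_b (i = j ∧ P i) = gro_b (j < len ∧ P j) := by
  rw [← gro_sum_ind]
  exact Finset.sum_congr rfl fun i _ => gro_b_congr (by rw [eq_comm])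

theorem gro_cnt_eq_sum (inv : Bool) (y : Y) (ls : List (gs_Letter Y)) (d : gs_Letter Y) :
    gro_cnt inv y ls = ∑ i ∈ Finset.range ls.length, gro_cnt inv y [ls.getD i d] := by
  induction ls with
  | nil => simp
  | cons l ls ih =>
    rw [List.length_cons, Finset.sum_range_succ', ← List.singleton_append, gro_cnt_append, ih,
      add_comm]
    simp

theorem gro_get (C : gr_Ctx Y) {i : ℕ} (hi : i < C.len) : C.E.ls[i]? = some (C.letter i) := by
  unfold gr_Ctx.letter
  rw [List.getD_eq_getElem _ _ hi, List.getElem?_eq_getElem hi]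

/-- the number of occurrences of a variable of the reduced system -/
noncomputable def gro_T (S : gs_Sys Y) (C : gr_Ctx Y) : Y ⊕ gr_Var → ℕ
  | .inl y => gro_num S false y
  | .inr (.H j c) => gro_b (j < C.len ∧ c ∈ C.K j ∧ c < C.n)
  | .inr (.YU j) => gro_b (j < C.len ∧ gro_isG (C.letter j))
  | .inr (.YQ j) => gro_b (j < C.len ∧ gro_isG (C.letter j))
  | .inr (.T j) => gro_b (j < C.len ∧ gro_isS (C.letter j))
  | .inr (.S j) => gro_b (j < C.len ∧ gro_isS (C.letter j))
  | .inr (.R j) => gro_b (j < C.len ∧ gro_isS (C.letter j))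
  | .inr (.V j) => gro_b (j < C.len ∧ gro_isS (C.letter j))

variable {N : ℕ} {R : Subring ℂ} {S : gs_Sys Y} {e0 k : ℕ}

theorem gro_K_mod (hyp : gr_Hyp N R S e0 k) (col : ℕ → ℕ → Bool) {i : ℕ}
    (hi : i < (gr_ctx S e0 k col).len) :
    (gr_ctx S e0 k col).K ((gr_ctx S e0 k col).w (i + 1)) = (gr_ctx S e0 k col).K (i + 1) := by
  unfold gr_Ctx.w
  rcases Nat.lt_or_ge (i + 1) (gr_ctx S e0 k col).len with h | h
  · rw [Nat.mod_eq_of_lt h]
  · have : i + 1 = (gr_ctx S e0 k col).len := by omega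
    rw [this, Nat.mod_self, gsd_K_len hyp col]

theorem gro_num_inr (hyp : gr_Hyp N R S e0 k) (col : ℕ → ℕ → Bool) (inv : Bool) (w : gr_Var) :
    gro_num (gr_reduce N S e0 k col) inv (Sum.inr w) =
      ∑ i ∈ Finset.range (gr_ctx S e0 k col).len,
        gro_W (gr_ctx S e0 k col) N inv (Sum.inr w) i ((gr_ctx S e0 k col).letter i) := by
  have := gro_total N S e0 k col hyp.lt inv (Sum.inr w)
  simpa [gro_cnt_map_inr] using this

theorem gro_num_inl (hyp : gr_Hyp N R S e0 k) (col : ℕ → ℕ → Bool) (inv : Bool) (y : Y) :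
    gro_num (gr_reduce N S e0 k col) inv (Sum.inl y) = gro_num S inv y := by
  have := gro_total N S e0 k col hyp.lt inv (Sum.inl y)
  simp only [gro_cnt_map_inl] at this
  rw [← gro_count_occ, gro_cnt_eq_sum inv y (S.eq e0).ls (.L fun _ => 1)] at this
  have h2 : ∑ i ∈ Finset.range (gr_ctx S e0 k col).len,
      gro_W (gr_ctx S e0 k col) N inv (Sum.inl y) i ((gr_ctx S e0 k col).letter i) =
      ∑ i ∈ Finset.range (S.eq e0).ls.length,
        gro_cnt inv y [(S.eq e0).ls.getD i (.L fun _ => 1)] :=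
    Finset.sum_congr rfl fun i hi =>
      gro_W_inl _ N (gro_get _ (Finset.mem_range.1 hi)) inv y
  omega

theorem gro_num_eq (hyp : gr_Hyp N R S e0 k) (col : ℕ → ℕ → Bool) (inv : Bool)
    (v : Y ⊕ gr_Var) :
    gro_num (gr_reduce N S e0 k col) inv v = gro_T S (gr_ctx S e0 k col) v := by
  have hget : ∀ i ∈ Finset.range (gr_ctx S e0 k col).len,
      (gr_ctx S e0 k col).E.ls[i]? = some ((gr_ctx S e0 k col).letter i) :=
    fun i hi => gro_get _ (Finset.mem_range.1 hi)
  rcases v with y | w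
  · rw [gro_num_inl hyp col]
    cases inv
    · rfl
    · exact (hyp.wf.perm.count_eq y).symm
  · rw [gro_num_inr hyp col]
    cases w with
    | H j c =>
      cases inv
      · have hW : ∀ i ∈ Finset.range (gr_ctx S e0 k col).len,
            gro_W (gr_ctx S e0 k col) N false (Sum.inr (gr_Var.H j c)) i
              ((gr_ctx S e0 k col).letter i) =
            (fun t => gro_b (j = t ∧ c ∈ (gr_ctx S e0 k col).K t ∧ c < (gr_ctx S e0 k col).n))
              ((i + 1) % (gr_ctx S e0 k col).len) := by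
          intro i hi
          rw [gro_W_H_false _ N (gsd_n_le hyp col) (hget i hi)
            (gsd_app hyp col (Finset.mem_range.1 hi))
            (gsd_K_ok hyp col i (Finset.mem_range.1 hi).le).le
            (fun y inv => gsd_tgt_le (gsd_hyp_sig hyp y) inv) j c]
          have h1 := gro_K_mod hyp col (Finset.mem_range.1 hi)
          have h2 := gsd_K_succ (S := S) (e0 := e0) (k := k) col (Finset.mem_range.1 hi)
          change gro_b (_ ∧ c ∈ gs_step S.sig _ _ ∧ _) = _
          rw [← h2, ← h1]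
          rfl
        rw [Finset.sum_congr rfl hW, gro_sum_shift (gr_ctx S e0 k col).len
          fun t => gro_b (j = t ∧ c ∈ (gr_ctx S e0 k col).K t ∧ c < (gr_ctx S e0 k col).n),
          gro_sum_ind]
        rfl
      · rw [Finset.sum_congr rfl fun i hi => gro_W_H_true _ N (gsd_n_le hyp col) (hget i hi)
          (gsd_app hyp col (Finset.mem_range.1 hi))
          (gsd_K_ok hyp col i (Finset.mem_range.1 hi).le).le j c, gro_sum_ind]
        rfl
    | YU j =>
      rw [Finset.sum_congr rfl fun i hi => (gro_W_G _ N (hget i hi) inv j).1,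
        gro_sum_ind' _ j fun i => gro_isG ((gr_ctx S e0 k col).letter i)]
      rfl
    | YQ j =>
      rw [Finset.sum_congr rfl fun i hi => (gro_W_G _ N (hget i hi) inv j).2,
        gro_sum_ind' _ j fun i => gro_isG ((gr_ctx S e0 k col).letter i)]
      rfl
    | T j =>
      rw [Finset.sum_congr rfl fun i hi => (gro_W_S _ N (hget i hi) inv j).1,
        gro_sum_ind' _ j fun i => gro_isS ((gr_ctx S e0 k col).letter i)]
      rfl
    | S j =>
      rw [Finset.sum_congr rfl fun i hi => (gro_W_S _ N (hget i hi) inv j).2.1,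
        gro_sum_ind' _ j fun i => gro_isS ((gr_ctx S e0 k col).letter i)]
      rfl
    | R j =>
      rw [Finset.sum_congr rfl fun i hi => (gro_W_S _ N (hget i hi) inv j).2.2.1,
        gro_sum_ind' _ j fun i => gro_isS ((gr_ctx S e0 k col).letter i)]
      rfl
    | V j =>
      rw [Finset.sum_congr rfl fun i hi => (gro_W_S _ N (hget i hi) inv j).2.2.2,
        gro_sum_ind' _ j fun i => gro_isS ((gr_ctx S e0 k col).letter i)]
      rfl

theorem gro_T_le (hyp : gr_Hyp N R S e0 k) (col : ℕ → ℕ → Bool) (v : Y ⊕ gr_Var) :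
    gro_T S (gr_ctx S e0 k col) v ≤ 1 := by
  rcases v with y | w
  · exact List.nodup_iff_count_le_one.1 hyp.wf.nodup y
  · cases w <;> exact gro_b_le _

theorem gro_T_zero (hyp : gr_Hyp N R S e0 k) (col : ℕ → ℕ → Bool) (v : Y ⊕ gr_Var)
    (h : gro_T S (gr_ctx S e0 k col) v = 0) : ((gr_reduce N S e0 k col).sig v).rk = 0 := by
  rcases v with y | w
  · exact hyp.wf.rk0 y (List.count_eq_zero.1 h)
  · have hnone : ∀ j, ¬ j < (gr_ctx S e0 k col).len → (gr_ctx S e0 k col).E.ls[j]? = none :=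
      fun j hj => List.getElem?_eq_none (Nat.le_of_not_lt hj)
    change ((gr_ctx S e0 k col).nsig w).rk = 0
    cases w with
    | H j c =>
      have h' := gro_b_eq_zero.1 h
      simp only [gr_Ctx.nsig]
      rw [if_neg h']
    | YU j =>
      have h' := gro_b_eq_zero.1 h
      simp only [gr_Ctx.nsig]
      by_cases hj : j < (gr_ctx S e0 k col).len
      · rw [gro_get _ hj]
        cases hl : (gr_ctx S e0 k col).letter j with
        | G inv y o => exact absurd ⟨hj, by rw [hl]; trivial⟩ h'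
        | S o A B => rfl
        | L lam => rfl
      · rw [hnone j hj]
    | YQ j =>
      have h' := gro_b_eq_zero.1 h
      simp only [gr_Ctx.nsig]
      by_cases hj : j < (gr_ctx S e0 k col).len
      · rw [gro_get _ hj]
        cases hl : (gr_ctx S e0 k col).letter j with
        | G inv y o => exact absurd ⟨hj, by rw [hl]; trivial⟩ h'
        | S o A B => rfl
        | L lam => rfl
      · rw [hnone j hj]
    | T j =>
      have h' := gro_b_eq_zero.1 h
      simp only [gr_Ctx.nsig]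
      by_cases hj : j < (gr_ctx S e0 k col).len
      · rw [gro_get _ hj]
        cases hl : (gr_ctx S e0 k col).letter j with
        | G inv y o => rfl
        | S o A B => exact absurd ⟨hj, by rw [hl]; trivial⟩ h'
        | L lam => rfl
      · rw [hnone j hj]
    | S j =>
      have h' := gro_b_eq_zero.1 h
      simp only [gr_Ctx.nsig]
      by_cases hj : j < (gr_ctx S e0 k col).len
      · rw [gro_get _ hj]
        cases hl : (gr_ctx S e0 k col).letter j with
        | G inv y o => rfl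
        | S o A B => exact absurd ⟨hj, by rw [hl]; trivial⟩ h'
        | L lam => rfl
      · rw [hnone j hj]
    | R j =>
      have h' := gro_b_eq_zero.1 h
      simp only [gr_Ctx.nsig]
      by_cases hj : j < (gr_ctx S e0 k col).len
      · rw [gro_get _ hj]
        cases hl : (gr_ctx S e0 k col).letter j with
        | G inv y o => rfl
        | S o A B => exact absurd ⟨hj, by rw [hl]; trivial⟩ h'
        | L lam => rfl
      · rw [hnone j hj]
    | V j =>
      have h' := gro_b_eq_zero.1 h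
      simp only [gr_Ctx.nsig]
      by_cases hj : j < (gr_ctx S e0 k col).len
      · rw [gro_get _ hj]
        cases hl : (gr_ctx S e0 k col).letter j with
        | G inv y o => rfl
        | S o A B => exact absurd ⟨hj, by rw [hl]; trivial⟩ h'
        | L lam => rfl
      · rw [hnone j hj]

end final

/-- **the reduced system is balanced** -/
theorem gro_occ {N : ℕ} {R : Subring ℂ} : StRedWFOcc N R := by
  intro Y S e0 k hyp col _
  exact gro_balanced _ (gro_T S (gr_ctx S e0 k col)) (gro_num_eq hyp col) (gro_T_le hyp col)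
    (gro_T_zero hyp col)

end Claimed.Agent.R236
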