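import Mathlib
import Claimed.Agent.R236.GSteps
import Claimed.Agent.R236.GWord
import Claimed.Agent.R236.GCount

/-!
# Row 236, Model G2: `StReduceMu` of GSteps.lean (owner helper215, prefix grs_)

Measure and occurrences of `gr_reduce` for an entirely proper equation `E` of top rank `n`:
* all new variables have rank `< n`, so `vn` is unchanged;
* `eU`, `eQ` and all links have rank `< n`, except the links of the variables of rank `n`;
* a letter `G inv y o` with `rk y = n` at position `i`: the link `gr_lk N E0 i 0` has rank `n` and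
  contains `G inv (inl y) 0` and no other occurrence of `inl y`.
-/

set_option autoImplicit false

namespace Claimed.Agent.R236

variable {Y : Type} {N : ℕ} {R : Subring ℂ}

/-! ## facts about REDUCE

`S` good of rank `n`, `gr_Hyp N R S e0 k`, `(S.eq e0).rk = n`, `(S.eq e0).AllProp S.sig`,
`col` admissible. -/

/-- the hypotheses shared by the facts below -/
structure grs_Hyp (N : ℕ) (R : Subring ℂ) (S : gs_Sys Y) (n e0 k : ℕ) (col : ℕ → ℕ → Bool) :
    Prop where
  good : S.Good N R n
  hyp : gr_Hyp N R S e0 k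
  rk : (S.eq e0).rk = n
  prop : (S.eq e0).AllProp S.sig
  col : (gr_ctx S e0 k col).WF

variable {S : gs_Sys Y} {n e0 k : ℕ} {col : ℕ → ℕ → Bool}

theorem grs_Hyp.step' (h : grs_Hyp N R S n e0 k col) {i : ℕ} {l : gs_Letter Y}
    (hl : (S.eq e0).ls[i]? = some l) : (gr_ctx S e0 k col).stepOK (col i) (col (i + 1)) l := by
  obtain ⟨hi, rfl⟩ := List.getElem?_eq_some_iff.1 hl
  exact h.col.step i hi

theorem grs_Hyp.app' (h : grs_Hyp N R S n e0 k col) {i : ℕ} {l : gs_Letter Y}
    (hl : (S.eq e0).ls[i]? = some l) : gs_app S.sig n (S.frame e0 i) l := by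
  have := h.good.wf.app_at hl
  rwa [h.rk] at this

theorem grs_Hyp.fr (h : grs_Hyp N R S n e0 k col) (i : ℕ) : gw_Fr n (S.frame e0 i) := by
  have := (h.good.wf.eq_wf e0).fr h.good.wf.sigOK i
  rwa [h.rk] at this

theorem grs_Hyp.proper (h : grs_Hyp N R S n e0 k col) {i : ℕ} (hi : i ≤ (S.eq e0).ls.length) :
    gs_Proper n (S.frame e0 i) := by
  have := h.prop i hi
  rwa [h.rk] at this

theorem grs_Hyp.k_lt (h : grs_Hyp N R S n e0 k col) : k < n := by
  have := h.hyp.ltn
  rwa [h.rk] at this

theorem grs_lt_of_some {α : Type*} {ls : List α} {i : ℕ} {l : α} (hl : ls[i]? = some l) :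
    i < ls.length := (List.getElem?_eq_some_iff.1 hl).1

/-- every colouring has exactly `k` indices of colour `U` -/
theorem grs_count (h : grs_Hyp N R S n e0 k col) (i : ℕ) (hi : i ≤ (S.eq e0).ls.length) :
    gr_cU (col i) n = k := by
  induction i with
  | zero =>
    have hb : col 0 = fun j => decide (j < k) := funext h.col.base
    rw [hb, gct_cU_prefix]
    have := h.k_lt
    omega
  | succ i ih =>
    have hi' : i < (S.eq e0).ls.length := hi
    have ih := ih (by omega)
    have hl : (S.eq e0).ls[i]? = some (S.eq e0).ls[i] := List.getElem?_eq_getElem hi'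
    have hstep := h.step' hl
    have happ := h.app' hl
    have hfr := h.fr i
    generalize (S.eq e0).ls[i] = l at hstep happ
    cases l with
    | G inv y o =>
      obtain ⟨h1, h2⟩ := hstep
      have hle : o + (S.sig y).rk ≤ n := hfr.2.2 _ happ.2.2.1
      rw [← ih]
      exact gct_cU_eq_of_agree (Nat.le_add_right _ _) h1 h2 n (Or.inr hle)
    | S o A B =>
      obtain ⟨h1, h2, h3⟩ := hstep
      have hle : o + (A + B) ≤ n := hfr.2.2 _ happ.2.2.1
      rw [← ih]
      refine gct_cU_eq_of_agree (Nat.le_add_right _ _) h1 ?_ n (Or.inr hle)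
      have e1 := gct_nU_add (col (i + 1)) (lo := o) (mid := o + B) (hi := o + B + A)
        (by omega) (by omega)
      have e2 := gct_nU_add (col i) (lo := o) (mid := o + A) (hi := o + A + B) (by omega) (by omega)
      rw [show o + B + A = o + (A + B) by omega] at e1
      rw [show o + A + B = o + (A + B) by omega] at e2
      rw [show o + B + A = o + (A + B) by omega] at h2 h3
      rw [show o + A + B = o + (A + B) by omega] at h3
      omega
    | L lam =>
      have : col (i + 1) = col i := hstep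
      rw [this]
      exact ih

theorem grs_cU_le (h : grs_Hyp N R S n e0 k col) {i : ℕ} (hi : i ≤ (S.eq e0).ls.length) (m : ℕ) :
    gr_cU (col i) m ≤ k := by
  rcases le_total m n with hm | hm
  · exact (gct_cU_mono _ hm).trans (grs_count h i hi).le
  · have hb : ∀ j, n ≤ j → col i j = false := by
      intro j hj
      refine h.col.beyond i j ?_
      show (S.eq e0).rk ≤ j
      rw [h.rk]
      exact hj
    rw [gct_cU_beyond hb hm, grs_count h i hi]

theorem grs_nU_le (h : grs_Hyp N R S n e0 k col) {i : ℕ} (hi : i ≤ (S.eq e0).ls.length)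
    (lo m : ℕ) : gr_nU (col i) lo m ≤ k :=
  (Nat.sub_le _ _).trans (grs_cU_le h hi m)

theorem grs_nQ_lt (h : grs_Hyp N R S n e0 k col) {i : ℕ} (hi : i ≤ (S.eq e0).ls.length)
    (lo : ℕ) {m : ℕ} (hm : m ≤ n) : gr_nQ (col i) lo m < n := by
  have h1 : gr_nQ (col i) lo m ≤ gr_cQ (col i) m := Nat.sub_le _ _
  have h2 := gct_cQ_mono (col i) hm
  have h3 := gct_cU_add_cQ (col i) n
  have h4 := grs_count h i hi
  have h5 := h.hyp.pos
  omega

/-- the size of a block of a proper frame -/
theorem grs_nxt_lt {n : ℕ} {K : Finset ℕ} (hK : gw_Fr n K) (hp : gs_Proper n K) {c : ℕ} (hc : c < n) :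
    gr_nxt K c - c < n := by
  have h1 : gr_nxt K c ≤ n := Nat.sInf_le ⟨hK.2.1, hc⟩
  obtain ⟨d, hd, hd0, hdn⟩ := hp
  rcases Nat.eq_zero_or_pos c with rfl | hc0
  · have h2 : gr_nxt K 0 ≤ d := Nat.sInf_le ⟨hd, hd0⟩
    omega
  · omega

/-- numerics of a swap -/
theorem grs_swap_facts (h : grs_Hyp N R S n e0 k col) {i o A B : ℕ}
    (hl : (S.eq e0).ls[i]? = some (.S o A B)) :
    A < n ∧ B < n ∧
      (gr_snum (col i) (col (i + 1)) o A B).b + (gr_snum (col i) (col (i + 1)) o A B).h ≤ k ∧
      (gr_snum (col i) (col (i + 1)) o A B).a + (gr_snum (col i) (col (i + 1)) o A B).h ≤ k ∧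
      (gr_snum (col i) (col (i + 1)) o A B).h + (gr_snum (col i) (col (i + 1)) o A B).x ≤ A ∧
      (gr_snum (col i) (col (i + 1)) o A B).h + (gr_snum (col i) (col (i + 1)) o A B).y ≤ B := by
  have hi := grs_lt_of_some hl
  obtain ⟨h1, h2, h3⟩ := h.step' hl
  have happ : gs_midOK (S.frame e0 i) o (A + B) A := h.app' hl
  have hle : o + (A + B) ≤ n := (h.fr i).2.2 _ happ.2.2.1
  obtain ⟨d, hd, hd0, hdn⟩ := h.proper hi.le
  have hcut := happ.2.2.2.2 d hd
  have b1 := grs_nU_le h hi.le (o + A) (o + A + B)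
  have b2 := grs_nU_le h (i := i + 1) hi (o + B) (o + B + A)
  have b3 := gct_nU_le (col (i + 1)) (lo := o + B) (hi := o + B + A) (by omega)
  have b4 := gct_nU_le (col i) (lo := o + A) (hi := o + A + B) (by omega)
  simp only [gr_snum]
  refine ⟨?_, ?_, ?_, ?_, ?_, ?_⟩
  · by_contra hc
    have : d = o + A := hcut (by omega) (by omega)
    omega
  · by_contra hc
    have : d = o + A := hcut (by omega) (by omega)
    omega
  · omega
  · omega
  · omega
  · omega

/-- all new variables have rank `< n` -/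
theorem grs_nsig_lt (h : grs_Hyp N R S n e0 k col) (w : gr_Var) :
    ((gr_ctx S e0 k col).nsig w).rk < n := by
  have hk := h.k_lt
  have hn : 0 < n := by omega
  cases w with
  | H i c =>
    simp only [gr_Ctx.nsig]
    split_ifs with hc
    · obtain ⟨hi, -, hcn⟩ := hc
      have hcn' : c < n := by
        have : c < (S.eq e0).rk := hcn
        rwa [h.rk] at this
      exact grs_nxt_lt (h.fr i) (h.proper (le_of_lt hi)) hcn'
    · exact hn
  | YU i =>
    simp only [gr_Ctx.nsig]
    split
    · rename_i inv y o hl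
      exact lt_of_le_of_lt (grs_nU_le h (grs_lt_of_some hl).le _ _) hk
    · exact hn
  | YQ i =>
    simp only [gr_Ctx.nsig]
    split
    · rename_i inv y o hl
      have happ : gs_midOK (S.frame e0 i) o (S.sig y).rk ((S.sig y).src inv) := h.app' hl
      exact grs_nQ_lt h (grs_lt_of_some hl).le _ ((h.fr i).2.2 _ happ.2.2.1)
    · exact hn
  | T i =>
    simp only [gr_Ctx.nsig]
    split
    · rename_i o A B hl
      have := grs_swap_facts h hl
      exact lt_of_le_of_lt this.2.2.1 hk
    · exact hn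
  | S i =>
    simp only [gr_Ctx.nsig]
    split
    · rename_i o A B hl
      have := grs_swap_facts h hl
      exact lt_of_le_of_lt this.2.2.2.1 hk
    · exact hn
  | R i =>
    simp only [gr_Ctx.nsig]
    split
    · rename_i o A B hl
      have := grs_swap_facts h hl
      exact lt_of_le_of_lt this.2.2.2.2.1 this.1
    · exact hn
  | V i =>
    simp only [gr_Ctx.nsig]
    split
    · rename_i o A B hl
      have := grs_swap_facts h hl
      exact lt_of_le_of_lt this.2.2.2.2.2 this.2.1
    · exact hn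

/-- the rank of a link equation is `≤ n`, and `< n` unless it is the link of a variable of
rank `n` -/
theorem grs_link_rk (h : grs_Hyp N R S n e0 k col) (i s : ℕ) :
    ((gr_ctx S e0 k col).link i s).rk < n ∨
      ∃ inv y o, (S.eq e0).ls[i]? = some (gs_Letter.G inv y o) ∧ (S.sig y).rk = n ∧ s = 0 ∧
        (gr_ctx S e0 k col).link i s = (gr_ctx S e0 k col).linkG i inv y o := by
  have hk := h.k_lt
  have hn : 0 < n := by omega
  have htriv : (gs_Eqn.triv (Y ⊕ gr_Var)).rk < n := hn
  rcases hl : (S.eq e0).ls[i]? with _ | l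
  · left
    have : (gr_ctx S e0 k col).link i s = gs_Eqn.triv _ := by
      unfold gr_Ctx.link
      have hl' : (gr_ctx S e0 k col).E.ls[i]? = none := hl
      rw [hl']
    rw [this]
    exact htriv
  · have hl' : (gr_ctx S e0 k col).E.ls[i]? = some l := hl
    have hi := grs_lt_of_some hl
    match s, l, hl, hl' with
    | 0, .G inv y o, hl, hl' =>
      have e : (gr_ctx S e0 k col).link i 0 = (gr_ctx S e0 k col).linkG i inv y o := by
        unfold gr_Ctx.link
        rw [hl']
      have happ : gs_midOK (S.frame e0 i) o (S.sig y).rk ((S.sig y).src inv) := h.app' hl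
      have hle := (h.fr i).2.2 _ happ.2.2.1
      by_cases hr : (S.sig y).rk = n
      · exact Or.inr ⟨inv, y, o, rfl, hr, rfl, e⟩
      · left
        rw [e]
        show (S.sig y).rk < n
        omega
    | 0, .S o A B, hl, hl' =>
      left
      have e : (gr_ctx S e0 k col).link i 0 = (gr_ctx S e0 k col).linkA i o A B := by
        unfold gr_Ctx.link
        rw [hl']
      rw [e]
      exact (grs_swap_facts h hl).1
    | 0, .L lam, hl, hl' =>
      left
      have e : (gr_ctx S e0 k col).link i 0 = gs_Eqn.triv _ := by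
        unfold gr_Ctx.link
        rw [hl']
      rw [e]
      exact htriv
    | 1, .G inv y o, hl, hl' =>
      left
      have e : (gr_ctx S e0 k col).link i 1 = gs_Eqn.triv _ := by
        unfold gr_Ctx.link
        rw [hl']
      rw [e]
      exact htriv
    | 1, .S o A B, hl, hl' =>
      left
      have e : (gr_ctx S e0 k col).link i 1 = (gr_ctx S e0 k col).linkB i o A B := by
        unfold gr_Ctx.link
        rw [hl']
      rw [e]
      exact (grs_swap_facts h hl).2.1
    | 1, .L lam, hl, hl' =>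
      left
      have e : (gr_ctx S e0 k col).link i 1 = gs_Eqn.triv _ := by
        unfold gr_Ctx.link
        rw [hl']
      rw [e]
      exact htriv
    | c + 2, l, hl, hl' =>
      left
      unfold gr_Ctx.link
      rw [hl']
      simp only
      split_ifs with hc
      · have hcn : c < n := by
          have : c < (S.eq e0).rk := hc.2.1
          rwa [h.rk] at this
        exact grs_nxt_lt (h.fr i) (h.proper hi.le) hcn
      · exact htriv

/-! ### the equations of the reduced system, by index -/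

theorem grs_reduce_eqs (N : ℕ) (S : gs_Sys Y) (e0 k : ℕ) (col : ℕ → ℕ → Bool) :
    (gr_reduce N S e0 k col).eqs =
      (S.eqs.map (gs_Eqn.map Sum.inl)).set e0 (gr_ctx S e0 k col).eU ++
        (gr_ctx S e0 k col).eQ :: (List.range ((gr_ctx S e0 k col).len * (N + 2))).map fun t =>
          (gr_ctx S e0 k col).link (t / (N + 2)) (t % (N + 2)) := rfl

theorem grs_eq_old (N : ℕ) (S : gs_Sys Y) (e0 k : ℕ) (col : ℕ → ℕ → Bool) {e : ℕ}
    (he : e < S.eqs.length) (hne : e ≠ e0) :
    (gr_reduce N S e0 k col).eq e = (S.eq e).map Sum.inl := by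
  unfold gs_Sys.eq
  rw [grs_reduce_eqs, List.getD_append _ _ _ _ (by simpa using he),
    List.getD_eq_getElem _ _ (by simpa using he), List.getElem_set_of_ne (Ne.symm hne),
    List.getElem_map, List.getD_eq_getElem _ _ he]

theorem grs_eq_link (N : ℕ) (S : gs_Sys Y) (e0 k : ℕ) (col : ℕ → ℕ → Bool) {i s : ℕ}
    (hi : i < (S.eq e0).ls.length) (hs : s < N + 2) :
    (gr_reduce N S e0 k col).eq (gr_lk N S.eqs.length i s) = (gr_ctx S e0 k col).link i s := by
  have hlen : (gr_ctx S e0 k col).len = (S.eq e0).ls.length := rfl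
  have ht : i * (N + 2) + s < (gr_ctx S e0 k col).len * (N + 2) := by
    rw [hlen]
    calc i * (N + 2) + s < i * (N + 2) + (N + 2) := by omega
      _ = (i + 1) * (N + 2) := by ring
      _ ≤ (S.eq e0).ls.length * (N + 2) := Nat.mul_le_mul_right _ hi
  unfold gs_Sys.eq gr_lk
  rw [grs_reduce_eqs, List.getD_append_right _ _ _ _ (by simp; omega)]
  have h1 : S.eqs.length + 1 + i * (N + 2) + s
      - ((S.eqs.map (gs_Eqn.map Sum.inl)).set e0 (gr_ctx S e0 k col).eU).length
      = (i * (N + 2) + s) + 1 := by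
    simp only [List.length_set, List.length_map]
    omega
  rw [h1, List.getD_cons_succ, List.getD_eq_getElem _ _ (by simpa using ht), List.getElem_map,
    List.getElem_range]
  have h2 : (i * (N + 2) + s) / (N + 2) = i := by
    rw [mul_comm, Nat.mul_add_div (by omega), Nat.div_eq_of_lt hs, add_zero]
  have h3 : (i * (N + 2) + s) % (N + 2) = s := by
    rw [mul_comm, Nat.mul_add_mod, Nat.mod_eq_of_lt hs]
  rw [h2, h3]

/-- the equations of the reduced system -/
theorem grs_mem_eqs (h : grs_Hyp N R S n e0 k col) {E : gs_Eqn (Y ⊕ gr_Var)}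
    (hE : E ∈ (gr_reduce N S e0 k col).eqs) :
    (∃ e, e ≠ e0 ∧ e < S.eqs.length ∧ E = (S.eq e).map Sum.inl) ∨ E = (gr_ctx S e0 k col).eU ∨
      E = (gr_ctx S e0 k col).eQ ∨ ∃ i s, E = (gr_ctx S e0 k col).link i s := by
  rw [grs_reduce_eqs, List.mem_append, List.mem_cons, List.mem_map] at hE
  rcases hE with h1 | rfl | ⟨t, _, rfl⟩
  · obtain ⟨e, he, rfl⟩ := List.getElem_of_mem h1
    have he' : e < S.eqs.length := by simpa using he
    rw [List.getElem_set]
    split_ifs with hee
    · right; left; rfl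
    · left
      refine ⟨e, Ne.symm hee, he', ?_⟩
      rw [List.getElem_map, gw_eq_of_lt he']
  · right; right; left; rfl
  · right; right; right; exact ⟨_, _, rfl⟩

theorem grs_reduce_rkLe (h : grs_Hyp N R S n e0 k col) : (gr_reduce N S e0 k col).RkLe n := by
  intro E hE
  have hk := h.k_lt
  rcases grs_mem_eqs h hE with ⟨e, _, he, rfl⟩ | rfl | rfl | ⟨i, s, rfl⟩
  · exact h.good.rkLe _ (gw_eq_mem he)
  · exact hk.le
  · show (S.eq e0).rk - k ≤ n
    rw [h.rk]
    omega
  · rcases grs_link_rk h i s with h1 | ⟨inv, y, o, _, hr, _, e⟩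
    · exact h1.le
    · rw [e]
      exact hr.le

/-! ### occurrences of the old variables -/

theorem grs_segU_free (C : gr_Ctx Y) (i : ℕ) (l : gs_Letter Y) (inv : Bool) (y : Y) (o : ℕ) :
    gs_Letter.G inv (Sum.inl y) o ∉ C.segU i l := by
  cases l <;> simp [gr_Ctx.segU, gr_one]

theorem grs_segQ_free (C : gr_Ctx Y) (i : ℕ) (l : gs_Letter Y) (inv : Bool) (y : Y) (o : ℕ) :
    gs_Letter.G inv (Sum.inl y) o ∉ C.segQ i l := by
  cases l <;> simp [gr_Ctx.segQ, gr_one]

theorem grs_eU_free (C : gr_Ctx Y) (inv : Bool) (y : Y) (o : ℕ) :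
    gs_Letter.G inv (Sum.inl y) o ∉ C.eU.ls := by
  intro hm
  obtain ⟨p, _, hp⟩ := List.mem_flatMap.1 hm
  exact grs_segU_free C _ _ _ _ _ hp

theorem grs_eQ_free (C : gr_Ctx Y) (inv : Bool) (y : Y) (o : ℕ) :
    gs_Letter.G inv (Sum.inl y) o ∉ C.eQ.ls := by
  intro hm
  obtain ⟨p, _, hp⟩ := List.mem_flatMap.1 hm
  exact grs_segQ_free C _ _ _ _ _ hp

theorem grs_ite_free {p : Prop} [Decidable p] (inv inv' : Bool) (y : Y) (w : gr_Var) (o o' : ℕ) :
    gs_Letter.G inv (Sum.inl y) o ≠ if p then gs_Letter.G inv' (Sum.inr w) o' else gr_one Y := by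
  split_ifs <;> simp [gr_one]

/-- the old variables in `linkG` -/
theorem grs_linkG_mem (C : gr_Ctx Y) (i : ℕ) (inv' : Bool) (y' : Y) (o' : ℕ) (inv : Bool) (y : Y)
    (o : ℕ) (hm : gs_Letter.G inv (Sum.inl y) o ∈ (C.linkG i inv' y' o').ls) :
    inv = inv' ∧ y = y' ∧ o = 0 := by
  simp only [gr_Ctx.linkG, List.mem_cons, List.not_mem_nil, or_false, grs_ite_free,
    gs_Letter.G.injEq, Sum.inl.injEq, reduceCtorEq, and_false, false_and] at hm
  exact hm

theorem grs_linkA_free (C : gr_Ctx Y) (i o' A B : ℕ) (inv : Bool) (y : Y) (o : ℕ) :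
    gs_Letter.G inv (Sum.inl y) o ∉ (C.linkA i o' A B).ls := by
  simp only [gr_Ctx.linkA, List.mem_cons, List.not_mem_nil, or_false, grs_ite_free,
    gs_Letter.G.injEq, reduceCtorEq, and_false, false_and, not_false_eq_true]

theorem grs_linkB_free (C : gr_Ctx Y) (i o' A B : ℕ) (inv : Bool) (y : Y) (o : ℕ) :
    gs_Letter.G inv (Sum.inl y) o ∉ (C.linkB i o' A B).ls := by
  simp only [gr_Ctx.linkB, List.mem_cons, List.not_mem_nil, or_false, grs_ite_free,
    gs_Letter.G.injEq, reduceCtorEq, and_false, false_and, not_false_eq_true]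

theorem grs_linkUn_free (C : gr_Ctx Y) (i c : ℕ) (inv : Bool) (y : Y) (o : ℕ) :
    gs_Letter.G inv (Sum.inl y) o ∉ (C.linkUn i c).ls := by
  simp only [gr_Ctx.linkUn, List.mem_cons, List.not_mem_nil, or_false,
    gs_Letter.G.injEq, reduceCtorEq, and_false, false_and, not_false_eq_true]

theorem grs_triv_free {Y' : Type} (l : gs_Letter Y') : l ∉ (gs_Eqn.triv Y').ls := by
  simp [gs_Eqn.triv]

/-- the old variables in the links -/
theorem grs_link_mem (C : gr_Ctx Y) (i s : ℕ) (inv : Bool) (y : Y) (o : ℕ)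
    (hm : gs_Letter.G inv (Sum.inl y) o ∈ (C.link i s).ls) :
    ∃ o', C.E.ls[i]? = some (gs_Letter.G inv y o') := by
  unfold gr_Ctx.link at hm
  rcases hl : C.E.ls[i]? with _ | l
  · rw [hl] at hm
    exact absurd hm (grs_triv_free _)
  · rw [hl] at hm
    match s, l, hm with
    | 0, .G inv' y' o', hm =>
      obtain ⟨rfl, rfl, -⟩ := grs_linkG_mem C i inv' y' o' inv y o hm
      exact ⟨o', rfl⟩
    | 0, .S o' A B, hm => exact absurd hm (grs_linkA_free C _ _ _ _ _ _ _)
    | 0, .L lam, hm => exact absurd hm (grs_triv_free _)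
    | 1, .G inv' y' o', hm => exact absurd hm (grs_triv_free _)
    | 1, .S o' A B, hm => exact absurd hm (grs_linkB_free C _ _ _ _ _ _ _)
    | 1, .L lam, hm => exact absurd hm (grs_triv_free _)
    | c + 2, l, hm =>
      simp only at hm
      split_ifs at hm
      · exact absurd hm (grs_linkUn_free C _ _ _ _ _)
      · exact absurd hm (grs_triv_free _)

/-- the link of a `G` letter -/
theorem grs_link_loc (h : grs_Hyp N R S n e0 k col) {i o : ℕ} {inv : Bool} {y : Y}
    (hl : (S.eq e0).ls[i]? = some (gs_Letter.G inv y o)) :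
    ((gr_reduce N S e0 k col).eq (gr_lk N S.eqs.length i 0)).ls[0]? =
        some (gs_Letter.G inv (Sum.inl y) 0) ∧
      ∀ i' o' : ℕ, ((gr_reduce N S e0 k col).eq (gr_lk N S.eqs.length i 0)).ls[i']? ≠
        some (gs_Letter.G (!inv) (Sum.inl y) o') := by
  have e : (gr_ctx S e0 k col).link i 0 = (gr_ctx S e0 k col).linkG i inv y o := by
    have hl' : (gr_ctx S e0 k col).E.ls[i]? = some (gs_Letter.G inv y o) := hl
    unfold gr_Ctx.link
    rw [hl']
  rw [grs_eq_link N S e0 k col (grs_lt_of_some hl) (by omega), e]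
  refine ⟨rfl, fun i' o' hc => ?_⟩
  have := (grs_linkG_mem _ i inv y o (!inv) y o' (List.mem_of_getElem? hc)).1
  cases inv <;> simp at this

/-- old variables occur in the reduced system exactly as in the old one -/
theorem grs_mem_occ (h : grs_Hyp N R S n e0 k col) (inv : Bool) (y : Y) :
    Sum.inl y ∈ (gr_reduce N S e0 k col).occ inv ↔ y ∈ S.occ inv := by
  rw [gw_mem_occ, gw_mem_occ]
  constructor
  · rintro ⟨e, i, o, hl⟩
    have hm := List.mem_of_getElem? hl
    rcases grs_mem_eqs h (gw_eq_mem (gw_lt_of_at hl).1) with ⟨e', _, he', e1⟩ | e1 | e1 | ⟨i', s, e1⟩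
    · rw [e1] at hm
      obtain ⟨l, hl1, hl2⟩ := List.mem_map.1 hm
      obtain ⟨j, hj, rfl⟩ := List.getElem_of_mem hl1
      refine ⟨e', j, o, ?_⟩
      rw [List.getElem?_eq_getElem hj]
      generalize (S.eq e').ls[j] = l at hl2
      cases l with
      | G inv' y' o' =>
        simp only [gs_Letter.map, gs_Letter.G.injEq, Sum.inl.injEq] at hl2
        obtain ⟨rfl, rfl, rfl⟩ := hl2
        rfl
      | S o a b => simp [gs_Letter.map] at hl2
      | L lam => simp [gs_Letter.map] at hl2
    · rw [e1] at hm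
      exact absurd hm (grs_eU_free _ _ _ _)
    · rw [e1] at hm
      exact absurd hm (grs_eQ_free _ _ _ _)
    · rw [e1] at hm
      obtain ⟨o', ho'⟩ := grs_link_mem _ _ _ _ _ _ hm
      exact ⟨e0, i', o', ho'⟩
  · rintro ⟨e, i, o, hl⟩
    by_cases he : e = e0
    · subst he
      exact ⟨_, 0, 0, (grs_link_loc h hl).1⟩
    · refine ⟨e, i, o, ?_⟩
      rw [grs_eq_old N S e0 k col (gw_lt_of_at hl).1 he]
      show ((S.eq e).ls.map (gs_Letter.map Sum.inl))[i]? = _
      rw [List.getElem?_map, hl]
      rfl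

/-- PLAN: both `occ false` are `Nodup`, so `vn` = number of elements of rank `n`;
`grs_mem_occ`, `grs_nsig_lt`. -/
theorem grs_reduce_vn (h : grs_Hyp N R S n e0 k col)
    (hW : (gr_reduce N S e0 k col).WF N R) : (gr_reduce N S e0 k col).vn n = S.vn n := by
  classical
  unfold gs_Sys.vn
  rw [← List.sum_toFinset _ hW.nodup, ← List.sum_toFinset _ h.good.wf.nodup]
  have hsub : (S.occ false).toFinset.image (Sum.inl : Y → Y ⊕ gr_Var)
      ⊆ ((gr_reduce N S e0 k col).occ false).toFinset := by
    intro z hz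
    obtain ⟨y, hy, rfl⟩ := Finset.mem_image.1 hz
    rw [List.mem_toFinset] at hy ⊢
    exact (grs_mem_occ h false y).2 hy
  rw [← Finset.sum_subset hsub, Finset.sum_image (fun a _ b _ hab => Sum.inl_injective hab)]
  · rfl
  · intro z hz hz'
    rcases z with y | w
    · exfalso
      apply hz'
      rw [List.mem_toFinset] at hz
      exact Finset.mem_image.2 ⟨y, List.mem_toFinset.2 ((grs_mem_occ h false y).1 hz), rfl⟩
    · rw [if_neg]
      have := grs_nsig_lt h w
      show ((gr_ctx S e0 k col).nsig w).rk ≠ n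
      omega

/-- PLAN: `en` of `map`/`set`/`append`; `eU`, `eQ` have ranks `k`, `n - k`; `grs_link_rk`. -/
theorem grs_reduce_en (h : grs_Hyp N R S n e0 k col)
    (hno : ∀ inv y o, gs_Letter.G inv y o ∈ (S.eq e0).ls → (S.sig y).rk ≠ n) :
    (gr_reduce N S e0 k col).en n < S.en n := by
  have hk := h.k_lt
  have hk0 := h.hyp.pos
  unfold gs_Sys.en
  rw [grs_reduce_eqs, List.map_append, List.sum_append, List.map_cons, List.sum_cons]
  have he0 : e0 < (S.eqs.map (gs_Eqn.map (Sum.inl : Y → Y ⊕ gr_Var))).length := by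
    simpa using h.hyp.lt
  have h1 := gw_sum_set (fun E : gs_Eqn (Y ⊕ gr_Var) => if E.rk = n then 1 else 0)
    (S.eqs.map (gs_Eqn.map Sum.inl)) he0 (gr_ctx S e0 k col).eU
  have h2 : ((S.eqs.map (gs_Eqn.map (Sum.inl : Y → Y ⊕ gr_Var)))[e0]).rk = n := by
    rw [List.getElem_map, ← gw_eq_of_lt h.hyp.lt]
    exact h.rk
  have h3 : (gr_ctx S e0 k col).eU.rk ≠ n := by
    show k ≠ n
    omega
  have h4 : (gr_ctx S e0 k col).eQ.rk ≠ n := by
    show (S.eq e0).rk - k ≠ n
    rw [h.rk]
    omega
  have h5 : (((List.range ((gr_ctx S e0 k col).len * (N + 2))).map fun t =>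
      (gr_ctx S e0 k col).link (t / (N + 2)) (t % (N + 2))).map
        fun E : gs_Eqn (Y ⊕ gr_Var) => if E.rk = n then 1 else 0).sum = 0 := by
    refine List.sum_eq_zero fun x hx => ?_
    obtain ⟨E, hE, rfl⟩ := List.mem_map.1 hx
    obtain ⟨t, _, rfl⟩ := List.mem_map.1 hE
    rw [if_neg]
    rcases grs_link_rk h (t / (N + 2)) (t % (N + 2)) with h6 | ⟨inv, y, o, hl, hr, _, _⟩
    · omega
    · exact absurd hr (hno inv y o (List.mem_of_getElem? hl))
  have h6 : ((S.eqs.map (gs_Eqn.map (Sum.inl : Y → Y ⊕ gr_Var))).map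
      fun E : gs_Eqn (Y ⊕ gr_Var) => if E.rk = n then 1 else 0).sum
      = (S.eqs.map fun E : gs_Eqn Y => if E.rk = n then 1 else 0).sum := by
    rw [List.map_map]
    rfl
  simp only [h2, if_true, if_neg h3] at h1
  rw [h5, if_neg h4, ← h6]
  omega

/-- frames are invariant under renaming -/
theorem grs_frame_map {Y' : Type} (f : Y → Y') (sig : Y → gs_Sig) (sig' : Y' → gs_Sig)
    (hf : ∀ y, sig' (f y) = sig y) (K : Finset ℕ) (ls : List (gs_Letter Y)) (i : ℕ) :
    gs_frame sig' K (ls.map (gs_Letter.map f)) i = gs_frame sig K ls i := by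
  have hstep : ∀ (K : Finset ℕ) (l : gs_Letter Y), gs_step sig' K (l.map f) = gs_step sig K l := by
    intro K l
    cases l with
    | G inv y o => simp [gs_step, gs_Letter.map, hf]
    | S o a b => rfl
    | L lam => rfl
  unfold gs_frame
  rw [← List.map_take]
  generalize ls.take i = l
  induction l generalizing K with
  | nil => rfl
  | cons a l ih => rw [List.map_cons, List.foldl_cons, List.foldl_cons, hstep, ih]

/-- PLAN: `grs_mem_eqs`; old equations: `grs_frame_map`; `eU`, `eQ`: rank `< n`; links of rank `n`: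
`grs_link_rk`, the base frame of `linkG` is `{0, a, n}` = the frame `K i` of `E`, which is proper. -/
theorem grs_reduce_noImp (h : grs_Hyp N R S n e0 k col) (hn : S.NoImp n) :
    (gr_reduce N S e0 k col).NoImp n := by
  have hk := h.k_lt
  have hk0 := h.hyp.pos
  intro E hE hr hImp
  rcases grs_mem_eqs h hE with ⟨e, _, he, rfl⟩ | rfl | rfl | ⟨i, s, rfl⟩
  · refine hn (S.eq e) (gw_eq_mem he) hr fun i hi => ?_
    have h1 : ¬ gs_Proper (S.eq e).rk (gs_frame (gr_reduce N S e0 k col).sig (S.eq e).K0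
        ((S.eq e).ls.map (gs_Letter.map Sum.inl)) i) := hImp i (by simpa [gs_Eqn.map] using hi)
    have e1 : gs_frame (gr_reduce N S e0 k col).sig (S.eq e).K0
        ((S.eq e).ls.map (gs_Letter.map Sum.inl)) i = gs_frame S.sig (S.eq e).K0 (S.eq e).ls i :=
      grs_frame_map Sum.inl S.sig _ (fun _ => rfl) _ _ _
    rw [e1] at h1
    exact h1
  · have : k = n := hr
    omega
  · have : (S.eq e0).rk - k = n := hr
    rw [h.rk] at this
    omega
  · rcases grs_link_rk h i s with h1 | ⟨inv, y, o, hl, hry, _, e⟩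
    · omega
    · rw [e] at hImp
      refine hImp 0 (Nat.zero_le _) ?_
      rw [gw_frame_zero]
      have happ : gs_midOK (S.frame e0 i) o (S.sig y).rk ((S.sig y).src inv) := h.app' hl
      have hle := (h.fr i).2.2 _ happ.2.2.1
      obtain ⟨d, hd, hd0, hdn⟩ := h.proper (grs_lt_of_some hl).le
      have hd' := happ.2.2.2.2 d hd (by omega) (by omega)
      refine ⟨(S.sig y).src inv, ?_, ?_, ?_⟩
      · show (S.sig y).src inv ∈ ({0, (S.sig y).src inv, (S.sig y).rk} : Finset ℕ)
        simp
      · omega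
      · show (S.sig y).src inv < (S.sig y).rk
        omega

/-! ## the export: `StReduceMu` (GSteps.lean) -/

theorem grs_reduceMu (hW : StReduceWF N R) : StReduceMu N R := by
  intro Y S n e0 k hS hyp he hp col hc
  have hH : grs_Hyp N R S n e0 k col := ⟨hS, hyp, he, hp, hc⟩
  have hw := hW Y S e0 k hyp col hc
  refine ⟨grs_reduce_rkLe hH, grs_reduce_vn hH hw, grs_reduce_noImp hH, fun hj => ?_,
    fun l hl hlj => ?_⟩
  · refine grs_reduce_en hH fun inv y o hm => ?_
    exact hj _ hm
  · match l, hl, hlj with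
    | .G inv y o, hl, hlj =>
      have hy : (S.sig y).rk = n := by
        by_contra h
        exact hlj h
      obtain ⟨i, hi, hli⟩ := List.mem_iff_getElem.1 hl
      have hl' : (S.eq e0).ls[i]? = some (gs_Letter.G inv y o) := by
        rw [List.getElem?_eq_getElem hi, hli]
      obtain ⟨h1, h2⟩ := grs_link_loc hH hl'
      -- the partner
      have hocc : Sum.inl y ∈ (gr_reduce N S e0 k col).occ inv := by
        rw [grs_mem_occ hH]
        exact gw_mem_occ.2 ⟨e0, i, o, hl'⟩
      have hocc' : Sum.inl y ∈ (gr_reduce N S e0 k col).occ (!inv) := by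
        cases inv
        · exact (hw.perm.mem_iff).1 hocc
        · exact (hw.perm.mem_iff).2 hocc
      obtain ⟨e2, i2, o2, h3⟩ := gw_mem_occ.1 hocc'
      refine ⟨Sum.inl y, inv, gr_lk N S.eqs.length i 0, 0, e2, i2, 0, o2, hy, ?_, h1, h3⟩
      rintro rfl
      exact h2 i2 o2 h3
    | .S o a b, _, hlj => exact absurd trivial hlj
    | .L lam, _, hlj => exact absurd trivial hlj

end Claimed.Agent.R236
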