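import Mathlib
import Claimed.Agent.R236.GMerge
import Claimed.Agent.R236.GPattern
import Claimed.Agent.R236.GMatUni

/-!
# Row 236, Model G2: SLIDE, part A: generic tools (owner helper180, prefix `gsl_`)

* renaming of the variables: `gsl_step_map`, `gsl_app_map`, `gsl_end_map`, `gsl_frame_map`, `gsl_all_map`,
  `gsl_typed_map`, `gsl_uni_map`, `gsl_wf_map`, `gsl_allImp_map`, `gsl_mem_map_G`, `gsl_mem_map_L`;
* `gsl_EqOK sig E x e` : the conditions of `gs_Sol` for one equation (`gsl_mem_sol_iff`, `gsl_eqOK_map`,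
  `gsl_eqOK_triv`);
* the last unipotent of a word multiplied by a matrix: `gsl_val_last`, `gsl_uni_last`;
* MERGE with the exact measure: `gsl_merge_exact`.


## Part B: the operation CUT, syntactic part (owner helper180, prefix `gsl_`)

`(S.eq e0).ls = A ++ (M ++ B)`, the segment `M` leads from the frame `{0, s, n}` to the frame `{0, t, n}`
(`n` = rank of the equation).  A new variable `w = none` of signature `σ = (n, s, t)` is introduced:

  new `e0` :  `A · w · B = 1`,        new last equation :  `M · w⁻¹ = 1`  (base frame `{0, s, n}`).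

This file: the new system is well formed, `RkLe`, `NoImp`, the measure.
-/

set_option autoImplicit false

namespace Claimed.Agent.R236


open Matrix

/-! ## renaming -/

section map
variable {Y Y' : Type} (f : Y → Y') {sig : Y → gs_Sig} {sig' : Y' → gs_Sig}

theorem gsl_step_map (hf : ∀ y, sig' (f y) = sig y) (K : Finset ℕ) (l : gs_Letter Y) :
    gs_step sig' K (l.map f) = gs_step sig K l := by
  cases l with
  | G inv y o =>
    change gs_cutRepl K o (sig' (f y)).rk ((sig' (f y)).tgt inv) = _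
    rw [hf]
    rfl
  | S o a b => rfl
  | L lam => rfl

theorem gsl_app_map (hf : ∀ y, sig' (f y) = sig y) (n : ℕ) (K : Finset ℕ) (l : gs_Letter Y) :
    gs_app sig' n K (l.map f) ↔ gs_app sig n K l := by
  cases l with
  | G inv y o =>
    change gs_midOK K o (sig' (f y)).rk ((sig' (f y)).src inv) ↔ _
    rw [hf]
    exact Iff.rfl
  | S o a b => exact Iff.rfl
  | L lam => exact Iff.rfl

theorem gsl_end_map (hf : ∀ y, sig' (f y) = sig y) (K : Finset ℕ) (ls : List (gs_Letter Y)) :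
    gw_end sig' K (ls.map (gs_Letter.map f)) = gw_end sig K ls := by
  induction ls generalizing K with
  | nil => rfl
  | cons l ls ih => rw [List.map_cons, gw_end_cons, gw_end_cons, gsl_step_map f hf, ih]

theorem gsl_frame_map (hf : ∀ y, sig' (f y) = sig y) (K : Finset ℕ) (ls : List (gs_Letter Y)) (i : ℕ) :
    gs_frame sig' K (ls.map (gs_Letter.map f)) i = gs_frame sig K ls i := by
  rw [gw_frame_eq, gw_frame_eq, ← List.map_take, gsl_end_map f hf]

theorem gsl_all_map (hf : ∀ y, sig' (f y) = sig y) {P : ℕ → Finset ℕ → gs_Letter Y → Prop}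
    {P' : ℕ → Finset ℕ → gs_Letter Y' → Prop} (i i' : ℕ) (K : Finset ℕ) (ls : List (gs_Letter Y))
    (hP : ∀ r, r < ls.length → ∀ K, ∀ l ∈ ls, (P' (i' + r) K (l.map f) ↔ P (i + r) K l)) :
    gw_All sig' P' i' K (ls.map (gs_Letter.map f)) ↔ gw_All sig P i K ls := by
  induction ls generalizing i i' K with
  | nil => simp
  | cons l ls ih =>
    rw [List.map_cons, gw_all_cons, gw_all_cons, gsl_step_map f hf,
      ih (i + 1) (i' + 1) _ (fun r hr K l' hl' => by
        have := hP (r + 1) (by simpa using hr) K l' (List.mem_cons_of_mem _ hl')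
        have e : i + (r + 1) = i + 1 + r := by omega
        have e' : i' + (r + 1) = i' + 1 + r := by omega
        rwa [e, e'] at this)]
    have := hP 0 (by simp) K l (List.mem_cons_self ..)
    simp only [add_zero] at this
    rw [this]

theorem gsl_typed_map (hf : ∀ y, sig' (f y) = sig y) (n : ℕ) (K K' : Finset ℕ)
    (ls : List (gs_Letter Y)) :
    gw_Typed sig' n K (ls.map (gs_Letter.map f)) K' ↔ gw_Typed sig n K ls K' := by
  rw [gw_Typed, gw_Typed, gsl_end_map f hf,
    gsl_all_map f hf (P := fun _ K l => gs_app sig n K l) 0 0 K ls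
      (fun _ _ K l _ => gsl_app_map f hf n K l)]

theorem gsl_uni_map {N : ℕ} (hf : ∀ y, sig' (f y) = sig y) (n : ℕ) {x : gs_Pt Y N} {x' : gs_Pt Y' N}
    (e e' i i' : ℕ) (K : Finset ℕ) (ls : List (gs_Letter Y))
    (hu : ∀ r, r < ls.length → x' (.inr (e', i' + r)) = x (.inr (e, i + r))) :
    gw_Uni sig' n x' e' i' K (ls.map (gs_Letter.map f)) ↔ gw_Uni sig n x e i K ls := by
  rw [gw_Uni, gw_Uni]
  refine gsl_all_map f hf i i' K ls fun r hr K l _ => ?_
  rw [gsl_step_map f hf, hu r hr]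

theorem gsl_mem_map_L {lam : ℕ → ℂ} {ls : List (gs_Letter Y)} :
    gs_Letter.L lam ∈ ls.map (gs_Letter.map f) ↔ gs_Letter.L lam ∈ ls := by
  rw [List.mem_map]
  constructor
  · rintro ⟨l, hl, h⟩
    cases l with
    | G inv y o => cases h
    | S o a b => cases h
    | L lam' =>
      cases h
      exact hl
  · intro h
    exact ⟨_, h, rfl⟩

theorem gsl_mem_map_G {inv : Bool} {y' : Y'} {o : ℕ} {ls : List (gs_Letter Y)} :
    gs_Letter.G inv y' o ∈ ls.map (gs_Letter.map f) ↔ ∃ y, f y = y' ∧ gs_Letter.G inv y o ∈ ls := by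
  rw [List.mem_map]
  constructor
  · rintro ⟨l, hl, h⟩
    cases l with
    | G inv1 y o1 =>
      cases h
      exact ⟨y, rfl, hl⟩
    | S o a b => cases h
    | L lam' => cases h
  · rintro ⟨y, rfl, h⟩
    exact ⟨_, h, rfl⟩

theorem gsl_wf_map (hf : ∀ y, sig' (f y) = sig y) (N : ℕ) (R : Subring ℂ) (E : gs_Eqn Y) :
    (E.map f).WF sig' N R ↔ E.WF sig N R := by
  rw [gw_wf_iff, gw_wf_iff]
  change _ ∧ _ ∧ gw_Typed sig' E.rk E.K0 (E.ls.map (gs_Letter.map f)) E.K0 ∧
    (∀ lam, gs_Letter.L lam ∈ E.ls.map (gs_Letter.map f) → _) ↔ _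
  rw [gsl_typed_map f hf]
  simp only [gsl_mem_map_L]
  exact Iff.rfl

theorem gsl_allImp_map (hf : ∀ y, sig' (f y) = sig y) (E : gs_Eqn Y) :
    (E.map f).AllImp sig' ↔ E.AllImp sig := by
  unfold gs_Eqn.AllImp
  change (∀ i, i ≤ (E.ls.map (gs_Letter.map f)).length →
    ¬ gs_Proper E.rk (gs_frame sig' E.K0 (E.ls.map (gs_Letter.map f)) i)) ↔ _
  simp only [List.length_map, gsl_frame_map f hf]

end map

/-! ## the conditions for one equation -/

section eqok
variable {Y Y' : Type} {N : ℕ}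

/-- the conditions of `gs_Sol` for the `e`-th equation `E` -/
def gsl_EqOK (sig : Y → gs_Sig) (E : gs_Eqn Y) (x : gs_Pt Y N) (e : ℕ) : Prop :=
  gw_Uni sig E.rk x e 0 E.K0 E.ls ∧ (∀ i, E.ls.length ≤ i → x (.inr (e, i)) = 1) ∧
    gs_val x e 0 E.ls = 1

theorem gsl_mem_sol_iff (S : gs_Sys Y) (x : gs_Pt Y N) :
    x ∈ gs_Sol N S ↔ gw_VarOK S.sig x ∧ ∀ e, gsl_EqOK S.sig (S.eq e) x e :=
  gw_mem_sol_iff S x

theorem gsl_eqOK_triv (sig : Y → gs_Sig) (x : gs_Pt Y N) (e : ℕ) :
    gsl_EqOK sig (gs_Eqn.triv Y) x e ↔ ∀ i, x (.inr (e, i)) = 1 := by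
  constructor
  · intro h i
    exact h.2.1 i (Nat.zero_le _)
  · intro h
    exact ⟨trivial, fun i _ => h i, rfl⟩

theorem gsl_eqOK_map (f : Y → Y') {sig : Y → gs_Sig} {sig' : Y' → gs_Sig}
    (hf : ∀ y, sig' (f y) = sig y) (E : gs_Eqn Y) {x : gs_Pt Y N} {x' : gs_Pt Y' N} (e e' : ℕ)
    (hv : ∀ y, x' (.inl (f y)) = x (.inl y)) (hu : ∀ i, x' (.inr (e', i)) = x (.inr (e, i))) :
    gsl_EqOK sig' (E.map f) x' e' ↔ gsl_EqOK sig E x e := by
  unfold gsl_EqOK
  change gw_Uni sig' E.rk x' e' 0 E.K0 (E.ls.map (gs_Letter.map f)) ∧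
    (∀ i, (E.ls.map (gs_Letter.map f)).length ≤ i → x' (.inr (e', i)) = 1) ∧
    gs_val x' e' 0 (E.ls.map (gs_Letter.map f)) = 1 ↔ _
  rw [gsl_uni_map f hf E.rk (x := x) e e' 0 0 E.K0 E.ls (fun r _ => hu _),
    gw_val_map (x := x) (gs_Letter.map f) e e' 0 0 E.ls
      (fun l _ => gw_lmat_map f x x' l fun _ z _ _ => hv z) (fun r _ => hu _)]
  simp only [List.length_map, hu]

end eqok

/-! ## the last unipotent of a word -/

section last
variable {Y Y' : Type} {N : ℕ}

theorem gsl_exists_concat {α : Type*} {ls : List α} (h : ls ≠ []) : ∃ l0 l, ls = l0 ++ [l] :=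
  ⟨_, _, (List.dropLast_append_getLast h).symm⟩

/-- the value of a word whose last unipotent is multiplied by `c` -/
theorem gsl_val_last (f : Y → Y') {x : gs_Pt Y N} {x' : gs_Pt Y' N} (e e' i i' : ℕ)
    (ls : List (gs_Letter Y)) (hne : ls ≠ []) (c : gs_Mat N)
    (hv : ∀ y, x' (.inl (f y)) = x (.inl y))
    (hu : ∀ r, r + 1 < ls.length → x' (.inr (e', i' + r)) = x (.inr (e, i + r)))
    (hlast : x (.inr (e, i + (ls.length - 1))) = x' (.inr (e', i' + (ls.length - 1))) * c) :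
    gs_val x e i ls = gs_val x' e' i' (ls.map (gs_Letter.map f)) * c := by
  obtain ⟨l0, l, rfl⟩ := gsl_exists_concat hne
  simp only [List.length_append, List.length_cons, List.length_nil, zero_add,
    Nat.add_sub_cancel] at hu hlast
  rw [List.map_append, gw_val_append, gw_val_append, List.map_cons, List.map_nil, gw_val_cons,
    gw_val_cons, gw_val_nil, gw_val_nil, List.length_map, hlast,
    gw_val_map (x := x) (gs_Letter.map f) e e' i i' l0
      (fun l _ => gw_lmat_map f x x' l fun _ z _ _ => hv z) (fun r hr => hu r (by omega)),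
    gw_lmat_map f x x' l fun _ z _ _ => hv z]
  simp only [mul_one, mul_assoc]

/-- the unipotents of a word whose last unipotent is multiplied by `c` -/
theorem gsl_uni_last (f : Y → Y') {sig : Y → gs_Sig} {sig' : Y' → gs_Sig}
    (hf : ∀ y, sig' (f y) = sig y) (n : ℕ) {x : gs_Pt Y N} {x' : gs_Pt Y' N} (e e' i i' : ℕ)
    (K : Finset ℕ) (ls : List (gs_Letter Y)) (hne : ls ≠ []) (c : gs_Mat N)
    (hu : ∀ r, r + 1 < ls.length → x' (.inr (e', i' + r)) = x (.inr (e, i + r)))
    (hlast : x (.inr (e, i + (ls.length - 1))) = x' (.inr (e', i' + (ls.length - 1))) * c)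
    (hc : gs_IsUni n (gw_end sig K ls) c)
    (h : gw_Uni sig' n x' e' i' K (ls.map (gs_Letter.map f))) : gw_Uni sig n x e i K ls := by
  obtain ⟨l0, l, rfl⟩ := gsl_exists_concat hne
  simp only [List.length_append, List.length_cons, List.length_nil, zero_add,
    Nat.add_sub_cancel] at hu hlast
  rw [List.map_append, gw_Uni, gw_all_append] at h
  rw [gw_Uni, gw_all_append]
  obtain ⟨h1, h2⟩ := h
  refine ⟨(gsl_uni_map f hf n (x := x) e e' i i' K l0 (fun r hr => hu r (by omega))).1 h1, ?_⟩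
  rw [List.map_cons, List.map_nil, gw_all_cons, List.length_map, gsl_end_map f hf,
    gsl_step_map f hf] at h2
  rw [gw_all_cons, hlast]
  rw [gw_end_append, gw_end_cons, gw_end_nil] at hc
  exact ⟨gm_uni_mul h2.1 hc, trivial⟩

end last

/-! ## MERGE with the exact measure -/

section merge
variable {Y : Type} {N : ℕ} {R : Subring ℂ}

/-- the number of equations of rank `n` drops by one -/
theorem gsl_merge_en {S : gs_Sys Y} {y : Y} {e1 e2 : ℕ} {A1 B1 A2 B2 : List (gs_Letter Y)}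
    (H : gmg_Hyp N R S y e1 e2 A1 B1 A2 B2) {n : ℕ} (hn : 0 < n) :
    S.en n = (if (S.sig y).rk = n then 1 else 0) + (gmg_merge S y e1 e2 A1 B1 A2 B2).en n := by
  unfold gs_Sys.en
  set f : gs_Eqn Y → ℕ := fun E => if E.rk = n then 1 else 0 with hf
  have h1 := H.lt1
  have h2 := H.lt2
  have a1 := gw_sum_set f S.eqs h1 (gmg_eqn S e1 A1 B1 A2 B2)
  have a2 := gw_sum_set f (S.eqs.set e1 (gmg_eqn S e1 A1 B1 A2 B2)) (e := e2) (by simpa using h2)
    (gs_Eqn.triv Y)
  rw [List.getElem_set_of_ne H.ne] at a2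
  rw [← gw_eq_of_lt h1] at a1
  rw [← gw_eq_of_lt h2] at a2
  have f0 : f (gs_Eqn.triv Y) = 0 := by
    have : (gs_Eqn.triv Y).rk = 0 := rfl
    simp only [hf, this]
    rw [if_neg (by omega)]
  have fM : f (gmg_eqn S e1 A1 B1 A2 B2) = f (S.eq e1) := rfl
  have f2 : f (S.eq e2) = if (S.sig y).rk = n then 1 else 0 := by simp only [hf, H.rk2]
  have : (gmg_merge S y e1 e2 A1 B1 A2 B2).eqs =
      (S.eqs.set e1 (gmg_eqn S e1 A1 B1 A2 B2)).set e2 (gs_Eqn.triv Y) := rfl
  rw [this]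
  omega

theorem gsl_merge_aux {S : gs_Sys Y} {n : ℕ} (hn : 0 < n) (hG : S.Good N R n) {y : Y}
    {e1 i1 e2 i2 o1 o2 : ℕ} (hr : (S.sig y).rk = n) (hne : e1 ≠ e2)
    (h1 : S.At e1 i1 (.G false y o1)) (h2 : S.At e2 i2 (.G true y o2)) :
    ∃ S' : gs_Sys Y, S'.Good N R n ∧ S.vn n = 1 + S'.vn n ∧ S.en n = 1 + S'.en n ∧
      S.inn n = (S.sig y).imp + S'.inn n ∧ (S.NoImp n → S'.NoImp n) ∧
      (gs_Dense N R S' → gs_Dense N R S) := by
  have r1 : (S.eq e1).rk ≤ (S.sig y).rk := hr ▸ hG.rkLe _ (gw_eq_mem (gw_lt_of_at h1).1)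
  have r2 : (S.eq e2).rk ≤ (S.sig y).rk := hr ▸ hG.rkLe _ (gw_eq_mem (gw_lt_of_at h2).1)
  obtain ⟨rfl, k1⟩ := hG.wf.offset_zero h1 r1
  obtain ⟨rfl, k2⟩ := hG.wf.offset_zero h2 r2
  have H : gmg_Hyp N R S y e1 e2 ((S.eq e1).ls.take i1) ((S.eq e1).ls.drop (i1 + 1))
      ((S.eq e2).ls.take i2) ((S.eq e2).ls.drop (i2 + 1)) :=
    ⟨hG.wf, hne, gw_split_of_at h1, gw_split_of_at h2, k1, k2⟩
  refine ⟨_, ⟨H.wf', H.rkLe' hG.rkLe⟩, ?_, ?_, ?_, H.noImp' hn, H.dense⟩
  · rw [H.vn' n, if_pos hr]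
  · rw [gsl_merge_en H hn, if_pos hr]
  · rw [H.inn' n, if_pos hr]

/-- **MERGE** with the exact measure -/
theorem gsl_merge_exact {S : gs_Sys Y} {n : ℕ} (hn : 0 < n) (hG : S.Good N R n) {y : Y} {inv : Bool}
    {e1 i1 e2 i2 o1 o2 : ℕ} (hr : (S.sig y).rk = n) (hne : e1 ≠ e2)
    (h1 : S.At e1 i1 (.G inv y o1)) (h2 : S.At e2 i2 (.G (!inv) y o2)) :
    ∃ S' : gs_Sys Y, S'.Good N R n ∧ S.vn n = 1 + S'.vn n ∧ S.en n = 1 + S'.en n ∧
      S.inn n = (S.sig y).imp + S'.inn n ∧ (S.NoImp n → S'.NoImp n) ∧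
      (gs_Dense N R S' → gs_Dense N R S) := by
  cases inv
  · exact gsl_merge_aux hn hG hr hne h1 h2
  · exact gsl_merge_aux hn hG hr hne.symm h2 h1

end merge

/-! # Part B: the operation CUT, syntactic part -/


section defs
variable {Y : Type}

/-- the signature on `Option Y` -/
def gsl_sig (sig : Y → gs_Sig) (σ : gs_Sig) : Option Y → gs_Sig
  | none => σ
  | some y => sig y

/-- renaming `Y → Option Y` of a word -/
abbrev gsl_up (ls : List (gs_Letter Y)) : List (gs_Letter (Option Y)) := ls.map (gs_Letter.map some)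

/-- the shortened equation -/
def gsl_E0 (S : gs_Sys Y) (e0 : ℕ) (A B : List (gs_Letter Y)) : gs_Eqn (Option Y) :=
  ⟨(S.eq e0).rk, (S.eq e0).K0, gsl_up A ++ .G false none 0 :: gsl_up B⟩

/-- the new equation -/
def gsl_E1 (σ : gs_Sig) (M : List (gs_Letter Y)) : gs_Eqn (Option Y) :=
  ⟨σ.rk, {0, σ.s, σ.rk}, gsl_up M ++ [.G true none 0]⟩

/-- **CUT** -/
def gsl_cut (S : gs_Sys Y) (σ : gs_Sig) (e0 : ℕ) (A M B : List (gs_Letter Y)) : gs_Sys (Option Y) :=
  ⟨gsl_sig S.sig σ, (S.eqs.map (gs_Eqn.map some)).set e0 (gsl_E0 S e0 A B) ++ [gsl_E1 σ M]⟩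

/-- the hypotheses of CUT -/
structure gsl_Hyp (N : ℕ) (R : Subring ℂ) (S : gs_Sys Y) (σ : gs_Sig) (e0 : ℕ)
    (A M B : List (gs_Letter Y)) : Prop where
  wf : S.WF N R
  lt : e0 < S.eqs.length
  ls_eq : (S.eq e0).ls = A ++ (M ++ B)
  rk : (S.eq e0).rk = σ.rk
  s_le : σ.s ≤ σ.rk
  t_le : σ.t ≤ σ.rk
  endA : gw_end S.sig (S.eq e0).K0 A = {0, σ.s, σ.rk}
  endM : gw_end S.sig {0, σ.s, σ.rk} M = {0, σ.t, σ.rk}
  neA : A ≠ []
  neM : M ≠ []

theorem gsl_sig_some (sig : Y → gs_Sig) (σ : gs_Sig) (y : Y) : gsl_sig sig σ (some y) = sig y := rfl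

theorem gsl_sig_none (sig : Y → gs_Sig) (σ : gs_Sig) : gsl_sig sig σ none = σ := rfl

/-! ### full frames -/

theorem gsl_fr {n s : ℕ} (h : s ≤ n) : gw_Fr n {0, s, n} := by
  refine ⟨by simp, by simp, ?_⟩
  intro d hd
  simp only [Finset.mem_insert, Finset.mem_singleton] at hd
  omega

theorem gsl_full_mid {n s : ℕ} (h : s ≤ n) : gs_midOK {0, s, n} 0 n s := by
  refine ⟨by simp, by simp, by simp, h, ?_⟩
  intro d hd h1 h2
  simp only [Finset.mem_insert, Finset.mem_singleton] at hd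
  omega

theorem gsl_full_cut {n s : ℕ} (h : s ≤ n) (t : ℕ) : gs_cutRepl {0, s, n} 0 n t = {0, t, n} :=
  gw_cutRepl_full (gsl_fr h) t

theorem gsl_proper_full {n s : ℕ} : gs_Proper n {0, s, n} ↔ 0 < s ∧ s < n := by
  constructor
  · rintro ⟨c, hc, h1, h2⟩
    simp only [Finset.mem_insert, Finset.mem_singleton] at hc
    rcases hc with rfl | rfl | rfl
    · omega
    · exact ⟨h1, h2⟩
    · omega
  · rintro ⟨h1, h2⟩
    exact ⟨s, by simp, h1, h2⟩

/-! ### the equations of the new system -/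

variable (S : gs_Sys Y) (σ : gs_Sig) (e0 : ℕ) (A M B : List (gs_Letter Y))

theorem gsl_cut_eqs : (gsl_cut S σ e0 A M B).eqs =
    (S.eqs.map (gs_Eqn.map some)).set e0 (gsl_E0 S e0 A B) ++ [gsl_E1 σ M] := rfl

theorem gsl_cut_length : (gsl_cut S σ e0 A M B).eqs.length = S.eqs.length + 1 := by
  simp [gsl_cut_eqs]

theorem gsl_cut_eq_of_lt {e : ℕ} (h : e < S.eqs.length) : (gsl_cut S σ e0 A M B).eq e =
    if e = e0 then gsl_E0 S e0 A B else (S.eq e).map some := by
  unfold gs_Sys.eq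
  rw [gsl_cut_eqs, List.getD_append _ _ _ _ (by simpa using h)]
  have := gw_eq_set (gsl_sig S.sig σ) (S.eqs.map (gs_Eqn.map some)) e0 e (gsl_E0 S e0 A B)
  unfold gs_Sys.eq at this
  rw [this]
  by_cases he : e = e0
  · subst he
    simp [h]
  · simp only [he, false_and, if_false]
    exact List.getD_map (f := gs_Eqn.map some) S.eqs (gs_Eqn.triv Y) (n := e)

theorem gsl_cut_eq_e0 (h : e0 < S.eqs.length) : (gsl_cut S σ e0 A M B).eq e0 = gsl_E0 S e0 A B := by
  rw [gsl_cut_eq_of_lt S σ e0 A M B h, if_pos rfl]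

theorem gsl_cut_eq_ne {e : ℕ} (h : e < S.eqs.length) (he : e ≠ e0) :
    (gsl_cut S σ e0 A M B).eq e = (S.eq e).map some := by
  rw [gsl_cut_eq_of_lt S σ e0 A M B h, if_neg he]

theorem gsl_cut_eq_last : (gsl_cut S σ e0 A M B).eq S.eqs.length = gsl_E1 σ M := by
  unfold gs_Sys.eq
  rw [gsl_cut_eqs, List.getD_append_right _ _ _ _ (by simp)]
  simp

theorem gsl_cut_eq_gt {e : ℕ} (h : S.eqs.length < e) :
    (gsl_cut S σ e0 A M B).eq e = gs_Eqn.triv (Option Y) :=
  gw_eq_of_le (by rw [gsl_cut_length]; omega)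

theorem gsl_cut_mem {E : gs_Eqn (Option Y)} (hE : E ∈ (gsl_cut S σ e0 A M B).eqs) :
    E = gsl_E0 S e0 A B ∨ E = gsl_E1 σ M ∨ ∃ E' ∈ S.eqs, E = E'.map some := by
  rw [gsl_cut_eqs] at hE
  rcases List.mem_append.1 hE with hE | hE
  · rcases List.mem_or_eq_of_mem_set hE with hE | rfl
    · obtain ⟨E', h1, rfl⟩ := List.mem_map.1 hE
      exact Or.inr (Or.inr ⟨E', h1, rfl⟩)
    · exact Or.inl rfl
  · rw [List.mem_singleton] at hE
    exact Or.inr (Or.inl hE)

/-- sums over the equations of the new system -/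
theorem gsl_cut_sum {V : Type*} [AddCommMonoid V] (g : gs_Eqn (Option Y) → V)
    (h : e0 < S.eqs.length) :
    ((gsl_cut S σ e0 A M B).eqs.map g).sum + g ((S.eq e0).map some) =
      (S.eqs.map fun E => g (E.map some)).sum + g (gsl_E0 S e0 A B) + g (gsl_E1 σ M) := by
  have a := gw_sum_set g (S.eqs.map (gs_Eqn.map some)) (e := e0) (by simpa using h) (gsl_E0 S e0 A B)
  rw [List.getElem_map, ← gw_eq_of_lt h, List.map_map] at a
  rw [gsl_cut_eqs, List.map_append, List.sum_append, List.map_cons, List.map_nil, List.sum_cons,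
    List.sum_nil, add_zero, add_right_comm, a]
  rfl

end defs

section hyp
variable {Y : Type} {N : ℕ} {R : Subring ℂ} {S : gs_Sys Y} {σ : gs_Sig} {e0 : ℕ}
  {A M B : List (gs_Letter Y)}

namespace gsl_Hyp

variable (H : gsl_Hyp N R S σ e0 A M B)
include H

theorem typed : gw_Typed S.sig σ.rk (S.eq e0).K0 A {0, σ.s, σ.rk} ∧
    gw_Typed S.sig σ.rk {0, σ.s, σ.rk} M {0, σ.t, σ.rk} ∧
    gw_Typed S.sig σ.rk {0, σ.t, σ.rk} B (S.eq e0).K0 := by
  have h := (H.wf.eq_wf e0).typed
  rw [H.ls_eq, H.rk, gw_typed_append, gw_typed_append, H.endA, H.endM] at h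
  exact ⟨h.1, h.2.1, h.2.2⟩

theorem lam_mem {lam : ℕ → ℂ} (hl : gs_Letter.L lam ∈ A ∨ gs_Letter.L lam ∈ M ∨ gs_Letter.L lam ∈ B) :
    ∀ j, lam j ≠ 0 ∧ lam j ∈ R ∧ (lam j)⁻¹ ∈ R := by
  apply (H.wf.eq_wf e0).unit lam
  rw [H.ls_eq]
  simp only [List.mem_append]
  tauto

/-- typing of the letter `w` -/
theorem typed_w : gw_Typed (gsl_sig S.sig σ) σ.rk {0, σ.s, σ.rk} [.G false none 0] {0, σ.t, σ.rk} := by
  rw [gw_typed_cons, gw_typed_nil]
  exact ⟨gsl_full_mid H.s_le, gsl_full_cut H.s_le σ.t⟩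

/-- typing of the letter `w⁻¹` -/
theorem typed_w' : gw_Typed (gsl_sig S.sig σ) σ.rk {0, σ.t, σ.rk} [.G true none 0] {0, σ.s, σ.rk} := by
  rw [gw_typed_cons, gw_typed_nil]
  exact ⟨gsl_full_mid H.t_le, gsl_full_cut H.t_le σ.s⟩

omit H in
theorem up_typed {n : ℕ} {K K' : Finset ℕ} {ls : List (gs_Letter Y)} (h : gw_Typed S.sig n K ls K') :
    gw_Typed (gsl_sig S.sig σ) n K (gsl_up ls) K' :=
  (gsl_typed_map some (gsl_sig_some S.sig σ) n K K' ls).2 h

theorem wf_E0 : (gsl_E0 S e0 A B).WF (gsl_sig S.sig σ) N R := by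
  rw [gw_wf_iff]
  have hw := (gw_wf_iff N R _).1 (H.wf.eq_wf e0)
  refine ⟨hw.1, hw.2.1, ?_, ?_⟩
  · change gw_Typed _ (S.eq e0).rk (S.eq e0).K0 (gsl_up A ++ ([.G false none 0] ++ gsl_up B)) (S.eq e0).K0
    rw [H.rk]
    exact (up_typed H.typed.1).append (H.typed_w.append (up_typed H.typed.2.2))
  · intro lam hl
    change gs_Letter.L lam ∈ gsl_up A ++ .G false none 0 :: gsl_up B at hl
    rw [List.mem_append, List.mem_cons, gsl_mem_map_L, gsl_mem_map_L] at hl
    rcases hl with h | h | h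
    · exact H.lam_mem (Or.inl h)
    · cases h
    · exact H.lam_mem (Or.inr (Or.inr h))

theorem wf_E1 : (gsl_E1 σ M).WF (gsl_sig S.sig σ) N R := by
  rw [gw_wf_iff]
  refine ⟨(H.rk ▸ (H.wf.eq_wf e0).rk_le : σ.rk ≤ N), gsl_fr H.s_le, ?_, ?_⟩
  · exact (up_typed H.typed.2.1).append H.typed_w'
  · intro lam hl
    change gs_Letter.L lam ∈ gsl_up M ++ [.G true none 0] at hl
    rw [List.mem_append, List.mem_singleton, gsl_mem_map_L] at hl
    rcases hl with h | h
    · exact H.lam_mem (Or.inr (Or.inl h))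
    · cases h

/-- the occurrences -/
theorem occ_perm (inv : Bool) :
    ((gsl_cut S σ e0 A M B).occ inv).Perm (none :: (S.occ inv).map some) := by
  classical
  rw [List.perm_iff_count]
  intro z
  rw [List.count_cons]
  have a := gsl_cut_sum S σ e0 A M B (fun E => (gs_occL inv E.ls).count z) H.lt
  have a' : ((gsl_cut S σ e0 A M B).occ inv).count z =
      ((gsl_cut S σ e0 A M B).eqs.map fun E => (gs_occL inv E.ls).count z).sum := by
    unfold gs_Sys.occ
    rw [List.count_flatMap]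
    rfl
  rw [a']
  have b : ((S.occ inv).map some).count z =
      (S.eqs.map fun E => (gs_occL inv (E.map some).ls).count z).sum := by
    unfold gs_Sys.occ
    rw [List.map_flatMap, List.count_flatMap]
    congr 1
    apply List.map_congr_left
    intro E _
    change _ = (gs_occL inv (E.ls.map (gs_Letter.map some))).count z
    rw [gw_occL_map]
    rfl
  rw [b]
  have c0 : (gs_occL inv ((S.eq e0).map some).ls).count z =
      (gs_occL inv (gsl_up A)).count z + (gs_occL inv (gsl_up M)).count z +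
        (gs_occL inv (gsl_up B)).count z := by
    change (gs_occL inv ((S.eq e0).ls.map (gs_Letter.map some))).count z = _
    rw [H.ls_eq, List.map_append, List.map_append, gw_occL_append, gw_occL_append, List.count_append,
      List.count_append, add_assoc]
  have c1 : (gs_occL inv (gsl_E0 S e0 A B).ls).count z + (gs_occL inv (gsl_E1 σ M).ls).count z =
      (gs_occL inv (gsl_up A)).count z + (gs_occL inv (gsl_up M)).count z +
        (gs_occL inv (gsl_up B)).count z + if none == z then 1 else 0 := by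
    change (gs_occL inv (gsl_up A ++ .G false none 0 :: gsl_up B)).count z +
      (gs_occL inv (gsl_up M ++ [.G true none 0])).count z = _
    rw [gw_occL_append, gw_occL_append, List.count_append, List.count_append]
    cases inv
    · have e1 : gs_occL false [gs_Letter.G true (none : Option Y) 0] = [] :=
        gw_occL_cons_not false none 0 []
      rw [gw_occL_cons_self, e1, List.count_cons, List.count_nil]
      ring
    · have e1 : gs_occL true (gs_Letter.G false (none : Option Y) 0 :: gsl_up B) =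
          gs_occL true (gsl_up B) := gw_occL_cons_not true none 0 _
      rw [gw_occL_cons_self, e1, List.count_cons, gw_occL_nil, List.count_nil]
      ring
  omega

theorem none_mem_occ (inv : Bool) : none ∈ (gsl_cut S σ e0 A M B).occ inv :=
  (H.occ_perm inv).mem_iff.2 (List.mem_cons_self ..)

theorem some_mem_occ (inv : Bool) (y : Y) :
    some y ∈ (gsl_cut S σ e0 A M B).occ inv ↔ y ∈ S.occ inv := by
  rw [(H.occ_perm inv).mem_iff, List.mem_cons, List.mem_map]
  constructor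
  · rintro (h | ⟨y', h, h'⟩)
    · cases h
    · cases h'
      exact h
  · intro h
    exact Or.inr ⟨y, h, rfl⟩

/-- the new system is well formed -/
theorem wf' : (gsl_cut S σ e0 A M B).WF N R where
  sig_s z := by
    cases z with
    | none => exact H.s_le
    | some y => exact H.wf.sig_s y
  sig_t z := by
    cases z with
    | none => exact H.t_le
    | some y => exact H.wf.sig_t y
  eqn E hE := by
    rcases gsl_cut_mem S σ e0 A M B hE with rfl | rfl | ⟨E', h1, rfl⟩
    · exact H.wf_E0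
    · exact H.wf_E1
    · exact (gsl_wf_map some (gsl_sig_some S.sig σ) N R E').2 (H.wf.eqn E' h1)
  nodup := by
    rw [(H.occ_perm false).nodup_iff, List.nodup_cons]
    refine ⟨?_, H.wf.nodup.map (Option.some_injective Y)⟩
    simp
  perm := (H.occ_perm false).trans (((H.wf.perm.map some).cons none).trans (H.occ_perm true).symm)
  rk0 z hz := by
    cases z with
    | none => exact absurd (H.none_mem_occ false) hz
    | some y => exact H.wf.rk0 y fun h => hz ((H.some_mem_occ false y).2 h)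

theorem rkLe' {n : ℕ} (h : S.RkLe n) : (gsl_cut S σ e0 A M B).RkLe n := by
  intro E hE
  have h0 : (S.eq e0).rk ≤ n := h _ (gw_eq_mem H.lt)
  rcases gsl_cut_mem S σ e0 A M B hE with rfl | rfl | ⟨E', h1, rfl⟩
  · exact h0
  · exact (H.rk ▸ h0 : σ.rk ≤ n)
  · exact h E' h1

theorem noImp' (hp : 0 < σ.s ∧ σ.s < σ.rk) {n : ℕ} (h : S.NoImp n) :
    (gsl_cut S σ e0 A M B).NoImp n := by
  intro E hE hrk hall
  rcases gsl_cut_mem S σ e0 A M B hE with rfl | rfl | ⟨E', h1, rfl⟩
  · have := hall (gsl_up A).length (by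
      change _ ≤ (gsl_up A ++ .G false none 0 :: gsl_up B).length
      simp)
    apply this
    change gs_Proper (S.eq e0).rk (gs_frame (gsl_sig S.sig σ) (S.eq e0).K0
      (gsl_up A ++ .G false none 0 :: gsl_up B) (gsl_up A).length)
    rw [gw_frame_append_left _ _ _ le_rfl, gw_frame_length, gsl_end_map some (gsl_sig_some S.sig σ),
      H.endA, H.rk]
    exact gsl_proper_full.2 hp
  · apply hall 0 (Nat.zero_le _)
    rw [gw_frame_zero]
    exact gsl_proper_full.2 hp
  · exact h E' h1 hrk ((gsl_allImp_map some (gsl_sig_some S.sig σ) E').1 hall)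

/-- sums over the occurrences -/
theorem sum_occ (g : gs_Sig → ℕ) :
    (((gsl_cut S σ e0 A M B).occ false).map fun z => g ((gsl_cut S σ e0 A M B).sig z)).sum =
      g σ + ((S.occ false).map fun z => g (S.sig z)).sum := by
  rw [((H.occ_perm false).map _).sum_eq, List.map_cons, List.sum_cons, List.map_map]
  rfl

theorem vn' (n : ℕ) : (gsl_cut S σ e0 A M B).vn n = (if σ.rk = n then 1 else 0) + S.vn n :=
  H.sum_occ fun τ => if τ.rk = n then 1 else 0

theorem inn' (n : ℕ) : (gsl_cut S σ e0 A M B).inn n = (if σ.rk = n then σ.imp else 0) + S.inn n :=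
  H.sum_occ fun τ => if τ.rk = n then τ.imp else 0

theorem en' (n : ℕ) : (gsl_cut S σ e0 A M B).en n = (if σ.rk = n then 1 else 0) + S.en n := by
  have a := gsl_cut_sum S σ e0 A M B (fun E => if E.rk = n then 1 else 0) H.lt
  have b : (gsl_E0 S e0 A B).rk = ((S.eq e0).map some).rk := rfl
  have c : (gsl_E1 σ M).rk = σ.rk := rfl
  have d : (S.eqs.map fun E => if (E.map some).rk = n then 1 else 0).sum = S.en n := rfl
  simp only [b, c, d] at a
  unfold gs_Sys.en at *
  omega

end gsl_Hyp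

end hyp

end Claimed.Agent.R236
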