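import Mathlib
import Claimed.Agent.R236.GSlideA

/-!
# Row 236, Model G2: SLIDE (owner helper180, prefix `gsl_`)

Pattern `pre ++ X₁ :: (J ++ X₂ :: post)` in the equation `e0`, `X₁ = G i1 y1 0` from the proper frame `{0,a,n}` to an
improper frame, `J` junk, `X₂ = G i2 z 0`, `z ≠ y1`, to the frame `{0,b,n}`.

1. CUT (`gsl_cut`): a new variable `w` of signature `(n,a,b)` replaces the segment `X₁ J X₂`, new equation
   `X₁ J X₂ w⁻¹ = 1`.  Measure: `(vn + 1, en + 1, inn + imp w)`.
2. MERGE (`gsl_merge_exact`) along `z`, whose two letters now lie in different equations.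
   Measure: `(vn, en, inn + imp w - imp z)` and `imp z = imp w + 1`.

Export: `gsl_slide (N R) : StSlide N R`.


## Part C: the operation CUT preserves density (owner helper180, prefix `gsl_`)

`gsl_Hyp.dense : gs_Dense N R (gsl_cut S σ e0 A M B) → gs_Dense N R S`.

New solutions `↦` old solutions (`gsl_Phi`): the unipotent after `w⁻¹` (frame `{0,s,n}`) is multiplied to the unipotent
after the last letter of `A`, the unipotent after `w` (frame `{0,t,n}`) to the unipotent after the last letter of `M`.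
Section (`gsl_Psi`): `w = ` value of `M`, both additional unipotents are `1`.
-/

set_option autoImplicit false

namespace Claimed.Agent.R236


open Matrix

section maps
variable {Y : Type} {N : ℕ}

/-- new solutions `↦` old solutions; `L` = index of the new equation, `p = |A|`, `m = |M|` -/
noncomputable def gsl_Phi (e0 L p m : ℕ) (x : gs_Pt (Option Y) N) : gs_Pt Y N
  | .inl y => x (.inl (some y))
  | .inr (e, i) =>
    if e = e0 then
      if i + 1 < p then x (.inr (e0, i))
      else if i + 1 = p then x (.inr (e0, i)) * x (.inr (L, m))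
      else if i + 1 < p + m then x (.inr (L, i - p))
      else if i + 1 = p + m then x (.inr (L, i - p)) * x (.inr (e0, p))
      else x (.inr (e0, i + 1 - m))
    else if e < L then x (.inr (e, i)) else 1

/-- old solutions `↦` new solutions -/
noncomputable def gsl_Psi (e0 L p m : ℕ) (w : gs_Mat N) (x : gs_Pt Y N) : gs_Pt (Option Y) N
  | .inl none => w
  | .inl (some y) => x (.inl y)
  | .inr (e, i) =>
    if e = e0 then
      if i < p then x (.inr (e0, i)) else if i = p then 1 else x (.inr (e0, i + m - 1))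
    else if e < L then x (.inr (e, i))
    else if e = L then (if i < m then x (.inr (e0, p + i)) else 1)
    else 1

variable (e0 L p m : ℕ)

theorem gsl_Phi_inl (x : gs_Pt (Option Y) N) (y : Y) :
    gsl_Phi e0 L p m x (.inl y) = x (.inl (some y)) := rfl

theorem gsl_Phi_inr (x : gs_Pt (Option Y) N) (e i : ℕ) : gsl_Phi e0 L p m x (.inr (e, i)) =
    if e = e0 then
      if i + 1 < p then x (.inr (e0, i))
      else if i + 1 = p then x (.inr (e0, i)) * x (.inr (L, m))
      else if i + 1 < p + m then x (.inr (L, i - p))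
      else if i + 1 = p + m then x (.inr (L, i - p)) * x (.inr (e0, p))
      else x (.inr (e0, i + 1 - m))
    else if e < L then x (.inr (e, i)) else 1 := rfl

theorem gsl_Phi_A (x : gs_Pt (Option Y) N) {r : ℕ} (h : r + 1 < p) :
    gsl_Phi e0 L p m x (.inr (e0, r)) = x (.inr (e0, r)) := by
  rw [gsl_Phi_inr, if_pos rfl, if_pos h]

theorem gsl_Phi_Alast (x : gs_Pt (Option Y) N) (h : 0 < p) :
    gsl_Phi e0 L p m x (.inr (e0, p - 1)) = x (.inr (e0, p - 1)) * x (.inr (L, m)) := by
  rw [gsl_Phi_inr, if_pos rfl, if_neg (by omega), if_pos (by omega)]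

theorem gsl_Phi_M (x : gs_Pt (Option Y) N) {r : ℕ} (h : r + 1 < m) :
    gsl_Phi e0 L p m x (.inr (e0, p + r)) = x (.inr (L, r)) := by
  rw [gsl_Phi_inr, if_pos rfl, if_neg (by omega), if_neg (by omega), if_pos (by omega)]
  congr 3
  omega

theorem gsl_Phi_Mlast (x : gs_Pt (Option Y) N) (h : 0 < m) :
    gsl_Phi e0 L p m x (.inr (e0, p + (m - 1))) = x (.inr (L, m - 1)) * x (.inr (e0, p)) := by
  rw [gsl_Phi_inr, if_pos rfl, if_neg (by omega), if_neg (by omega), if_neg (by omega),
    if_pos (by omega)]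
  congr 4
  omega

theorem gsl_Phi_B (x : gs_Pt (Option Y) N) (r : ℕ) :
    gsl_Phi e0 L p m x (.inr (e0, p + m + r)) = x (.inr (e0, p + 1 + r)) := by
  rw [gsl_Phi_inr, if_pos rfl, if_neg (by omega), if_neg (by omega), if_neg (by omega),
    if_neg (by omega)]
  congr 3
  omega

theorem gsl_Phi_ne (x : gs_Pt (Option Y) N) {e : ℕ} (h : e ≠ e0) (h' : e < L) (i : ℕ) :
    gsl_Phi e0 L p m x (.inr (e, i)) = x (.inr (e, i)) := by
  rw [gsl_Phi_inr, if_neg h, if_pos h']

theorem gsl_Phi_ge (x : gs_Pt (Option Y) N) {e : ℕ} (h0 : e0 < L) (h' : L ≤ e) (i : ℕ) :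
    gsl_Phi e0 L p m x (.inr (e, i)) = 1 := by
  rw [gsl_Phi_inr, if_neg (by omega), if_neg (by omega)]

variable (w : gs_Mat N)

theorem gsl_Psi_none (x : gs_Pt Y N) : gsl_Psi e0 L p m w x (.inl none) = w := rfl

theorem gsl_Psi_some (x : gs_Pt Y N) (y : Y) : gsl_Psi e0 L p m w x (.inl (some y)) = x (.inl y) := rfl

theorem gsl_Psi_inr (x : gs_Pt Y N) (e i : ℕ) : gsl_Psi e0 L p m w x (.inr (e, i)) =
    if e = e0 then
      if i < p then x (.inr (e0, i)) else if i = p then 1 else x (.inr (e0, i + m - 1))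
    else if e < L then x (.inr (e, i))
    else if e = L then (if i < m then x (.inr (e0, p + i)) else 1)
    else 1 := rfl

theorem gsl_Psi_A (x : gs_Pt Y N) {r : ℕ} (h : r < p) :
    gsl_Psi e0 L p m w x (.inr (e0, r)) = x (.inr (e0, r)) := by
  rw [gsl_Psi_inr, if_pos rfl, if_pos h]

theorem gsl_Psi_p (x : gs_Pt Y N) : gsl_Psi e0 L p m w x (.inr (e0, p)) = 1 := by
  rw [gsl_Psi_inr, if_pos rfl, if_neg (by omega), if_pos rfl]

theorem gsl_Psi_B (x : gs_Pt Y N) (r : ℕ) :
    gsl_Psi e0 L p m w x (.inr (e0, p + 1 + r)) = x (.inr (e0, p + m + r)) := by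
  rw [gsl_Psi_inr, if_pos rfl, if_neg (by omega), if_neg (by omega)]
  congr 3
  omega

theorem gsl_Psi_M (x : gs_Pt Y N) (h0 : e0 < L) {r : ℕ} (h : r < m) :
    gsl_Psi e0 L p m w x (.inr (L, r)) = x (.inr (e0, p + r)) := by
  rw [gsl_Psi_inr, if_neg (by omega), if_neg (by omega), if_pos rfl, if_pos h]

theorem gsl_Psi_Mge (x : gs_Pt Y N) (h0 : e0 < L) {r : ℕ} (h : m ≤ r) :
    gsl_Psi e0 L p m w x (.inr (L, r)) = 1 := by
  rw [gsl_Psi_inr, if_neg (by omega), if_neg (by omega), if_pos rfl, if_neg (by omega)]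

theorem gsl_Psi_ne (x : gs_Pt Y N) {e : ℕ} (h : e ≠ e0) (h' : e < L) (i : ℕ) :
    gsl_Psi e0 L p m w x (.inr (e, i)) = x (.inr (e, i)) := by
  rw [gsl_Psi_inr, if_neg h, if_pos h']

theorem gsl_Psi_gt (x : gs_Pt Y N) {e : ℕ} (h0 : e0 < L) (h' : L < e) (i : ℕ) :
    gsl_Psi e0 L p m w x (.inr (e, i)) = 1 := by
  rw [gsl_Psi_inr, if_neg (by omega), if_neg (by omega), if_neg (by omega)]

/-- `Φ ∘ Ψ = id` on the points which are `1` at the unipotents of the equations `≥ L` -/
theorem gsl_Phi_Psi (x : gs_Pt Y N) (h0 : e0 < L) (hp : 0 < p) (hm : 0 < m)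
    (hx : ∀ e i, L ≤ e → x (.inr (e, i)) = 1) :
    gsl_Phi e0 L p m (gsl_Psi e0 L p m w x) = x := by
  funext k
  rcases k with y | ⟨e, i⟩
  · rfl
  · rw [gsl_Phi_inr]
    split_ifs with h1 h2 h3 h4 h5 h6
    · subst h1
      rw [gsl_Psi_A _ _ _ _ _ _ (by omega)]
    · subst h1
      rw [gsl_Psi_A _ _ _ _ _ _ (by omega), gsl_Psi_Mge _ _ _ _ _ _ h0 le_rfl, mul_one]
    · subst h1
      rw [gsl_Psi_M _ _ _ _ _ _ h0 (by omega)]
      congr 3
      omega
    · subst h1
      rw [gsl_Psi_M _ _ _ _ _ _ h0 (by omega), gsl_Psi_p, mul_one]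
      congr 3
      omega
    · subst h1
      have : i + 1 - m = p + 1 + (i - (p + m)) := by omega
      rw [this, gsl_Psi_B]
      congr 3
      omega
    · rw [gsl_Psi_ne _ _ _ _ _ _ h1 h6]
    · rw [hx e i (by omega)]

end maps

/-! ## algebra -/

section alg
variable {N : ℕ}

theorem gsl_alg_fwd {VA VM VB w u v : gs_Mat N} (hw : IsUnit w.det) (h0 : VA * (w * u * VB) = 1)
    (h1 : VM * (w⁻¹ * v * 1) = 1) : (VA * v) * ((VM * u) * VB) = 1 := by
  have e1 : w⁻¹ * (v * VM) = 1 := by
    have := mul_eq_one_comm.1 h1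
    simpa only [mul_one, mul_assoc] using this
  have e2 : v * VM = w := by
    calc v * VM = (w * w⁻¹) * (v * VM) := by rw [Matrix.mul_nonsing_inv _ hw, one_mul]
      _ = w * (w⁻¹ * (v * VM)) := by rw [mul_assoc]
      _ = w := by rw [e1, mul_one]
  calc (VA * v) * ((VM * u) * VB) = VA * ((v * VM) * u * VB) := by simp only [mul_assoc]
    _ = 1 := by rw [e2]; exact h0

theorem gsl_isUnit_mid {VA VM VB : gs_Mat N} (h : VA * (VM * VB) = 1) : IsUnit VM.det := by
  have := congrArg Matrix.det h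
  rw [Matrix.det_mul, Matrix.det_mul, Matrix.det_one] at this
  refine isUnit_iff_ne_zero.2 fun h0 => ?_
  rw [h0] at this
  simp at this

end alg

/-! ## the correspondence of the solutions -/

section sol
variable {Y : Type} {N : ℕ} {R : Subring ℂ} {S : gs_Sys Y} {σ : gs_Sig} {e0 : ℕ}
  {A M B : List (gs_Letter Y)}

theorem gsl_cut_sig (S : gs_Sys Y) (σ : gs_Sig) (e0 : ℕ) (A M B : List (gs_Letter Y)) :
    (gsl_cut S σ e0 A M B).sig = gsl_sig S.sig σ := rfl

theorem gsl_lmat_w (x : gs_Pt (Option Y) N) : gs_lmat x (.G false none 0) = x (.inl none) :=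
  gm_emb_zero _

theorem gsl_lmat_w' (x : gs_Pt (Option Y) N) : gs_lmat x (.G true none 0) = (x (.inl none))⁻¹ :=
  gm_emb_zero _

namespace gsl_Hyp

variable (H : gsl_Hyp N R S σ e0 A M B)
include H

theorem posA : 0 < A.length := List.length_pos_iff.2 H.neA

theorem posM : 0 < M.length := List.length_pos_iff.2 H.neM

theorem step_w : gs_step (gsl_sig S.sig σ) {0, σ.s, σ.rk} (.G false none 0) = {0, σ.t, σ.rk} :=
  gsl_full_cut H.s_le σ.t

theorem step_w' : gs_step (gsl_sig S.sig σ) {0, σ.t, σ.rk} (.G true none 0) = {0, σ.s, σ.rk} :=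
  gsl_full_cut H.t_le σ.s

/-- the conditions for the shortened equation, unfolded -/
theorem eqOK_E0 (x : gs_Pt (Option Y) N) : gsl_EqOK (gsl_sig S.sig σ) (gsl_E0 S e0 A B) x e0 ↔
    (gw_Uni (gsl_sig S.sig σ) σ.rk x e0 0 (S.eq e0).K0 (gsl_up A) ∧
      gs_IsUni σ.rk {0, σ.t, σ.rk} (x (.inr (e0, A.length))) ∧
      gw_Uni (gsl_sig S.sig σ) σ.rk x e0 (A.length + 1) {0, σ.t, σ.rk} (gsl_up B)) ∧
    (∀ i, A.length + 1 + B.length ≤ i → x (.inr (e0, i)) = 1) ∧
    gs_val x e0 0 (gsl_up A) *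
      (x (.inl none) * x (.inr (e0, A.length)) * gs_val x e0 (A.length + 1) (gsl_up B)) = 1 := by
  unfold gsl_EqOK
  change gw_Uni _ (S.eq e0).rk x e0 0 (S.eq e0).K0 (gsl_up A ++ .G false none 0 :: gsl_up B) ∧
    (∀ i, (gsl_up A ++ .G false none 0 :: gsl_up B).length ≤ i → _) ∧
    gs_val x e0 0 (gsl_up A ++ .G false none 0 :: gsl_up B) = 1 ↔ _
  rw [H.rk, gw_Uni, gw_all_append, gw_all_cons, gsl_end_map some (gsl_sig_some S.sig σ), H.endA,
    H.step_w, gw_val_append, gw_val_cons, gsl_lmat_w]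
  simp only [List.length_append, List.length_cons, List.length_map, Nat.zero_add]
  have : A.length + (B.length + 1) = A.length + 1 + B.length := by omega
  rw [this]

/-- the conditions for the new equation, unfolded -/
theorem eqOK_E1 (x : gs_Pt (Option Y) N) (L : ℕ) : gsl_EqOK (gsl_sig S.sig σ) (gsl_E1 σ M) x L ↔
    (gw_Uni (gsl_sig S.sig σ) σ.rk x L 0 {0, σ.s, σ.rk} (gsl_up M) ∧
      gs_IsUni σ.rk {0, σ.s, σ.rk} (x (.inr (L, M.length)))) ∧
    (∀ i, M.length + 1 ≤ i → x (.inr (L, i)) = 1) ∧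
    gs_val x L 0 (gsl_up M) * ((x (.inl none))⁻¹ * x (.inr (L, M.length)) * 1) = 1 := by
  unfold gsl_EqOK
  change gw_Uni _ σ.rk x L 0 {0, σ.s, σ.rk} (gsl_up M ++ [gs_Letter.G true none 0]) ∧
    (∀ i, (gsl_up M ++ [gs_Letter.G true none 0]).length ≤ i → _) ∧
    gs_val x L 0 (gsl_up M ++ [gs_Letter.G true none 0]) = 1 ↔ _
  rw [gw_Uni, gw_all_append, gw_all_cons, gsl_end_map some (gsl_sig_some S.sig σ), H.endM,
    H.step_w', gw_val_append, gw_val_cons, gsl_lmat_w', gw_val_nil]
  simp only [List.length_append, List.length_cons, List.length_map, List.length_nil, Nat.zero_add,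
    gw_all_nil, and_true]

/-- the conditions for the old equation, unfolded -/
theorem eqOK_old (x : gs_Pt Y N) : gsl_EqOK S.sig (S.eq e0) x e0 ↔
    (gw_Uni S.sig σ.rk x e0 0 (S.eq e0).K0 A ∧
      gw_Uni S.sig σ.rk x e0 A.length {0, σ.s, σ.rk} M ∧
      gw_Uni S.sig σ.rk x e0 (A.length + M.length) {0, σ.t, σ.rk} B) ∧
    (∀ i, A.length + M.length + B.length ≤ i → x (.inr (e0, i)) = 1) ∧
    gs_val x e0 0 A * (gs_val x e0 A.length M * gs_val x e0 (A.length + M.length) B) = 1 := by
  unfold gsl_EqOK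
  rw [H.ls_eq, H.rk, gw_Uni, gw_all_append, gw_all_append, H.endA, H.endM, gw_val_append,
    gw_val_append]
  simp only [List.length_append, Nat.zero_add, add_assoc]

/-- new solutions are mapped to old solutions -/
theorem maps {x : gs_Pt (Option Y) N} (hx : x ∈ gs_Sol N (gsl_cut S σ e0 A M B)) :
    gsl_Phi e0 S.eqs.length A.length M.length x ∈ gs_Sol N S := by
  rw [gsl_mem_sol_iff] at hx ⊢
  obtain ⟨hv, he⟩ := hx
  refine ⟨fun y => hv (some y), fun e => ?_⟩
  by_cases h0 : e = e0
  · subst h0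
    have a0 := he e
    have a1 := he S.eqs.length
    rw [gsl_cut_eq_e0 _ _ _ _ _ _ H.lt] at a0
    rw [gsl_cut_eq_last] at a1
    obtain ⟨⟨uA, uw, uB⟩, t0, v0⟩ := (H.eqOK_E0 x).1 a0
    obtain ⟨⟨uM, uw'⟩, -, v1⟩ := (H.eqOK_E1 x _).1 a1
    rw [H.eqOK_old]
    have hA1 : ∀ r, r + 1 < A.length → x (.inr (e, 0 + r)) =
        gsl_Phi e S.eqs.length A.length M.length x (.inr (e, 0 + r)) := fun r hr => by
      rw [Nat.zero_add, gsl_Phi_A _ _ _ _ _ hr]
    have hA2 : gsl_Phi e S.eqs.length A.length M.length x (.inr (e, 0 + (A.length - 1))) =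
        x (.inr (e, 0 + (A.length - 1))) * x (.inr (S.eqs.length, M.length)) := by
      rw [Nat.zero_add, gsl_Phi_Alast _ _ _ _ _ H.posA]
    have hM1 : ∀ r, r + 1 < M.length → x (.inr (S.eqs.length, 0 + r)) =
        gsl_Phi e S.eqs.length A.length M.length x (.inr (e, A.length + r)) := fun r hr => by
      rw [Nat.zero_add, gsl_Phi_M _ _ _ _ _ hr]
    have hM2 : gsl_Phi e S.eqs.length A.length M.length x (.inr (e, A.length + (M.length - 1))) =
        x (.inr (S.eqs.length, 0 + (M.length - 1))) * x (.inr (e, A.length)) := by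
      rw [Nat.zero_add, gsl_Phi_Mlast _ _ _ _ _ H.posM]
    have hB : ∀ r, r < B.length → x (.inr (e, A.length + 1 + r)) =
        gsl_Phi e S.eqs.length A.length M.length x (.inr (e, A.length + M.length + r)) := fun r _ => by
      rw [gsl_Phi_B]
    refine ⟨⟨?_, ?_, ?_⟩, ?_, ?_⟩
    · exact gsl_uni_last some (gsl_sig_some S.sig σ) σ.rk e e 0 0 _ A H.neA _ hA1 hA2
        (by rw [H.endA]; exact uw') uA
    · exact gsl_uni_last some (gsl_sig_some S.sig σ) σ.rk e S.eqs.length A.length 0 _ M H.neM _ hM1 hM2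
        (by rw [H.endM]; exact uw) uM
    · exact (gsl_uni_map some (gsl_sig_some S.sig σ) σ.rk e e _ _ _ B hB).1 uB
    · intro i hi
      have : i = A.length + M.length + (i - (A.length + M.length)) := by omega
      rw [this, gsl_Phi_B]
      exact t0 _ (by omega)
    · rw [gsl_val_last some e e 0 0 A H.neA _ (fun _ => rfl) hA1 hA2,
        gsl_val_last some e S.eqs.length A.length 0 M H.neM _ (fun _ => rfl) hM1 hM2,
        ← gw_val_map (x' := x) (gs_Letter.map some) e e (A.length + M.length) (A.length + 1) B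
          (fun l _ => gw_lmat_map some _ x l fun _ _ _ _ => rfl) hB]
      exact gsl_alg_fwd (hv none).1 v0 v1
  · by_cases h1 : e < S.eqs.length
    · have a := he e
      rw [gsl_cut_eq_ne _ _ _ _ _ _ h1 h0] at a
      exact (gsl_eqOK_map some (gsl_sig_some S.sig σ) (S.eq e) e e (fun _ => rfl)
        (fun i => (gsl_Phi_ne _ _ _ _ _ h0 h1 i).symm)).1 a
    · rw [gw_eq_of_le (by omega), gsl_eqOK_triv]
      exact fun i => gsl_Phi_ge _ _ _ _ _ H.lt (by omega) i

/-- the section -/
theorem section_mem {x : gs_Pt Y N} (hx : x ∈ gs_Sol N S) :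
    gsl_Psi e0 S.eqs.length A.length M.length (gs_val x e0 A.length M) x ∈
      gs_Sol N (gsl_cut S σ e0 A M B) := by
  rw [gsl_mem_sol_iff] at hx ⊢
  rw [gsl_cut_sig]
  obtain ⟨hv, he⟩ := hx
  obtain ⟨⟨uA, uM, uB⟩, t0, v0⟩ := (H.eqOK_old x).1 (he e0)
  have hw : IsUnit (gs_val x e0 A.length M).det := gsl_isUnit_mid v0
  refine ⟨fun z => ?_, fun e => ?_⟩
  · cases z with
    | none =>
      exact ⟨hw, gw_val_corner H.wf.sigOK (fun _ z _ _ => hv z) (gsl_fr H.s_le) H.typed.2.1 uM⟩
    | some y => exact hv y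
  · by_cases h0 : e = e0
    · subst h0
      rw [gsl_cut_eq_e0 _ _ _ _ _ _ H.lt, H.eqOK_E0]
      have hA : ∀ r, r < A.length → gsl_Psi e S.eqs.length A.length M.length
          (gs_val x e A.length M) x (.inr (e, 0 + r)) = x (.inr (e, 0 + r)) := fun r hr => by
        rw [Nat.zero_add, gsl_Psi_A _ _ _ _ _ _ hr]
      have hB : ∀ r, r < B.length → gsl_Psi e S.eqs.length A.length M.length
          (gs_val x e A.length M) x (.inr (e, A.length + 1 + r)) =
            x (.inr (e, A.length + M.length + r)) := fun r _ => by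
        rw [gsl_Psi_B]
      refine ⟨⟨?_, ?_, ?_⟩, ?_, ?_⟩
      · exact (gsl_uni_map some (gsl_sig_some S.sig σ) σ.rk e e _ _ _ A hA).2 uA
      · rw [gsl_Psi_p]
        exact gm_uni_one _ _
      · exact (gsl_uni_map some (gsl_sig_some S.sig σ) σ.rk e e _ _ _ B hB).2 uB
      · intro i hi
        have : i = A.length + 1 + (i - (A.length + 1)) := by omega
        rw [this, gsl_Psi_B]
        exact t0 _ (by omega)
      · rw [gsl_Psi_p, gsl_Psi_none, mul_one,
          gw_val_map (x := x) (gs_Letter.map some) e e 0 0 A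
            (fun l _ => gw_lmat_map some x _ l fun _ _ _ _ => rfl) hA,
          gw_val_map (x := x) (gs_Letter.map some) e e (A.length + M.length) (A.length + 1) B
            (fun l _ => gw_lmat_map some x _ l fun _ _ _ _ => rfl) hB]
        exact v0
    · by_cases h1 : e < S.eqs.length
      · rw [gsl_cut_eq_ne _ _ _ _ _ _ h1 h0]
        exact (gsl_eqOK_map some (gsl_sig_some S.sig σ) (S.eq e) e e (fun _ => rfl)
          (fun i => gsl_Psi_ne _ _ _ _ _ _ h0 h1 i)).2 (he e)
      · by_cases h2 : e = S.eqs.length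
        · subst h2
          rw [gsl_cut_eq_last, H.eqOK_E1]
          have hM : ∀ r, r < M.length → gsl_Psi e0 S.eqs.length A.length M.length
              (gs_val x e0 A.length M) x (.inr (S.eqs.length, 0 + r)) =
                x (.inr (e0, A.length + r)) := fun r hr => by
            rw [Nat.zero_add, gsl_Psi_M _ _ _ _ _ _ H.lt hr]
          refine ⟨⟨?_, ?_⟩, ?_, ?_⟩
          · exact (gsl_uni_map some (gsl_sig_some S.sig σ) σ.rk e0 S.eqs.length _ _ _ M hM).2 uM
          · rw [gsl_Psi_Mge _ _ _ _ _ _ H.lt le_rfl]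
            exact gm_uni_one _ _
          · intro i hi
            exact gsl_Psi_Mge _ _ _ _ _ _ H.lt (by omega)
          · rw [gsl_Psi_Mge _ _ _ _ _ _ H.lt le_rfl, gsl_Psi_none, mul_one, mul_one,
              gw_val_map (x := x) (gs_Letter.map some) e0 S.eqs.length A.length 0 M
                (fun l _ => gw_lmat_map some x _ l fun _ _ _ _ => rfl) hM]
            exact Matrix.mul_nonsing_inv _ hw
        · rw [gsl_cut_eq_gt _ _ _ _ _ _ (by omega), gsl_eqOK_triv]
          exact fun i => gsl_Psi_gt _ _ _ _ _ _ H.lt (by omega) i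

/-- **CUT preserves density** -/
theorem dense (hD : gs_Dense N R (gsl_cut S σ e0 A M B)) : gs_Dense N R S := by
  refine rg_Dense.transfer₁ (gsl_Phi e0 S.eqs.length A.length M.length) ?_ (fun x hx => H.maps hx) ?_ hD
  · refine rg_matCoord_regOn (fun k => ?_) (fun k => ?_)
    · rcases k with y | ⟨e, i⟩
      · exact rg_matCoord_mat _
      · simp only [gsl_Phi_inr]
        split_ifs
        · exact rg_matCoord_mat _
        · exact (rg_matCoord_mat _).mul (rg_matCoord_mat _)
        · exact rg_matCoord_mat _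
        · exact (rg_matCoord_mat _).mul (rg_matCoord_mat _)
        · exact rg_matCoord_mat _
        · exact rg_matCoord_mat _
        · exact rg_MatOn.one
    · rcases k with y | ⟨e, i⟩
      · exact rg_matCoord_inv _
      · simp only [gsl_Phi_inr]
        split_ifs
        · exact rg_matCoord_inv _
        · simp only [Matrix.mul_inv_rev]
          exact (rg_matCoord_inv _).mul (rg_matCoord_inv _)
        · exact rg_matCoord_inv _
        · simp only [Matrix.mul_inv_rev]
          exact (rg_matCoord_inv _).mul (rg_matCoord_inv _)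
        · exact rg_matCoord_inv _
        · exact rg_matCoord_inv _
        · simp only [inv_one]
          exact rg_MatOn.one
  · intro x hx
    refine ⟨_, H.section_mem hx, gsl_Phi_Psi _ _ _ _ _ x H.lt H.posA H.posM fun e i he => ?_⟩
    have := ((gsl_mem_sol_iff S x).1 hx).2 e
    rw [gw_eq_of_le he, gsl_eqOK_triv] at this
    exact this i

end gsl_Hyp

end sol

/-! # SLIDE -/


section
variable {Y : Type} {N : ℕ} {R : Subring ℂ}

/-- junk letters do not change properness -/
theorem gsl_junk_end {sig : Y → gs_Sig} (hs : gw_SigOK sig) {n : ℕ} {K K' : Finset ℕ}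
    {J : List (gs_Letter Y)} (hK : gw_Fr n K) (ht : gw_Typed sig n K J K')
    (hj : ∀ l ∈ J, gt_Junk sig n l) : gs_Proper n K' ↔ gs_Proper n K := by
  induction J generalizing K with
  | nil =>
    rw [gw_typed_nil] at ht
    rw [ht]
  | cons l J ih =>
    rw [gw_typed_cons] at ht
    rw [ih (gw_fr_step hs hK ht.1) ht.2 (fun l' hl' => hj l' (List.mem_cons_of_mem _ hl')),
      gpt_proper_step (fun y => (hs y).1) (fun y => (hs y).2) hK ht.1 (hj l (List.mem_cons_self ..))]

/-- the number of improper ends in terms of source and target of a letter -/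
theorem gsl_imp_eq (τ : gs_Sig) (i : Bool) : τ.imp =
    (if τ.src i = 0 ∨ τ.src i = τ.rk then 1 else 0) +
      (if τ.tgt i = 0 ∨ τ.tgt i = τ.rk then 1 else 0) := by
  cases i
  · rfl
  · exact add_comm _ _

/-- **SLIDE** -/
theorem gsl_slide (N : ℕ) (R : Subring ℂ) : StSlide N R := by
  intro Y S n hG hself e0 i1 i2 y1 z pre J post hne P
  have hn : 0 < n := gt_pos_of_proper P.proper
  have hs := hG.wf.sigOK
  have hE := hG.wf.eq_wf e0
  -- typing of the equation
  have ht := hE.typed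
  rw [P.ls_eq, P.rk, gw_typed_append, gw_typed_cons, gw_typed_append, gw_typed_cons] at ht
  obtain ⟨tpre, app1, tJ, app2, -⟩ := ht
  have fr0 : gw_Fr n (S.eq e0).K0 := P.rk ▸ hE.fr0
  have frA := tpre.fr hs fr0
  have fr1 := gw_fr_step hs frA app1
  have fr2 := tJ.fr hs fr1
  -- the four frames
  have app1' : gs_midOK (gw_end S.sig (S.eq e0).K0 pre) 0 n ((S.sig y1).src i1) := by
    have := app1
    change gs_midOK _ 0 (S.sig y1).rk _ at this
    rwa [P.rk1] at this
  have KA : gw_end S.sig (S.eq e0).K0 pre = {0, (S.sig y1).src i1, n} := gw_full frA app1'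
  have app2' : gs_midOK (gw_end S.sig (gs_step S.sig (gw_end S.sig (S.eq e0).K0 pre) (.G i1 y1 0)) J) 0 n
      ((S.sig z).src i2) := by
    have := app2
    change gs_midOK _ 0 (S.sig z).rk _ at this
    rwa [P.rk2] at this
  have K2 : gw_end S.sig (gs_step S.sig (gw_end S.sig (S.eq e0).K0 pre) (.G i1 y1 0)) J =
      {0, (S.sig z).src i2, n} := gw_full fr2 app2'
  have KB : gs_step S.sig (gw_end S.sig (gs_step S.sig (gw_end S.sig (S.eq e0).K0 pre) (.G i1 y1 0)) J)
      (.G i2 z 0) = {0, (S.sig z).tgt i2, n} := by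
    change gs_cutRepl _ 0 (S.sig z).rk _ = _
    rw [P.rk2]
    exact gw_cutRepl_full fr2 _
  -- properness
  have hpa : 0 < (S.sig y1).src i1 ∧ (S.sig y1).src i1 < n := by
    have := P.proper
    unfold gs_Sys.frame at this
    rw [P.ls_eq, gw_frame_append_left _ _ _ le_rfl, gw_frame_length, KA] at this
    exact gsl_proper_full.1 this
  have himp1 : ¬ gs_Proper n (gs_step S.sig (gw_end S.sig (S.eq e0).K0 pre) (.G i1 y1 0)) := by
    have := P.imp
    unfold gs_Sys.frame at this
    rwa [P.ls_eq, gw_frame_append_right, gw_frame_cons_succ, gw_frame_zero] at this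
  have hc : (S.sig z).src i2 = 0 ∨ (S.sig z).src i2 = n := by
    have h2 : ¬ gs_Proper n {0, (S.sig z).src i2, n} := by
      rw [← K2, gsl_junk_end hs fr1 tJ P.junk]
      exact himp1
    rw [gsl_proper_full] at h2
    have := app2'.2.2.2.1
    omega
  -- the letters of `z`
  have hfree : ∀ o, gs_Letter.G (!i2) z o ∉ gs_Letter.G i1 y1 0 :: (J ++ [gs_Letter.G i2 z 0]) := by
    intro o h
    simp only [List.mem_cons, List.mem_append, List.not_mem_nil, or_false] at h
    rcases h with h | h | h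
    · injection h with _ h2 _
      exact hne h2.symm
    · exact P.junk _ h P.rk2
    · injection h with h1 _ _
      cases i2 <;> cases h1
  have hpre : pre ≠ [] := by
    intro hp
    have hpost := P.edge.resolve_left (not_not.2 hp)
    have hls := P.ls_eq
    rw [hp, hpost, List.nil_append] at hls
    have hat : S.At e0 (gs_Letter.G i1 y1 0 :: J).length (.G i2 z 0) := by
      unfold gs_Sys.At
      rw [hls, ← List.cons_append]
      simp
    obtain ⟨e', i', o', hp'⟩ := hG.wf.exists_partner hat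
    have he : e0 = e' := hself z i2 e0 _ e' i' 0 o' P.rk2 hat hp'
    subst he
    have := List.mem_of_getElem? hp'
    rw [hls] at this
    exact hfree o' this
  -- CUT
  have H : gsl_Hyp N R S ⟨n, (S.sig y1).src i1, (S.sig z).tgt i2⟩ e0 pre
      (gs_Letter.G i1 y1 0 :: (J ++ [gs_Letter.G i2 z 0])) post := by
    refine ⟨hG.wf, P.lt, ?_, P.rk, hpa.2.le, ?_, KA, ?_, hpre, by simp⟩
    · rw [P.ls_eq]
      simp
    · have := hs.tgt_le z i2
      rwa [P.rk2] at this
    · change gw_end S.sig {0, (S.sig y1).src i1, n} _ = {0, (S.sig z).tgt i2, n}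
      rw [← KA, gw_end_cons, gw_end_append, gw_end_cons, gw_end_nil, KB]
  have G1 := (⟨H.wf', H.rkLe' hG.rkLe⟩ : (gsl_cut S _ e0 pre _ post).Good N R n)
  -- MERGE
  have hat : (gsl_cut S ⟨n, (S.sig y1).src i1, (S.sig z).tgt i2⟩ e0 pre
      (gs_Letter.G i1 y1 0 :: (J ++ [gs_Letter.G i2 z 0])) post).At S.eqs.length
      (gsl_up (gs_Letter.G i1 y1 0 :: J)).length (.G i2 (some z) 0) := by
    unfold gs_Sys.At
    rw [gsl_cut_eq_last]
    change (gsl_up (gs_Letter.G i1 y1 0 :: (J ++ [gs_Letter.G i2 z 0])) ++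
      [gs_Letter.G true none 0])[_]? = _
    have : gsl_up (gs_Letter.G i1 y1 0 :: (J ++ [gs_Letter.G i2 z 0])) ++ [gs_Letter.G true none 0] =
        gsl_up (gs_Letter.G i1 y1 0 :: J) ++ gs_Letter.G i2 (some z) 0 :: [gs_Letter.G true none 0] := by
      simp [gsl_up, gs_Letter.map]
    rw [this]
    simp
  obtain ⟨e', i', o', hp'⟩ := H.wf'.exists_partner hat
  have hne' : S.eqs.length ≠ e' := by
    rintro rfl
    have := List.mem_of_getElem? hp'
    rw [gsl_cut_eq_last] at this
    change _ ∈ gsl_up (gs_Letter.G i1 y1 0 :: (J ++ [gs_Letter.G i2 z 0])) ++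
      [gs_Letter.G true none 0] at this
    rw [List.mem_append, gsl_mem_map_G, List.mem_singleton] at this
    rcases this with ⟨y, hy, h⟩ | h
    · cases hy
      exact hfree o' h
    · injection h with _ h2 _
      cases h2
  obtain ⟨S', hG', hvn, hen, hinn, hno, hd⟩ :=
    gsl_merge_exact hn G1 (y := some z) (inv := i2) P.rk2 hne' hat hp'
  refine ⟨Option Y, S', hG', ?_, fun h => hno (H.noImp' hpa h), fun h => H.dense (hd h)⟩
  -- the measure
  rw [H.vn' n, if_pos rfl] at hvn
  rw [H.en' n, if_pos rfl] at hen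
  rw [H.inn' n, if_pos rfl] at hinn
  have i1' : (⟨n, (S.sig y1).src i1, (S.sig z).tgt i2⟩ : gs_Sig).imp =
      if (S.sig z).tgt i2 = 0 ∨ (S.sig z).tgt i2 = n then 1 else 0 := by
    unfold gs_Sig.imp
    rw [if_neg (by simp only; omega), Nat.zero_add]
  have i2' : (S.sig z).imp = 1 + if (S.sig z).tgt i2 = 0 ∨ (S.sig z).tgt i2 = n then 1 else 0 := by
    rw [gsl_imp_eq (S.sig z) i2, P.rk2, if_pos hc]
  have i3 : ((gsl_cut S ⟨n, (S.sig y1).src i1, (S.sig z).tgt i2⟩ e0 pre
      (gs_Letter.G i1 y1 0 :: (J ++ [gs_Letter.G i2 z 0])) post).sig (some z)).imp = (S.sig z).imp := rfl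
  rw [i1', i3, i2'] at hinn
  unfold gs_Sys.mu
  refine Prod.Lex.toLex_lt_toLex.mpr (Or.inr ⟨by omega, ?_⟩)
  exact Prod.Lex.toLex_lt_toLex.mpr (Or.inr ⟨by omega, by omega⟩)

end

end Claimed.Agent.R236
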