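import Mathlib
import Claimed.Agent.R236.GSteps
import Claimed.Agent.R236.GWord

/-!
# Row 236, Model G2: the two small statements `StDropEmpty` and `StZero` (prefix gsm_)
-/

set_option autoImplicit false

namespace Claimed.Agent.R236

section aux
variable {Y : Type} {N : ℕ}

/-- rank zero unipotents are trivial, whatever the frame -/
theorem gsm_isUni_zero (K : Finset ℕ) (u : gs_Mat N) : gs_IsUni 0 K u ↔ u = 1 := by
  constructor
  · intro h
    ext i j
    by_contra hne
    exact absurd (h i j hne).1 (Nat.not_lt_zero _)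
  · rintro rfl i j h
    exact absurd rfl h

/-- rank zero corners are trivial -/
theorem gsm_isCorner_zero (A : gs_Mat N) : gs_IsCorner 0 A ↔ A = 1 := by
  constructor
  · intro h
    ext i j
    exact h i j (Or.inl (Nat.zero_le _))
  · rintro rfl i j _
    rfl

theorem gsm_flatMap_set {α β : Type*} (f : α → List β) (L : List α) {e : ℕ} (h : e < L.length) (a : α)
    (hf : f a = f L[e]) : (L.set e a).flatMap f = L.flatMap f := by
  induction L generalizing e with
  | nil => simp at h
  | cons b L ih =>
    cases e with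
    | zero =>
      simp only [List.set_cons_zero, List.flatMap_cons]
      rw [hf]
      rfl
    | succ e =>
      simp only [List.set_cons_succ, List.flatMap_cons]
      rw [ih (by simpa using h) (by simpa using hf)]

end aux

/-- **P0** -/
theorem gsm_zero (N : ℕ) (R : Subring ℂ) : StZero N R := by
  intro Y S hS
  have hrk : ∀ e, (S.eq e).rk = 0 := by
    intro e
    by_cases he : e < S.eqs.length
    · exact Nat.le_zero.1 (hS.rkLe _ (gw_eq_mem he))
    · rw [gw_eq_of_le (by omega)]
      rfl
  have hsig : ∀ y, (S.sig y).rk = 0 := by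
    intro y
    by_cases hy : y ∈ S.occ false
    · obtain ⟨e, i, o, h⟩ := gw_mem_occ.1 hy
      have h2 : gs_midOK (S.frame e i) o (S.sig y).rk ((S.sig y).src false) := hS.wf.app_at h
      have h3 := ((hS.wf.eq_wf e).fr hS.wf.sigOK i).2.2 _ h2.2.2.1
      rw [hrk e] at h3
      omega
    · exact hS.wf.rk0 y hy
  have hone : ∀ x ∈ gs_Sol N S, x = fun _ => 1 := by
    intro x hx
    obtain ⟨h1, h2, _⟩ := hx
    funext k
    rcases k with y | ⟨e, i⟩
    · have := (h1 y).2
      rw [hsig y] at this
      exact (gsm_isCorner_zero _).1 this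
    · have := h2 e i
      have hu : S.urk e i = 0 := by
        unfold gs_Sys.urk
        split_ifs
        · exact hrk e
        · rfl
      rw [hu] at this
      exact (gsm_isUni_zero _ _).1 this
  intro F _ h0 x hx
  refine h0 x hx ?_
  rw [rg_matCoord_mem_iff]
  intro k a b
  rw [hone x hx]
  simp only [inv_one]
  have : (1 : gs_Mat N) a b ∈ R := by
    rw [Matrix.one_apply]
    split_ifs
    · exact R.one_mem
    · exact R.zero_mem
  exact ⟨this, this⟩

/-- **DROPEMPTY** -/
theorem gsm_dropEmpty (N : ℕ) (R : Subring ℂ) : StDropEmpty N R := by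
  intro Y S n hn hS E hE hEr hEl
  obtain ⟨e0, he0, rfl⟩ := gw_mem_eqs_iff.1 hE
  set S' : gs_Sys Y := ⟨S.sig, S.eqs.set e0 (gs_Eqn.triv Y)⟩ with hS'
  have hget : S.eqs[e0] = S.eq e0 := (gw_eq_of_lt he0).symm
  have heq : ∀ e, S'.eq e = if e = e0 then gs_Eqn.triv Y else S.eq e := by
    intro e
    rw [hS', gw_eq_set]
    by_cases h : e = e0
    · simp [h, he0]
    · simp [h]
  have hocc : ∀ inv, S'.occ inv = S.occ inv := by
    intro inv
    unfold gs_Sys.occ
    refine gsm_flatMap_set _ _ he0 _ ?_
    rw [hget, hEl]
    rfl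
  have hmem : ∀ E' ∈ S'.eqs, E' = gs_Eqn.triv Y ∨ E' ∈ S.eqs := by
    intro E' h
    rcases List.mem_or_eq_of_mem_set h with h | h
    · exact Or.inr h
    · exact Or.inl h
  refine ⟨Y, S', ⟨⟨hS.wf.sig_s, hS.wf.sig_t, ?_, ?_, ?_, ?_⟩, ?_⟩, ?_, ?_, ?_⟩
  · intro E' h
    rcases hmem E' h with rfl | h
    · exact gw_triv_wf N R
    · exact hS.wf.eqn E' h
  · rw [hocc]
    exact hS.wf.nodup
  · rw [hocc, hocc]
    exact hS.wf.perm
  · intro y hy
    rw [hocc] at hy
    exact hS.wf.rk0 y hy
  · intro E' h
    rcases hmem E' h with rfl | h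
    · exact Nat.zero_le _
    · exact hS.rkLe E' h
  · -- the measure
    have hvn : S'.vn n = S.vn n := by
      unfold gs_Sys.vn
      rw [hocc]
    have hen : S'.en n < S.en n := by
      unfold gs_Sys.en
      have := gw_sum_set (fun E : gs_Eqn Y => if E.rk = n then 1 else 0) S.eqs he0 (gs_Eqn.triv Y)
      rw [hget] at this
      simp only [hEr, if_true] at this
      have h0 : (gs_Eqn.triv Y).rk ≠ n := by
        show 0 ≠ n
        omega
      rw [if_neg h0] at this
      show ((S.eqs.set e0 (gs_Eqn.triv Y)).map fun E : gs_Eqn Y => if E.rk = n then 1 else 0).sum < _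
      omega
    refine Prod.Lex.toLex_lt_toLex.mpr (Or.inr ⟨hvn, ?_⟩)
    exact Prod.Lex.toLex_lt_toLex.mpr (Or.inl hen)
  · intro hno E' h hr
    rcases hmem E' h with rfl | h
    · exfalso
      have : (0 : ℕ) = n := hr
      omega
    · exact hno E' h hr
  · -- the solutions agree
    intro hD
    have hSol : gs_Sol N S = gs_Sol N S' := by
      ext x
      simp only [gs_Sol, Set.mem_ofPred_eq]
      refine and_congr Iff.rfl (and_congr ?_ ?_)
      · refine forall_congr' fun e => forall_congr' fun i => ?_
        by_cases h : e = e0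
        · subst h
          have h1 : S.urk e i = 0 := by
            unfold gs_Sys.urk
            rw [hEl]
            simp
          have h2 : S'.urk e i = 0 := by
            unfold gs_Sys.urk
            rw [heq e, if_pos rfl]
            simp [gs_Eqn.triv]
          rw [h1, h2, gsm_isUni_zero, gsm_isUni_zero]
        · have h1 : S'.eq e = S.eq e := by rw [heq e, if_neg h]
          unfold gs_Sys.urk gs_Sys.frame
          rw [h1]
      · refine forall_congr' fun e => ?_
        by_cases h : e = e0
        · subst h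
          rw [heq e, if_pos rfl, hEl]
          rfl
        · rw [heq e, if_neg h]
    unfold gs_Dense
    rw [hSol]
    exact hD

end Claimed.Agent.R236
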