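/-
Row 236: top glue, the field containing all `n`-th roots of all units (Dirichlet).
-/
import Claimed.Agent.R236.TopDefs

set_option autoImplicit false

namespace Claimed.Agent.R236

open NumberField

theorem top_mem_O {F : IntermediateField ℚ ℂ} {x : ℂ} :
    x ∈ top_O F ↔ x ∈ F ∧ IsIntegral ℤ x := by
  unfold top_O
  rw [Subring.mem_inf]
  rfl

theorem top_O_mono {F L : IntermediateField ℚ ℂ} (h : F ≤ L) : top_O F ≤ top_O L := by
  intro x hx
  rw [top_mem_O] at hx ⊢
  exact ⟨h hx.1, hx.2⟩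

/-- There is a finite extension containing all `n`-th roots of all units of `O_F`. -/
theorem top_exists_root_field (F : IntermediateField ℚ ℂ) (hF : FiniteDimensional ℚ F) (n : ℕ)
    (hn : 0 < n) :
    ∃ L : IntermediateField ℚ ℂ, FiniteDimensional ℚ L ∧ F ≤ L ∧
      ∀ u t : ℂ, u ∈ top_O F → u⁻¹ ∈ top_O F → u ≠ 0 → t ^ n = u → t ∈ L := by
  classical
  have : NumberField F := { to_charZero := inferInstance, to_finiteDimensional := hF }
  obtain ⟨S, hS⟩ := (Monoid.FG.fg_top : (⊤ : Submonoid (𝓞 F)ˣ).FG)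
  let val : (𝓞 F)ˣ → ℂ := fun x => (((x : 𝓞 F) : F) : ℂ)
  have val_one : val 1 = 1 := by simp [val]
  have val_mul : ∀ x y, val (x * y) = val x * val y := by intro x y; simp [val]
  let rootOf : ℂ → ℂ := fun a => Classical.choose (IsAlgClosed.exists_pow_nat_eq a hn)
  have rootOf_spec : ∀ a, rootOf a ^ n = a := fun a =>
    Classical.choose_spec (IsAlgClosed.exists_pow_nat_eq a hn)
  have hζ := Complex.isPrimitiveRoot_exp n hn.ne'
  set ζ := Complex.exp (2 * Real.pi * Complex.I / n) with hζdef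
  let T : Finset ℂ := insert ζ (S.image fun x => rootOf (val x))
  have hTint : ∀ x ∈ (T : Set ℂ), IsIntegral ℚ x := by
    intro x hx
    simp only [T, Finset.coe_insert, Finset.coe_image, Set.mem_insert_iff, Set.mem_image,
      Finset.mem_coe] at hx
    rcases hx with rfl | ⟨y, _, rfl⟩
    · exact (hζ.isIntegral hn).tower_top
    · apply IsIntegral.of_pow hn
      rw [rootOf_spec]
      have : IsIntegral ℚ ((y : 𝓞 F) : F) := IsIntegral.of_finite ℚ _
      exact this.map (F.val)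
  have : FiniteDimensional ℚ (IntermediateField.adjoin ℚ (T : Set ℂ)) :=
    IntermediateField.finiteDimensional_adjoin hTint
  refine ⟨F ⊔ IntermediateField.adjoin ℚ (T : Set ℂ), inferInstance, le_sup_left, ?_⟩
  set L := F ⊔ IntermediateField.adjoin ℚ (T : Set ℂ) with hL
  have hTL : ∀ x ∈ T, x ∈ L := fun x hx =>
    (le_sup_right : IntermediateField.adjoin ℚ (T : Set ℂ) ≤ L)
      (IntermediateField.subset_adjoin ℚ _ hx)
  have hmain : ∀ x : (𝓞 F)ˣ, ∃ t₀ ∈ L, t₀ ^ n = val x := by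
    intro x
    have hx : x ∈ Submonoid.closure (S : Set (𝓞 F)ˣ) := by rw [hS]; trivial
    induction hx using Submonoid.closure_induction with
    | mem y hy =>
      exact ⟨rootOf (val y), hTL _ (Finset.mem_insert_of_mem (Finset.mem_image_of_mem _ hy)),
        rootOf_spec _⟩
    | one => exact ⟨1, one_mem _, by rw [one_pow, val_one]⟩
    | mul y z _ _ hy hz =>
      obtain ⟨a, ha, ha'⟩ := hy
      obtain ⟨b, hb, hb'⟩ := hz
      exact ⟨a * b, mul_mem ha hb, by rw [mul_pow, ha', hb', val_mul]⟩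
  intro u t hu hu' hu0 ht
  rw [top_mem_O] at hu hu'
  -- build the unit
  have hint : ∀ (y : ℂ) (hy : y ∈ F), IsIntegral ℤ y → IsIntegral ℤ (⟨y, hy⟩ : F) := by
    intro y hy h
    exact (isIntegral_algebraMap_iff (B := ℂ) (algebraMap F ℂ).injective).mp h
  let a : 𝓞 F := ⟨⟨u, hu.1⟩, hint u hu.1 hu.2⟩
  let b : 𝓞 F := ⟨⟨u⁻¹, hu'.1⟩, hint _ hu'.1 hu'.2⟩
  have hab : a * b = 1 := by
    apply RingOfIntegers.ext
    apply Subtype.ext
    show u * u⁻¹ = 1
    exact mul_inv_cancel₀ hu0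
  let x : (𝓞 F)ˣ := ⟨a, b, hab, by rw [mul_comm]; exact hab⟩
  obtain ⟨t₀, ht₀L, ht₀⟩ := hmain x
  have hvx : val x = u := rfl
  rw [hvx] at ht₀
  have ht₀0 : t₀ ≠ 0 := by
    rintro rfl
    rw [zero_pow hn.ne'] at ht₀
    exact hu0 ht₀.symm
  have h1 : (t / t₀) ^ n = 1 := by
    rw [div_pow, ht, ht₀, div_self hu0]
  have : NeZero n := ⟨hn.ne'⟩
  obtain ⟨i, _, hi⟩ := hζ.eq_pow_of_pow_eq_one h1
  have : t = ζ ^ i * t₀ := by
    rw [hi, div_mul_cancel₀ _ ht₀0]
  rw [this]
  exact mul_mem (pow_mem (hTL _ (Finset.mem_insert_self _ _)) _) ht₀L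

end Claimed.Agent.R236
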