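/-
Row 236: top glue, formal properties of the Zariski closure operator `top_zcl`.
-/
import Claimed.Agent.R236.TopDefs

set_option autoImplicit false

namespace Claimed.Agent.R236

open MvPolynomial

theorem top_subset_zcl {ι : Type} (S : Set (ι → ℂ)) : S ⊆ top_zcl S :=
  fun _ hz _ hΦ => hΦ _ hz

theorem top_zcl_mono {ι : Type} {S S' : Set (ι → ℂ)} (h : S ⊆ S') : top_zcl S ⊆ top_zcl S' :=
  fun _ hz Φ hΦ => hz Φ fun w hw => hΦ w (h hw)

/-- image under a polynomial map -/
theorem top_zcl_image {ι κ : Type} (p : κ → MvPolynomial ι ℂ) {S : Set (ι → ℂ)} {z : ι → ℂ}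
    (hz : z ∈ top_zcl S) :
    (fun k => eval z (p k)) ∈ top_zcl ((fun w k => eval w (p k)) '' S) := by
  intro Φ hΦ
  have h1 : ∀ w : ι → ℂ, eval w (bind₁ p Φ) = eval (fun k => eval w (p k)) Φ := by
    intro w
    have : (eval w).comp (bind₁ p).toRingHom = eval (fun k => eval w (p k)) := by
      apply MvPolynomial.ringHom_ext
      · intro c; simp
      · intro i; simp
    exact congrArg (fun f => f Φ) this
  rw [← h1]
  apply hz
  intro w hw
  rw [h1]
  exact hΦ _ ⟨w, hw, rfl⟩

/-- image under a polynomial map, flexible form -/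
theorem top_zcl_image' {ι κ : Type} (p : κ → MvPolynomial ι ℂ) {S : Set (ι → ℂ)} {z : ι → ℂ}
    (hz : z ∈ top_zcl S) {S' : Set (κ → ℂ)} {z' : κ → ℂ}
    (hz' : ∀ k, z' k = eval z (p k))
    (hS : ∀ w ∈ S, (fun k => eval w (p k)) ∈ S') : z' ∈ top_zcl S' := by
  have h := top_zcl_image p hz
  have : z' = fun k => eval z (p k) := funext hz'
  rw [this]
  refine top_zcl_mono ?_ h
  rintro _ ⟨w, hw, rfl⟩
  exact hS w hw

/-- localisation -/
theorem top_zcl_localize {ι : Type} (G : MvPolynomial ι ℂ) {S : Set (ι → ℂ)} {z : ι → ℂ}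
    (hz : z ∈ top_zcl S) (hG : eval z G ≠ 0) : z ∈ top_zcl (S ∩ {w | eval w G ≠ 0}) := by
  intro Φ hΦ
  have h := hz (Φ * G) (by
    intro w hw
    by_cases hw0 : eval w G = 0
    · simp [hw0]
    · simp [hΦ w ⟨hw, hw0⟩])
  rw [map_mul] at h
  exact (mul_eq_zero.mp h).resolve_right hG

/-- products -/
theorem top_zcl_prod {ι κ : Type} {S : Set (ι → ℂ)} {S' : Set (κ → ℂ)} {z : ι → ℂ} {z' : κ → ℂ}
    (hz : z ∈ top_zcl S) (hz' : z' ∈ top_zcl S') :
    Sum.elim z z' ∈ top_zcl {w : ι ⊕ κ → ℂ | (fun i => w (Sum.inl i)) ∈ S ∧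
      (fun k => w (Sum.inr k)) ∈ S'} := by
  intro Φ hΦ
  -- first freeze the second variable at a point of `S'`
  have key1 : ∀ w' ∈ S', eval (Sum.elim z w') Φ = 0 := by
    intro w' hw'
    have h1 : ∀ w : ι → ℂ, eval w (aeval (Sum.elim X (fun k => C (w' k))) Φ) =
        eval (Sum.elim w w') Φ := by
      intro w
      have : (eval w).comp (aeval (Sum.elim X (fun k => C (w' k)) :
          ι ⊕ κ → MvPolynomial ι ℂ)).toRingHom = eval (Sum.elim w w') := by
        apply MvPolynomial.ringHom_ext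
        · intro c; simp
        · intro i; cases i <;> simp
      exact congrArg (fun f => f Φ) this
    rw [← h1]
    apply hz
    intro w hw
    rw [h1]
    exact hΦ _ ⟨by simpa using hw, by simpa using hw'⟩
  have h2 : ∀ w' : κ → ℂ, eval w' (aeval (Sum.elim (fun i => C (z i)) X) Φ) =
      eval (Sum.elim z w') Φ := by
    intro w'
    have : (eval w').comp (aeval (Sum.elim (fun i => C (z i)) X :
        ι ⊕ κ → MvPolynomial κ ℂ)).toRingHom = eval (Sum.elim z w') := by
      apply MvPolynomial.ringHom_ext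
      · intro c; simp
      · intro i; cases i <;> simp
    exact congrArg (fun f => f Φ) this
  rw [← h2]
  apply hz'
  intro w' hw'
  rw [h2]
  exact key1 w' hw'


theorem top_eval_option {ι : Type} (Φ : MvPolynomial (Option ι) ℂ) (w : ι → ℂ) (t : ℂ) :
    eval (fun o : Option ι => o.elim t w) Φ =
      (optionEquivLeft ℂ ι Φ).eval₂ (eval w) t := by
  have : (Polynomial.eval₂RingHom (eval w) t).comp (optionEquivLeft ℂ ι).toRingEquiv.toRingHom =
      eval (fun o : Option ι => o.elim t w) := by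
    apply MvPolynomial.ringHom_ext
    · intro c; simp
    · intro i; cases i <;> simp
  exact (congrArg (fun f => f Φ) this).symm

/-- a polynomial of degree `< n` vanishing at all `n`-th roots of a nonzero number is zero -/
theorem top_coeffs_zero_of_roots (n : ℕ) (hn : 0 < n) (c : ℕ → ℂ) (u : ℂ) (hu : u ≠ 0)
    (h : ∀ t : ℂ, t ^ n = u → ∑ e ∈ Finset.range n, c e * t ^ e = 0) :
    ∀ e < n, c e = 0 := by
  obtain ⟨t₀, ht₀⟩ := IsAlgClosed.exists_pow_nat_eq u hn
  have ht₀0 : t₀ ≠ 0 := by
    rintro rfl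
    rw [zero_pow hn.ne'] at ht₀
    exact hu ht₀.symm
  have hζ := Complex.isPrimitiveRoot_exp n hn.ne'
  set ζ := Complex.exp (2 * Real.pi * Complex.I / n) with hζdef
  let P : Polynomial ℂ := ∑ e ∈ Finset.range n, Polynomial.C (c e) * Polynomial.X ^ e
  have hP : P = 0 := by
    apply Polynomial.eq_zero_of_natDegree_lt_card_of_eval_eq_zero P
      (f := fun j : Fin n => t₀ * ζ ^ (j : ℕ))
    · intro i j hij
      have := mul_left_cancel₀ ht₀0 hij
      exact Fin.ext (hζ.pow_inj i.2 j.2 this)
    · intro j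
      have := h (t₀ * ζ ^ (j : ℕ)) (by
        rw [mul_pow, ht₀, ← pow_mul, mul_comm (j : ℕ), pow_mul, hζ.pow_eq_one, one_pow, mul_one])
      simpa [P, Polynomial.eval_finsetSum] using this
    · rw [Fintype.card_fin]
      have : P.degree < n := by
        apply lt_of_le_of_lt (Polynomial.degree_sum_le _ _)
        rw [Finset.sup_lt_iff (by exact WithBot.bot_lt_coe n)]
        intro e he
        apply lt_of_le_of_lt (Polynomial.degree_C_mul_X_pow_le _ _)
        exact_mod_cast Finset.mem_range.mp he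
      by_cases hP0 : P = 0
      · rw [hP0]; simpa using hn
      · exact (Polynomial.natDegree_lt_iff_degree_lt hP0).mpr this
  intro e he
  have := congrArg (fun Q => Polynomial.coeff Q e) hP
  simp only [P, Polynomial.finsetSum_coeff, Polynomial.coeff_C_mul_X_pow, Polynomial.coeff_zero] at this
  rw [Finset.sum_ite_eq] at this
  simpa [he] using this


/-- adjoining an `n`-th root of the inverse of a nonvanishing function -/
theorem top_zcl_root_twist {ι : Type} {S : Set (ι → ℂ)} (D : MvPolynomial ι ℂ) (n : ℕ)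
    (hn : 0 < n) (hS : ∀ w ∈ S, eval w D ≠ 0) {z : ι → ℂ} (hz : z ∈ top_zcl S) (τ : ℂ)
    (hτ : τ ^ n * eval z D = 1) :
    (fun o : Option ι => o.elim τ z) ∈ top_zcl {w' : Option ι → ℂ |
      (fun i => w' (some i)) ∈ S ∧ (w' none) ^ n * eval (fun i => w' (some i)) D = 1} := by
  intro Φ hΦ
  set p := optionEquivLeft ℂ ι Φ with hp
  set N := p.natDegree with hN
  let c : ℕ → MvPolynomial ι ℂ := fun e =>
    ∑ k ∈ Finset.range (N + 1), if k % n = e then p.coeff k * D ^ (N - k / n) else 0
  -- the key identity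
  have key : ∀ (w : ι → ℂ) (t : ℂ), t ^ n * eval w D = 1 →
      ∑ e ∈ Finset.range n, eval w (c e) * t ^ e =
        (eval w D) ^ N * eval (fun o : Option ι => o.elim t w) Φ := by
    intro w t ht
    rw [top_eval_option, ← hp, Polynomial.eval₂_eq_sum_range, Finset.mul_sum]
    simp only [c, map_sum, Finset.sum_mul]
    rw [Finset.sum_comm]
    apply Finset.sum_congr rfl
    intro k hk
    have hkN : k / n ≤ N := le_trans (Nat.div_le_self k n) (Nat.lt_succ_iff.mp (Finset.mem_range.mp hk))
    have h1 : ∀ e ∈ Finset.range n, eval w (if k % n = e then p.coeff k * D ^ (N - k / n) else 0) * t ^ e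
        = if k % n = e then eval w (p.coeff k) * (eval w D) ^ (N - k / n) * t ^ (k % n) else 0 := by
      intro e _
      split_ifs with h
      · rw [map_mul, map_pow, h]
      · simp
    rw [Finset.sum_congr rfl h1, Finset.sum_ite_eq, if_pos (Finset.mem_range.mpr (Nat.mod_lt k hn))]
    have h2 : (eval w D) ^ N = (eval w D) ^ (N - k / n) * (eval w D) ^ (k / n) := by
      rw [← pow_add, Nat.sub_add_cancel hkN]
    have h3 : t ^ k = t ^ (k % n) * (t ^ n) ^ (k / n) := by
      rw [← pow_mul, ← pow_add, Nat.mod_add_div]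
    have h4 : (eval w D) ^ (k / n) * (t ^ n) ^ (k / n) = 1 := by
      rw [← mul_pow, mul_comm, ht, one_pow]
    rw [h2, h3]
    calc eval w (p.coeff k) * eval w D ^ (N - k / n) * t ^ (k % n)
        = eval w (p.coeff k) * eval w D ^ (N - k / n) * t ^ (k % n) *
            ((eval w D) ^ (k / n) * (t ^ n) ^ (k / n)) := by rw [h4, mul_one]
      _ = _ := by ring
  -- the coefficients vanish on `S`
  have hc : ∀ e < n, ∀ w ∈ S, eval w (c e) = 0 := by
    intro e he w hw
    refine top_coeffs_zero_of_roots n hn (fun e => eval w (c e)) (eval w D)⁻¹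
      (inv_ne_zero (hS w hw)) ?_ e he
    intro t ht
    have ht' : t ^ n * eval w D = 1 := by rw [ht, inv_mul_cancel₀ (hS w hw)]
    rw [key w t ht', hΦ _ ⟨by simpa using hw, by simpa using ht'⟩, mul_zero]
  have hcz : ∀ e < n, eval z (c e) = 0 := fun e he => hz _ (hc e he)
  have hfin := key z τ hτ
  rw [Finset.sum_eq_zero (fun e he => by rw [hcz e (Finset.mem_range.mp he), zero_mul])] at hfin
  have hD : eval z D ≠ 0 := by
    intro h0
    rw [h0, mul_zero] at hτ
    exact zero_ne_one hτ
  exact (mul_eq_zero.mp hfin.symm).resolve_left (pow_ne_zero _ hD)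

end Claimed.Agent.R236
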