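/-
Row 236: top glue, determinant twist: from `GL(O_F)` points to `SL(O_L)` points.
-/
import Claimed.Agent.R236.TopZcl
import Claimed.Agent.R236.TopField

set_option autoImplicit false

namespace Claimed.Agent.R236

open MvPolynomial

/-- generic matrices -/
noncomputable def top_XMat {κ α : Type} (k : κ) : Matrix α α (MvPolynomial (κ × α × α) ℂ) :=
  fun p q => X (k, p, q)

theorem top_XMat_map {κ α : Type} [Fintype α] [DecidableEq α] (z : κ × α × α → ℂ) (k : κ) :
    (eval z).mapMatrix (top_XMat k) = top_mat z k := by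
  ext p q
  simp [top_XMat, top_mat]

theorem top_eval_det_XMat {κ α : Type} [Fintype α] [DecidableEq α] (z : κ × α × α → ℂ) (k : κ) :
    eval z (top_XMat k).det = (top_mat z k).det := by
  rw [RingHom.map_det, top_XMat_map]

theorem top_mat_vec {κ α : Type} (ρ : κ → Matrix α α ℂ) : top_mat (top_vec ρ) = ρ := rfl

theorem top_vec_mat {κ α : Type} (z : κ × α × α → ℂ) : top_vec (top_mat z) = z := rfl

section
variable {α : Type} [Fintype α] [DecidableEq α] {g s : ℕ}

theorem top_word_update_smul (ρ : top_Gen g s → Matrix α α ℂ) (h : Fin g × Fin 2) (t : ℂ)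
    (ht : t ≠ 0) (hu : IsUnit (ρ (Sum.inl h)).det) :
    top_word (Function.update ρ (Sum.inl h) (t • ρ (Sum.inl h))) = top_word ρ := by
  unfold top_word
  congr 1
  · congr 1
    apply List.map_congr_left
    intro i _
    have hinv : (t • ρ (Sum.inl h))⁻¹ = t⁻¹ • (ρ (Sum.inl h))⁻¹ := by
      apply Matrix.inv_eq_left_inv
      rw [Matrix.smul_mul, Matrix.mul_smul, smul_smul, inv_mul_cancel₀ ht, one_smul,
        Matrix.nonsing_inv_mul _ hu]
    obtain ⟨i₀, c⟩ := h
    by_cases hi : i = i₀
    · subst hi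
      fin_cases c
      · have h1 : (Sum.inl (i, (1 : Fin 2)) : top_Gen g s) ≠ Sum.inl (i, ⟨0, by omega⟩) := by
          intro h; simp at h
        simp only [Function.update_of_ne h1]
        have e0 : (Sum.inl (i, (0 : Fin 2)) : top_Gen g s) = Sum.inl (i, ⟨0, by omega⟩) := rfl
        rw [e0, Function.update_self, hinv]
        simp only [Matrix.smul_mul, Matrix.mul_smul, smul_smul, inv_mul_cancel₀ ht, one_smul]
      · have h1 : (Sum.inl (i, (0 : Fin 2)) : top_Gen g s) ≠ Sum.inl (i, ⟨1, by omega⟩) := by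
          intro h; simp at h
        have e0 : (Sum.inl (i, (1 : Fin 2)) : top_Gen g s) = Sum.inl (i, ⟨1, by omega⟩) := rfl
        rw [Function.update_of_ne h1, e0, Function.update_self, hinv]
        simp only [Matrix.smul_mul, Matrix.mul_smul, smul_smul, inv_mul_cancel₀ ht, one_smul]
    · have h0 : ∀ c' : Fin 2, (Sum.inl (i, c') : top_Gen g s) ≠ Sum.inl (i₀, c) := by
        intro c' h
        simp only [Sum.inl.injEq, Prod.mk.injEq] at h
        exact hi h.1
      rw [Function.update_of_ne (h0 0), Function.update_of_ne (h0 1)]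

/-- intermediate sets of the twisting induction -/
def top_GoodT (F L : IntermediateField ℚ ℂ) (Q : (top_Gen g s → Matrix α α ℂ) → Prop)
    (H : Finset (Fin g × Fin 2)) : Set (top_Gen g s × α × α → ℂ) :=
  {z | (∀ v, z v ∈ top_O L) ∧
    (∀ h, h ∉ H → (top_mat z (Sum.inl h)).det ≠ 0 ∧ (top_mat z (Sum.inl h)).det ∈ top_O F ∧
      ((top_mat z (Sum.inl h)).det)⁻¹ ∈ top_O F) ∧
    (∀ h ∈ H, (top_mat z (Sum.inl h)).det = 1) ∧
    top_word (top_mat z) = 1 ∧ Q (top_mat z)}

theorem top_det_mem {R : Subring ℂ} {M : Matrix α α ℂ} (h : ∀ p q, M p q ∈ R) : M.det ∈ R := by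
  rw [Matrix.det_apply]
  apply Subring.sum_mem
  intro σ _
  apply Subring.zsmul_mem
  exact Subring.prod_mem _ fun i _ => h _ _


theorem top_twist_step (F L : IntermediateField ℚ ℂ) (hn : 0 < Fintype.card α)
    (hL : ∀ u t : ℂ, u ∈ top_O F → u⁻¹ ∈ top_O F → u ≠ 0 → t ^ (Fintype.card α) = u → t ∈ L)
    (Q : (top_Gen g s → Matrix α α ℂ) → Prop)
    (hQ : ∀ ρ h (t : ℂ), t ≠ 0 → Q ρ → Q (Function.update ρ (Sum.inl h) (t • ρ (Sum.inl h))))
    (H : Finset (Fin g × Fin 2)) (h : Fin g × Fin 2) (hh : h ∉ H)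
    (z : top_Gen g s × α × α → ℂ) (hdet : (top_mat z (Sum.inl h)).det = 1)
    (hz : z ∈ top_zcl (top_GoodT F L Q H)) :
    z ∈ top_zcl (top_GoodT F L Q (insert h H)) := by
  have h1 := top_zcl_root_twist (S := top_GoodT F L Q H)
    (D := (top_XMat (Sum.inl h) : Matrix α α (MvPolynomial (top_Gen g s × α × α) ℂ)).det)
    (Fintype.card α) hn (by
      intro w hw
      rw [top_eval_det_XMat]
      exact (hw.2.1 h hh).1) hz 1 (by rw [top_eval_det_XMat, hdet]; simp)
  let p : top_Gen g s × α × α → MvPolynomial (Option (top_Gen g s × α × α)) ℂ := fun v =>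
    if v.1 = Sum.inl h then X none * X (some v) else X (some v)
  refine top_zcl_image' p h1 ?_ ?_
  · intro v
    simp only [p]
    split_ifs <;> simp
  · rintro w' ⟨hw, ht⟩
    set w : top_Gen g s × α × α → ℂ := fun i => w' (some i) with hwdef
    set t : ℂ := w' none with htdef
    rw [top_eval_det_XMat] at ht
    obtain ⟨hw1, hw2, hw3, hw4, hw5⟩ := hw
    obtain ⟨hd0, hd1, hd2⟩ := hw2 h hh
    have ht0 : t ≠ 0 := by
      rintro h0
      rw [h0, zero_pow hn.ne', zero_mul] at ht
      exact zero_ne_one ht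
    have htn : t ^ (Fintype.card α) = ((top_mat w (Sum.inl h)).det)⁻¹ :=
      eq_inv_of_mul_eq_one_left ht
    have htL : t ∈ top_O L := by
      rw [top_mem_O]
      refine ⟨hL _ t hd2 (by rwa [inv_inv]) (inv_ne_zero hd0) htn, ?_⟩
      apply IsIntegral.of_pow hn
      rw [htn]
      exact (top_mem_O.mp hd2).2
    have himg : (fun v => eval w' (p v)) =
        fun v => if v.1 = Sum.inl h then t * w v else w v := by
      funext v
      simp only [p]
      split_ifs <;> simp [w, t]
    have hmat : top_mat (fun v => eval w' (p v)) =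
        Function.update (top_mat w) (Sum.inl h) (t • top_mat w (Sum.inl h)) := by
      rw [himg]
      funext γ
      by_cases hγ : γ = Sum.inl h
      · subst hγ
        rw [Function.update_self]
        ext a b
        simp [top_mat]
      · rw [Function.update_of_ne hγ]
        ext a b
        simp [top_mat, hγ]
    refine ⟨?_, ?_, ?_, ?_, ?_⟩
    · intro v
      rw [himg]
      show (if v.1 = Sum.inl h then t * w v else w v) ∈ top_O L
      split_ifs
      · exact mul_mem htL (hw1 v)
      · exact hw1 v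
    · intro h' hh'
      have hne : h' ≠ h := fun e => hh' (by rw [e]; exact Finset.mem_insert_self _ _)
      have hne' : (Sum.inl h' : top_Gen g s) ≠ Sum.inl h := fun e => hne (Sum.inl.inj e)
      rw [hmat, Function.update_of_ne hne']
      exact hw2 h' (fun e => hh' (Finset.mem_insert_of_mem e))
    · intro h' hh'
      rw [hmat]
      rcases Finset.mem_insert.mp hh' with rfl | hh''
      · rw [Function.update_self, Matrix.det_smul, ht]
      · have hne : h' ≠ h := fun e => hh (e ▸ hh'')
        have hne' : (Sum.inl h' : top_Gen g s) ≠ Sum.inl h := fun e => hne (Sum.inl.inj e)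
        rw [Function.update_of_ne hne']
        exact hw3 h' hh''
    · rw [hmat, top_word_update_smul _ _ _ ht0 (isUnit_iff_ne_zero.mpr hd0)]
      exact hw4
    · rw [hmat]
      exact hQ _ _ _ ht0 hw5

/-- **Determinant twist.** -/
theorem top_twist (F L : IntermediateField ℚ ℂ) (hFL : F ≤ L) (hn : 0 < Fintype.card α)
    (hL : ∀ u t : ℂ, u ∈ top_O F → u⁻¹ ∈ top_O F → u ≠ 0 → t ^ (Fintype.card α) = u → t ∈ L)
    (Q : (top_Gen g s → Matrix α α ℂ) → Prop)
    (hQ : ∀ ρ h (t : ℂ), t ≠ 0 → Q ρ → Q (Function.update ρ (Sum.inl h) (t • ρ (Sum.inl h))))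
    (z : top_Gen g s × α × α → ℂ) (hdet : ∀ h, (top_mat z (Sum.inl h)).det = 1)
    (hz : z ∈ top_zcl (top_Good F Q)) : z ∈ top_zcl (top_GoodSL L Q) := by
  have h0 : z ∈ top_zcl (top_GoodT F L Q ∅) := by
    refine top_zcl_mono ?_ hz
    rintro w ⟨hw1, hw2, hw3, hw4⟩
    refine ⟨fun v => top_O_mono hFL (hw1 v), fun h _ => ⟨(hw2 h).1, ?_, (hw2 h).2⟩, ?_, hw3, hw4⟩
    · exact top_det_mem fun p q => hw1 _
    · intro h hh
      simp at hh
  have h1 : ∀ H : Finset (Fin g × Fin 2), z ∈ top_zcl (top_GoodT F L Q H) := by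
    intro H
    induction H using Finset.induction_on with
    | empty => exact h0
    | insert h H hh ih => exact top_twist_step F L hn hL Q hQ H h hh z (hdet h) ih
  refine top_zcl_mono ?_ (h1 Finset.univ)
  rintro w ⟨hw1, _, hw3, hw4, hw5⟩
  exact ⟨hw1, fun h => hw3 h (Finset.mem_univ _), hw4, hw5⟩

end

end Claimed.Agent.R236
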