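/-
Row 236: top glue, the polynomial map from the flag variety `N` to representations.
-/
import Claimed.Agent.R236.TopTwist

set_option autoImplicit false

namespace Claimed.Agent.R236

open MvPolynomial

section
variable {α : Type} [Fintype α] [DecidableEq α] {g s : ℕ}

/-- the representation attached to a point of `N`, as matrices of polynomials -/
noncomputable def top_NMapMat (γ : top_Gen g s) :
    Matrix α α (MvPolynomial (top_NGen g s × α × α) ℂ) :=
  match γ with
  | Sum.inl (i, c) => top_XMat (Sum.inl (i, if c = 0 then 0 else 2))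
  | Sum.inr j => top_XMat (Sum.inr (j, 0)) * top_XMat (Sum.inr (j, 2)) * top_XMat (Sum.inr (j, 1))

/-- the polynomial map `N → Rep` -/
noncomputable def top_NMap (v : top_Gen g s × α × α) : MvPolynomial (top_NGen g s × α × α) ℂ :=
  top_NMapMat v.1 v.2.1 v.2.2

/-- the representation attached to a point of `N` -/
def top_NRep (z : top_NGen g s × α × α → ℂ) (γ : top_Gen g s) : Matrix α α ℂ :=
  match γ with
  | Sum.inl (i, c) => top_mat z (Sum.inl (i, if c = 0 then 0 else 2))
  | Sum.inr j => top_mat z (Sum.inr (j, 0)) * top_mat z (Sum.inr (j, 2)) * top_mat z (Sum.inr (j, 1))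

theorem top_NMapMat_eval (z : top_NGen g s × α × α → ℂ) (γ : top_Gen g s) :
    (eval z).mapMatrix (top_NMapMat γ) = top_NRep z γ := by
  rcases γ with ⟨i, c⟩ | j
  · simp only [top_NMapMat, top_NRep, top_XMat_map]
  · simp only [top_NMapMat, top_NRep, map_mul, top_XMat_map]

theorem top_NMap_eval (z : top_NGen g s × α × α → ℂ) :
    (fun v => eval z (top_NMap v)) = top_vec (top_NRep z) := by
  funext v
  have := congrFun (congrFun (top_NMapMat_eval z v.1) v.2.1) v.2.2
  simpa [top_NMap, top_vec] using this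

omit [DecidableEq α] in
theorem top_mul_mem {R : Subring ℂ} {M M' : Matrix α α ℂ} (h : ∀ p q, M p q ∈ R)
    (h' : ∀ p q, M' p q ∈ R) : ∀ p q, (M * M') p q ∈ R := by
  intro p q
  rw [Matrix.mul_apply]
  exact Subring.sum_mem _ fun i _ => mul_mem (h _ _) (h' _ _)

theorem top_NRep_word {blk : Fin s → α → ℕ} {lam : Fin s → ℕ → ℂ}
    {z : top_NGen g s × α × α → ℂ} (hz : z ∈ top_NSol g s blk lam) :
    top_word (top_NRep z) = 1 := by
  obtain ⟨hA, hB, _, _, hrel⟩ := hz
  rw [← hrel]
  unfold top_word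
  congr 1
  congr 1
  apply List.map_congr_left
  intro i _
  have h0 : top_NRep z (Sum.inl (i, 0)) = top_mat z (Sum.inl (i, 0)) := by simp [top_NRep]
  have h1 : top_NRep z (Sum.inl (i, 1)) = top_mat z (Sum.inl (i, 2)) := by simp [top_NRep]
  rw [h0, h1, Matrix.inv_eq_right_inv (hA i), Matrix.inv_eq_right_inv (hB i)]

/-- integral points of `N` give integral representations -/
theorem top_NRep_good {blk : Fin s → α → ℕ} {lam : Fin s → ℕ → ℂ} {F : IntermediateField ℚ ℂ}
    {z : top_NGen g s × α × α → ℂ} (hz : z ∈ top_NSol g s blk lam) (hint : ∀ v, z v ∈ top_O F)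
    (Q : (top_Gen g s → Matrix α α ℂ) → Prop) (hQ : Q (top_NRep z)) :
    top_vec (top_NRep z) ∈ top_Good F Q := by
  have hm : ∀ k p q, top_mat z k p q ∈ top_O F := fun k p q => hint _
  refine ⟨?_, ?_, top_NRep_word hz, hQ⟩
  · rintro ⟨γ, p, q⟩
    rcases γ with ⟨i, c⟩ | j
    · exact hint _
    · exact top_mul_mem (top_mul_mem (hm _) (hm _)) (hm _) p q
  · rintro ⟨i, c⟩
    obtain ⟨hA, hB, _, _, _⟩ := hz
    rw [top_mat_vec]
    have key : ∀ k k' : top_NGen g s, top_mat z k * top_mat z k' = 1 →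
        (top_mat z k).det ≠ 0 ∧ ((top_mat z k).det)⁻¹ ∈ top_O F := by
      intro k k' h
      have hd : (top_mat z k).det * (top_mat z k').det = 1 := by
        rw [← Matrix.det_mul, h, Matrix.det_one]
      refine ⟨left_ne_zero_of_mul_eq_one hd, ?_⟩
      rw [← eq_inv_of_mul_eq_one_right hd]
      exact top_det_mem (hm k')
    by_cases hc : c = 0
    · subst hc
      simpa [top_NRep] using key _ _ (hA i)
    · simpa [top_NRep, hc] using key _ _ (hB i)

/-- the point of `N` attached to a representation with chosen triangularisations -/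
noncomputable def top_NPoint (ρ : top_Gen g s → Matrix α α ℂ) (P T P' : Fin s → Matrix α α ℂ) :
    top_NGen g s × α × α → ℂ :=
  top_vec fun k => match k with
    | Sum.inl (i, c) =>
      if c = 0 then ρ (Sum.inl (i, 0)) else if c = 1 then (ρ (Sum.inl (i, 0)))⁻¹
      else if c = 2 then ρ (Sum.inl (i, 1)) else (ρ (Sum.inl (i, 1)))⁻¹
    | Sum.inr (j, c) => if c = 0 then P j else if c = 1 then P' j else T j

theorem top_NPoint_mem {ρ : top_Gen g s → Matrix α α ℂ} (hρ : top_GLRep ρ)
    {P T P' : Fin s → Matrix α α ℂ} {blk : Fin s → α → ℕ} {lam : Fin s → ℕ → ℂ}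
    (hP : ∀ j, P j * P' j = 1) (hT : ∀ j, top_IsOfType (blk j) (lam j) (T j))
    (hρP : ∀ j, ρ (Sum.inr j) = P j * T j * P' j) :
    top_NPoint ρ P T P' ∈ top_NSol g s blk lam := by
  refine ⟨?_, ?_, ?_, ?_, ?_⟩
  · intro i
    simp only [top_NPoint, top_mat_vec]
    simpa using Matrix.mul_nonsing_inv _ (hρ.1 _)
  · intro i
    simp only [top_NPoint, top_mat_vec]
    simpa using Matrix.mul_nonsing_inv _ (hρ.1 _)
  · intro j
    simp only [top_NPoint, top_mat_vec]
    simpa using hP j
  · intro j
    simp only [top_NPoint, top_mat_vec]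
    simpa using hT j
  · rw [← hρ.2]
    unfold top_word
    simp only [top_NPoint, top_mat_vec]
    simp [hρP]

theorem top_NRep_NPoint (ρ : top_Gen g s → Matrix α α ℂ)
    {P T P' : Fin s → Matrix α α ℂ} (hρP : ∀ j, ρ (Sum.inr j) = P j * T j * P' j) :
    top_NRep (top_NPoint ρ P T P') = ρ := by
  funext γ
  rcases γ with ⟨i, c⟩ | j
  · simp only [top_NRep, top_NPoint, top_mat_vec]
    fin_cases c <;> simp
  · simp only [top_NRep, top_NPoint, top_mat_vec]
    simp [hρP j]

end

end Claimed.Agent.R236
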