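/-
Row 236: top glue, S0471 from the single input `top_ThmN r g 0 ⊥`.
-/
import Claimed.Prelude.Def_0399
import Claimed.Agent.R236.TopNMap

set_option autoImplicit false

namespace Claimed.Agent.R236

open MvPolynomial Claims.C0399

theorem top_aeval_mem {σ : Type} {R : Subring ℂ} {x : σ → ℂ} (hx : ∀ v, x v ∈ R)
    (h : MvPolynomial σ ℤ) : aeval x h ∈ R := by
  induction h using MvPolynomial.induction_on with
  | C a => simp
  | add p q hp hq => rw [map_add]; exact add_mem hp hq
  | mul_X p i hp => rw [map_mul, aeval_X]; exact mul_mem hp (hx i)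

theorem top_inv_eq_adjugate {α : Type} [Fintype α] [DecidableEq α] {M : Matrix α α ℂ}
    (h : M.det = 1) : M⁻¹ = M.adjugate := by
  rw [Matrix.inv_def, h]; simp

/-- evaluation of an integer polynomial, after base change and renaming -/
theorem top_eval_rename_map {σ τ : Type} (e : σ → τ) (z : τ → ℂ) (f : MvPolynomial σ ℤ) :
    eval z (rename e (map (Int.castRingHom ℂ) f)) = aeval (z ∘ e) f := by
  rw [eval_rename, eval_map, aeval_def]
  rfl

section
variable {g r : ℕ}

/-- matrices of a point of the frozen representation variety -/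
def top_repMat471 (ρ : RepVar g r → ℂ) (i : Fin g) (c : Fin 2) : Matrix (Fin r) (Fin r) ℂ :=
  fun p q => ρ (i, c, p, q)

theorem top_aeval_varMat (ρ : RepVar g r → ℂ) (i : Fin g) (c : Fin 2) :
    (aeval ρ : MvPolynomial (RepVar g r) ℤ →ₐ[ℤ] ℂ).toRingHom.mapMatrix (varMat id i c) =
      top_repMat471 ρ i c := by
  ext p q
  simp [varMat, top_repMat471]

theorem top_isComplexRep_iff (ρ : RepVar g r → ℂ) :
    IsComplexRep ρ ↔ (∀ i c, (top_repMat471 ρ i c).det = 1) ∧
      ((List.finRange g).map fun i => top_repMat471 ρ i 0 * top_repMat471 ρ i 1 *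
        (top_repMat471 ρ i 0).adjugate * (top_repMat471 ρ i 1).adjugate).prod = 1 := by
  set φ : MvPolynomial (RepVar g r) ℤ →+* ℂ :=
    (aeval ρ : MvPolynomial (RepVar g r) ℤ →ₐ[ℤ] ℂ).toRingHom with hφ
  have hdet : ∀ i c, φ ((varMat id i c).det - 1) = (top_repMat471 ρ i c).det - 1 := by
    intro i c
    rw [map_sub, map_one, RingHom.map_det, hφ, top_aeval_varMat]
  have hword : φ.mapMatrix (surfaceWord g r) =
      ((List.finRange g).map fun i => top_repMat471 ρ i 0 * top_repMat471 ρ i 1 *
        (top_repMat471 ρ i 0).adjugate * (top_repMat471 ρ i 1).adjugate).prod := by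
    unfold surfaceWord
    rw [map_list_prod, List.map_map]
    congr 1
    apply List.map_congr_left
    intro i _
    simp only [Function.comp, map_mul, RingHom.map_adjugate]
    rw [hφ, top_aeval_varMat, top_aeval_varMat]
  have h1 : IsComplexRep ρ ↔ repIdeal g r ≤ RingHom.ker φ := by
    constructor
    · intro h f hf
      exact h f hf
    · intro h f hf
      exact h hf
  rw [h1, repIdeal, Ideal.span_le, Set.union_subset_iff]
  constructor
  · rintro ⟨ha, hb⟩
    constructor
    · intro i c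
      have : φ ((varMat id i c).det - 1) = 0 := ha ⟨i, c, rfl⟩
      rw [hdet] at this
      exact sub_eq_zero.mp this
    · rw [← hword]
      ext p q
      have : φ ((surfaceWord g r - 1) p q) = 0 := hb ⟨p, q, rfl⟩
      rw [Matrix.sub_apply, map_sub] at this
      have h2 := sub_eq_zero.mp this
      rw [RingHom.mapMatrix_apply, Matrix.map_apply, h2]
      by_cases hpq : p = q
      · subst hpq; simp
      · simp [Matrix.one_apply_ne hpq]
  · rintro ⟨ha, hb⟩
    constructor
    · rintro _ ⟨i, c, rfl⟩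
      show φ _ = 0
      rw [hdet, ha, sub_self]
    · rintro _ ⟨p, q, rfl⟩
      show φ _ = 0
      rw [← hword] at hb
      have := congrFun (congrFun hb p) q
      rw [RingHom.mapMatrix_apply, Matrix.map_apply] at this
      rw [Matrix.sub_apply, map_sub, this]
      by_cases hpq : p = q
      · subst hpq; simp
      · simp [Matrix.one_apply_ne hpq]

/-- reindexing of the variables -/
def top_e471 (v : RepVar g r) : top_Gen g 0 × Fin r × Fin r :=
  (Sum.inl (v.1, v.2.1), v.2.2.1, v.2.2.2)

theorem top_isComplexRep_comp (z : top_Gen g 0 × Fin r × Fin r → ℂ) :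
    IsComplexRep (z ∘ top_e471) ↔ (∀ h, (top_mat z (Sum.inl h)).det = 1) ∧
      top_word (top_mat z) = 1 := by
  rw [top_isComplexRep_iff]
  have hm : ∀ i c, top_repMat471 (z ∘ top_e471) i c = top_mat z (Sum.inl (i, c)) := fun i c => rfl
  simp only [hm]
  constructor
  · rintro ⟨h1, h2⟩
    refine ⟨fun h => h1 h.1 h.2, ?_⟩
    unfold top_word
    simp only [top_inv_eq_adjugate (h1 _ _)]
    simpa using h2
  · rintro ⟨h1, h2⟩
    refine ⟨fun i c => h1 (i, c), ?_⟩
    unfold top_word at h2
    simp only [top_inv_eq_adjugate (h1 _)] at h2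
    simpa using h2

end

/-- **S0471 from the single input.** -/
theorem top_S0471 (g r : ℕ) (hr : 1 ≤ r) (hN : top_ThmN r g 0 ⊥) :
    ∃ L : IntermediateField ℚ ℂ, FiniteDimensional ℚ L ∧
      ∀ (m : ℕ) (f : Fin m → MvPolynomial (RepVar g r) ℤ) (c : Fin m → ℂ),
        (∀ i, IsConjInvariant (f i)) →
        (∀ ρ, IsComplexRep ρ →
          (∀ h : MvPolynomial (RepVar g r) ℤ, IsConjInvariant h →
            MvPolynomial.aeval ρ h ∈ L ∧ IsIntegral ℤ (MvPolynomial.aeval ρ h)) →
          ∑ i, c i * MvPolynomial.aeval ρ (f i) = 0) →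
        ∀ ρ, IsComplexRep ρ → ∑ i, c i * MvPolynomial.aeval ρ (f i) = 0 := by
  obtain ⟨F, hFfin, _, hF⟩ := hN
  obtain ⟨L, hLfin, hFL, hL⟩ := top_exists_root_field F hFfin r hr
  refine ⟨L, hLfin, ?_⟩
  intro m f c _ hvan ρ hρ
  -- the point in our coordinates
  let z₀ : top_Gen g 0 × Fin r × Fin r → ℂ := fun v =>
    match v.1 with
    | Sum.inl h => ρ (h.1, h.2, v.2.1, v.2.2)
    | Sum.inr j => j.elim0
  have hz₀ : z₀ ∘ top_e471 = ρ := rfl
  rw [← hz₀] at hρ ⊢
  obtain ⟨hdet, hword⟩ := (top_isComplexRep_comp z₀).mp hρ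
  let Φ : MvPolynomial (top_Gen g 0 × Fin r × Fin r) ℂ :=
    ∑ i, C (c i) * rename top_e471 (map (Int.castRingHom ℂ) (f i))
  have hΦ : ∀ z, eval z Φ = ∑ i, c i * aeval (z ∘ top_e471) (f i) := by
    intro z
    simp only [Φ, map_sum, map_mul, eval_C, top_eval_rename_map]
  rw [← hΦ]
  -- density
  have hGL : top_GLRep (top_mat z₀) := by
    refine ⟨?_, hword⟩
    rintro (h | j)
    · rw [hdet h]; exact isUnit_one
    · exact j.elim0
  have h1 : z₀ ∈ top_zcl (top_Good F fun _ => True) := by
    have hP : top_NPoint (top_mat z₀) (fun j => j.elim0) (fun j => j.elim0) (fun j => j.elim0) ∈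
        top_NSol g 0 (fun j => j.elim0) (fun j => j.elim0) :=
      top_NPoint_mem hGL (fun j => j.elim0) (fun j => j.elim0) (fun j => j.elim0)
    have h2 := hF (Fin r) (by simp) (fun j => j.elim0) (fun j => j.elim0) (fun j => j.elim0) hP
    refine top_zcl_image' top_NMap h2 ?_ ?_
    · intro k
      have := congrFun (top_NMap_eval (top_NPoint (top_mat z₀) (fun j => j.elim0)
        (fun j => j.elim0) (fun j => j.elim0))) k
      rw [this, top_NRep_NPoint _ (fun j => j.elim0)]
      rfl
    · rintro w ⟨hw1, hw2⟩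
      rw [top_NMap_eval]
      exact top_NRep_good hw1 hw2 _ trivial
  have h3 : z₀ ∈ top_zcl (top_GoodSL L fun _ => True) :=
    top_twist F L hFL (by simpa using Nat.lt_of_lt_of_le Nat.zero_lt_one hr) (by simpa using hL) _ (fun _ _ _ _ _ => trivial) z₀ hdet h1
  apply h3
  rintro w ⟨hw1, hw2, hw3, _⟩
  rw [hΦ]
  apply hvan
  · exact (top_isComplexRep_comp w).mpr ⟨hw2, hw3⟩
  · intro h _
    exact top_mem_O.mp (top_aeval_mem (fun v => hw1 _) h)

end Claimed.Agent.R236
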