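/-
Row 236: top glue, linear algebra of similarity, conjugation, blocks and complete reducibility.
-/
import Claimed.Agent.R236.TopDefs

set_option autoImplicit false

namespace Claimed.Agent.R236

section
variable {α β γ' : Type} [Fintype α] [DecidableEq α] [Fintype β] [DecidableEq β]
  [Fintype γ'] [DecidableEq γ'] {κ : Type}

/-! ### Similarity -/

theorem top_Sim.refl (M : Matrix α α ℂ) : top_Sim M M :=
  ⟨1, 1, by simp, by simp, by simp⟩

theorem top_Sim.symm {M : Matrix α α ℂ} {M' : Matrix β β ℂ} (h : top_Sim M M') : top_Sim M' M := by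
  obtain ⟨P, Q, hPQ, hQP, rfl⟩ := h
  refine ⟨Q, P, hQP, hPQ, ?_⟩
  calc M' = (Q * P) * M' * (Q * P) := by rw [hQP]; simp
    _ = Q * (P * M' * Q) * P := by simp only [Matrix.mul_assoc]

theorem top_Sim.trans {M : Matrix α α ℂ} {M' : Matrix β β ℂ} {M'' : Matrix γ' γ' ℂ}
    (h : top_Sim M M') (h' : top_Sim M' M'') : top_Sim M M'' := by
  obtain ⟨P, Q, hPQ, hQP, rfl⟩ := h
  obtain ⟨P', Q', hPQ', hQP', rfl⟩ := h'
  refine ⟨P * P', Q' * Q, ?_, ?_, by simp only [Matrix.mul_assoc]⟩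
  · calc P * P' * (Q' * Q) = P * (P' * Q') * Q := by simp only [Matrix.mul_assoc]
      _ = 1 := by rw [hPQ']; simpa using hPQ
  · calc Q' * Q * (P * P') = Q' * (Q * P) * P' := by simp only [Matrix.mul_assoc]
      _ = 1 := by rw [hQP]; simpa using hQP'

theorem top_Sim.det_eq {M : Matrix α α ℂ} {M' : Matrix β β ℂ} (h : top_Sim M M') :
    M.det = M'.det := by
  obtain ⟨P, Q, hPQ, hQP, rfl⟩ := h
  exact Matrix.det_conj_of_mul_eq_one hPQ hQP

theorem top_Sim_iff {M M' : Matrix α α ℂ} :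
    top_Sim M M' ↔ ∃ P : Matrix α α ℂ, IsUnit P.det ∧ M = P * M' * P⁻¹ := by
  constructor
  · rintro ⟨P, Q, hPQ, _, rfl⟩
    refine ⟨P, Matrix.isUnit_det_of_right_inverse hPQ, ?_⟩
    rw [Matrix.inv_eq_right_inv hPQ]
  · rintro ⟨P, hP, rfl⟩
    exact ⟨P, P⁻¹, Matrix.mul_nonsing_inv _ hP, Matrix.nonsing_inv_mul _ hP, rfl⟩

theorem top_Sim_submatrix (e : α ≃ β) (M : Matrix β β ℂ) : top_Sim (M.submatrix e e) M := by
  refine ⟨(1 : Matrix β β ℂ).submatrix e id, (1 : Matrix β β ℂ).submatrix id e, ?_, ?_, ?_⟩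
  · rw [← Matrix.submatrix_mul _ _ e id e Function.bijective_id]
    simp
  · have := Matrix.submatrix_mul (1 : Matrix β β ℂ) (1 : Matrix β β ℂ) id e id e.bijective
    rw [← this]; simp
  · ext a b
    simp [Matrix.mul_apply, Matrix.one_apply]

theorem top_Sim_fromBlocks {A : Matrix α α ℂ} {A' : Matrix β β ℂ} {δ ε : Type} [Fintype δ]
    [DecidableEq δ] [Fintype ε] [DecidableEq ε] {D : Matrix δ δ ℂ} {D' : Matrix ε ε ℂ}
    (h : top_Sim A A') (h' : top_Sim D D') :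
    top_Sim (Matrix.fromBlocks A 0 0 D) (Matrix.fromBlocks A' 0 0 D') := by
  obtain ⟨P, Q, hPQ, hQP, rfl⟩ := h
  obtain ⟨P', Q', hPQ', hQP', rfl⟩ := h'
  refine ⟨Matrix.fromBlocks P 0 0 P', Matrix.fromBlocks Q 0 0 Q', ?_, ?_, ?_⟩
  · simp [Matrix.fromBlocks_multiply, hPQ, hPQ']
  · simp [Matrix.fromBlocks_multiply, hQP, hQP']
  · simp [Matrix.fromBlocks_multiply]

/-! ### Conjugation of tuples -/

theorem top_Conj.refl (ρ : κ → Matrix α α ℂ) : top_Conj ρ ρ :=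
  ⟨1, 1, by simp, by simp, by simp⟩

theorem top_Conj.symm {ρ : κ → Matrix α α ℂ} {ρ' : κ → Matrix β β ℂ} (h : top_Conj ρ ρ') :
    top_Conj ρ' ρ := by
  obtain ⟨P, Q, hPQ, hQP, h⟩ := h
  refine ⟨Q, P, hQP, hPQ, fun k => ?_⟩
  rw [h k]
  calc ρ' k = (Q * P) * ρ' k * (Q * P) := by rw [hQP]; simp
    _ = Q * (P * ρ' k * Q) * P := by simp only [Matrix.mul_assoc]

theorem top_Conj.trans {ρ : κ → Matrix α α ℂ} {ρ' : κ → Matrix β β ℂ} {ρ'' : κ → Matrix γ' γ' ℂ}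
    (h : top_Conj ρ ρ') (h' : top_Conj ρ' ρ'') : top_Conj ρ ρ'' := by
  obtain ⟨P, Q, hPQ, hQP, h⟩ := h
  obtain ⟨P', Q', hPQ', hQP', h'⟩ := h'
  refine ⟨P * P', Q' * Q, ?_, ?_, fun k => by rw [h k, h' k]; simp only [Matrix.mul_assoc]⟩
  · calc P * P' * (Q' * Q) = P * (P' * Q') * Q := by simp only [Matrix.mul_assoc]
      _ = 1 := by rw [hPQ']; simpa using hPQ
  · calc Q' * Q * (P * P') = Q' * (Q * P) * P' := by simp only [Matrix.mul_assoc]
      _ = 1 := by rw [hQP]; simpa using hQP'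

theorem top_Conj.sim {ρ : κ → Matrix α α ℂ} {ρ' : κ → Matrix β β ℂ} (h : top_Conj ρ ρ') (k : κ) :
    top_Sim (ρ k) (ρ' k) := by
  obtain ⟨P, Q, hPQ, hQP, h⟩ := h
  exact ⟨P, Q, hPQ, hQP, h k⟩

theorem top_Conj_submatrix (e : α ≃ β) (ρ : κ → Matrix β β ℂ) :
    top_Conj (fun k => (ρ k).submatrix e e) ρ := by
  refine ⟨(1 : Matrix β β ℂ).submatrix e id, (1 : Matrix β β ℂ).submatrix id e, ?_, ?_, ?_⟩
  · rw [← Matrix.submatrix_mul _ _ e id e Function.bijective_id]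
    simp
  · have := Matrix.submatrix_mul (1 : Matrix β β ℂ) (1 : Matrix β β ℂ) id e id e.bijective
    rw [← this]; simp
  · intro k
    ext a b
    simp [Matrix.mul_apply, Matrix.one_apply]

/-- block diagonal tuples -/
def top_blk (ρ₁ : κ → Matrix α α ℂ) (ρ₂ : κ → Matrix β β ℂ) : κ → Matrix (α ⊕ β) (α ⊕ β) ℂ :=
  fun k => Matrix.fromBlocks (ρ₁ k) 0 0 (ρ₂ k)

theorem top_Conj_blk {δ ε : Type} [Fintype δ] [DecidableEq δ] [Fintype ε] [DecidableEq ε]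
    {ρ₁ : κ → Matrix α α ℂ} {ρ₁' : κ → Matrix β β ℂ} {ρ₂ : κ → Matrix δ δ ℂ}
    {ρ₂' : κ → Matrix ε ε ℂ} (h : top_Conj ρ₁ ρ₁') (h' : top_Conj ρ₂ ρ₂') :
    top_Conj (top_blk ρ₁ ρ₂) (top_blk ρ₁' ρ₂') := by
  obtain ⟨P, Q, hPQ, hQP, h⟩ := h
  obtain ⟨P', Q', hPQ', hQP', h'⟩ := h'
  refine ⟨Matrix.fromBlocks P 0 0 P', Matrix.fromBlocks Q 0 0 Q', ?_, ?_, ?_⟩
  · simp [Matrix.fromBlocks_multiply, hPQ, hPQ']
  · simp [Matrix.fromBlocks_multiply, hQP, hQP']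
  · intro k
    simp [top_blk, Matrix.fromBlocks_multiply, h k, h' k]


/-! ### Words -/

theorem top_list_prod_conj {ι : Type} {P : Matrix α β ℂ} {Q : Matrix β α ℂ} (hPQ : P * Q = 1)
    (hQP : Q * P = 1) (l : List ι) (f : ι → Matrix β β ℂ) :
    (l.map fun x => P * f x * Q).prod = P * (l.map f).prod * Q := by
  induction l with
  | nil => simp [hPQ]
  | cons a l ih =>
    rw [List.map_cons, List.prod_cons, ih, List.map_cons, List.prod_cons]
    calc P * f a * Q * (P * (l.map f).prod * Q) = P * f a * (Q * P) * (l.map f).prod * Q := by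
          simp only [Matrix.mul_assoc]
      _ = _ := by rw [hQP]; simp only [Matrix.mul_assoc, Matrix.mul_one]

theorem top_inv_conj {P : Matrix α β ℂ} {Q : Matrix β α ℂ} (hPQ : P * Q = 1)
    (hQP : Q * P = 1) {A : Matrix β β ℂ} (hA : IsUnit A.det) : (P * A * Q)⁻¹ = P * A⁻¹ * Q := by
  apply Matrix.inv_eq_right_inv
  calc P * A * Q * (P * A⁻¹ * Q) = P * A * (Q * P) * A⁻¹ * Q := by simp only [Matrix.mul_assoc]
    _ = P * (A * A⁻¹) * Q := by rw [hQP]; simp only [Matrix.mul_assoc, Matrix.mul_one]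
    _ = 1 := by rw [Matrix.mul_nonsing_inv _ hA]; simpa using hPQ

theorem top_word_conj {g s : ℕ} {P : Matrix α β ℂ} {Q : Matrix β α ℂ} (hPQ : P * Q = 1)
    (hQP : Q * P = 1) (ρ : top_Gen g s → Matrix β β ℂ) (hu : ∀ h, IsUnit (ρ (Sum.inl h)).det) :
    top_word (fun k => P * ρ k * Q) = P * top_word ρ * Q := by
  unfold top_word
  have h1 : ∀ i : Fin g, P * ρ (Sum.inl (i, 0)) * Q * (P * ρ (Sum.inl (i, 1)) * Q) *
      (P * ρ (Sum.inl (i, 0)) * Q)⁻¹ * (P * ρ (Sum.inl (i, 1)) * Q)⁻¹ =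
      P * (ρ (Sum.inl (i, 0)) * ρ (Sum.inl (i, 1)) * (ρ (Sum.inl (i, 0)))⁻¹ *
        (ρ (Sum.inl (i, 1)))⁻¹) * Q := by
    intro i
    rw [top_inv_conj hPQ hQP (hu _), top_inv_conj hPQ hQP (hu _)]
    set A := ρ (Sum.inl (i, 0))
    set B := ρ (Sum.inl (i, 1))
    calc P * A * Q * (P * B * Q) * (P * A⁻¹ * Q) * (P * B⁻¹ * Q)
        = P * A * (Q * P) * B * (Q * P) * A⁻¹ * (Q * P) * B⁻¹ * Q := by
          simp only [Matrix.mul_assoc]
      _ = _ := by rw [hQP]; simp only [Matrix.mul_assoc, Matrix.mul_one]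
  simp only [h1]
  rw [top_list_prod_conj hPQ hQP, top_list_prod_conj hPQ hQP]
  generalize ((List.finRange g).map fun i => ρ (Sum.inl (i, 0)) * ρ (Sum.inl (i, 1)) *
    (ρ (Sum.inl (i, 0)))⁻¹ * (ρ (Sum.inl (i, 1)))⁻¹).prod = X
  generalize ((List.finRange s).map fun j => ρ (Sum.inr j)).prod = Y
  calc P * X * Q * (P * Y * Q) = P * X * (Q * P) * Y * Q := by simp only [Matrix.mul_assoc]
    _ = _ := by rw [hQP]; simp only [Matrix.mul_assoc, Matrix.mul_one]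

theorem top_GLRep_of_conj {g s : ℕ} {ρ : top_Gen g s → Matrix α α ℂ}
    {ρ' : top_Gen g s → Matrix β β ℂ} (h : top_Conj ρ ρ') (h' : top_GLRep ρ') : top_GLRep ρ := by
  have hs := fun k => (h.sim k).det_eq
  obtain ⟨P, Q, hPQ, hQP, h⟩ := h
  refine ⟨fun k => by rw [hs k]; exact h'.1 k, ?_⟩
  have : ρ = fun k => P * ρ' k * Q := funext h
  rw [this, top_word_conj hPQ hQP _ (fun _ => h'.1 _), h'.2]
  simpa using hPQ

theorem top_list_prod_fromBlocks {ι : Type} (l : List ι) (f : ι → Matrix α α ℂ)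
    (f' : ι → Matrix β β ℂ) :
    (l.map fun x => Matrix.fromBlocks (f x) 0 0 (f' x)).prod =
      Matrix.fromBlocks (l.map f).prod 0 0 (l.map f').prod := by
  induction l with
  | nil => simp
  | cons a l ih =>
    rw [List.map_cons, List.prod_cons, ih]
    simp [Matrix.fromBlocks_multiply]

theorem top_inv_fromBlocks {A : Matrix α α ℂ} {D : Matrix β β ℂ} (hA : IsUnit A.det)
    (hD : IsUnit D.det) :
    (Matrix.fromBlocks A 0 0 D)⁻¹ = Matrix.fromBlocks A⁻¹ 0 0 D⁻¹ := by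
  apply Matrix.inv_eq_right_inv
  simp [Matrix.fromBlocks_multiply, Matrix.mul_nonsing_inv _ hA, Matrix.mul_nonsing_inv _ hD]

theorem top_word_blk {g s : ℕ} (ρ₁ : top_Gen g s → Matrix α α ℂ) (ρ₂ : top_Gen g s → Matrix β β ℂ)
    (h₁ : ∀ h, IsUnit (ρ₁ (Sum.inl h)).det) (h₂ : ∀ h, IsUnit (ρ₂ (Sum.inl h)).det) :
    top_word (top_blk ρ₁ ρ₂) = Matrix.fromBlocks (top_word ρ₁) 0 0 (top_word ρ₂) := by
  unfold top_word top_blk
  simp only [top_inv_fromBlocks (h₁ _) (h₂ _), Matrix.fromBlocks_multiply, Matrix.mul_zero,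
    Matrix.zero_mul, add_zero, zero_add]
  rw [top_list_prod_fromBlocks, top_list_prod_fromBlocks]
  simp [Matrix.fromBlocks_multiply]

theorem top_det_blk (ρ₁ : κ → Matrix α α ℂ) (ρ₂ : κ → Matrix β β ℂ) (k : κ) :
    (top_blk ρ₁ ρ₂ k).det = (ρ₁ k).det * (ρ₂ k).det := by
  simp [top_blk]

theorem top_GLRep_blk {g s : ℕ} {ρ₁ : top_Gen g s → Matrix α α ℂ}
    {ρ₂ : top_Gen g s → Matrix β β ℂ} (h : top_GLRep (top_blk ρ₁ ρ₂)) :
    top_GLRep ρ₁ ∧ top_GLRep ρ₂ := by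
  have hu : ∀ k, IsUnit (ρ₁ k).det ∧ IsUnit (ρ₂ k).det := by
    intro k
    have := h.1 k
    rw [top_det_blk] at this
    exact IsUnit.mul_iff.mp this
  have hw := h.2
  rw [top_word_blk _ _ (fun _ => (hu _).1) (fun _ => (hu _).2), ← Matrix.fromBlocks_one,
    Matrix.fromBlocks_inj] at hw
  exact ⟨⟨fun k => (hu k).1, hw.1⟩, ⟨fun k => (hu k).2, hw.2.2.2⟩⟩

end

end Claimed.Agent.R236
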