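/-
Row 236: top glue, complete reducibility: conjugation, blocks, direct sums.
-/
import Claimed.Agent.R236.TopLin

set_option autoImplicit false

namespace Claimed.Agent.R236

theorem top_isCompl_iff {V : Type} [AddCommGroup V] [Module ℂ V] (W W' : Submodule ℂ V) :
    IsCompl W W' ↔ (∀ v, v ∈ W → v ∈ W' → v = 0) ∧ (∀ v, ∃ w ∈ W, ∃ w' ∈ W', w + w' = v) := by
  rw [isCompl_iff, Submodule.disjoint_def, codisjoint_iff, Submodule.eq_top_iff']
  simp only [Submodule.mem_sup]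

section
variable {α β : Type} [Fintype α] [DecidableEq α] [Fintype β] [DecidableEq β] {κ : Type}

omit [DecidableEq α] in
theorem top_CR_of_Irr {ρ : κ → Matrix α α ℂ} (h : top_Irr ρ) : top_CR ρ := by
  intro W hW
  rcases h W hW with rfl | rfl
  · exact ⟨⊤, isCompl_bot_top, fun _ _ _ => trivial⟩
  · exact ⟨⊥, isCompl_top_bot, fun k w hw => by
      rw [Submodule.mem_bot] at hw ⊢; rw [hw]; simp⟩

theorem top_CR_of_conj {ρ : κ → Matrix α α ℂ} {ρ' : κ → Matrix β β ℂ} (h : top_Conj ρ ρ')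
    (h' : top_CR ρ') : top_CR ρ := by
  obtain ⟨P, Q, hPQ, hQP, h⟩ := h
  have hPQv : ∀ v, P.mulVec (Q.mulVec v) = v := by
    intro v; rw [Matrix.mulVec_mulVec, hPQ, Matrix.one_mulVec]
  have hQPv : ∀ v, Q.mulVec (P.mulVec v) = v := by
    intro v; rw [Matrix.mulVec_mulVec, hQP, Matrix.one_mulVec]
  intro W hW
  have h1 : top_Inv ρ' (W.comap P.mulVecLin) := by
    intro k y hy
    rw [Submodule.mem_comap, Matrix.mulVecLin_apply] at hy ⊢
    have := hW k _ hy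
    rw [h k] at this
    simpa [← Matrix.mulVec_mulVec, hQPv] using this
  obtain ⟨W₁', hc, hinv⟩ := h' _ h1
  rw [top_isCompl_iff] at hc
  refine ⟨W₁'.comap Q.mulVecLin, ?_, ?_⟩
  · rw [top_isCompl_iff]
    constructor
    · intro v hv hv'
      rw [Submodule.mem_comap, Matrix.mulVecLin_apply] at hv'
      have := hc.1 (Q.mulVec v) (by
        rw [Submodule.mem_comap, Matrix.mulVecLin_apply, hPQv]; exact hv) hv'
      rw [← hPQv v, this]; simp
    · intro v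
      obtain ⟨a, ha, b, hb, hab⟩ := hc.2 (Q.mulVec v)
      rw [Submodule.mem_comap, Matrix.mulVecLin_apply] at ha
      refine ⟨P.mulVec a, ha, P.mulVec b, ?_, ?_⟩
      · rw [Submodule.mem_comap, Matrix.mulVecLin_apply, hQPv]; exact hb
      · rw [← Matrix.mulVec_add, hab, hPQv]
  · intro k v hv
    rw [Submodule.mem_comap, Matrix.mulVecLin_apply] at hv ⊢
    have := hinv k _ hv
    rw [h k]
    simpa [← Matrix.mulVec_mulVec, hQPv] using this

/-- extension by zero -/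
def top_inlL : (α → ℂ) →ₗ[ℂ] (α ⊕ β → ℂ) where
  toFun x := Sum.elim x 0
  map_add' x y := by ext (a | b) <;> simp
  map_smul' c x := by ext (a | b) <;> simp

omit [Fintype α] [DecidableEq α] [Fintype β] [DecidableEq β] in
theorem top_inlL_apply (x : α → ℂ) : (top_inlL x : α ⊕ β → ℂ) = Sum.elim x 0 := rfl

omit [DecidableEq α] [DecidableEq β] in
theorem top_blk_mulVec (ρ₁ : κ → Matrix α α ℂ) (ρ₂ : κ → Matrix β β ℂ) (k : κ) (v : α ⊕ β → ℂ) :
    (top_blk ρ₁ ρ₂ k).mulVec v =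
      Sum.elim ((ρ₁ k).mulVec (v ∘ Sum.inl)) ((ρ₂ k).mulVec (v ∘ Sum.inr)) := by
  simp [top_blk, Matrix.fromBlocks_mulVec]

theorem top_blk_mulVec_inlL (ρ₁ : κ → Matrix α α ℂ) (ρ₂ : κ → Matrix β β ℂ) (k : κ) (x : α → ℂ) :
    (top_blk ρ₁ ρ₂ k).mulVec (top_inlL x) = top_inlL ((ρ₁ k).mulVec x) := by
  rw [top_blk_mulVec, top_inlL_apply, top_inlL_apply]
  congr 1
  ext b
  simp [Matrix.mulVec, dotProduct]

theorem top_CR_blk_left {ρ₁ : κ → Matrix α α ℂ} {ρ₂ : κ → Matrix β β ℂ}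
    (h : top_CR (top_blk ρ₁ ρ₂)) : top_CR ρ₁ := by
  have hinj : ∀ x : α → ℂ, (top_inlL x : α ⊕ β → ℂ) = 0 → x = 0 := by
    intro x hx
    funext a
    simpa [top_inlL_apply] using congrFun hx (Sum.inl a)
  intro U hU
  have h1 : top_Inv (top_blk ρ₁ ρ₂) (U.map top_inlL) := by
    rintro k _ ⟨x, hx, rfl⟩
    rw [top_blk_mulVec_inlL]
    exact ⟨_, hU k x hx, rfl⟩
  obtain ⟨U', hc, hinv⟩ := h _ h1
  rw [top_isCompl_iff] at hc
  refine ⟨U'.comap top_inlL, ?_, ?_⟩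
  · rw [top_isCompl_iff]
    constructor
    · intro x hx hx'
      exact hinj x (hc.1 _ ⟨x, hx, rfl⟩ hx')
    · intro x
      obtain ⟨_, ⟨x₁, hx₁, rfl⟩, u', hu', hsum⟩ := hc.2 (top_inlL x)
      refine ⟨x₁, hx₁, x - x₁, ?_, by abel⟩
      rw [Submodule.mem_comap, map_sub, ← hsum]
      simpa using hu'
  · intro k x hx
    rw [Submodule.mem_comap] at hx ⊢
    rw [← top_blk_mulVec_inlL ρ₁ ρ₂]
    exact hinv k _ hx

theorem top_Conj_blk_swap (ρ₁ : κ → Matrix α α ℂ) (ρ₂ : κ → Matrix β β ℂ) :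
    top_Conj (top_blk ρ₂ ρ₁) (top_blk ρ₁ ρ₂) := by
  have := top_Conj_submatrix (Equiv.sumComm β α) (top_blk ρ₁ ρ₂)
  convert this using 2
  simp [top_blk]

theorem top_CR_blk_right {ρ₁ : κ → Matrix α α ℂ} {ρ₂ : κ → Matrix β β ℂ}
    (h : top_CR (top_blk ρ₁ ρ₂)) : top_CR ρ₂ :=
  top_CR_blk_left (top_CR_of_conj (top_Conj_blk_swap ρ₁ ρ₂) h)

theorem top_CR_blk {ρ₁ : κ → Matrix α α ℂ} {ρ₂ : κ → Matrix β β ℂ}
    (h₁ : top_CR ρ₁) (h₂ : top_CR ρ₂) : top_CR (top_blk ρ₁ ρ₂) := by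
  intro U hU
  have hU₁ : top_Inv ρ₁ (U.comap top_inlL) := by
    intro k x hx
    rw [Submodule.mem_comap] at hx ⊢
    rw [← top_blk_mulVec_inlL ρ₁ ρ₂]
    exact hU k _ hx
  have hU₂ : top_Inv ρ₂ (U.map (LinearMap.funLeft ℂ ℂ Sum.inr)) := by
    rintro k _ ⟨v, hv, rfl⟩
    refine ⟨_, hU k v hv, ?_⟩
    rw [top_blk_mulVec]
    ext b
    simp [LinearMap.funLeft_apply]
    rfl
  obtain ⟨C₁, hc₁, hi₁⟩ := h₁ _ hU₁
  obtain ⟨C₂, hc₂, hi₂⟩ := h₂ _ hU₂
  rw [top_isCompl_iff] at hc₁ hc₂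
  refine ⟨C₁.comap (LinearMap.funLeft ℂ ℂ Sum.inl) ⊓ C₂.comap (LinearMap.funLeft ℂ ℂ Sum.inr),
    ?_, ?_⟩
  · rw [top_isCompl_iff]
    constructor
    · rintro v hv ⟨hv1, hv2⟩
      rw [SetLike.mem_coe, Submodule.mem_comap] at hv1 hv2
      have e2 := hc₂.1 _ ⟨v, hv, rfl⟩ hv2
      have hv' : v = top_inlL (LinearMap.funLeft ℂ ℂ Sum.inl v) := by
        ext (a | b)
        · simp [top_inlL_apply, LinearMap.funLeft_apply]
        · simpa [top_inlL_apply, LinearMap.funLeft_apply] using congrFun e2 b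
      have e1 := hc₁.1 _ (by rw [Submodule.mem_comap, ← hv']; exact hv) hv1
      rw [hv', e1, map_zero]
    · intro v
      obtain ⟨_, ⟨u, hu, rfl⟩, c₂, hc₂', hs2⟩ := hc₂.2 (LinearMap.funLeft ℂ ℂ Sum.inr v)
      obtain ⟨u₁, hu₁, c₁, hc₁', hs1⟩ := hc₁.2 (LinearMap.funLeft ℂ ℂ Sum.inl (v - u))
      rw [Submodule.mem_comap] at hu₁
      refine ⟨u + top_inlL u₁, add_mem hu hu₁, Sum.elim c₁ c₂, ⟨?_, ?_⟩, ?_⟩
      · rw [SetLike.mem_coe, Submodule.mem_comap]
        convert hc₁' using 1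
        ext a; simp [LinearMap.funLeft_apply]
      · rw [SetLike.mem_coe, Submodule.mem_comap]
        convert hc₂' using 1
        ext a; simp [LinearMap.funLeft_apply]
      · ext (a | b)
        · have := congrFun hs1 a
          simp only [Pi.add_apply, LinearMap.funLeft_apply, Pi.sub_apply] at this
          simp only [Pi.add_apply, top_inlL_apply, Sum.elim_inl]
          rw [add_assoc, this]; ring
        · have := congrFun hs2 b
          simp only [Pi.add_apply, LinearMap.funLeft_apply] at this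
          simp only [Pi.add_apply, top_inlL_apply, Sum.elim_inr, Pi.zero_apply, add_zero]
          exact this
  · rintro k v ⟨hv1, hv2⟩
    rw [SetLike.mem_coe, Submodule.mem_comap] at hv1 hv2
    rw [top_blk_mulVec]
    constructor
    · rw [SetLike.mem_coe, Submodule.mem_comap]
      exact hi₁ k _ hv1
    · rw [SetLike.mem_coe, Submodule.mem_comap]
      exact hi₂ k _ hv2

end

end Claimed.Agent.R236
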