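/-
Row 236: top glue, change of basis adapted to complementary subspaces; eigenspace splitting.
-/
import Claimed.Agent.R236.TopCR

set_option autoImplicit false

namespace Claimed.Agent.R236

section
variable {α β : Type} [Fintype α] [DecidableEq α] [Fintype β] [DecidableEq β] {κ : Type}

theorem top_basis_change (W W' : Submodule ℂ (α → ℂ)) (h : IsCompl W W') :
    ∃ (d₁ d₂ : ℕ) (P : Matrix α (Fin d₁ ⊕ Fin d₂) ℂ) (Q : Matrix (Fin d₁ ⊕ Fin d₂) α ℂ),
      d₁ = Module.finrank ℂ W ∧ d₂ = Module.finrank ℂ W' ∧ P * Q = 1 ∧ Q * P = 1 ∧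
      (∀ v, v ∈ W ↔ ∀ j, (Q.mulVec v) (Sum.inr j) = 0) ∧
      (∀ v, v ∈ W' ↔ ∀ i, (Q.mulVec v) (Sum.inl i) = 0) := by
  let b₁ := Module.finBasis ℂ W
  let b₂ := Module.finBasis ℂ W'
  let e := Submodule.prodEquivOfIsCompl W W' h
  let b := (b₁.prod b₂).map e
  have hQ : ∀ v, (b.toMatrix (Pi.basisFun ℂ α)).mulVec v = b.repr v := by
    intro v
    have := Module.Basis.toMatrix_mulVec_repr (Pi.basisFun ℂ α) b v
    rw [← this]
    congr 1
  refine ⟨_, _, (Pi.basisFun ℂ α).toMatrix b, b.toMatrix (Pi.basisFun ℂ α), rfl, rfl,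
    Module.Basis.toMatrix_mul_toMatrix_flip _ _, Module.Basis.toMatrix_mul_toMatrix_flip _ _, ?_, ?_⟩
  · intro v
    rw [hQ, ← Submodule.prodEquivOfIsCompl_symm_apply_snd_eq_zero W W' h]
    simp only [b, Module.Basis.map_repr, LinearEquiv.trans_apply, Module.Basis.prod_repr_inr]
    constructor
    · intro h0 j
      rw [show (e.symm v).2 = 0 from h0]; simp
    · intro h0
      apply b₂.repr.injective
      ext j
      rw [map_zero]
      exact h0 j
  · intro v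
    rw [hQ, ← Submodule.prodEquivOfIsCompl_symm_apply_fst_eq_zero W W' h]
    simp only [b, Module.Basis.map_repr, LinearEquiv.trans_apply, Module.Basis.prod_repr_inl]
    constructor
    · intro h0 j
      rw [show (e.symm v).1 = 0 from h0]; simp
    · intro h0
      apply b₁.repr.injective
      ext j
      rw [map_zero]
      exact h0 j


omit [Fintype α] [DecidableEq α] in
theorem top_entry_eq (X : Matrix α β ℂ) (k : α) (l : β) :
    X k l = (X.mulVec (Pi.single l 1)) k := by simp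

/-- decomposition along a pair of complementary invariant subspaces -/
theorem top_exists_decomp {ρ : κ → Matrix α α ℂ} {W W' : Submodule ℂ (α → ℂ)} (h : IsCompl W W')
    (hW : top_Inv ρ W) (hW' : top_Inv ρ W') :
    ∃ (d₁ d₂ : ℕ) (ρ₁ : κ → Matrix (Fin d₁) (Fin d₁) ℂ) (ρ₂ : κ → Matrix (Fin d₂) (Fin d₂) ℂ),
      d₁ = Module.finrank ℂ W ∧ d₂ = Module.finrank ℂ W' ∧ top_Conj ρ (top_blk ρ₁ ρ₂) := by
  obtain ⟨d₁, d₂, P, Q, hd₁, hd₂, hPQ, hQP, hmW, hmW'⟩ := top_basis_change W W' h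
  have hQPv : ∀ v, Q.mulVec (P.mulVec v) = v := by
    intro v; rw [Matrix.mulVec_mulVec, hQP, Matrix.one_mulVec]
  refine ⟨d₁, d₂, fun k => (Q * ρ k * P).toBlocks₁₁, fun k => (Q * ρ k * P).toBlocks₂₂, hd₁, hd₂,
    P, Q, hPQ, hQP, ?_⟩
  intro k
  have h21 : (Q * ρ k * P).toBlocks₂₁ = 0 := by
    ext j i
    simp only [Matrix.toBlocks₂₁, Matrix.of_apply, Matrix.zero_apply]
    rw [top_entry_eq (Q * ρ k * P), ← Matrix.mulVec_mulVec, ← Matrix.mulVec_mulVec]
    apply (hmW _).mp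
    apply hW
    rw [hmW]
    intro j'
    rw [hQPv]; simp
  have h12 : (Q * ρ k * P).toBlocks₁₂ = 0 := by
    ext j i
    simp only [Matrix.toBlocks₁₂, Matrix.of_apply, Matrix.zero_apply]
    rw [top_entry_eq (Q * ρ k * P), ← Matrix.mulVec_mulVec, ← Matrix.mulVec_mulVec]
    apply (hmW' _).mp
    apply hW'
    rw [hmW']
    intro j'
    rw [hQPv]; simp
  have hb : top_blk (fun k => (Q * ρ k * P).toBlocks₁₁) (fun k => (Q * ρ k * P).toBlocks₂₂) k =
      Q * ρ k * P := by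
    conv_rhs => rw [← Matrix.fromBlocks_toBlocks (Q * ρ k * P), h21, h12]
    rfl
  rw [hb]
  calc ρ k = (P * Q) * ρ k * (P * Q) := by rw [hPQ]; simp
    _ = _ := by simp only [Matrix.mul_assoc]

/-- splitting off an eigenspace -/
theorem top_eigen_decomp [Nonempty α] (M : Matrix α α ℂ) :
    ∃ (μ : ℂ) (d₁ d₂ : ℕ) (B : Matrix (Fin d₁) (Fin d₂) ℂ) (D : Matrix (Fin d₂) (Fin d₂) ℂ),
      0 < d₁ ∧ d₁ + d₂ = Fintype.card α ∧ (∃ v : α → ℂ, v ≠ 0 ∧ M.mulVec v = μ • v) ∧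
      top_Sim M (Matrix.fromBlocks (μ • (1 : Matrix (Fin d₁) (Fin d₁) ℂ)) B 0 D) ∧
      ∀ y, B.mulVec y = 0 → D.mulVec y = μ • y → y = 0 := by
  obtain ⟨μ, hμ⟩ := Module.End.exists_eigenvalue (M.mulVecLin)
  obtain ⟨v₀, hv₀⟩ := hμ.exists_hasEigenvector
  set W := Module.End.eigenspace M.mulVecLin μ with hWdef
  have hmem : ∀ v, v ∈ W ↔ M.mulVec v = μ • v := by
    intro v
    rw [hWdef, Module.End.mem_eigenspace_iff, Matrix.mulVecLin_apply]
  obtain ⟨W', hc⟩ := Submodule.exists_isCompl W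
  obtain ⟨d₁, d₂, P, Q, hd₁, hd₂, hPQ, hQP, hmW, _⟩ := top_basis_change W W' hc
  have hQPv : ∀ v, Q.mulVec (P.mulVec v) = v := by
    intro v; rw [Matrix.mulVec_mulVec, hQP, Matrix.one_mulVec]
  have hPQv : ∀ v, P.mulVec (Q.mulVec v) = v := by
    intro v; rw [Matrix.mulVec_mulVec, hPQ, Matrix.one_mulVec]
  set M' := Q * M * P with hM'
  have hcol : ∀ i : Fin d₁, M'.mulVec (Pi.single (Sum.inl i) 1) = μ • Pi.single (Sum.inl i) 1 := by
    intro i
    have h1 : P.mulVec (Pi.single (Sum.inl i) 1) ∈ W := by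
      rw [hmW]; intro j; rw [hQPv]; simp
    rw [hmem] at h1
    rw [hM', ← Matrix.mulVec_mulVec, ← Matrix.mulVec_mulVec, h1, Matrix.mulVec_smul, hQPv]
  have h11 : M'.toBlocks₁₁ = μ • (1 : Matrix (Fin d₁) (Fin d₁) ℂ) := by
    ext a b
    simp only [Matrix.toBlocks₁₁, Matrix.of_apply]
    rw [top_entry_eq M', hcol]
    simp [Matrix.one_apply, Pi.single_apply]
  have h21 : M'.toBlocks₂₁ = 0 := by
    ext a b
    simp only [Matrix.toBlocks₂₁, Matrix.of_apply]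
    rw [top_entry_eq M', hcol]
    simp
  have hfb : M' = Matrix.fromBlocks (μ • (1 : Matrix (Fin d₁) (Fin d₁) ℂ)) M'.toBlocks₁₂ 0
      M'.toBlocks₂₂ := by
    conv_lhs => rw [← Matrix.fromBlocks_toBlocks M', h11, h21]
  refine ⟨μ, d₁, d₂, M'.toBlocks₁₂, M'.toBlocks₂₂, ?_, ?_, ⟨v₀, hv₀.2, ?_⟩, ?_, ?_⟩
  · rw [hd₁, Module.finrank_pos_iff_exists_ne_zero]
    exact ⟨⟨v₀, hv₀.1⟩, fun h => hv₀.2 (congrArg Subtype.val h)⟩
  · rw [hd₁, hd₂, Submodule.finrank_add_eq_of_isCompl hc]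
    simp
  · exact (hmem v₀).mp hv₀.1
  · rw [← hfb]
    refine ⟨P, Q, hPQ, hQP, ?_⟩
    calc M = (P * Q) * M * (P * Q) := by rw [hPQ]; simp
      _ = _ := by simp only [hM', Matrix.mul_assoc]
  · intro y hy1 hy2
    have h1 : M'.mulVec (Sum.elim (0 : Fin d₁ → ℂ) y) = μ • Sum.elim (0 : Fin d₁ → ℂ) y := by
      rw [hfb, Matrix.fromBlocks_mulVec]
      ext (a | b)
      · simpa using congrFun hy1 a
      · simpa using congrFun hy2 b
    have h2 : P.mulVec (Sum.elim (0 : Fin d₁ → ℂ) y) ∈ W := by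
      rw [hmem]
      have := congrArg P.mulVec h1
      rw [hM', ← Matrix.mulVec_mulVec, ← Matrix.mulVec_mulVec, hPQv, Matrix.mulVec_smul] at this
      exact this
    rw [hmW] at h2
    funext j
    have := h2 j
    rw [hQPv] at this
    simpa using this

end

end Claimed.Agent.R236
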