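/-
Row 236: top glue, the extension lemma (replacement for the Jordan normal form).
-/
import Claimed.Agent.R236.TopBC

set_option autoImplicit false

namespace Claimed.Agent.R236

section abstract
variable {K Z U U₂ : Type} [AddCommGroup K] [Module ℂ K] [AddCommGroup Z] [Module ℂ Z]
  [AddCommGroup U] [Module ℂ U] [AddCommGroup U₂] [Module ℂ U₂]

/-- two injections differ by an automorphism of the target -/
theorem top_exists_aut_of_injective [FiniteDimensional ℂ Z] (i i' : K →ₗ[ℂ] Z)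
    (hi : Function.Injective i) (hi' : Function.Injective i') :
    ∃ X : Z ≃ₗ[ℂ] Z, ∀ k, X (i' k) = i k := by
  obtain ⟨C, hC⟩ := Submodule.exists_isCompl (LinearMap.range i)
  obtain ⟨C', hC'⟩ := Submodule.exists_isCompl (LinearMap.range i')
  have h1 := Submodule.finrank_add_eq_of_isCompl hC
  have h2 := Submodule.finrank_add_eq_of_isCompl hC'
  rw [LinearMap.finrank_range_of_inj hi] at h1
  rw [LinearMap.finrank_range_of_inj hi'] at h2
  have h3 : Module.finrank ℂ C' = Module.finrank ℂ C := by omega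
  let eC : C' ≃ₗ[ℂ] C := LinearEquiv.ofFinrankEq _ _ h3
  let eR : LinearMap.range i' ≃ₗ[ℂ] LinearMap.range i :=
    (LinearEquiv.ofInjective i' hi').symm.trans (LinearEquiv.ofInjective i hi)
  refine ⟨(Submodule.prodEquivOfIsCompl _ _ hC').symm.trans
    ((eR.prodCongr eC).trans (Submodule.prodEquivOfIsCompl _ _ hC)), ?_⟩
  intro k
  have e1 : (Submodule.prodEquivOfIsCompl _ _ hC').symm (i' k) =
      ((⟨i' k, LinearMap.mem_range_self _ _⟩ : LinearMap.range i'), 0) :=
    Submodule.prodEquivOfIsCompl_symm_apply_left _ _ hC' ⟨i' k, LinearMap.mem_range_self _ _⟩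
  have e2 : eR ⟨i' k, LinearMap.mem_range_self _ _⟩ = ⟨i k, LinearMap.mem_range_self _ _⟩ := by
    have : (LinearEquiv.ofInjective i' hi').symm ⟨i' k, LinearMap.mem_range_self _ _⟩ = k := by
      rw [LinearEquiv.symm_apply_eq]
      rfl
    simp only [eR, LinearEquiv.trans_apply, this]
    rfl
  simp only [LinearEquiv.trans_apply, e1, LinearEquiv.prodCongr_apply, e2, map_zero]
  simp

/-- factorisation through a map with smaller kernel -/
theorem top_exists_factor (φ : U →ₗ[ℂ] Z) (N : U →ₗ[ℂ] U₂) (h : LinearMap.ker N ≤ LinearMap.ker φ) :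
    ∃ Y : U₂ →ₗ[ℂ] Z, ∀ u, Y (N u) = φ u := by
  obtain ⟨s, hs⟩ := N.rangeRestrict.exists_rightInverse_of_surjective (LinearMap.range_rangeRestrict N)
  obtain ⟨Y, hY⟩ := LinearMap.exists_extend (φ ∘ₗ s)
  refine ⟨Y, fun u => ?_⟩
  have h1 : Y (N u) = φ (s ⟨N u, LinearMap.mem_range_self _ _⟩) :=
    congrArg (fun f => f ⟨N u, LinearMap.mem_range_self _ _⟩) hY
  rw [h1]
  have h2 : N (s ⟨N u, LinearMap.mem_range_self _ _⟩) = N u := by
    have := congrArg (fun f => (f ⟨N u, LinearMap.mem_range_self _ _⟩ : U₂)) hs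
    simpa using this
  have h3 : s ⟨N u, LinearMap.mem_range_self _ _⟩ - u ∈ LinearMap.ker φ := by
    apply h
    rw [LinearMap.mem_ker, map_sub, h2, sub_self]
  rw [LinearMap.mem_ker, map_sub] at h3
  exact sub_eq_zero.mp h3

theorem top_exists_XY [FiniteDimensional ℂ Z] (b b' : U →ₗ[ℂ] Z) (N : U →ₗ[ℂ] U₂)
    (h : ∀ u, b u = 0 → N u = 0 → u = 0) (h' : ∀ u, b' u = 0 → N u = 0 → u = 0) :
    ∃ (X : Z ≃ₗ[ℂ] Z) (Y : U₂ →ₗ[ℂ] Z), ∀ u, X (b' u) + Y (N u) = b u := by
  have hi : Function.Injective (b ∘ₗ (LinearMap.ker N).subtype) := by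
    rw [← LinearMap.ker_eq_bot, LinearMap.ker_eq_bot']
    intro k hk
    exact Subtype.ext (h k hk k.2)
  have hi' : Function.Injective (b' ∘ₗ (LinearMap.ker N).subtype) := by
    rw [← LinearMap.ker_eq_bot, LinearMap.ker_eq_bot']
    intro k hk
    exact Subtype.ext (h' k hk k.2)
  obtain ⟨X, hX⟩ := top_exists_aut_of_injective _ _ hi hi'
  obtain ⟨Y, hY⟩ := top_exists_factor (b - X.toLinearMap ∘ₗ b') N (by
    intro u hu
    have := hX ⟨u, hu⟩
    simp only [LinearMap.comp_apply, Submodule.subtype_apply] at this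
    rw [LinearMap.mem_ker, LinearMap.sub_apply, LinearMap.comp_apply, LinearEquiv.coe_coe, this,
      sub_self])
  refine ⟨X, Y, fun u => ?_⟩
  rw [hY]
  simp

end abstract

section
variable {β γ γ' : Type} [Fintype β] [DecidableEq β] [Fintype γ] [DecidableEq γ]
  [Fintype γ'] [DecidableEq γ']

/-- **Extension lemma**: a block triangular matrix whose first block is the full eigenspace is
determined up to similarity by the quotient block. -/
theorem top_ext (μ : ℂ) (B B' : Matrix β γ ℂ) (D : Matrix γ γ ℂ)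
    (h : ∀ y, B.mulVec y = 0 → D.mulVec y = μ • y → y = 0)
    (h' : ∀ y, B'.mulVec y = 0 → D.mulVec y = μ • y → y = 0) :
    top_Sim (Matrix.fromBlocks (μ • (1 : Matrix β β ℂ)) B 0 D)
      (Matrix.fromBlocks (μ • (1 : Matrix β β ℂ)) B' 0 D) := by
  have hN : ∀ y, (D - μ • (1 : Matrix γ γ ℂ)).mulVecLin y = 0 ↔ D.mulVec y = μ • y := by
    intro y
    rw [Matrix.mulVecLin_apply, Matrix.sub_mulVec, Matrix.smul_mulVec, Matrix.one_mulVec,
      sub_eq_zero]
  obtain ⟨X, Y, hXY⟩ := top_exists_XY B.mulVecLin B'.mulVecLin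
    (D - μ • (1 : Matrix γ γ ℂ)).mulVecLin
    (fun u h1 h2 => h u h1 ((hN u).mp h2)) (fun u h1 h2 => h' u h1 ((hN u).mp h2))
  set Xm := LinearMap.toMatrix' X.toLinearMap with hXm
  set Xi := LinearMap.toMatrix' X.symm.toLinearMap with hXi
  set Ym := LinearMap.toMatrix' Y with hYm
  have hX1 : Xm * Xi = 1 := by
    rw [hXm, hXi, ← LinearMap.toMatrix'_comp]
    simp
  have hX2 : Xi * Xm = 1 := by
    rw [hXm, hXi, ← LinearMap.toMatrix'_comp]
    simp
  have hrel : Xm * B' + Ym * (D - μ • (1 : Matrix γ γ ℂ)) = B := by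
    apply Matrix.toLin'.injective
    apply LinearMap.ext
    intro u
    have := hXY u
    simp only [Matrix.mulVecLin_apply] at this
    rw [map_add, LinearMap.add_apply, Matrix.toLin'_mul, Matrix.toLin'_mul, LinearMap.comp_apply,
      LinearMap.comp_apply, hXm, hYm, Matrix.toLin'_toMatrix', Matrix.toLin'_toMatrix']
    simp only [Matrix.toLin'_apply, LinearEquiv.coe_coe]
    exact this
  refine ⟨Matrix.fromBlocks Xm Ym 0 1, Matrix.fromBlocks Xi (-(Xi * Ym)) 0 1, ?_, ?_, ?_⟩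
  · simp [Matrix.fromBlocks_multiply, hX1, ← Matrix.mul_assoc]
  · simp [Matrix.fromBlocks_multiply, hX2]
  · have hYD : Ym * D = B - Xm * B' + μ • Ym := by
      rw [← hrel, Matrix.mul_sub]
      simp
    simp only [Matrix.fromBlocks_multiply, Matrix.mul_zero, Matrix.zero_mul, add_zero, zero_add,
      Matrix.mul_one, Matrix.one_mul, Matrix.mul_smul, Matrix.smul_mul, Matrix.mul_neg]
    congr 1
    · rw [hX1]
    · rw [← Matrix.mul_assoc, hX1, hYD]
      simp only [Matrix.one_mul]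
      abel
    · simp
    · simp

theorem top_ext' (μ : ℂ) (B : Matrix β γ ℂ) (D : Matrix γ γ ℂ) (B' : Matrix β γ' ℂ)
    (D' : Matrix γ' γ' ℂ) (hD : top_Sim D D')
    (h : ∀ y, B.mulVec y = 0 → D.mulVec y = μ • y → y = 0)
    (h' : ∀ y, B'.mulVec y = 0 → D'.mulVec y = μ • y → y = 0) :
    top_Sim (Matrix.fromBlocks (μ • (1 : Matrix β β ℂ)) B 0 D)
      (Matrix.fromBlocks (μ • (1 : Matrix β β ℂ)) B' 0 D') := by
  obtain ⟨R, S, hRS, hSR, rfl⟩ := hD
  have hRSv : ∀ v, R.mulVec (S.mulVec v) = v := by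
    intro v; rw [Matrix.mulVec_mulVec, hRS, Matrix.one_mulVec]
  have hSRv : ∀ v, S.mulVec (R.mulVec v) = v := by
    intro v; rw [Matrix.mulVec_mulVec, hSR, Matrix.one_mulVec]
  have h1 : top_Sim (Matrix.fromBlocks (μ • (1 : Matrix β β ℂ)) (B' * S) 0 (R * D' * S))
      (Matrix.fromBlocks (μ • (1 : Matrix β β ℂ)) B' 0 D') := by
    refine ⟨Matrix.fromBlocks 1 0 0 R, Matrix.fromBlocks 1 0 0 S, ?_, ?_, ?_⟩
    · simp [Matrix.fromBlocks_multiply, hRS]
    · simp [Matrix.fromBlocks_multiply, hSR]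
    · simp [Matrix.fromBlocks_multiply]
  refine top_Sim.trans (top_ext μ B (B' * S) (R * D' * S) h ?_) h1
  intro y hy1 hy2
  have : S.mulVec y = 0 := by
    apply h'
    · rw [Matrix.mulVec_mulVec]; exact hy1
    · have := congrArg S.mulVec hy2
      rw [← Matrix.mulVec_mulVec, ← Matrix.mulVec_mulVec, hSRv, Matrix.mulVec_smul] at this
      exact this
  rw [← hRSv y, this]; simp

end

end Claimed.Agent.R236
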