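/-
Row 236: top glue, flag types and polynomial detectors for one boundary matrix.
-/
import Claimed.Agent.R236.TopExt

set_option autoImplicit false

namespace Claimed.Agent.R236

open MvPolynomial

section
variable {α β γ : Type} [Fintype α] [DecidableEq α] [Fintype β] [DecidableEq β]
  [Fintype γ] [DecidableEq γ]

/-- `μ` is an eigenvalue of `M` -/
def top_HasEig (M : Matrix α α ℂ) (μ : ℂ) : Prop := ∃ v : α → ℂ, v ≠ 0 ∧ M.mulVec v = μ • v

theorem top_HasEig_of_sim {M : Matrix α α ℂ} {M' : Matrix β β ℂ} (h : top_Sim M M') {μ : ℂ}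
    (h' : top_HasEig M' μ) : top_HasEig M μ := by
  obtain ⟨P, Q, hPQ, hQP, rfl⟩ := h
  obtain ⟨v, hv, hMv⟩ := h'
  have hQPv : ∀ v, Q.mulVec (P.mulVec v) = v := by
    intro v; rw [Matrix.mulVec_mulVec, hQP, Matrix.one_mulVec]
  refine ⟨P.mulVec v, ?_, ?_⟩
  · intro h0
    apply hv
    rw [← hQPv v, h0]; simp
  · rw [← Matrix.mulVec_mulVec, ← Matrix.mulVec_mulVec, hQPv, hMv, Matrix.mulVec_smul]

theorem top_HasEig_block [Nonempty β] (μ ν : ℂ) (B : Matrix β γ ℂ) (D : Matrix γ γ ℂ)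
    (h : top_HasEig D ν) :
    top_HasEig (Matrix.fromBlocks (μ • (1 : Matrix β β ℂ)) B 0 D) ν := by
  obtain ⟨y, hy, hDy⟩ := h
  by_cases hμν : ν = μ
  · subst hμν
    obtain ⟨b₀⟩ := ‹Nonempty β›
    refine ⟨Sum.elim (Pi.single b₀ 1) 0, ?_, ?_⟩
    · intro h0
      have := congrFun h0 (Sum.inl b₀)
      simp at this
    · rw [Matrix.fromBlocks_mulVec, Sum.elim_comp_inl, Sum.elim_comp_inr, Matrix.mulVec_zero,
        Matrix.mulVec_zero, Matrix.smul_mulVec, Matrix.one_mulVec, Matrix.zero_mulVec]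
      ext (a | b)
      · simp only [add_zero, Sum.elim_inl, Pi.smul_apply]
      · simp
  · have hne : ν - μ ≠ 0 := sub_ne_zero.mpr hμν
    refine ⟨Sum.elim ((ν - μ)⁻¹ • B.mulVec y) y, ?_, ?_⟩
    · intro h0
      apply hy
      funext b
      simpa using congrFun h0 (Sum.inr b)
    · rw [Matrix.fromBlocks_mulVec]
      ext (a | b)
      · simp only [Sum.elim_comp_inl, Sum.elim_comp_inr, Matrix.smul_mulVec, Matrix.one_mulVec,
          Sum.elim_inl, Pi.add_apply, Pi.smul_apply, smul_eq_mul]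
        field_simp
        ring
      · simpa using congrFun hDy b

omit [DecidableEq α] in
theorem top_exists_left_inverse (St : Matrix α β ℂ) (h : ∀ y, St.mulVec y = 0 → y = 0) :
    ∃ Lm : Matrix β α ℂ, Lm * St = 1 := by
  classical
  have hker : LinearMap.ker (Matrix.toLin' St) = ⊥ := by
    rw [LinearMap.ker_eq_bot']
    intro y hy
    exact h y (by simpa [Matrix.toLin'_apply] using hy)
  obtain ⟨g, hg⟩ := LinearMap.exists_leftInverse_of_injective _ hker
  refine ⟨LinearMap.toMatrix' g, ?_⟩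
  have : LinearMap.toMatrix' g * LinearMap.toMatrix' (Matrix.toLin' St) = 1 := by
    rw [← LinearMap.toMatrix'_comp, hg, LinearMap.toMatrix'_id]
  rwa [LinearMap.toMatrix'_toLin'] at this

/-- a matrix as a point of affine space -/
def top_unc {β : Type} (T : Matrix β β ℂ) : β × β → ℂ := fun v => T v.1 v.2

/-- the data attached to one boundary matrix: a flag type, a triangular form of that type, and a
polynomial detector forcing every matrix of that type to be similar to `M`. -/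
def top_PuncOK (M : Matrix α α ℂ) : Prop :=
  ∃ (β : Type) (_ : Fintype β) (_ : DecidableEq β) (blk : β → ℕ) (lam : ℕ → ℂ)
    (T₀ : Matrix β β ℂ) (Gp : MvPolynomial (β × β) ℂ),
    top_IsOfType blk lam T₀ ∧ top_Sim M T₀ ∧ eval (top_unc T₀) Gp ≠ 0 ∧
    (∀ p, top_HasEig M (lam (blk p))) ∧
    ∀ T' : Matrix β β ℂ, top_IsOfType blk lam T' → eval (top_unc T') Gp ≠ 0 →
      top_Sim T' M

theorem top_PuncOK_of_sim {M : Matrix α α ℂ} {M' : Matrix γ γ ℂ} (h : top_Sim M M')
    (h' : top_PuncOK M') : top_PuncOK M := by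
  obtain ⟨β, i1, i2, blk, lam, T₀, Gp, h1, h2, h3, h4, h5⟩ := h'
  exact ⟨β, i1, i2, blk, lam, T₀, Gp, h1, h.trans h2, h3, fun p => top_HasEig_of_sim h (h4 p),
    fun T' hT' hG => (h5 T' hT' hG).trans h.symm⟩

omit [Fintype β] [Fintype γ] in
theorem top_isOfType_sum_iff (blk₂ : γ → ℕ) (lam₂ : ℕ → ℂ) (μ : ℂ)
    (T : Matrix (β ⊕ γ) (β ⊕ γ) ℂ) :
    top_IsOfType (Sum.elim (fun _ => 0) (fun p => blk₂ p + 1))
      (fun k => Nat.casesOn k μ lam₂) T ↔
    T.toBlocks₁₁ = μ • (1 : Matrix β β ℂ) ∧ T.toBlocks₂₁ = 0 ∧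
      top_IsOfType blk₂ lam₂ T.toBlocks₂₂ := by
  constructor
  · intro h
    refine ⟨?_, ?_, ?_⟩
    · ext a b
      have := (h (Sum.inl a) (Sum.inl b)).2 rfl
      simp only [Matrix.toBlocks₁₁, Matrix.of_apply, this]
      by_cases hab : a = b
      · subst hab; simp
      · simp [hab, Matrix.one_apply_ne hab]
    · ext a b
      have := (h (Sum.inr a) (Sum.inl b)).1 (by simp)
      simpa [Matrix.toBlocks₂₁] using this
    · intro p q
      constructor
      · intro hpq
        exact (h (Sum.inr p) (Sum.inr q)).1 (by simpa using hpq)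
      · intro hpq
        have := (h (Sum.inr p) (Sum.inr q)).2 (by simpa using hpq)
        simpa [Matrix.toBlocks₂₂] using this
  · rintro ⟨h1, h2, h3⟩
    rintro (a | p) (b | q)
    · refine ⟨by simp, fun _ => ?_⟩
      have := congrFun (congrFun h1 a) b
      simp only [Matrix.toBlocks₁₁, Matrix.of_apply] at this
      rw [this]
      by_cases hab : a = b
      · subst hab; simp
      · simp [hab, Matrix.one_apply_ne hab]
    · exact ⟨by simp, by simp⟩
    · refine ⟨fun _ => ?_, by simp⟩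
      have := congrFun (congrFun h2 p) b
      simpa [Matrix.toBlocks₂₁] using this
    · constructor
      · intro hpq
        exact (h3 p q).1 (by simpa using hpq)
      · intro hpq
        have := (h3 p q).2 (by simpa using hpq)
        simpa [Matrix.toBlocks₂₂] using this


/-- the stacked matrix whose injectivity says that the first block is the whole eigenspace -/
def top_St (μ : ℂ) (T : Matrix (β ⊕ γ) (β ⊕ γ) ℂ) : Matrix (β ⊕ γ) γ ℂ :=
  fun k l => T k (Sum.inr l) - if k = Sum.inr l then μ else 0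

/-- the same matrix with polynomial entries -/
noncomputable def top_StX (μ : ℂ) : Matrix (β ⊕ γ) γ (MvPolynomial ((β ⊕ γ) × (β ⊕ γ)) ℂ) :=
  fun k l => X (k, Sum.inr l) - C (if k = Sum.inr l then μ else 0)

omit [Fintype β] [Fintype γ] in
theorem top_StX_map (μ : ℂ) (T : Matrix (β ⊕ γ) (β ⊕ γ) ℂ) :
    (top_StX μ).map (eval (top_unc T)) = top_St μ T := by
  ext k l
  simp [top_StX, top_St, top_unc]

omit [Fintype β] in
theorem top_St_mulVec (μ : ℂ) (T : Matrix (β ⊕ γ) (β ⊕ γ) ℂ) (y : γ → ℂ) :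
    (top_St μ T).mulVec y = Sum.elim (T.toBlocks₁₂.mulVec y) (T.toBlocks₂₂.mulVec y - μ • y) := by
  ext (a | b)
  · simp [top_St, Matrix.mulVec, dotProduct, Matrix.toBlocks₁₂]
  · simp [top_St, Matrix.mulVec, dotProduct, Matrix.toBlocks₂₂, sub_mul, Finset.sum_sub_distrib]

theorem top_puncOK_step [Nonempty β] (μ : ℂ) (B : Matrix β γ ℂ) (D : Matrix γ γ ℂ)
    (hgen : ∀ y, B.mulVec y = 0 → D.mulVec y = μ • y → y = 0) (hD : top_PuncOK D) :
    top_PuncOK (Matrix.fromBlocks (μ • (1 : Matrix β β ℂ)) B 0 D) := by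
  obtain ⟨β₂, i1, i2, blk₂, lam₂, T₂, Gp₂, hT₂, hs, hG₂, heig₂, hfin₂⟩ := hD
  obtain ⟨R, S, hRS, hSR, hDeq⟩ := hs
  have hRSv : ∀ v, R.mulVec (S.mulVec v) = v := by
    intro v; rw [Matrix.mulVec_mulVec, hRS, Matrix.one_mulVec]
  have hSRv : ∀ v, S.mulVec (R.mulVec v) = v := by
    intro v; rw [Matrix.mulVec_mulVec, hSR, Matrix.one_mulVec]
  set T₀ : Matrix (β ⊕ β₂) (β ⊕ β₂) ℂ := Matrix.fromBlocks (μ • (1 : Matrix β β ℂ)) (B * R) 0 T₂
    with hT₀
  have hgen₀ : ∀ y, (top_St μ T₀).mulVec y = 0 → y = 0 := by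
    intro y hy
    rw [top_St_mulVec, hT₀, Matrix.toBlocks_fromBlocks₁₂, Matrix.toBlocks_fromBlocks₂₂] at hy
    have hy1 : (B * R).mulVec y = 0 := by
      funext a; simpa using congrFun hy (Sum.inl a)
    have hy2 : T₂.mulVec y = μ • y := by
      funext b
      have := congrFun hy (Sum.inr b)
      simp only [Sum.elim_inr, Pi.sub_apply, Pi.zero_apply] at this
      exact sub_eq_zero.mp this
    have : R.mulVec y = 0 := by
      apply hgen
      · rw [Matrix.mulVec_mulVec]; exact hy1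
      · rw [hDeq, ← Matrix.mulVec_mulVec, ← Matrix.mulVec_mulVec, hSRv, hy2, Matrix.mulVec_smul]
    rw [← hSRv y, this]; simp
  obtain ⟨Lm, hLm⟩ := top_exists_left_inverse _ hgen₀
  let Gp₁ : MvPolynomial ((β ⊕ β₂) × (β ⊕ β₂)) ℂ :=
    Matrix.det ((Lm.map C : Matrix β₂ (β ⊕ β₂) (MvPolynomial ((β ⊕ β₂) × (β ⊕ β₂)) ℂ)) *
      top_StX (β := β) (γ := β₂) μ)
  have hGp₁ : ∀ T : Matrix (β ⊕ β₂) (β ⊕ β₂) ℂ,
      eval (top_unc T) Gp₁ = (Lm * top_St μ T).det := by
    intro T
    simp only [Gp₁]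
    rw [RingHom.map_det, RingHom.mapMatrix_apply, Matrix.map_mul, top_StX_map]
    congr 2
    ext a b
    simp
  refine ⟨β ⊕ β₂, inferInstance, inferInstance, Sum.elim (fun _ => 0) (fun p => blk₂ p + 1),
    fun k => Nat.casesOn k μ lam₂, T₀,
    Gp₁ * rename (fun v => (Sum.inr v.1, Sum.inr v.2)) Gp₂, ?_, ?_, ?_, ?_, ?_⟩
  · rw [top_isOfType_sum_iff, hT₀]
    simpa using hT₂
  · refine ⟨Matrix.fromBlocks 1 0 0 R, Matrix.fromBlocks 1 0 0 S, ?_, ?_, ?_⟩
    · simp [Matrix.fromBlocks_multiply, hRS]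
    · simp [Matrix.fromBlocks_multiply, hSR]
    · simp [hT₀, Matrix.fromBlocks_multiply, hDeq, Matrix.mul_assoc, hRS]
  · rw [map_mul, hGp₁, hLm, Matrix.det_one, one_mul, eval_rename]
    exact hG₂
  · rintro (a | p)
    · obtain ⟨b₀⟩ := ‹Nonempty β›
      refine ⟨Sum.elim (Pi.single b₀ 1) 0, ?_, ?_⟩
      · intro h0
        have := congrFun h0 (Sum.inl b₀)
        simp at this
      · rw [Matrix.fromBlocks_mulVec, Sum.elim_comp_inl, Sum.elim_comp_inr, Matrix.mulVec_zero,
          Matrix.mulVec_zero, Matrix.smul_mulVec, Matrix.one_mulVec, Matrix.zero_mulVec]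
        ext (a | b)
        · simp only [add_zero, Sum.elim_inl, Pi.smul_apply]
          rfl
        · simp
    · exact top_HasEig_block μ _ B D (heig₂ p)
  · intro T' hT' hG'
    rw [top_isOfType_sum_iff] at hT'
    obtain ⟨h11, h21, h22⟩ := hT'
    rw [map_mul, hGp₁, eval_rename] at hG'
    have hG1 := left_ne_zero_of_mul hG'
    have hG2 := right_ne_zero_of_mul hG'
    have hsim : top_Sim T'.toBlocks₂₂ D := hfin₂ _ h22 hG2
    have hT'eq : T' = Matrix.fromBlocks (μ • (1 : Matrix β β ℂ)) T'.toBlocks₁₂ 0 T'.toBlocks₂₂ := by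
      conv_lhs => rw [← Matrix.fromBlocks_toBlocks T', h11, h21]
    rw [hT'eq]
    refine top_ext' μ _ _ _ _ hsim ?_ hgen
    intro y hy1 hy2
    apply Matrix.eq_zero_of_mulVec_eq_zero hG1
    rw [← Matrix.mulVec_mulVec, top_St_mulVec, hy1, hy2, sub_self]
    have : (Sum.elim (0 : β → ℂ) (0 : β₂ → ℂ)) = 0 := by ext (a | b) <;> rfl
    rw [this, Matrix.mulVec_zero]

/-- **Every matrix has a flag type with a detector.** -/
theorem top_puncOK_all : ∀ (n : ℕ) (α : Type) [Fintype α] [DecidableEq α],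
    Fintype.card α = n → ∀ M : Matrix α α ℂ, top_PuncOK M := by
  intro n
  induction n using Nat.strong_induction_on with
  | _ n ih =>
    intro α _ _ hcard M
    by_cases hα : IsEmpty α
    · refine ⟨α, inferInstance, inferInstance, fun _ => 0, fun _ => 0, M, 1, ?_, top_Sim.refl M,
        by simp, fun p => isEmptyElim p, ?_⟩
      · intro p; exact isEmptyElim p
      · intro T' _ _
        have : T' = M := by ext p; exact isEmptyElim p
        rw [this]; exact top_Sim.refl M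
    · rw [not_isEmpty_iff] at hα
      obtain ⟨μ, d₁, d₂, B, D, hd₁, hsum, _, hsim, hgen⟩ := top_eigen_decomp M
      have : Nonempty (Fin d₁) := ⟨⟨0, hd₁⟩⟩
      refine top_PuncOK_of_sim hsim (top_puncOK_step μ B D hgen ?_)
      exact ih d₂ (by omega) (Fin d₂) (by simp) D


theorem top_Sim.card_eq {M : Matrix α α ℂ} {M' : Matrix β β ℂ} (h : top_Sim M M') :
    Fintype.card α = Fintype.card β := by
  obtain ⟨P, Q, hPQ, hQP, _⟩ := h
  exact Matrix.square_of_invertible P Q hPQ hQP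

omit [Fintype α] [Fintype β] in
theorem top_isOfType_submatrix (e : α ≃ β) {blk : β → ℕ} {lam : ℕ → ℂ} {T : Matrix β β ℂ}
    (h : top_IsOfType blk lam T) : top_IsOfType (blk ∘ e) lam (T.submatrix e e) := by
  intro p q
  refine ⟨fun hpq => (h (e p) (e q)).1 hpq, fun hpq => ?_⟩
  have := (h (e p) (e q)).2 hpq
  simp only [Matrix.submatrix_apply, this, Function.comp, e.injective.eq_iff]

/-- the flag data of a boundary matrix, on the index type of the matrix itself -/
theorem top_puncOK_on (M : Matrix α α ℂ) :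
    ∃ (blk : α → ℕ) (lam : ℕ → ℂ) (P T₀ P' : Matrix α α ℂ) (Gp : MvPolynomial (α × α) ℂ),
      P * P' = 1 ∧ M = P * T₀ * P' ∧ top_IsOfType blk lam T₀ ∧ eval (top_unc T₀) Gp ≠ 0 ∧
      (∀ p, top_HasEig M (lam (blk p))) ∧
      ∀ T' : Matrix α α ℂ, top_IsOfType blk lam T' → eval (top_unc T') Gp ≠ 0 → top_Sim T' M := by
  obtain ⟨β, i1, i2, blk, lam, T₀, Gp, h1, h2, h3, h4, h5⟩ :=
    top_puncOK_all _ α rfl M
  let e : α ≃ β := Fintype.equivOfCardEq h2.card_eq
  obtain ⟨P, P', hPP', _, hM⟩ := h2.trans (top_Sim_submatrix e T₀).symm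
  refine ⟨blk ∘ e, lam, P, T₀.submatrix e e, P', rename (fun v => (e.symm v.1, e.symm v.2)) Gp,
    hPP', hM, top_isOfType_submatrix e h1, ?_, fun p => h4 (e p), ?_⟩
  · rw [eval_rename]
    convert h3 using 3
    funext v
    simp [top_unc]
  · intro T' hT' hG
    rw [eval_rename] at hG
    have h6 : top_IsOfType blk lam (T'.submatrix e.symm e.symm) := by
      have := top_isOfType_submatrix e.symm hT'
      convert this using 1
      funext p
      simp
    exact (top_Sim_submatrix e.symm T').symm.trans (h5 _ h6 hG)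

end

end Claimed.Agent.R236
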