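/-
Row 236: top glue, Burnside theorem and the polynomial detector of irreducibility.
-/
import Claimed.Agent.R236.TopPunc
import Claimed.Agent.R236.TopNMap

set_option autoImplicit false

namespace Claimed.Agent.R236

open MvPolynomial

/-- **Burnside's theorem**: a subalgebra of `End V` without invariant subspaces is everything. -/
theorem top_burnside {V : Type} [AddCommGroup V] [Module ℂ V] [FiniteDimensional ℂ V]
    [Nontrivial V] (R : Subalgebra ℂ (Module.End ℂ V))
    (h : ∀ W : Submodule ℂ V, (∀ r ∈ R, ∀ w ∈ W, r w ∈ W) → W = ⊥ ∨ W = ⊤) : R = ⊤ := by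
  have hsimple : IsSimpleModule R V := by
    rw [isSimpleModule_iff]
    refine { exists_pair_ne := ⟨⊥, ⊤, bot_ne_top⟩, eq_bot_or_eq_top := ?_ }
    intro N
    rcases h (N.restrictScalars ℂ) (fun r hr w hw => N.smul_mem ⟨r, hr⟩ hw) with h0 | h0
    · left
      exact (Submodule.restrictScalars_eq_bot_iff ℂ R V).mp h0
    · right
      exact (Submodule.restrictScalars_eq_top_iff ℂ R V).mp h0
  have hschur := IsSimpleModule.algebraMap_end_bijective_of_isAlgClosed (A := R) (V := V) ℂ
  have hfin : Module.Finite (Module.End R V) V := Module.Finite.of_restrictScalars_finite ℂ _ _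
  have hsurj := Module.Finite.toModuleEnd_moduleEnd_surjective (R := R) (M := V)
  rw [eq_top_iff]
  intro f _
  let f' : Module.End (Module.End R V) V :=
    { toFun := f
      map_add' := map_add f
      map_smul' := by
        intro g v
        obtain ⟨c, rfl⟩ := hschur.2 g
        simp }
  obtain ⟨r, hr⟩ := hsurj f'
  have : (r : Module.End ℂ V) = f := by
    ext v
    exact congrArg (fun φ => φ v) hr
  rw [← this]
  exact r.2


section
variable {α : Type} [Fintype α] [DecidableEq α] {κ : Type}

/-- Burnside for tuples of matrices: the words span the full matrix algebra -/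
theorem top_words_span [Nonempty α] (ρ : κ → Matrix α α ℂ) (h : top_Irr ρ) (X : Matrix α α ℂ) :
    X ∈ Submodule.span ℂ (Set.range fun w : List κ => (w.map ρ).prod) := by
  set A := Algebra.adjoin ℂ (Set.range ρ) with hA
  have hR : A.map (Matrix.toLinAlgEquiv' (R := ℂ) (n := α)).toAlgHom = ⊤ := by
    apply top_burnside
    intro W hW
    apply h
    intro k w hw
    have := hW (Matrix.toLinAlgEquiv' (ρ k))
      ⟨ρ k, Algebra.subset_adjoin ⟨k, rfl⟩, rfl⟩ w hw
    simpa using this
  have hX : X ∈ A := by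
    have : Matrix.toLinAlgEquiv' X ∈ A.map (Matrix.toLinAlgEquiv' (R := ℂ) (n := α)).toAlgHom := by
      rw [hR]; trivial
    obtain ⟨Y, hY, hYX⟩ := this
    have : Y = X := (Matrix.toLinAlgEquiv' (R := ℂ) (n := α)).injective hYX
    rwa [← this]
  have hX' : X ∈ Subalgebra.toSubmodule A := hX
  rw [hA, Algebra.adjoin_eq_span] at hX'
  refine Submodule.span_mono ?_ hX'
  intro Y hY
  rw [SetLike.mem_coe, ← FreeMonoid.mrange_lift] at hY
  obtain ⟨l, rfl⟩ := hY
  exact ⟨l.toList, (FreeMonoid.lift_apply ρ l).symm⟩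


/-- linear combination of words -/
noncomputable def top_comb (c : List κ →₀ ℂ) (ρ : κ → Matrix α α ℂ) : Matrix α α ℂ :=
  c.sum fun w a => a • (w.map ρ).prod

/-- linear combination of words in generic matrices -/
noncomputable def top_combX (c : List κ →₀ ℂ) : Matrix α α (MvPolynomial (κ × α × α) ℂ) :=
  c.sum fun w a => (C a : MvPolynomial (κ × α × α) ℂ) • (w.map (top_XMat (κ := κ) (α := α))).prod

theorem top_combX_eval (c : List κ →₀ ℂ) (z : κ × α × α → ℂ) :
    (eval z).mapMatrix (top_combX c) = top_comb c (top_mat z) := by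
  unfold top_combX top_comb
  rw [map_finsuppSum]
  apply Finsupp.sum_congr
  intro w _
  have h1 : (eval z).mapMatrix ((w.map (top_XMat (κ := κ) (α := α))).prod) =
      (w.map (top_mat z)).prod := by
    rw [map_list_prod, List.map_map]
    congr 1
    apply List.map_congr_left
    intro k _
    exact top_XMat_map z k
  rw [← h1]
  ext a b
  simp [Matrix.smul_apply]

/-- the matrices stabilising a subspace -/
def top_stab (W : Submodule ℂ (α → ℂ)) : Submodule ℂ (Matrix α α ℂ) where
  carrier := {M | ∀ v ∈ W, M.mulVec v ∈ W}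
  add_mem' := by
    intro a b ha hb v hv
    rw [Matrix.add_mulVec]
    exact W.add_mem (ha v hv) (hb v hv)
  zero_mem' := by
    intro v _
    rw [Matrix.zero_mulVec]
    exact W.zero_mem
  smul_mem' := by
    intro c a ha v hv
    rw [Matrix.smul_mulVec]
    exact W.smul_mem _ (ha v hv)

theorem top_word_mem_stab {ρ : κ → Matrix α α ℂ} {W : Submodule ℂ (α → ℂ)} (hW : top_Inv ρ W)
    (w : List κ) : (w.map ρ).prod ∈ top_stab W := by
  induction w with
  | nil => intro v hv; simpa using hv
  | cons a l ih =>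
    intro v hv
    rw [List.map_cons, List.prod_cons, ← Matrix.mulVec_mulVec]
    exact hW a _ (ih v hv)

theorem top_comb_mem_stab {ρ : κ → Matrix α α ℂ} {W : Submodule ℂ (α → ℂ)} (hW : top_Inv ρ W)
    (c : List κ →₀ ℂ) : top_comb c ρ ∈ top_stab W :=
  Submodule.sum_mem _ fun w _ => Submodule.smul_mem _ _ (top_word_mem_stab hW w)

theorem top_eq_bot_or_top_of_stab {W : Submodule ℂ (α → ℂ)} (h : top_stab W = ⊤) :
    W = ⊥ ∨ W = ⊤ := by
  by_cases hW : W = ⊥
  · exact Or.inl hW
  · right
    obtain ⟨w, hw, hw0⟩ := (Submodule.ne_bot_iff W).mp hW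
    obtain ⟨a₀, ha₀⟩ := Function.ne_iff.mp hw0
    rw [eq_top_iff]
    intro v _
    have hM : (Matrix.of fun a b => if b = a₀ then v a / w a₀ else 0 : Matrix α α ℂ) ∈ top_stab W := by
      rw [h]; trivial
    have := hM w hw
    convert this using 1
    funext a
    simp only [Matrix.mulVec, dotProduct, Matrix.of_apply, ite_mul, zero_mul, Finset.sum_ite_eq',
      Finset.mem_univ, if_true]
    rw [div_mul_cancel₀ _ ha₀]

/-- **Polynomial detector of irreducibility.** -/
theorem top_irr_detector (ρ : κ → Matrix α α ℂ) (h : top_Irr ρ) :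
    ∃ G : MvPolynomial (κ × α × α) ℂ, eval (top_vec ρ) G ≠ 0 ∧
      ∀ z, eval z G ≠ 0 → top_Irr (top_mat z) := by
  by_cases hα : IsEmpty α
  · refine ⟨1, by simp, fun z _ W _ => Or.inl ?_⟩
    rw [eq_bot_iff]
    intro v _
    rw [Submodule.mem_bot]
    funext a
    exact isEmptyElim a
  rw [not_isEmpty_iff] at hα
  choose c hc using fun pq : α × α =>
    (Finsupp.mem_span_range_iff_exists_finsupp).mp
      (top_words_span ρ h (Matrix.single pq.1 pq.2 1))
  let ΨX : Matrix (α × α) (α × α) (MvPolynomial (κ × α × α) ℂ) :=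
    fun ab pq => top_combX (c pq) ab.1 ab.2
  let Ψ : (κ × α × α → ℂ) → Matrix (α × α) (α × α) ℂ :=
    fun z ab pq => top_comb (c pq) (top_mat z) ab.1 ab.2
  have hΨ : ∀ z, eval z ΨX.det = (Ψ z).det := by
    intro z
    rw [RingHom.map_det]
    congr 1
    ext ab pq
    exact congrFun (congrFun (top_combX_eval (c pq) z) ab.1) ab.2
  refine ⟨ΨX.det, ?_, ?_⟩
  · rw [hΨ]
    have : Ψ (top_vec ρ) = 1 := by
      ext ⟨a, b⟩ ⟨p, q⟩
      have h1 : top_comb (c (p, q)) ρ = Matrix.single p q 1 := hc (p, q)
      show top_comb (c (p, q)) (top_mat (top_vec ρ)) a b = _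
      rw [top_mat_vec, h1, Matrix.single_apply, Matrix.one_apply]
      simp only [Prod.mk.injEq]
      congr 1
      exact propext ⟨fun h => ⟨h.1.symm, h.2.symm⟩, fun h => ⟨h.1.symm, h.2.symm⟩⟩
    rw [this, Matrix.det_one]
    exact one_ne_zero
  · intro z hz W hW
    rw [hΨ] at hz
    apply top_eq_bot_or_top_of_stab
    rw [eq_top_iff]
    intro X _
    set x := (Ψ z)⁻¹.mulVec (fun ab => X ab.1 ab.2) with hx
    have hX : X = ∑ pq, x pq • top_comb (c pq) (top_mat z) := by
      ext a b
      have h1 : (Ψ z).mulVec x (a, b) = X a b := by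
        rw [hx, Matrix.mulVec_mulVec, Matrix.mul_nonsing_inv _ (isUnit_iff_ne_zero.mpr hz),
          Matrix.one_mulVec]
      rw [← h1, Matrix.sum_apply]
      simp only [Matrix.mulVec, dotProduct, Matrix.smul_apply, smul_eq_mul]
      apply Finset.sum_congr rfl
      intro pq _
      rw [mul_comm]
    rw [hX]
    exact Submodule.sum_mem _ fun pq _ => Submodule.smul_mem _ _ (top_comb_mem_stab hW _)

end

end Claimed.Agent.R236
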