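/-
Row 236: top glue, every completely reducible representation with quasi-unipotent boundary is
conjugate to a point of the closure of the good integral representations.
-/
import Claimed.Agent.R236.TopBurnside

set_option autoImplicit false

namespace Claimed.Agent.R236

open MvPolynomial

section
variable {α β : Type} [Fintype α] [DecidableEq α] [Fintype β] [DecidableEq β]

omit [DecidableEq α] in
theorem top_QU_iff {K : IntermediateField ℚ ℂ} {M : Matrix α α ℂ} :
    top_QU K M ↔ ∀ μ, top_HasEig M μ → μ ∈ K ∧ ∃ m : ℕ, 0 < m ∧ μ ^ m = 1 := by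
  constructor
  · rintro h μ ⟨v, hv, hMv⟩
    exact h μ v hv hMv
  · intro h μ v hv hMv
    exact h μ ⟨v, hv, hMv⟩

theorem top_QU_of_sim {K : IntermediateField ℚ ℂ} {M : Matrix α α ℂ} {M' : Matrix β β ℂ}
    (h : top_Sim M M') (h' : top_QU K M') : top_QU K M := by
  rw [top_QU_iff] at h' ⊢
  exact fun μ hμ => h' μ (top_HasEig_of_sim h.symm hμ)

omit [DecidableEq α] [DecidableEq β] in
theorem top_QU_blk {K : IntermediateField ℚ ℂ} {A : Matrix α α ℂ} {D : Matrix β β ℂ}
    (h : top_QU K (Matrix.fromBlocks A 0 0 D)) : top_QU K A ∧ top_QU K D := by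
  constructor
  · intro μ v hv hAv
    refine h μ (Sum.elim v 0) ?_ ?_
    · intro h0
      apply hv
      funext a
      simpa using congrFun h0 (Sum.inl a)
    · rw [Matrix.fromBlocks_mulVec, Sum.elim_comp_inl, Sum.elim_comp_inr, hAv]
      ext (a | b) <;> simp
  · intro μ v hv hDv
    refine h μ (Sum.elim 0 v) ?_ ?_
    · intro h0
      apply hv
      funext a
      simpa using congrFun h0 (Sum.inr a)
    · rw [Matrix.fromBlocks_mulVec, Sum.elim_comp_inl, Sum.elim_comp_inr, hDv]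
      ext (a | b) <;> simp

/-- **The irreducible case**, from the single input. -/
theorem top_irr_case {F K : IntermediateField ℚ ℂ} {r g s : ℕ} (hF : top_ThmNFor F r g s K)
    (hcard : Fintype.card α ≤ r) (ρ : top_Gen g s → Matrix α α ℂ) (hρ : top_GLRep ρ)
    (hirr : top_Irr ρ) (hqu : ∀ j, top_QU K (ρ (Sum.inr j))) :
    top_vec ρ ∈ top_zcl (top_Good F (top_QCR fun j => ρ (Sum.inr j))) := by
  choose blk lam P T₀ P' Gp hPP' hM hT hG heig hfin using fun j => top_puncOK_on (ρ (Sum.inr j))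
  set z₀ := top_NPoint ρ P T₀ P' with hz₀def
  have hz₀ : z₀ ∈ top_NSol g s blk lam := top_NPoint_mem hρ hPP' hT hM
  have hyp : ∀ j p, lam j (blk j p) ∈ K ∧ ∃ m : ℕ, 0 < m ∧ lam j (blk j p) ^ m = 1 :=
    fun j p => (top_QU_iff.mp (hqu j)) _ (heig j p)
  have h1 := hF α hcard blk lam hyp hz₀
  obtain ⟨GB, hGB, hGB'⟩ := top_irr_detector ρ hirr
  let 𝒢 : MvPolynomial (top_NGen g s × α × α) ℂ :=
    bind₁ top_NMap GB * ∏ j, rename (fun v : α × α => ((Sum.inr (j, 2) : top_NGen g s), v.1, v.2)) (Gp j)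
  have h𝒢 : ∀ z, eval z 𝒢 = eval (top_vec (top_NRep z)) GB *
      ∏ j, eval (top_unc (top_mat z (Sum.inr (j, 2)))) (Gp j) := by
    intro z
    simp only [𝒢, map_mul, map_prod, eval_rename]
    congr 1
    rw [← top_NMap_eval]
    have : (eval z).comp (bind₁ top_NMap).toRingHom = eval (fun k => eval z (top_NMap k)) := by
      apply MvPolynomial.ringHom_ext
      · intro c; simp
      · intro i; simp
    exact congrArg (fun f => f GB) this
  have hrep₀ : top_NRep z₀ = ρ := top_NRep_NPoint ρ hM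
  have hT₀ : ∀ j, top_mat z₀ (Sum.inr (j, 2)) = T₀ j := by
    intro j
    simp [hz₀def, top_NPoint, top_mat_vec]
  have h𝒢₀ : eval z₀ 𝒢 ≠ 0 := by
    rw [h𝒢, hrep₀]
    refine mul_ne_zero hGB (Finset.prod_ne_zero_iff.mpr fun j _ => ?_)
    rw [hT₀]; exact hG j
  have h2 := top_zcl_localize 𝒢 h1 h𝒢₀
  refine top_zcl_image' top_NMap h2 ?_ ?_
  · intro k
    have := congrFun (top_NMap_eval z₀) k
    rw [this, hrep₀]
  · rintro w ⟨⟨hw1, hw2⟩, hw3⟩
    rw [top_NMap_eval]
    refine top_NRep_good hw1 hw2 _ ?_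
    rw [Set.mem_ofPred_eq, h𝒢] at hw3
    have hw4 := left_ne_zero_of_mul hw3
    have hw5 := Finset.prod_ne_zero_iff.mp (right_ne_zero_of_mul hw3)
    refine ⟨top_CR_of_Irr (hGB' _ hw4), fun j => ?_⟩
    have hGG' := hw1.2.2.1 j
    have hsim : top_Sim (top_NRep w (Sum.inr j)) (top_mat w (Sum.inr (j, 2))) :=
      ⟨_, _, hGG', mul_eq_one_comm.mp hGG', rfl⟩
    exact hsim.trans (hfin j _ (hw1.2.2.2.1 j) (hw5 j (Finset.mem_univ _)))


/-- the polynomial map `(ρ₁, ρ₂) ↦ ρ₁ ⊕ ρ₂` -/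
noncomputable def top_pblk {κ : Type} (v : κ × (α ⊕ β) × (α ⊕ β)) :
    MvPolynomial ((κ × α × α) ⊕ (κ × β × β)) ℂ :=
  match v with
  | (k, Sum.inl a, Sum.inl b) => X (Sum.inl (k, a, b))
  | (k, Sum.inr a, Sum.inr b) => X (Sum.inr (k, a, b))
  | (_, Sum.inl _, Sum.inr _) => 0
  | (_, Sum.inr _, Sum.inl _) => 0

omit [Fintype α] [DecidableEq α] [Fintype β] [DecidableEq β] in
theorem top_pblk_eval {κ : Type} (w : (κ × α × α) ⊕ (κ × β × β) → ℂ) :
    (fun v => eval w (top_pblk v)) =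
      top_vec (top_blk (top_mat fun i => w (Sum.inl i)) (top_mat fun i => w (Sum.inr i))) := by
  funext ⟨k, p, q⟩
  rcases p with a | a <;> rcases q with b | b <;> simp [top_pblk, top_vec, top_blk, top_mat]

theorem top_Good_blk {g s : ℕ} {F : IntermediateField ℚ ℂ} {δ ε ζ : Type} [Fintype δ]
    [DecidableEq δ] [Fintype ε] [DecidableEq ε] [Fintype ζ] [DecidableEq ζ]
    {M₁ : Fin s → Matrix δ δ ℂ} {M₂ : Fin s → Matrix ε ε ℂ} {M : Fin s → Matrix ζ ζ ℂ}
    (hM : ∀ j, top_Sim (Matrix.fromBlocks (M₁ j) 0 0 (M₂ j)) (M j))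
    {w₁ : top_Gen g s × α × α → ℂ} {w₂ : top_Gen g s × β × β → ℂ}
    (h₁ : w₁ ∈ top_Good F (top_QCR M₁)) (h₂ : w₂ ∈ top_Good F (top_QCR M₂)) :
    top_vec (top_blk (top_mat w₁) (top_mat w₂)) ∈ top_Good F (top_QCR M) := by
  obtain ⟨a1, a2, a3, a4, a5⟩ := h₁
  obtain ⟨b1, b2, b3, b4, b5⟩ := h₂
  refine ⟨?_, ?_, ?_, ?_, ?_⟩
  · rintro ⟨k, p, q⟩
    rcases p with a | a <;> rcases q with b | b
    · exact a1 _
    · exact zero_mem _
    · exact zero_mem _
    · exact b1 _
  · intro h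
    rw [top_mat_vec, top_det_blk]
    refine ⟨mul_ne_zero (a2 h).1 (b2 h).1, ?_⟩
    rw [mul_inv]
    exact mul_mem (a2 h).2 (b2 h).2
  · rw [top_mat_vec, top_word_blk _ _ (fun h => isUnit_iff_ne_zero.mpr (a2 h).1)
      (fun h => isUnit_iff_ne_zero.mpr (b2 h).1), a3, b3, Matrix.fromBlocks_one]
  · rw [top_mat_vec]
    exact top_CR_blk a4 b4
  · intro j
    rw [top_mat_vec]
    exact (top_Sim_fromBlocks (a5 j) (b5 j)).trans (hM j)

end

/-- **The family theorem**: every completely reducible `GL`-representation of rank `≤ r` with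
quasi-unipotent boundary is conjugate to a point of the closure of the good integral points. -/
theorem top_family {F K : IntermediateField ℚ ℂ} {r g s : ℕ} (hF : top_ThmNFor F r g s K) :
    ∀ (n : ℕ) (α : Type) [Fintype α] [DecidableEq α], Fintype.card α = n → n ≤ r →
      ∀ ρ : top_Gen g s → Matrix α α ℂ, top_GLRep ρ → top_CR ρ →
        (∀ j, top_QU K (ρ (Sum.inr j))) →
        ∃ (β : Type) (_ : Fintype β) (_ : DecidableEq β) (ρ' : top_Gen g s → Matrix β β ℂ),
          top_Conj ρ ρ' ∧ top_vec ρ' ∈ top_zcl (top_Good F (top_QCR fun j => ρ (Sum.inr j))) := by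
  intro n
  induction n using Nat.strong_induction_on with
  | _ n ih =>
    intro α _ _ hcard hnr ρ hρ hCR hqu
    by_cases hirr : top_Irr ρ
    · exact ⟨α, inferInstance, inferInstance, ρ, top_Conj.refl ρ,
        top_irr_case hF (hcard ▸ hnr) ρ hρ hirr hqu⟩
    · unfold top_Irr at hirr
      push Not at hirr
      obtain ⟨W, hW, hWbot, hWtop⟩ := hirr
      obtain ⟨W', hc, hW'⟩ := hCR W hW
      obtain ⟨d₁, d₂, ρ₁, ρ₂, hd₁, hd₂, hconj⟩ := top_exists_decomp hc hW hW'
      have hsum : d₁ + d₂ = n := by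
        rw [hd₁, hd₂, Submodule.finrank_add_eq_of_isCompl hc, ← hcard]
        simp
      have hd₁pos : 0 < d₁ := by
        rw [hd₁, Nat.pos_iff_ne_zero]
        intro h0
        exact hWbot (Submodule.finrank_eq_zero.mp h0)
      have hd₂pos : 0 < d₂ := by
        rw [hd₂, Nat.pos_iff_ne_zero]
        intro h0
        have : W' = ⊥ := Submodule.finrank_eq_zero.mp h0
        rw [this] at hc
        exact hWtop (by simpa using hc.sup_eq_top)
      have hGL := top_GLRep_blk (top_GLRep_of_conj hconj.symm hρ)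
      have hCRb := top_CR_of_conj hconj.symm hCR
      have hQU : ∀ j, top_QU K (ρ₁ (Sum.inr j)) ∧ top_QU K (ρ₂ (Sum.inr j)) := fun j =>
        top_QU_blk (top_QU_of_sim (hconj.symm.sim (Sum.inr j)) (hqu j))
      obtain ⟨β₁, i1, i2, ρ₁', hc₁, hz₁⟩ := ih d₁ (by omega) (Fin d₁) (by simp) (by omega) ρ₁
        hGL.1 (top_CR_blk_left hCRb) (fun j => (hQU j).1)
      obtain ⟨β₂, i3, i4, ρ₂', hc₂, hz₂⟩ := ih d₂ (by omega) (Fin d₂) (by simp) (by omega) ρ₂
        hGL.2 (top_CR_blk_right hCRb) (fun j => (hQU j).2)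
      refine ⟨β₁ ⊕ β₂, inferInstance, inferInstance, top_blk ρ₁' ρ₂',
        hconj.trans (top_Conj_blk hc₁ hc₂), ?_⟩
      refine top_zcl_image' top_pblk (top_zcl_prod hz₁ hz₂) ?_ ?_
      · intro k
        have := congrFun (top_pblk_eval (Sum.elim (top_vec ρ₁') (top_vec ρ₂'))) k
        rw [this]
        rfl
      · rintro w ⟨hw1, hw2⟩
        rw [top_pblk_eval]
        exact top_Good_blk (fun j => (hconj.sim (Sum.inr j)).symm) hw1 hw2

end Claimed.Agent.R236
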