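/-
Row 236: top glue, S0472 from the single input `top_ThmN r g s K`.
-/
import Claimed.Prelude.Def_0400
import Claimed.Agent.R236.TopFam
import Claimed.Agent.R236.Top471

set_option autoImplicit false

namespace Claimed.Agent.R236

open MvPolynomial Claims.C0400

section
variable {g s r : ℕ}

theorem top_aeval_genMat (ρ : PuncVar g s r → ℂ) (γ : PuncGen g s) :
    (aeval ρ : MvPolynomial (PuncVar g s r) ℤ →ₐ[ℤ] ℂ).toRingHom.mapMatrix (genMat id γ) =
      top_mat ρ γ := by
  ext p q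
  simp [genMat, top_mat]

theorem top_isPuncRep_iff (ρ : PuncVar g s r → ℂ) :
    IsPuncRep ρ ↔ (∀ γ, (top_mat ρ γ).det = 1) ∧ top_word (top_mat ρ) = 1 := by
  set φ : MvPolynomial (PuncVar g s r) ℤ →+* ℂ :=
    (aeval ρ : MvPolynomial (PuncVar g s r) ℤ →ₐ[ℤ] ℂ).toRingHom with hφ
  have hdet : ∀ γ, φ ((genMat id γ).det - 1) = (top_mat ρ γ).det - 1 := by
    intro γ
    rw [map_sub, map_one, RingHom.map_det, hφ, top_aeval_genMat]
  have hword : φ.mapMatrix (puncWord g s r) =
      ((List.finRange g).map fun i => top_mat ρ (Sum.inl (i, 0)) * top_mat ρ (Sum.inl (i, 1)) *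
        (top_mat ρ (Sum.inl (i, 0))).adjugate * (top_mat ρ (Sum.inl (i, 1))).adjugate).prod *
      ((List.finRange s).map fun j => top_mat ρ (Sum.inr j)).prod := by
    unfold puncWord
    rw [map_mul, map_list_prod, map_list_prod, List.map_map, List.map_map]
    congr 1
    · congr 1
      apply List.map_congr_left
      intro i _
      simp only [Function.comp, map_mul, RingHom.map_adjugate]
      rw [hφ, top_aeval_genMat, top_aeval_genMat]
    · congr 1
      apply List.map_congr_left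
      intro j _
      simp only [Function.comp]
      rw [hφ, top_aeval_genMat]
  have h1 : IsPuncRep ρ ↔ puncIdeal g s r ≤ RingHom.ker φ := by
    constructor
    · intro h f hf
      exact h f hf
    · intro h f hf
      exact h hf
  have hone : ∀ p q : Fin r, φ ((1 : Matrix (Fin r) (Fin r) (MvPolynomial (PuncVar g s r) ℤ)) p q) =
      (1 : Matrix (Fin r) (Fin r) ℂ) p q := by
    intro p q
    by_cases hpq : p = q
    · subst hpq; simp
    · simp [Matrix.one_apply_ne hpq]
  rw [h1, puncIdeal, Ideal.span_le, Set.union_subset_iff]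
  constructor
  · rintro ⟨ha, hb⟩
    have hd : ∀ γ, (top_mat ρ γ).det = 1 := by
      intro γ
      have : φ ((genMat id γ).det - 1) = 0 := ha ⟨γ, rfl⟩
      rw [hdet] at this
      exact sub_eq_zero.mp this
    refine ⟨hd, ?_⟩
    unfold top_word
    simp only [top_inv_eq_adjugate (hd _)]
    rw [← hword]
    ext p q
    have : φ ((puncWord g s r - 1) p q) = 0 := hb ⟨p, q, rfl⟩
    rw [Matrix.sub_apply, map_sub] at this
    have h2 := sub_eq_zero.mp this
    rw [RingHom.mapMatrix_apply, Matrix.map_apply, h2, hone]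
  · rintro ⟨hd, hb⟩
    constructor
    · rintro _ ⟨γ, rfl⟩
      show φ _ = 0
      rw [hdet, hd, sub_self]
    · rintro _ ⟨p, q, rfl⟩
      show φ _ = 0
      unfold top_word at hb
      simp only [top_inv_eq_adjugate (hd _)] at hb
      rw [← hword] at hb
      have := congrFun (congrFun hb p) q
      rw [RingHom.mapMatrix_apply, Matrix.map_apply] at this
      rw [Matrix.sub_apply, map_sub, this, hone, sub_self]

/-- invariance under `SL`-conjugation, by evaluating the ideal membership -/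
theorem top_invariant_SL {f : MvPolynomial (PuncVar g s r) ℤ} (hf : IsPuncInvariant f)
    {ρ : PuncVar g s r → ℂ} (hρ : IsPuncRep ρ) (P : Matrix (Fin r) (Fin r) ℂ) (hP : P.det = 1) :
    aeval (top_vec fun γ => P * top_mat ρ γ * P.adjugate) f = aeval ρ f := by
  let ψ : MvPolynomial (PuncVar g s r ⊕ Fin r × Fin r) ℤ →ₐ[ℤ] ℂ :=
    aeval (Sum.elim ρ fun pq => P pq.1 pq.2)
  have hconj : ψ.toRingHom.mapMatrix (puncConjMat g s r) = P := by
    ext p q
    simp [ψ, puncConjMat]
  have hgen : ∀ γ, ψ.toRingHom.mapMatrix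
      (genMat (σ := PuncVar g s r ⊕ Fin r × Fin r) Sum.inl γ) = top_mat ρ γ := by
    intro γ
    ext p q
    simp [ψ, genMat, top_mat]
  have hren : ∀ h : MvPolynomial (PuncVar g s r) ℤ, ψ (rename Sum.inl h) = aeval ρ h := by
    intro h
    simp only [ψ]
    rw [aeval_rename]
    rfl
  have hker : Ideal.map (rename Sum.inl : MvPolynomial (PuncVar g s r) ℤ →ₐ[ℤ]
        MvPolynomial (PuncVar g s r ⊕ Fin r × Fin r) ℤ) (puncIdeal g s r) ⊔
      Ideal.span {(puncConjMat g s r).det - 1} ≤ RingHom.ker ψ.toRingHom := by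
    apply sup_le
    · rw [Ideal.map_le_iff_le_comap]
      intro h hh
      rw [Ideal.mem_comap, RingHom.mem_ker]
      exact (hren h).trans (hρ h hh)
    · rw [Ideal.span_le, Set.singleton_subset_iff, SetLike.mem_coe, RingHom.mem_ker, map_sub,
        map_one, RingHom.map_det, hconj, hP, sub_self]
  have h0 := hker hf
  rw [RingHom.mem_ker, map_sub] at h0
  have h1 := sub_eq_zero.mp h0
  have h2 : ψ.toRingHom (rename Sum.inl f) = aeval ρ f := hren f
  rw [h2] at h1
  rw [← h1]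
  show _ = ψ (bind₁ _ f)
  rw [aeval_bind₁]
  congr 2
  funext v
  have := congrFun (congrFun (show ψ.toRingHom.mapMatrix (puncConjMat g s r *
      genMat (σ := PuncVar g s r ⊕ Fin r × Fin r) Sum.inl v.1 * (puncConjMat g s r).adjugate) =
      P * top_mat ρ v.1 * P.adjugate by
    rw [map_mul, map_mul, RingHom.map_adjugate, hconj, hgen]) v.2.1) v.2.2
  exact this.symm


/-- invariance under `GL`-conjugation -/
theorem top_invariant_GL (hr : 0 < r) {f : MvPolynomial (PuncVar g s r) ℤ}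
    (hf : IsPuncInvariant f) {ρ : PuncVar g s r → ℂ} (hρ : IsPuncRep ρ)
    {P Q : Matrix (Fin r) (Fin r) ℂ} (hPQ : P * Q = 1) :
    aeval (top_vec fun γ => P * top_mat ρ γ * Q) f = aeval ρ f := by
  have hd : P.det * Q.det = 1 := by rw [← Matrix.det_mul, hPQ, Matrix.det_one]
  have hd0 : P.det ≠ 0 := left_ne_zero_of_mul_eq_one hd
  obtain ⟨t, ht⟩ := IsAlgClosed.exists_pow_nat_eq (P.det)⁻¹ hr
  have ht0 : t ≠ 0 := by
    rintro rfl
    rw [zero_pow hr.ne'] at ht
    exact inv_ne_zero hd0 ht.symm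
  have hdet1 : (t • P).det = 1 := by
    rw [Matrix.det_smul, Fintype.card_fin, ht, inv_mul_cancel₀ hd0]
  have hadj : (t • P).adjugate = t⁻¹ • Q := by
    rw [← top_inv_eq_adjugate hdet1]
    apply Matrix.inv_eq_right_inv
    rw [Matrix.smul_mul, Matrix.mul_smul, smul_smul, mul_inv_cancel₀ ht0, one_smul, hPQ]
  rw [← top_invariant_SL hf hρ (t • P) hdet1]
  congr 3
  funext γ
  rw [hadj, Matrix.smul_mul, Matrix.smul_mul, Matrix.mul_smul, smul_smul, mul_inv_cancel₀ ht0,
    one_smul]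

end

section
variable {α β : Type} [Fintype α] [DecidableEq α] [Fintype β] [DecidableEq β] {g s : ℕ}

theorem top_Conj.card_eq {κ : Type} {ρ : κ → Matrix α α ℂ} {ρ' : κ → Matrix β β ℂ}
    (h : top_Conj ρ ρ') : Fintype.card α = Fintype.card β := by
  obtain ⟨P, Q, hPQ, hQP, _⟩ := h
  exact Matrix.square_of_invertible P Q hPQ hQP

theorem top_zcl_Good_reindex (e : α ≃ β) {F : IntermediateField ℚ ℂ} {ζ : Type} [Fintype ζ]
    [DecidableEq ζ] {M : Fin s → Matrix ζ ζ ℂ} {ρ' : top_Gen g s → Matrix β β ℂ}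
    (h : top_vec ρ' ∈ top_zcl (top_Good F (top_QCR M))) :
    top_vec (fun k => (ρ' k).submatrix e e) ∈ top_zcl (top_Good F (top_QCR M)) := by
  refine top_zcl_image' (fun v : top_Gen g s × α × α => X (v.1, e v.2.1, e v.2.2)) h ?_ ?_
  · intro k
    simp [top_vec]
  · rintro w ⟨h1, h2, h3, h4, h5⟩
    have hw : (fun v : top_Gen g s × α × α => eval w (X (v.1, e v.2.1, e v.2.2))) =
        top_vec fun k => (top_mat w k).submatrix e e := by
      funext v
      simp [top_vec, top_mat]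
    rw [hw]
    have hconj := top_Conj_submatrix e (top_mat w)
    refine ⟨fun v => h1 _, ?_, ?_, top_CR_of_conj hconj h4,
      fun j => (top_Sim_submatrix e _).trans (h5 j)⟩
    · intro h
      rw [top_mat_vec, Matrix.det_submatrix_equiv_self]
      exact h2 h
    · rw [top_mat_vec]
      obtain ⟨P, Q, hPQ, hQP, hP⟩ := hconj
      rw [funext hP, top_word_conj hPQ hQP _ (fun h => isUnit_iff_ne_zero.mpr (h2 h).1), h3]
      simpa using hPQ

omit [DecidableEq α] in
theorem top_Inv_update_iff {κ : Type} [DecidableEq κ] (ρ : κ → Matrix α α ℂ) (k : κ) {t : ℂ}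
    (ht : t ≠ 0) (W : Submodule ℂ (α → ℂ)) :
    top_Inv (Function.update ρ k (t • ρ k)) W ↔ top_Inv ρ W := by
  constructor
  · intro h k' w hw
    have := h k' w hw
    by_cases hk : k' = k
    · subst hk
      rw [Function.update_self, Matrix.smul_mulVec] at this
      have h2 := W.smul_mem t⁻¹ this
      rwa [smul_smul, inv_mul_cancel₀ ht, one_smul] at h2
    · rwa [Function.update_of_ne hk] at this
  · intro h k' w hw
    by_cases hk : k' = k
    · subst hk
      rw [Function.update_self, Matrix.smul_mulVec]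
      exact W.smul_mem t (h _ w hw)
    · rw [Function.update_of_ne hk]
      exact h k' w hw

theorem top_QCR_update {M : Fin s → Matrix β β ℂ} (ρ : top_Gen g s → Matrix α α ℂ)
    (h : Fin g × Fin 2) (t : ℂ) (ht : t ≠ 0) (hQ : top_QCR M ρ) :
    top_QCR M (Function.update ρ (Sum.inl h) (t • ρ (Sum.inl h))) := by
  refine ⟨?_, fun j => ?_⟩
  · intro W hW
    obtain ⟨W', hc, hW'⟩ := hQ.1 W ((top_Inv_update_iff ρ _ ht W).mp hW)
    exact ⟨W', hc, (top_Inv_update_iff ρ _ ht W').mpr hW'⟩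
  · rw [Function.update_of_ne (by simp)]
    exact hQ.2 j

theorem top_isRoot_of_eig {M : Matrix α α ℂ} {μ : ℂ} {v : α → ℂ} (hv : v ≠ 0)
    (h : M.mulVec v = μ • v) : M.charpoly.IsRoot μ := by
  rw [Polynomial.IsRoot, Matrix.eval_charpoly, ← Matrix.exists_mulVec_eq_zero_iff]
  refine ⟨v, hv, ?_⟩
  rw [Matrix.sub_mulVec, h]
  simp [Matrix.scalar_apply]

end

/-- **S0472 from the single input.** -/
theorem top_S0472 (g s r : ℕ) (hr : 1 ≤ r)
    (C : Fin s → Matrix (Fin r) (Fin r) ℂ) (hdet : ∀ j, (C j).det = 1)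
    (hqu : ∀ j, ∀ μ : ℂ, (C j).charpoly.IsRoot μ → ∃ m : ℕ, 0 < m ∧ μ ^ m = 1)
    (K : IntermediateField ℚ ℂ)
    (hKeig : ∀ j, ∀ μ : ℂ, (C j).charpoly.IsRoot μ → μ ∈ K) (hN : top_ThmN r g s K) :
    ∃ L : IntermediateField ℚ ℂ, FiniteDimensional ℚ L ∧ K ≤ L ∧
      ∀ (m : ℕ) (f : Fin m → MvPolynomial (PuncVar g s r) ℤ) (c : Fin m → ℂ),
        (∀ i, IsPuncInvariant (f i)) →
        (∀ ρ, IsPuncRep ρ → InBoundaryLocus C ρ →
          (∀ h : MvPolynomial (PuncVar g s r) ℤ, IsPuncInvariant h →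
            MvPolynomial.aeval ρ h ∈ L ∧ IsIntegral ℤ (MvPolynomial.aeval ρ h)) →
          ∑ i, c i * MvPolynomial.aeval ρ (f i) = 0) →
        ∀ ρ, IsPuncRep ρ → InBoundaryLocus C ρ → ∑ i, c i * MvPolynomial.aeval ρ (f i) = 0 := by
  have hr0 : 0 < r := hr
  obtain ⟨F, hFfin, hKF, hF⟩ := hN
  obtain ⟨L, hLfin, hFL, hL⟩ := top_exists_root_field F hFfin r hr
  refine ⟨L, hLfin, hKF.trans hFL, ?_⟩
  intro m f c hinv hvan ρ _ hloc
  obtain ⟨ρs, hρs, hCRs, hsame, hcls⟩ := hloc
  have e1 : ∑ i, c i * aeval ρ (f i) = ∑ i, c i * aeval ρs (f i) :=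
    Finset.sum_congr rfl fun i _ => by rw [hsame _ (hinv i)]
  rw [e1]
  obtain ⟨hdets, hwords⟩ := (top_isPuncRep_iff ρs).mp hρs
  have hGL : top_GLRep (top_mat ρs) := ⟨fun γ => by rw [hdets]; exact isUnit_one, hwords⟩
  have hsimC : ∀ j, top_Sim (top_mat ρs (Sum.inr j)) (C j) := fun j => top_Sim_iff.mpr (hcls j)
  have hQUC : ∀ j, top_QU K (C j) := fun j μ v hv hMv =>
    ⟨hKeig j μ (top_isRoot_of_eig hv hMv), hqu j μ (top_isRoot_of_eig hv hMv)⟩
  have hQU : ∀ j, top_QU K (top_mat ρs (Sum.inr j)) := fun j => top_QU_of_sim (hsimC j) (hQUC j)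
  obtain ⟨β, i1, i2, ρ', hconj, hz⟩ :=
    top_family hF r (Fin r) (by simp) le_rfl (top_mat ρs) hGL hCRs hQU
  let e : Fin r ≃ β := Fintype.equivOfCardEq hconj.card_eq
  have hz' := top_zcl_Good_reindex e hz
  have hconj' : top_Conj (fun k => (ρ' k).submatrix e e) (top_mat ρs) :=
    (top_Conj_submatrix e ρ').trans hconj.symm
  have hdet' : ∀ h, (top_mat (top_vec fun k => (ρ' k).submatrix e e) (Sum.inl h)).det = 1 := by
    intro h
    rw [top_mat_vec, (hconj'.sim (Sum.inl h)).det_eq, hdets]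
  have h3 := top_twist F L hFL (by simpa using hr0) (by simpa using hL) _
    (fun ρ h t ht hQ => top_QCR_update ρ h t ht hQ) _ hdet' hz'
  obtain ⟨P, Q, hPQ, _, hP⟩ := hconj'
  let Φ : MvPolynomial (top_Gen g s × Fin r × Fin r) ℂ :=
    ∑ i, MvPolynomial.C (c i) * map (Int.castRingHom ℂ) (f i)
  have hΦ : ∀ z, eval z Φ = ∑ i, c i * aeval z (f i) := by
    intro z
    simp only [Φ, map_sum, map_mul, eval_C, eval_map, aeval_def]
    rfl
  have e2 : ∑ i, c i * aeval ρs (f i) = eval (top_vec fun k => (ρ' k).submatrix e e) Φ := by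
    rw [hΦ, funext hP]
    exact Finset.sum_congr rfl fun i _ => by rw [top_invariant_GL hr0 (hinv i) hρs hPQ]
  rw [e2]
  apply h3
  rintro w ⟨hw1, hw2, hw3, hw4, hw5⟩
  rw [hΦ]
  have hwrep : IsPuncRep w := by
    rw [top_isPuncRep_iff]
    refine ⟨?_, hw3⟩
    rintro (h | j)
    · exact hw2 h
    · rw [((hw5 j).trans (hsimC j)).det_eq, hdet]
  apply hvan w hwrep
  · exact ⟨w, hwrep, hw4, fun _ _ => rfl, fun j => top_Sim_iff.mp ((hw5 j).trans (hsimC j))⟩
  · intro h _
    exact top_mem_O.mp (top_aeval_mem (fun v => hw1 _) h)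

end Claimed.Agent.R236
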