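/-
Row 236: top glue, the arithmetic of the ring `O_F`: a unit of infinite order and many units with
unit differences.
-/
import Claimed.Agent.R236.TopField

set_option autoImplicit false

namespace Claimed.Agent.R236

open Polynomial

/-- if `μ` is a primitive `n`-th root of unity, `n` not a prime power, then `1 - μ` is a unit in
every subring containing the `n`-th roots of unity -/
theorem top_one_sub_unit {n : ℕ} (hn : ∀ {p : ℕ}, p.Prime → ∀ k : ℕ, p ^ k ≠ n) (R : Subring ℂ)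
    (hR : ∀ μ : ℂ, μ ^ n = 1 → μ ∈ R) {μ : ℂ} (hμ : IsPrimitiveRoot μ n) (hn0 : 0 < n) :
    1 - μ ≠ 0 ∧ (1 - μ) ∈ R ∧ (1 - μ)⁻¹ ∈ R := by
  classical
  have h1 : (cyclotomic n ℂ).eval 1 = 1 := eval_one_cyclotomic_not_prime_pow hn
  rw [cyclotomic_eq_prod_X_sub_primitiveRoots hμ, eval_prod] at h1
  have hmem : μ ∈ primitiveRoots n ℂ := (mem_primitiveRoots hn0).2 hμ
  rw [← Finset.mul_prod_erase _ _ hmem] at h1
  simp only [eval_sub, eval_X, eval_C] at h1
  have hne : 1 - μ ≠ 0 := by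
    intro h
    rw [h, zero_mul] at h1
    exact zero_ne_one h1
  refine ⟨hne, R.sub_mem R.one_mem (hR μ hμ.pow_eq_one), ?_⟩
  have : (1 - μ)⁻¹ = ∏ x ∈ (primitiveRoots n ℂ).erase μ, (1 - x) := by
    exact inv_eq_of_mul_eq_one_right h1
  rw [this]
  refine R.prod_mem fun x hx => R.sub_mem R.one_mem (hR x ?_)
  exact ((mem_primitiveRoots hn0).1 (Finset.mem_of_mem_erase hx)).pow_eq_one

/-- powers of a primitive `p q`-th root of unity have unit differences -/
theorem top_alpha_units (N : ℕ) {p q : ℕ} (hp : p.Prime) (hq : q.Prime) (hpq : p ≠ q)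
    (hNp : N ≤ p) (hNq : N ≤ q) (R : Subring ℂ) {ζ : ℂ} (hζ : IsPrimitiveRoot ζ (p * q))
    (hR : ζ ∈ R) (i j : ℕ) (hi : i < N) (hj : j < N) (hij : i ≠ j) :
    ζ ^ i - ζ ^ j ≠ 0 ∧ ζ ^ i - ζ ^ j ∈ R ∧ (ζ ^ i - ζ ^ j)⁻¹ ∈ R := by
  have hn0 : 0 < p * q := Nat.mul_pos hp.pos hq.pos
  have hnpp : ∀ {l : ℕ}, l.Prime → ∀ k : ℕ, l ^ k ≠ p * q := by
    intro l hl k h
    have h1 : p ∣ l ^ k := h ▸ Dvd.intro _ rfl
    have h2 : q ∣ l ^ k := h ▸ Dvd.intro_left _ rfl
    have h3 := (Nat.prime_dvd_prime_iff_eq hp hl).1 (hp.dvd_of_dvd_pow h1)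
    have h4 := (Nat.prime_dvd_prime_iff_eq hq hl).1 (hq.dvd_of_dvd_pow h2)
    exact hpq (h3.trans h4.symm)
  have hroots : ∀ μ : ℂ, μ ^ (p * q) = 1 → μ ∈ R := by
    intro μ hμ
    have : NeZero (p * q) := ⟨hn0.ne'⟩
    obtain ⟨k, _, rfl⟩ := hζ.eq_pow_of_pow_eq_one hμ
    exact R.pow_mem hR k
  have hζ0 : ζ ≠ 0 := hζ.ne_zero hn0.ne'
  have hinv : ζ⁻¹ ∈ R := by
    have : ζ⁻¹ = ζ ^ (p * q - 1) := by
      apply inv_eq_of_mul_eq_one_right
      rw [← pow_succ', Nat.sub_add_cancel hn0, hζ.pow_eq_one]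
    rw [this]
    exact R.pow_mem hR _
  -- the key case
  have key : ∀ a d : ℕ, 0 < d → d < N →
      ζ ^ a * (1 - ζ ^ d) ≠ 0 ∧ ζ ^ a * (1 - ζ ^ d) ∈ R ∧ (ζ ^ a * (1 - ζ ^ d))⁻¹ ∈ R := by
    intro a d hd hdN
    have hcop : d.Coprime (p * q) := by
      apply Nat.Coprime.mul_right
      · exact (Nat.coprime_of_lt_prime hd.ne' (by omega) hp).symm
      · exact (Nat.coprime_of_lt_prime hd.ne' (by omega) hq).symm
    have hprim : IsPrimitiveRoot (ζ ^ d) (p * q) := hζ.pow_of_coprime d hcop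
    obtain ⟨h1, h2, h3⟩ := top_one_sub_unit hnpp R hroots hprim hn0
    refine ⟨mul_ne_zero (pow_ne_zero _ hζ0) h1, R.mul_mem (R.pow_mem hR _) h2, ?_⟩
    rw [mul_inv, ← inv_pow]
    exact R.mul_mem (R.pow_mem hinv _) h3
  rcases lt_or_gt_of_ne hij with h | h
  · obtain ⟨h1, h2, h3⟩ := key i (j - i) (by omega) (by omega)
    have : ζ ^ i - ζ ^ j = ζ ^ i * (1 - ζ ^ (j - i)) := by
      rw [mul_sub, mul_one, ← pow_add]
      congr 2
      omega
    rw [this]
    exact ⟨h1, h2, h3⟩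
  · obtain ⟨h1, h2, h3⟩ := key j (i - j) (by omega) (by omega)
    have : ζ ^ i - ζ ^ j = -(ζ ^ j * (1 - ζ ^ (i - j))) := by
      rw [mul_sub, mul_one, ← pow_add, neg_sub]
      congr 2
      omega
    rw [this]
    refine ⟨neg_ne_zero.2 h1, R.neg_mem h2, ?_⟩
    rw [inv_neg]
    exact R.neg_mem h3

/-- **The arithmetic input.**  Every number field `K ⊆ ℂ` lies in a number field `F` whose ring of
integers has a unit of infinite order and `N` units with unit differences. -/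
theorem top_arith (K : IntermediateField ℚ ℂ) (hK : FiniteDimensional ℚ K) (N : ℕ) :
    ∃ F : IntermediateField ℚ ℂ, FiniteDimensional ℚ F ∧ K ≤ F ∧
      (∃ ε : ℂ, ε ≠ 0 ∧ ε ∈ top_O F ∧ ε⁻¹ ∈ top_O F ∧ ∀ k : ℕ, 0 < k → ε ^ k ≠ 1) ∧
      (∃ α : ℕ → ℂ, (∀ i, α i ≠ 0 ∧ α i ∈ top_O F ∧ (α i)⁻¹ ∈ top_O F) ∧
        ∀ i j, i < N → j < N → i ≠ j →
          α i - α j ≠ 0 ∧ α i - α j ∈ top_O F ∧ (α i - α j)⁻¹ ∈ top_O F) := by
  classical
  obtain ⟨p, hNp, hp⟩ := Nat.exists_infinite_primes N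
  obtain ⟨q, hpq, hq⟩ := Nat.exists_infinite_primes (p + 1)
  have hn0 : 0 < p * q := Nat.mul_pos hp.pos hq.pos
  have hζ := Complex.isPrimitiveRoot_exp (p * q) hn0.ne'
  set ζ := Complex.exp (2 * Real.pi * Complex.I / (p * q : ℕ)) with hζdef
  set w : ℂ := ((Real.sqrt 2 : ℝ) : ℂ) with hw
  have hw2 : w ^ 2 = 2 := by
    rw [hw, ← Complex.ofReal_pow, Real.sq_sqrt (by norm_num)]
    norm_num
  have hwint : IsIntegral ℤ w := by
    apply IsIntegral.of_pow (n := 2) (by norm_num)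
    rw [hw2]
    exact (isIntegral_one (R := ℤ) (B := ℂ)).add isIntegral_one |> fun h => by
      have h2 : (1 : ℂ) + 1 = 2 := by norm_num
      rwa [h2] at h
  have hζint : IsIntegral ℤ ζ := hζ.isIntegral hn0
  let T : Set ℂ := {w, ζ}
  have hTint : ∀ x ∈ T, IsIntegral ℚ x := by
    intro x hx
    rcases hx with rfl | rfl
    · exact hwint.tower_top
    · exact hζint.tower_top
  have : FiniteDimensional ℚ (IntermediateField.adjoin ℚ T) :=
    IntermediateField.finiteDimensional_adjoin hTint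
  refine ⟨K ⊔ IntermediateField.adjoin ℚ T, inferInstance, le_sup_left, ?_, ?_⟩
  all_goals set F := K ⊔ IntermediateField.adjoin ℚ T with hF
  · have hwF : w ∈ F := (le_sup_right : IntermediateField.adjoin ℚ T ≤ F)
      (IntermediateField.subset_adjoin ℚ _ (Or.inl rfl))
    have hmul : (1 + w) * (w - 1) = 1 := by
      have : (1 + w) * (w - 1) = w ^ 2 - 1 := by ring
      rw [this, hw2]; norm_num
    have hne : (1 + w) ≠ 0 := left_ne_zero_of_mul_eq_one hmul
    refine ⟨1 + w, hne, top_mem_O.2 ⟨add_mem (one_mem _) hwF, isIntegral_one.add hwint⟩, ?_, ?_⟩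
    · rw [inv_eq_of_mul_eq_one_right hmul]
      exact top_mem_O.2 ⟨sub_mem hwF (one_mem _), hwint.sub isIntegral_one⟩
    · intro k hk h
      have h1 : ‖(1 + w) ^ k‖ = 1 := by rw [h, norm_one]
      rw [norm_pow] at h1
      have h2 : ‖1 + w‖ = 1 + Real.sqrt 2 := by
        have : (1 + w) = ((1 + Real.sqrt 2 : ℝ) : ℂ) := by rw [hw]; push_cast; ring
        rw [this, Complex.norm_real, Real.norm_of_nonneg (by positivity)]
      have h3 : 1 < ‖1 + w‖ := by
        rw [h2]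
        have : 0 < Real.sqrt 2 := Real.sqrt_pos.2 (by norm_num)
        linarith
      exact absurd h1 (one_lt_pow₀ h3 hk.ne').ne'
  · have hζF : ζ ∈ F := (le_sup_right : IntermediateField.adjoin ℚ T ≤ F)
      (IntermediateField.subset_adjoin ℚ _ (Or.inr rfl))
    have hζO : ζ ∈ top_O F := top_mem_O.2 ⟨hζF, hζint⟩
    have hζ0 : ζ ≠ 0 := hζ.ne_zero hn0.ne'
    have hinv : ζ⁻¹ ∈ top_O F := by
      have : ζ⁻¹ = ζ ^ (p * q - 1) := by
        apply inv_eq_of_mul_eq_one_right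
        rw [← pow_succ', Nat.sub_add_cancel hn0, hζ.pow_eq_one]
      rw [this]
      exact (top_O F).pow_mem hζO _
    refine ⟨fun i => ζ ^ i, fun i => ⟨pow_ne_zero _ hζ0, (top_O F).pow_mem hζO _, ?_⟩, ?_⟩
    · rw [← inv_pow]
      exact (top_O F).pow_mem hinv _
    · intro i j hi hj hij
      exact top_alpha_units N hp hq (by omega) hNp (by omega) (top_O F) hζ hζO i j hi hj hij

/-- a unit of infinite order gives infinitely many units -/
theorem top_units_infinite (R : Subring ℂ) {ε : ℂ} (h0 : ε ≠ 0) (h1 : ε ∈ R) (h2 : ε⁻¹ ∈ R)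
    (h3 : ∀ k : ℕ, 0 < k → ε ^ k ≠ 1) : {z : ℂ | z ∈ R ∧ z⁻¹ ∈ R}.Infinite := by
  have hinj : Function.Injective fun k : ℕ => ε ^ k := by
    intro a b hab
    simp only at hab
    by_contra hne
    rcases lt_or_gt_of_ne hne with h | h
    · apply h3 (b - a) (by omega)
      have : ε ^ a * ε ^ (b - a) = ε ^ a * 1 := by
        rw [← pow_add, mul_one, hab]; congr 1; omega
      exact mul_left_cancel₀ (pow_ne_zero _ h0) this
    · apply h3 (a - b) (by omega)
      have : ε ^ b * ε ^ (a - b) = ε ^ b * 1 := by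
        rw [← pow_add, mul_one, ← hab]; congr 1; omega
      exact mul_left_cancel₀ (pow_ne_zero _ h0) this
  refine Set.infinite_of_injective_forall_mem hinj fun k => ⟨R.pow_mem h1 k, ?_⟩
  rw [← inv_pow]
  exact R.pow_mem h2 k

end Claimed.Agent.R236
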