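/-
Row 236: top glue.  Reduction of the flag variety `N` for an arbitrary index type and arbitrary block
functions to the sorted cut-set form on `Fin n`.
-/
import Claimed.Agent.R236.TopZcl

set_option autoImplicit false

namespace Claimed.Agent.R236

open MvPolynomial

set_option linter.unusedSectionVars false

section congr
variable {α : Type} [Fintype α] [DecidableEq α]

/-- `top_IsOfType` only depends on the order relation of the blocks and on the scalars -/
theorem top_isOfType_congr {blk blk' : α → ℕ} {lam lam' : ℕ → ℂ}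
    (h1 : ∀ p q, blk p < blk q ↔ blk' p < blk' q) (h2 : ∀ p, lam (blk p) = lam' (blk' p))
    (T : Matrix α α ℂ) : top_IsOfType blk lam T ↔ top_IsOfType blk' lam' T := by
  have h3 : ∀ p q, blk p = blk q ↔ blk' p = blk' q := by
    intro p q
    have a := h1 p q
    have b := h1 q p
    constructor <;> intro h <;> omega
  unfold top_IsOfType
  refine forall_congr' fun p => forall_congr' fun q => ?_
  rw [h1 q p, h3 p q, h2 p]

/-- the variety `N` only depends on the order relation of the blocks and on the scalars -/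
theorem top_NSol_congr (g s : ℕ) {blk blk' : Fin s → α → ℕ} {lam lam' : Fin s → ℕ → ℂ}
    (h1 : ∀ j p q, blk j p < blk j q ↔ blk' j p < blk' j q)
    (h2 : ∀ j p, lam j (blk j p) = lam' j (blk' j p)) :
    top_NSol g s blk lam = top_NSol g s blk' lam' := by
  ext z
  unfold top_NSol
  simp only [Set.mem_ofPred_eq]
  have : (∀ j, top_IsOfType (blk j) (lam j) (top_mat z (Sum.inr (j, 2)))) ↔
      ∀ j, top_IsOfType (blk' j) (lam' j) (top_mat z (Sum.inr (j, 2))) :=
    forall_congr' fun j => top_isOfType_congr (h1 j) (h2 j) _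
  rw [this]

end congr

section reindex
variable {α β : Type} [Fintype α] [DecidableEq α] [Fintype β] [DecidableEq β]

/-- the permutation of the coordinates: handles are reindexed by `e`, the frame `G_j` has rows
reindexed by `e` and columns by `σ j`. -/
def top_reix {g s : ℕ} (e : α ≃ β) (σ : Fin s → α ≃ β) :
    top_NGen g s × α × α → top_NGen g s × β × β
  | (Sum.inl h, p, q) => (Sum.inl h, e p, e q)
  | (Sum.inr (j, k), p, q) =>
    (Sum.inr (j, k), (if k = 0 then e p else σ j p), (if k = 1 then e q else σ j q))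

theorem top_reix_symm {g s : ℕ} (e : α ≃ β) (σ : Fin s → α ≃ β) (v : top_NGen g s × α × α) :
    top_reix e.symm (fun j => (σ j).symm) (top_reix e σ v) = v := by
  obtain ⟨h | ⟨j, k⟩, p, q⟩ := v
  · simp [top_reix]
  · simp only [top_reix]
    split_ifs <;> simp

theorem top_list_prod_submatrix {ι : Type} (e : α ≃ β) (l : List ι) (M : ι → Matrix β β ℂ) :
    (l.map fun i => (M i).submatrix e e).prod = ((l.map M).prod).submatrix e e := by
  induction l with
  | nil => simp
  | cons a l ih =>
    simp only [List.map_cons, List.prod_cons, ih, Matrix.submatrix_mul_equiv]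

theorem top_NSol_reix {g s : ℕ} (e : α ≃ β) (σ : Fin s → α ≃ β) {blkα : Fin s → α → ℕ}
    {blkβ : Fin s → β → ℕ} (hb : ∀ j p, blkα j p = blkβ j (σ j p)) (lam : Fin s → ℕ → ℂ)
    {z : top_NGen g s × β × β → ℂ} (hz : z ∈ top_NSol g s blkβ lam) :
    (fun v => z (top_reix e σ v)) ∈ top_NSol g s blkα lam := by
  obtain ⟨h1, h2, h3, h4, h5⟩ := hz
  have m0 : ∀ h, top_mat (fun v => z (top_reix e σ v)) (Sum.inl h) =
      (top_mat z (Sum.inl h)).submatrix e e := fun h => rfl
  have m1 : ∀ j, top_mat (fun v => z (top_reix e σ v)) (Sum.inr (j, 0)) =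
      (top_mat z (Sum.inr (j, 0))).submatrix e (σ j) := fun j => rfl
  have m2 : ∀ j, top_mat (fun v => z (top_reix e σ v)) (Sum.inr (j, 1)) =
      (top_mat z (Sum.inr (j, 1))).submatrix (σ j) e := fun j => rfl
  have m3 : ∀ j, top_mat (fun v => z (top_reix e σ v)) (Sum.inr (j, 2)) =
      (top_mat z (Sum.inr (j, 2))).submatrix (σ j) (σ j) := fun j => rfl
  refine ⟨fun i => ?_, fun i => ?_, fun j => ?_, fun j => ?_, ?_⟩
  · rw [m0, m0, Matrix.submatrix_mul_equiv, h1, Matrix.submatrix_one_equiv]
  · rw [m0, m0, Matrix.submatrix_mul_equiv, h2, Matrix.submatrix_one_equiv]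
  · rw [m1, m2, Matrix.submatrix_mul_equiv, h3, Matrix.submatrix_one_equiv]
  · rw [m3]
    intro p q
    have := h4 j (σ j p) (σ j q)
    simp only [(σ j).injective.eq_iff] at this
    simp only [Matrix.submatrix_apply, hb]
    exact this
  · simp only [m0, m1, m2, m3, Matrix.submatrix_mul_equiv]
    rw [top_list_prod_submatrix, top_list_prod_submatrix, Matrix.submatrix_mul_equiv, h5,
      Matrix.submatrix_one_equiv]

/-- density is invariant under reindexing -/
theorem top_NSol_reindex (R : Subring ℂ) {g s : ℕ} (e : α ≃ β) (σ : Fin s → α ≃ β)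
    {blkα : Fin s → α → ℕ} {blkβ : Fin s → β → ℕ} (hb : ∀ j p, blkα j p = blkβ j (σ j p))
    (lam : Fin s → ℕ → ℂ)
    (H : top_NSol g s blkβ lam ⊆ top_zcl (top_NSol g s blkβ lam ∩ {z | ∀ v, z v ∈ R})) :
    top_NSol g s blkα lam ⊆ top_zcl (top_NSol g s blkα lam ∩ {z | ∀ v, z v ∈ R}) := by
  intro z hz
  have hb' : ∀ j p, blkβ j p = blkα j ((σ j).symm p) := by
    intro j p
    rw [hb, Equiv.apply_symm_apply]
  have hz' := top_NSol_reix (g := g) e.symm (fun j => (σ j).symm) hb' lam hz
  refine top_zcl_image' (fun v => X (top_reix e σ v)) (H hz') (fun v => ?_) ?_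
  · rw [eval_X]
    show z v = z (top_reix e.symm (fun j => (σ j).symm) (top_reix e σ v))
    rw [top_reix_symm]
  · rintro w ⟨hw, hwR⟩
    simp only [eval_X]
    exact ⟨top_NSol_reix e σ hb lam hw, fun v => hwR _⟩

end reindex

/-! ### sorting -/

/-- the block function of a cut set: number of cuts `0 < c ≤ p` -/
def top_cnt (K : Finset ℕ) (p : ℕ) : ℕ := (K.filter fun c => 0 < c ∧ c ≤ p).card

theorem top_cnt_mono (K : Finset ℕ) {p q : ℕ} (h : p ≤ q) : top_cnt K p ≤ top_cnt K q := by
  apply Finset.card_le_card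
  intro c hc
  simp only [Finset.mem_filter] at hc ⊢
  exact ⟨hc.1, hc.2.1, hc.2.2.trans h⟩

theorem top_cnt_lt_iff (K : Finset ℕ) (p q : ℕ) :
    top_cnt K p < top_cnt K q ↔ ∃ c ∈ K, p < c ∧ c ≤ q := by
  constructor
  · intro h
    by_contra hne
    push Not at hne
    apply absurd h (not_lt.2 _)
    apply Finset.card_le_card
    intro c hc
    simp only [Finset.mem_filter] at hc ⊢
    refine ⟨hc.1, hc.2.1, ?_⟩
    by_contra hpc
    exact absurd hc.2.2 (not_le.2 (hne c hc.1 (not_le.1 hpc)))
  · rintro ⟨c, hc, hpc, hcq⟩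
    apply Finset.card_lt_card
    refine ⟨?_, ?_⟩
    · intro d hd
      simp only [Finset.mem_filter] at hd ⊢
      exact ⟨hd.1, hd.2.1, by omega⟩
    · intro hsub
      have : c ∈ K.filter fun c => 0 < c ∧ c ≤ p :=
        hsub (by simp only [Finset.mem_filter]; exact ⟨hc, by omega, hcq⟩)
      simp only [Finset.mem_filter] at this
      omega

/-- the cut set of a function on `[0,n)`: `0`, `n` and the jumps -/
def top_cuts (n : ℕ) (b : ℕ → ℕ) : Finset ℕ :=
  insert 0 (insert n ((Finset.range n).filter fun c => 0 < c ∧ b (c - 1) < b c))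

theorem top_cuts_spec (n : ℕ) (b : ℕ → ℕ) :
    0 ∈ top_cuts n b ∧ n ∈ top_cuts n b ∧ ∀ c ∈ top_cuts n b, c ≤ n := by
  refine ⟨by simp [top_cuts], by simp [top_cuts], ?_⟩
  intro c hc
  simp only [top_cuts, Finset.mem_insert, Finset.mem_filter, Finset.mem_range] at hc
  omega

/-- a function which is monotone on `[0,n)` is order equivalent to the block function of its cut
set -/
theorem top_cuts_lt_iff (n : ℕ) (b : ℕ → ℕ) (hb : ∀ i j, i ≤ j → j < n → b i ≤ b j)
    (p q : ℕ) (hp : p < n) (hq : q < n) :
    b p < b q ↔ top_cnt (top_cuts n b) p < top_cnt (top_cuts n b) q := by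
  rw [top_cnt_lt_iff]
  constructor
  · intro h
    have hpq : p < q := by
      by_contra hne
      exact absurd (hb q p (not_lt.1 hne) hp) (not_le.2 h)
    -- there is a jump
    by_contra hno
    push Not at hno
    have key : ∀ d, p + d ≤ q → b (p + d) ≤ b p := by
      intro d
      induction d with
      | zero => intro _; exact le_rfl
      | succ d ih =>
        intro hd
        have h1 := ih (by omega)
        by_contra h2
        have hjump : b (p + (d + 1) - 1) < b (p + (d + 1)) := by
          have : p + (d + 1) - 1 = p + d := by omega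
          rw [this]; omega
        have hmem : p + (d + 1) ∈ top_cuts n b := by
          simp only [top_cuts, Finset.mem_insert, Finset.mem_filter, Finset.mem_range]
          right; right
          exact ⟨by omega, by omega, hjump⟩
        exact absurd hd (not_le.2 (hno _ hmem (by omega)))
    have := key (q - p) (by omega)
    have h3 : p + (q - p) = q := by omega
    rw [h3] at this
    omega
  · rintro ⟨c, hc, hpc, hcq⟩
    simp only [top_cuts, Finset.mem_insert, Finset.mem_filter, Finset.mem_range] at hc
    rcases hc with rfl | rfl | ⟨_, _, hj⟩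
    · omega
    · omega
    · have h1 := hb p (c - 1) (by omega) (by omega)
      have h2 := hb c q hcq hq
      omega

/-- **B3**: density for all sorted cut-set data on `Fin n` implies density for an arbitrary index
type and arbitrary block functions. -/
theorem top_sort_reduce (R : Subring ℂ) (g s : ℕ) {α : Type} [Fintype α] [DecidableEq α]
    (blk : Fin s → α → ℕ) (lam : Fin s → ℕ → ℂ)
    (H : ∀ (K : Fin s → Finset ℕ) (lam' : Fin s → ℕ → ℂ),
      (∀ j, 0 ∈ K j ∧ Fintype.card α ∈ K j ∧ ∀ c ∈ K j, c ≤ Fintype.card α) →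
      (∀ j (p : Fin (Fintype.card α)), ∃ q, lam' j (top_cnt (K j) p) = lam j (blk j q)) →
      top_NSol g s (fun j (p : Fin (Fintype.card α)) => top_cnt (K j) p) lam' ⊆
        top_zcl (top_NSol g s (fun j (p : Fin (Fintype.card α)) => top_cnt (K j) p) lam' ∩
          {z | ∀ v, z v ∈ R})) :
    top_NSol g s blk lam ⊆ top_zcl (top_NSol g s blk lam ∩ {z | ∀ v, z v ∈ R}) := by
  classical
  set n := Fintype.card α with hn
  let e : α ≃ Fin n := Fintype.equivFin α
  -- the sorting bijections
  let f : Fin s → Fin n → ℕ := fun j k => blk j (e.symm k)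
  let σ : Fin s → α ≃ Fin n := fun j => e.trans (Tuple.sort (f j)).symm
  let b : Fin s → Fin n → ℕ := fun j k => blk j ((σ j).symm k)
  have hbmono : ∀ j, Monotone (b j) := by
    intro j
    have := Tuple.monotone_sort (f j)
    exact this
  -- extension to the naturals
  let bb : Fin s → ℕ → ℕ := fun j i => if h : i < n then b j ⟨i, h⟩ else 0
  have hbb : ∀ j (p : Fin n), bb j p = b j p := by
    intro j p
    simp [bb, p.2]
  have hbbmono : ∀ j i i', i ≤ i' → i' < n → bb j i ≤ bb j i' := by
    intro j i i' h h'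
    have hi : i < n := lt_of_le_of_lt h h'
    simp only [bb, hi, h', dif_pos]
    exact hbmono j h
  let K : Fin s → Finset ℕ := fun j => top_cuts n (bb j)
  have hord : ∀ j (p q : Fin n), b j p < b j q ↔ top_cnt (K j) p < top_cnt (K j) q := by
    intro j p q
    rw [← hbb, ← hbb]
    exact top_cuts_lt_iff n (bb j) (hbbmono j) p q p.2 q.2
  have heq : ∀ j (p q : Fin n), top_cnt (K j) p = top_cnt (K j) q → b j p = b j q := by
    intro j p q h
    have h1 := hord j p q
    have h2 := hord j q p
    omega
  let lam' : Fin s → ℕ → ℂ := fun j k =>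
    if h : ∃ p : Fin n, top_cnt (K j) p = k then lam j (b j h.choose) else 1
  have hlam : ∀ j (p : Fin n), lam' j (top_cnt (K j) p) = lam j (b j p) := by
    intro j p
    have h : ∃ p' : Fin n, top_cnt (K j) p' = top_cnt (K j) p := ⟨p, rfl⟩
    simp only [lam', dif_pos h]
    rw [heq j _ _ h.choose_spec]
  have H1 := H K lam' (fun j => top_cuts_spec n (bb j)) (fun j p => ⟨(σ j).symm p, hlam j p⟩)
  have hcongr : top_NSol g s b lam =
      top_NSol g s (fun j (p : Fin n) => top_cnt (K j) p) lam' :=
    top_NSol_congr g s hord (fun j p => (hlam j p).symm)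
  rw [← hcongr] at H1
  exact top_NSol_reindex R e σ (fun j p => by simp [b]) lam H1

end Claimed.Agent.R236
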