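import Mathlib
import Claimed.Agent.R236.GInduct
import Claimed.Agent.R236.GSteps
import Claimed.Agent.R236.GPattern
import Claimed.Agent.R236.GMerge
import Claimed.Agent.R236.GSmall
import Claimed.Agent.R236.ClosedSplit
import Claimed.Agent.R236.GReduceStep
import Claimed.Agent.R236.GRedTypeB
import Claimed.Agent.R236.GRedOcc
import Claimed.Agent.R236.GCancel
import Claimed.Agent.R236.GSlide
import Claimed.Agent.R236.GFinalRed
import Claimed.Agent.R236.GMainFin
import Claimed.Agent.R236.GMainCut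
import Claimed.Agent.R236.TopSort
import Claimed.Agent.R236.TopArith
import Claimed.Agent.R236.Top471
import Claimed.Agent.R236.Top472

/-!
# Row 236: the final assembly (owner helper95, prefix fin_)

Everything which is proved is plugged in; the statements which are still open are the fields of
`fin_Open`.
-/

set_option autoImplicit false

namespace Claimed.Agent.R236

/-- the arithmetic hypotheses on the ring -/
structure fin_Ring (N : ℕ) (R : Subring ℂ) : Prop where
  units : {z : ℂ | z ∈ R ∧ z⁻¹ ∈ R}.Infinite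
  alpha : ∃ α : ℕ → ℂ, (∀ i, α i ≠ 0 ∧ α i ∈ R ∧ (α i)⁻¹ ∈ R) ∧
    ∀ i j, i < N → j < N → i ≠ j → α i - α j ≠ 0 ∧ α i - α j ∈ R ∧ (α i - α j)⁻¹ ∈ R

/-- the statement which is still open -/
structure fin_Open (N : ℕ) (R : Subring ℂ) : Prop where
  locS : StLocS N R

/-- the reduced system is well formed -/
theorem fin_reduceWF (N : ℕ) (R : Subring ℂ) : StReduceWF N R :=
  grw_reduceWF grw_sig grw_eqn gro_occ

/-- every well-formed system is dense -/
theorem fin_DD {N : ℕ} {R : Subring ℂ} (hR : fin_Ring N R) (h : fin_Open N R) (Y : Type)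
    (S : gs_Sys Y) (hS : S.WF N R) : gs_Dense N R S :=
  gi_DD' (gsm_zero N R)
    (gt_mixed (gmg_mergeStep N R) gpt_pattern (gcn_cancel hR.units) (gsl_slide N R))
    (gt_reduceStep (fin_reduceDense h.locS) (fin_reduceWF N R) (grs_reduceMu (fin_reduceWF N R))
      (gmg_mergeStep N R) (gsm_dropEmpty N R))
    (qc_closedStep N R) (mn_closedFromA hR.units hR.alpha) Y S hS

/-- roots of unity of `K` are units of `O_F` -/
theorem fin_root_unit {K F : IntermediateField ℚ ℂ} (hKF : K ≤ F) {μ : ℂ} (hμ : μ ∈ K) {m : ℕ}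
    (hm : 0 < m) (h1 : μ ^ m = 1) : μ ≠ 0 ∧ μ ∈ top_O F ∧ μ⁻¹ ∈ top_O F := by
  have h0 : μ ≠ 0 := by
    rintro rfl
    rw [zero_pow hm.ne'] at h1
    exact zero_ne_one h1
  have hint : IsIntegral ℤ μ := by
    refine ⟨Polynomial.X ^ m - 1, Polynomial.monic_X_pow_sub_C 1 hm.ne', ?_⟩
    simp [h1]
  have hO : μ ∈ top_O F := top_mem_O.2 ⟨hKF hμ, hint⟩
  refine ⟨h0, hO, ?_⟩
  have : μ⁻¹ = μ ^ (m - 1) := by
    have h2 : μ * μ ^ (m - 1) = 1 := by
      rw [← pow_succ', Nat.sub_add_cancel hm, h1]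
    exact inv_eq_of_mul_eq_one_right h2
  rw [this]
  exact (top_O F).pow_mem hO _

/-- the single input of the top glue -/
theorem fin_ThmN (H : ∀ (N : ℕ) (R : Subring ℂ), fin_Ring N R → fin_Open N R) (r g s : ℕ)
    (K : IntermediateField ℚ ℂ) (hK : FiniteDimensional ℚ K) : top_ThmN r g s K := by
  obtain ⟨F, hF, hKF, ⟨ε, e0, e1, e2, e3⟩, hα⟩ := top_arith K hK r
  refine ⟨F, hF, hKF, ?_⟩
  have hR : fin_Ring r (top_O F) := ⟨top_units_infinite _ e0 e1 e2 e3, hα⟩
  have hDD := fin_DD hR (H r (top_O F) hR)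
  intro α _ _ hcard blk lam hlam
  refine top_sort_reduce (top_O F) g s blk lam fun Kc lam' _ hl => ?_
  obtain ⟨Y, S, hG, _, hd⟩ := mn_mainSys r (top_O F) (Fintype.card α) hcard g s Kc lam' (by
    intro j p
    obtain ⟨q, hq⟩ := hl j p
    obtain ⟨h1, m, hm, h2⟩ := hlam j q
    have : lam' j (mn_blk (Kc j) p) = lam j (blk j q) := hq
    rw [this]
    exact fin_root_unit hKF h1 hm h2)
  exact hd (hDD Y S hG.wf)

end Claimed.Agent.R236
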