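import Mathlib

/-!
# Row 236, G-LOCS: abstract block calculus (owner helper139; prefix `gls_`)

Everything here happens in an arbitrary ring `M` with seven orthogonal idempotents `π 0, …, π 6` of
sum one (labels: `0 = a`, `1 = h₁`, `2 = x`, `3 = b`, `4 = h₂`, `5 = y`, `6 = rest`).

* `gls_blk π i j X = π i * X * π j` : typed atoms; `gls_rules` : one bundle of rewriting rules for
  `simp (disch := decide) only [...]`; after the normalisation `abel` closes the goals.
* `gls_Pat π ρ X` : the blocks of `X` outside of the pattern `ρ : Fin 7 → Fin 7 → Bool` vanish;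
  closure lemmas with side conditions proved by `decide`.
* `gls_core` : the soundness identity of the swap,
  `(1 - E) * ((1 + R) * P) * (1 - G) = (Λ + C) * Θ * (1 + D) + bb`.
* `gls_C1 … gls_C4` : the identities of the completeness recipe.
-/

set_option autoImplicit false
set_option linter.unusedSimpArgs false

namespace Claimed.Agent.R236

section abs

variable {M : Type*} [Ring M]

/-- seven orthogonal idempotents with sum one -/
structure gls_Idem (π : Fin 7 → M) : Prop where
  mul_self : ∀ i, π i * π i = π i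
  mul_ne : ∀ i j, i ≠ j → π i * π j = 0
  sum : ∑ i, π i = 1

/-- the block `(i,j)` -/
def gls_blk (π : Fin 7 → M) (i j : Fin 7) (X : M) : M := π i * X * π j

theorem gls_blk_zero (π : Fin 7 → M) (i j : Fin 7) : gls_blk π i j 0 = 0 := by
  simp [gls_blk]

theorem gls_blk_add (π : Fin 7 → M) (i j : Fin 7) (X Y : M) :
    gls_blk π i j (X + Y) = gls_blk π i j X + gls_blk π i j Y := by
  simp [gls_blk, mul_add, add_mul]

theorem gls_blk_sub (π : Fin 7 → M) (i j : Fin 7) (X Y : M) :
    gls_blk π i j (X - Y) = gls_blk π i j X - gls_blk π i j Y := by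
  simp [gls_blk, mul_sub, sub_mul]

theorem gls_blk_neg (π : Fin 7 → M) (i j : Fin 7) (X : M) :
    gls_blk π i j (-X) = -gls_blk π i j X := by
  simp [gls_blk]

variable {π : Fin 7 → M} (hπ : gls_Idem π)
include hπ

theorem gls_pb (i j : Fin 7) (X : M) : π i * gls_blk π i j X = gls_blk π i j X := by
  simp only [gls_blk, ← mul_assoc, hπ.mul_self]
theorem gls_pbn {k i : Fin 7} (h : k ≠ i) (j : Fin 7) (X : M) : π k * gls_blk π i j X = 0 := by
  simp only [gls_blk, ← mul_assoc, hπ.mul_ne k i h, zero_mul]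
theorem gls_bp (i j : Fin 7) (X : M) : gls_blk π i j X * π j = gls_blk π i j X := by
  simp only [gls_blk, mul_assoc, hπ.mul_self]
theorem gls_bpn {j k : Fin 7} (h : j ≠ k) (i : Fin 7) (X : M) : gls_blk π i j X * π k = 0 := by
  simp only [gls_blk, mul_assoc, hπ.mul_ne j k h, mul_zero]
theorem gls_bbn {j k : Fin 7} (h : j ≠ k) (i l : Fin 7) (X Y : M) :
    gls_blk π i j X * gls_blk π k l Y = 0 := by
  rw [← gls_pb hπ k l Y, ← mul_assoc, gls_bpn hπ h, zero_mul]

/-- the rewriting rules of the block calculus, as one bundle for `simp` -/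
theorem gls_rules :
    (∀ i, π i * π i = π i) ∧ (∀ i (Z : M), π i * (π i * Z) = π i * Z) ∧
    (∀ i j, i ≠ j → π i * π j = 0) ∧ (∀ i j (Z : M), i ≠ j → π i * (π j * Z) = 0) ∧
    (∀ i j (X : M), π i * gls_blk π i j X = gls_blk π i j X) ∧
    (∀ i j (X Z : M), π i * (gls_blk π i j X * Z) = gls_blk π i j X * Z) ∧
    (∀ k i j (X : M), k ≠ i → π k * gls_blk π i j X = 0) ∧
    (∀ k i j (X Z : M), k ≠ i → π k * (gls_blk π i j X * Z) = 0) ∧
    (∀ i j (X : M), gls_blk π i j X * π j = gls_blk π i j X) ∧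
    (∀ i j (X Z : M), gls_blk π i j X * (π j * Z) = gls_blk π i j X * Z) ∧
    (∀ i j k (X : M), j ≠ k → gls_blk π i j X * π k = 0) ∧
    (∀ i j k (X Z : M), j ≠ k → gls_blk π i j X * (π k * Z) = 0) ∧
    (∀ i j k l (X Y : M), j ≠ k → gls_blk π i j X * gls_blk π k l Y = 0) ∧
    (∀ i j k l (X Y Z : M), j ≠ k → gls_blk π i j X * (gls_blk π k l Y * Z) = 0) := by
  refine ⟨hπ.mul_self, fun i Z => by rw [← mul_assoc, hπ.mul_self], hπ.mul_ne,
    fun i j Z h => by rw [← mul_assoc, hπ.mul_ne i j h, zero_mul], gls_pb hπ,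
    fun i j X Z => by rw [← mul_assoc, gls_pb hπ], fun k i j X h => gls_pbn hπ h j X,
    fun k i j X Z h => by rw [← mul_assoc, gls_pbn hπ h, zero_mul], gls_bp hπ,
    fun i j X Z => by rw [← mul_assoc, gls_bp hπ], fun i j k X h => gls_bpn hπ h i X,
    fun i j k X Z h => by rw [← mul_assoc, gls_bpn hπ h, zero_mul],
    fun i j k l X Y h => gls_bbn hπ h i l X Y,
    fun i j k l X Y Z h => by rw [← mul_assoc, gls_bbn hπ h, zero_mul]⟩

theorem gls_blk_one_self (i : Fin 7) : gls_blk π i i 1 = π i := by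
  simp only [gls_blk, mul_one, hπ.mul_self]

theorem gls_blk_one_ne {i j : Fin 7} (h : i ≠ j) : gls_blk π i j 1 = 0 := by
  simp only [gls_blk, mul_one, hπ.mul_ne i j h]

theorem gls_blk_blk (i j k l : Fin 7) (X : M) :
    gls_blk π i j (gls_blk π k l X) = if i = k ∧ j = l then gls_blk π k l X else 0 := by
  by_cases hik : i = k
  · by_cases hjl : j = l
    · subst hik; subst hjl
      rw [if_pos ⟨rfl, rfl⟩]
      conv_lhs => rw [gls_blk, gls_pb hπ, gls_bp hπ]
    · rw [if_neg (fun h => hjl h.2)]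
      conv_lhs => rw [gls_blk, mul_assoc, gls_bpn hπ (Ne.symm hjl), mul_zero]
  · rw [if_neg (fun h => hik h.1)]
    conv_lhs => rw [gls_blk, gls_pbn hπ hik, zero_mul]

/-- every element is the sum of its blocks -/
theorem gls_decomp (X : M) : X = ∑ i, ∑ j, gls_blk π i j X := by
  calc X = (∑ i, π i) * X * (∑ j, π j) := by rw [hπ.sum, one_mul, mul_one]
    _ = ∑ i, ∑ j, gls_blk π i j X := by
      simp only [Finset.sum_mul, Finset.mul_sum, gls_blk]
      exact Finset.sum_comm

theorem gls_blk_mul (i k : Fin 7) (X Y : M) :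
    gls_blk π i k (X * Y) = ∑ j, gls_blk π i j X * gls_blk π j k Y := by
  calc gls_blk π i k (X * Y) = π i * X * (∑ j, π j) * Y * π k := by
        rw [hπ.sum, mul_one, gls_blk, mul_assoc (π i) X Y]
    _ = ∑ j, gls_blk π i j X * gls_blk π j k Y := by
      simp only [Finset.sum_mul, Finset.mul_sum, gls_blk]
      refine Finset.sum_congr rfl fun j _ => ?_
      simp only [mul_assoc]
      rw [← mul_assoc (π j) (π j), hπ.mul_self]

end abs

/-! ## patterns -/

section pat

variable {M : Type*} [Ring M]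

/-- the blocks outside of the pattern `ρ` vanish -/
def gls_Pat (π : Fin 7 → M) (ρ : Fin 7 → Fin 7 → Bool) (X : M) : Prop :=
  ∀ i j, ρ i j = false → gls_blk π i j X = 0

/-- pattern given by a list of positions -/
def gls_pl (L : List (Fin 7 × Fin 7)) : Fin 7 → Fin 7 → Bool := fun i j => decide ((i, j) ∈ L)

/-- product pattern -/
def gls_pp (I J : List (Fin 7)) : Fin 7 → Fin 7 → Bool :=
  fun i j => decide (i ∈ I) && decide (j ∈ J)

/-- union with the diagonal -/
def gls_pd (ρ : Fin 7 → Fin 7 → Bool) : Fin 7 → Fin 7 → Bool := fun i j => decide (i = j) || ρ i j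

variable {π : Fin 7 → M} {ρ σ τ : Fin 7 → Fin 7 → Bool} {X Y : M}

theorem gls_Pat.zero : gls_Pat π ρ (0 : M) := fun i j _ => gls_blk_zero π i j

theorem gls_Pat.mono (h : gls_Pat π ρ X) (hρ : ∀ i j, ρ i j = true → σ i j = true) :
    gls_Pat π σ X := fun i j hij => h i j (by
  cases hr : ρ i j with
  | false => rfl
  | true => rw [hρ i j hr] at hij; exact absurd hij (by decide))

theorem gls_Pat.add (hX : gls_Pat π ρ X) (hY : gls_Pat π ρ Y) : gls_Pat π ρ (X + Y) :=
  fun i j h => by rw [gls_blk_add, hX i j h, hY i j h, add_zero]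

theorem gls_Pat.sub (hX : gls_Pat π ρ X) (hY : gls_Pat π ρ Y) : gls_Pat π ρ (X - Y) :=
  fun i j h => by rw [gls_blk_sub, hX i j h, hY i j h, sub_zero]

theorem gls_Pat.neg (hX : gls_Pat π ρ X) : gls_Pat π ρ (-X) :=
  fun i j h => by rw [gls_blk_neg, hX i j h, neg_zero]

theorem gls_Pat.mul (hπ : gls_Idem π) (hX : gls_Pat π ρ X) (hY : gls_Pat π σ Y)
    (h : ∀ i j k, ρ i j = true → σ j k = true → τ i k = true) : gls_Pat π τ (X * Y) := by
  intro i k hik
  rw [gls_blk_mul hπ]
  refine Finset.sum_eq_zero fun j _ => ?_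
  cases hr : ρ i j with
  | false => rw [hX i j hr, zero_mul]
  | true =>
    cases hs : σ j k with
    | false => rw [hY j k hs, mul_zero]
    | true => rw [h i j k hr hs] at hik; exact absurd hik (by decide)

theorem gls_Pat.eq_zero (hπ : gls_Idem π) (h : gls_Pat π ρ X) (hρ : ∀ i j, ρ i j = false) :
    X = 0 := by
  rw [gls_decomp hπ X]
  exact Finset.sum_eq_zero fun i _ => Finset.sum_eq_zero fun j _ => h i j (hρ i j)

theorem gls_Pat.mul_eq_zero (hπ : gls_Idem π) (hX : gls_Pat π ρ X) (hY : gls_Pat π σ Y)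
    (h : ∀ i j k, ρ i j = true → σ j k = true → False) : X * Y = 0 :=
  (gls_Pat.mul (τ := fun _ _ => false) hπ hX hY fun i j k h1 h2 => (h i j k h1 h2).elim).eq_zero hπ
    fun _ _ => rfl

theorem gls_Pat.one (hπ : gls_Idem π) : gls_Pat π (fun i j => decide (i = j)) (1 : M) :=
  fun i j h => gls_blk_one_ne hπ (by simpa using h)

theorem gls_Pat.pi (hπ : gls_Idem π) (l : Fin 7) : gls_Pat π (gls_pl [(l, l)]) (π l) := by
  intro i j h
  have h' : ¬ (i = l ∧ j = l) := by simpa [gls_pl] using h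
  by_cases hi : i = l
  · have hj : l ≠ j := fun e => h' ⟨hi, e.symm⟩
    rw [gls_blk, mul_assoc, hπ.mul_ne l j hj, mul_zero]
  · rw [gls_blk, hπ.mul_ne i l hi, zero_mul]

theorem gls_Pat.blk (hπ : gls_Idem π) (k l : Fin 7) (X : M) :
    gls_Pat π (gls_pl [(k, l)]) (gls_blk π k l X) := by
  intro i j h
  have h' : ¬ (i = k ∧ j = l) := by simpa [gls_pl] using h
  rw [gls_blk_blk hπ, if_neg h']

/-- `X - 1` has pattern `ρ`: then `X` has pattern `ρ ∪ diagonal` -/
theorem gls_Pat.of_sub_one (hπ : gls_Idem π) (h : gls_Pat π ρ (X - 1)) : gls_Pat π (gls_pd ρ) X := by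
  have e : X = (X - 1) + 1 := by abel
  rw [e]
  exact (h.mono fun i j hij => by simp [gls_pd, hij]).add
    ((gls_Pat.one hπ).mono fun i j hij => by simp only [gls_pd, hij, Bool.true_or])

theorem gls_pi_mul_sum (hπ : gls_Idem π) {i : Fin 7} {I : List (Fin 7)} (h : i ∉ I) :
    π i * (I.map π).sum = 0 := by
  induction I with
  | nil => simp
  | cons k I ih =>
    rw [List.mem_cons, not_or] at h
    rw [List.map_cons, List.sum_cons, mul_add, hπ.mul_ne i k h.1, ih h.2, add_zero]

theorem gls_sum_mul_pi (hπ : gls_Idem π) {i : Fin 7} {I : List (Fin 7)} (h : i ∉ I) :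
    (I.map π).sum * π i = 0 := by
  induction I with
  | nil => simp
  | cons k I ih =>
    rw [List.mem_cons, not_or] at h
    rw [List.map_cons, List.sum_cons, add_mul, hπ.mul_ne k i (Ne.symm h.1), ih h.2, add_zero]

/-- product pattern from left and right absorption -/
theorem gls_pat_prod (hπ : gls_Idem π) (I J : List (Fin 7))
    (h₁ : (I.map π).sum * X = X) (h₂ : X * (J.map π).sum = X) : gls_Pat π (gls_pp I J) X := by
  intro i j h
  have h' : ¬ (i ∈ I ∧ j ∈ J) := by simpa [gls_pp] using h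
  by_cases hi : i ∈ I
  · have hj : j ∉ J := fun e => h' ⟨hi, e⟩
    rw [gls_blk, ← h₂, mul_assoc, mul_assoc, gls_sum_mul_pi hπ hj, mul_zero, mul_zero]
  · rw [gls_blk, ← h₁, ← mul_assoc, gls_pi_mul_sum hπ hi, zero_mul, zero_mul]

end pat

/-! ## the soundness core -/

/-- pattern of `Cm - Λ` -/
abbrev gls_rC : Fin 7 → Fin 7 → Bool := gls_pl [(0, 3), (0, 4), (3, 4), (1, 2), (1, 5), (2, 5)]
/-- pattern of `Cp - 1` -/
abbrev gls_rD : Fin 7 → Fin 7 → Bool := gls_pl [(3, 0), (3, 1), (0, 1), (4, 5), (4, 2), (5, 2)]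
/-- pattern of `R - 1` -/
abbrev gls_rR : Fin 7 → Fin 7 → Bool := gls_pl [(0, 1), (0, 2), (1, 2)]
/-- pattern of `W - 1` -/
abbrev gls_rW : Fin 7 → Fin 7 → Bool := gls_pl [(3, 4), (3, 5), (4, 5)]
/-- pattern of `Θ - 1 + π 1 + π 4` -/
abbrev gls_rT : Fin 7 → Fin 7 → Bool := gls_pl [(1, 4), (4, 1)]
/-- first block times second block -/
abbrev gls_rAB : Fin 7 → Fin 7 → Bool := gls_pp [0, 1, 2] [3, 4, 5]
/-- second block times first block -/
abbrev gls_rBA : Fin 7 → Fin 7 → Bool := gls_pp [3, 4, 5] [0, 1, 2]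
/-- `U` before times `Q` after -/
abbrev gls_rFB : Fin 7 → Fin 7 → Bool := gls_pp [0, 3, 4] [4, 2, 5]

section core
variable {M : Type*} [Ring M] (π : Fin 7 → M) (C D R W T p0 p1 : M)

/-- the part of `C` in the pattern `gls_rC` -/
def gls_Cs : M := gls_blk π 0 3 C + gls_blk π 0 4 C + gls_blk π 3 4 C + gls_blk π 1 2 C
        + gls_blk π 1 5 C + gls_blk π 2 5 C
/-- the part of `D` in the pattern `gls_rD` -/
def gls_Ds : M := gls_blk π 3 0 D + gls_blk π 3 1 D + gls_blk π 0 1 D + gls_blk π 4 5 D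
        + gls_blk π 4 2 D + gls_blk π 5 2 D
/-- the part of `R` in the pattern `gls_rR` -/
def gls_Rs : M := gls_blk π 0 1 R + gls_blk π 0 2 R + gls_blk π 1 2 R
/-- the part of `W` in the pattern `gls_rW` -/
def gls_Ws : M := gls_blk π 3 4 W + gls_blk π 3 5 W + gls_blk π 4 5 W
/-- the exchange of the labels `1` and `4` -/
def gls_Ts : M := 1 - π 1 - π 4 + gls_blk π 1 4 T + gls_blk π 4 1 T

/-- inverse of `1 + W` -/
def gls_P : M := 1 - gls_blk π 3 4 W - gls_blk π 4 5 W - gls_blk π 3 5 W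
  + gls_blk π 3 4 W * gls_blk π 4 5 W

/-- block `(0,4)` of the correction -/
def gls_b04 : M := (gls_blk π 0 1 D - gls_blk π 0 1 R) * gls_blk π 1 4 T + gls_blk π 0 4 C
  - gls_blk π 0 3 C * gls_blk π 3 4 C - gls_blk π 0 3 C * gls_blk π 3 4 W

/-- block `(4,2)` of the correction -/
def gls_b42 : M := gls_blk π 4 1 T * gls_blk π 1 2 R + gls_blk π 4 2 D
  - gls_blk π 4 1 T * gls_blk π 1 2 C - gls_blk π 4 5 D * gls_blk π 5 2 D
  - gls_blk π 4 5 W * gls_blk π 5 2 D

/-- the block (first, second) of `N₀ + bb` -/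
def gls_AB : M := gls_blk π 0 3 C + gls_b04 π C D R W T + gls_blk π 0 5 p0 - gls_blk π 1 4 T
  + (gls_blk π 1 5 C - gls_blk π 1 4 T * gls_blk π 4 5 D) + gls_blk π 2 5 C

/-- the block (second, first) of `N₀ + bb` -/
def gls_BA : M := gls_blk π 3 0 D + (gls_blk π 3 1 D + gls_blk π 3 4 C * gls_blk π 4 1 T)
  + gls_blk π 3 2 p1 + gls_blk π 4 1 T + gls_b42 π C D R W T + gls_blk π 5 2 D

/-- block `(0,2)` of the correction -/
def gls_b02 : M := gls_blk π 0 2 R + gls_blk π 0 3 C * gls_blk π 3 2 p1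
  + (gls_blk π 0 3 C * gls_blk π 3 4 W + gls_b04 π C D R W T) * gls_b42 π C D R W T
  + (gls_blk π 0 3 C * gls_blk π 3 5 W + gls_b04 π C D R W T * gls_blk π 4 5 W
      + gls_blk π 0 5 p0) * gls_blk π 5 2 D

/-- the correction in the pattern `gls_rFB` -/
def gls_bb : M := (gls_P π W - 1) + π 4 + gls_b04 π C D R W T + gls_b02 π C D R W T p0 p1
  + gls_b42 π C D R W T + gls_blk π 0 5 p0 + gls_blk π 3 2 p1

/-- the left correction -/
def gls_E : M := - (gls_AB π C D R W T p0 * (1 + gls_Ws π W))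
/-- the right correction -/
def gls_G : M := - ((1 + gls_Ws π W) * gls_BA π C D R W T p1)

variable {π}

/-- **soundness core**, atoms version -/
theorem gls_core (hπ : gls_Idem π)
    (hJ : gls_blk π 1 4 T * gls_blk π 4 1 T = π 1) (hJ' : gls_blk π 4 1 T * gls_blk π 1 4 T = π 4) :
    (1 - gls_E π C D R W T p0) * ((1 + gls_Rs π R) * gls_P π W) * (1 - gls_G π C D R W T p1) =
      (1 - π 1 - π 1 + gls_Cs π C) * gls_Ts π T * (1 + gls_Ds π D) + gls_bb π C D R W T p0 p1 := by
  have hJa : ∀ Z, gls_blk π 1 4 T * (gls_blk π 4 1 T * Z) = π 1 * Z := fun Z => by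
    rw [← mul_assoc, hJ]
  have hJa' : ∀ Z, gls_blk π 4 1 T * (gls_blk π 1 4 T * Z) = π 4 * Z := fun Z => by
    rw [← mul_assoc, hJ']
  simp (disch := decide) only [gls_E, gls_G, gls_bb, gls_b02, gls_BA, gls_AB, gls_b42, gls_b04,
    gls_P, gls_Cs, gls_Ds, gls_Rs, gls_Ws, gls_Ts,
    mul_add, add_mul, mul_sub, sub_mul, mul_one, one_mul, mul_assoc, mul_neg, neg_mul, neg_neg,
    sub_neg_eq_add, neg_add_rev, neg_sub,
    gls_rules hπ, hJ, hJ', hJa, hJa',
    add_zero, zero_add, sub_zero, zero_sub, mul_zero, zero_mul, neg_zero]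
  abel

theorem gls_P_right (hπ : gls_Idem π) : (1 + gls_Ws π W) * gls_P π W = 1 := by
  simp (disch := decide) only [gls_P, gls_Ws,
    mul_add, add_mul, mul_sub, sub_mul, mul_one, one_mul, mul_assoc, mul_neg, neg_mul, neg_neg,
    sub_neg_eq_add, neg_add_rev, neg_sub, gls_rules hπ,
    add_zero, zero_add, sub_zero, zero_sub, mul_zero, zero_mul, neg_zero]
  abel

theorem gls_P_left (hπ : gls_Idem π) : gls_P π W * (1 + gls_Ws π W) = 1 := by
  simp (disch := decide) only [gls_P, gls_Ws,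
    mul_add, add_mul, mul_sub, sub_mul, mul_one, one_mul, mul_assoc, mul_neg, neg_mul, neg_neg,
    sub_neg_eq_add, neg_add_rev, neg_sub, gls_rules hπ,
    add_zero, zero_add, sub_zero, zero_sub, mul_zero, zero_mul, neg_zero]
  abel

theorem gls_E_pat (hπ : gls_Idem π) : gls_Pat π gls_rAB (gls_E π C D R W T p0) := by
  refine gls_pat_prod hπ _ _ ?_ ?_
  · simp (disch := decide) only [List.map_cons, List.map_nil, List.sum_cons, List.sum_nil, gls_E, gls_AB, gls_b04, gls_Ws,
      mul_add, add_mul, mul_sub, sub_mul, mul_one, one_mul, mul_assoc, mul_neg, neg_mul, neg_neg,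
      sub_neg_eq_add, neg_add_rev, neg_sub, gls_rules hπ,
      add_zero, zero_add, sub_zero, zero_sub, mul_zero, zero_mul, neg_zero]
  · simp (disch := decide) only [List.map_cons, List.map_nil, List.sum_cons, List.sum_nil, gls_E, gls_AB, gls_b04, gls_Ws,
      mul_add, add_mul, mul_sub, sub_mul, mul_one, one_mul, mul_assoc, mul_neg, neg_mul, neg_neg,
      sub_neg_eq_add, neg_add_rev, neg_sub, gls_rules hπ,
      add_zero, zero_add, sub_zero, zero_sub, mul_zero, zero_mul, neg_zero]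
    abel

theorem gls_G_pat (hπ : gls_Idem π) : gls_Pat π gls_rBA (gls_G π C D R W T p1) := by
  refine gls_pat_prod hπ _ _ ?_ ?_
  · simp (disch := decide) only [List.map_cons, List.map_nil, List.sum_cons, List.sum_nil, gls_G, gls_BA, gls_b42, gls_Ws,
      mul_add, add_mul, mul_sub, sub_mul, mul_one, one_mul, mul_assoc, mul_neg, neg_mul, neg_neg,
      sub_neg_eq_add, neg_add_rev, neg_sub, gls_rules hπ,
      add_zero, zero_add, sub_zero, zero_sub, mul_zero, zero_mul, neg_zero]
  · simp (disch := decide) only [List.map_cons, List.map_nil, List.sum_cons, List.sum_nil, gls_G, gls_BA, gls_b42, gls_Ws,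
      mul_add, add_mul, mul_sub, sub_mul, mul_one, one_mul, mul_assoc, mul_neg, neg_mul, neg_neg,
      sub_neg_eq_add, neg_add_rev, neg_sub, gls_rules hπ,
      add_zero, zero_add, sub_zero, zero_sub, mul_zero, zero_mul, neg_zero]
    abel

theorem gls_bb_pat (hπ : gls_Idem π) : gls_Pat π gls_rFB (gls_bb π C D R W T p0 p1) := by
  refine gls_pat_prod hπ _ _ ?_ ?_
  · simp (disch := decide) only [List.map_cons, List.map_nil, List.sum_cons, List.sum_nil, gls_bb, gls_b02, gls_b42, gls_b04, gls_P,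
      mul_add, add_mul, mul_sub, sub_mul, mul_one, one_mul, mul_assoc, mul_neg, neg_mul, neg_neg,
      sub_neg_eq_add, neg_add_rev, neg_sub, gls_rules hπ,
      add_zero, zero_add, sub_zero, zero_sub, mul_zero, zero_mul, neg_zero]
    abel
  · simp (disch := decide) only [List.map_cons, List.map_nil, List.sum_cons, List.sum_nil, gls_bb, gls_b02, gls_b42, gls_b04, gls_P,
      mul_add, add_mul, mul_sub, sub_mul, mul_one, one_mul, mul_assoc, mul_neg, neg_mul, neg_neg,
      sub_neg_eq_add, neg_add_rev, neg_sub, gls_rules hπ,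
      add_zero, zero_add, sub_zero, zero_sub, mul_zero, zero_mul, neg_zero]
    abel

/-- the relations of the exchange from `Θ * Θ = 1` -/
theorem gls_theta (hπ : gls_Idem π) (h : gls_Ts π T * gls_Ts π T = 1) :
    gls_blk π 1 4 T * gls_blk π 4 1 T = π 1 ∧ gls_blk π 4 1 T * gls_blk π 1 4 T = π 4 := by
  constructor
  · linear_combination (norm := skip) π 1 * h
    simp (disch := decide) only [gls_Ts,
      mul_add, add_mul, mul_sub, sub_mul, mul_one, one_mul, mul_assoc, mul_neg, neg_mul, neg_neg,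
      sub_neg_eq_add, neg_add_rev, neg_sub, gls_rules hπ,
      add_zero, zero_add, sub_zero, zero_sub, mul_zero, zero_mul, neg_zero]
    abel
  · linear_combination (norm := skip) π 4 * h
    simp (disch := decide) only [gls_Ts,
      mul_add, add_mul, mul_sub, sub_mul, mul_one, one_mul, mul_assoc, mul_neg, neg_mul, neg_neg,
      sub_neg_eq_add, neg_add_rev, neg_sub, gls_rules hπ,
      add_zero, zero_add, sub_zero, zero_sub, mul_zero, zero_mul, neg_zero]
    abel

theorem gls_Cs_eq (hπ : gls_Idem π) (h : gls_Pat π gls_rC C) : gls_Cs π C = C := by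
  have h' : ∀ i j, gls_rC i j = false → gls_blk π i j C = 0 := h
  conv_rhs => rw [gls_decomp hπ C]
  simp (disch := decide) only [Fin.sum_univ_seven, h', gls_Cs, add_zero, zero_add]
  abel

theorem gls_Ds_eq (hπ : gls_Idem π) (h : gls_Pat π gls_rD D) : gls_Ds π D = D := by
  have h' : ∀ i j, gls_rD i j = false → gls_blk π i j D = 0 := h
  conv_rhs => rw [gls_decomp hπ D]
  simp (disch := decide) only [Fin.sum_univ_seven, h', gls_Ds, add_zero, zero_add]
  abel

theorem gls_Rs_eq (hπ : gls_Idem π) (h : gls_Pat π gls_rR R) : gls_Rs π R = R := by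
  have h' : ∀ i j, gls_rR i j = false → gls_blk π i j R = 0 := h
  conv_rhs => rw [gls_decomp hπ R]
  simp (disch := decide) only [Fin.sum_univ_seven, h', gls_Rs, add_zero, zero_add]

theorem gls_Ws_eq (hπ : gls_Idem π) (h : gls_Pat π gls_rW W) : gls_Ws π W = W := by
  have h' : ∀ i j, gls_rW i j = false → gls_blk π i j W = 0 := h
  conv_rhs => rw [gls_decomp hπ W]
  simp (disch := decide) only [Fin.sum_univ_seven, h', gls_Ws, add_zero, zero_add]

theorem gls_Ts_eq (hπ : gls_Idem π) (h : gls_Pat π gls_rT (T - 1 + π 1 + π 4)) :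
    gls_Ts π T = T := by
  have e : T - 1 + π 1 + π 4 = gls_blk π 1 4 (T - 1 + π 1 + π 4) + gls_blk π 4 1 (T - 1 + π 1 + π 4) := by
    have h' : ∀ i j, gls_rT i j = false → gls_blk π i j (T - 1 + π 1 + π 4) = 0 := h
    conv_lhs => rw [gls_decomp hπ (T - 1 + π 1 + π 4)]
    simp (disch := decide) only [Fin.sum_univ_seven, h', add_zero, zero_add]
  have e14 : gls_blk π 1 4 (T - 1 + π 1 + π 4) = gls_blk π 1 4 T := by
    simp (disch := decide) only [gls_blk, mul_add, add_mul, mul_sub, sub_mul, mul_one,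
      (gls_rules hπ).1, (gls_rules hπ).2.2.1, add_zero, sub_zero, zero_mul, mul_zero]
  have e41 : gls_blk π 4 1 (T - 1 + π 1 + π 4) = gls_blk π 4 1 T := by
    simp (disch := decide) only [gls_blk, mul_add, add_mul, mul_sub, sub_mul, mul_one,
      (gls_rules hπ).1, (gls_rules hπ).2.2.1, add_zero, sub_zero, zero_mul, mul_zero]
  rw [e14, e41] at e
  rw [gls_Ts, ← sub_eq_zero]
  linear_combination (norm := abel) -e

/-- **soundness core** -/
theorem gls_core' (hπ : gls_Idem π) (hT : gls_Pat π gls_rT (T - 1 + π 1 + π 4)) (hT2 : T * T = 1)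
    (hC : gls_Pat π gls_rC C) (hD : gls_Pat π gls_rD D) (hR : gls_Pat π gls_rR R) :
    (1 - gls_E π C D R W T p0) * ((1 + R) * gls_P π W) * (1 - gls_G π C D R W T p1) =
      (1 - π 1 - π 1 + C) * T * (1 + D) + gls_bb π C D R W T p0 p1 := by
  have hTs := gls_Ts_eq T hπ hT
  have hJ := gls_theta T hπ (by rw [hTs, hT2])
  have h := gls_core C D R W T p0 p1 hπ hJ.1 hJ.2
  rwa [gls_Cs_eq C hπ hC, gls_Ds_eq D hπ hD, gls_Rs_eq R hπ hR, hTs] at h

/-- the left correction for trivial unipotent data -/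
theorem gls_E_triv (hπ : gls_Idem π) (hR : gls_blk π 0 1 R = 0) (hW : gls_blk π 4 5 W = 0) :
    gls_E π 0 0 R W T 0 = gls_blk π 1 4 T := by
  simp (disch := decide) only [gls_E, gls_AB, gls_b04, gls_Ws, gls_blk_zero, hR, hW,
    mul_add, add_mul, mul_sub, sub_mul, mul_one, one_mul, mul_assoc, mul_neg, neg_mul, neg_neg,
    sub_neg_eq_add, neg_add_rev, neg_sub, gls_rules hπ, sub_self,
    add_zero, zero_add, sub_zero, zero_sub, mul_zero, zero_mul, neg_zero]

end core

end Claimed.Agent.R236
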