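import Mathlib
import Claimed.Agent.R236.GLocSAbs

/-!
# Row 236, G-LOCS: abstract block calculus, the completeness recipe (owner helper139)

In a ring with seven orthogonal idempotents.  Data: `κA, kA` (mutually inverse, first block),
`κB, kB` (mutually inverse, second block), `z0` (pattern `{1,2} × {3,4}`), `cc` (second × first),
`tt` (pattern `{3,4}²`, first columns = those of `kB`), and the two triangularity hypotheses.
Output: `rr, vv, ss, wA, wB` with

* `gls_C1 : κB * tt = vv * wB`,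
* `gls_C2 : κA * rr = wA * ss`,
* `gls_C3 : z0 * tt = rr * J`,
* `gls_C4 : ` an explicit left inverse of `rr`.
-/

set_option autoImplicit false
set_option linter.unusedSimpArgs false

namespace Claimed.Agent.R236

/-- first block squared -/
abbrev gls_rAA : Fin 7 → Fin 7 → Bool := gls_pp [0, 1, 2] [0, 1, 2]
/-- second block squared -/
abbrev gls_rBB : Fin 7 → Fin 7 → Bool := gls_pp [3, 4, 5] [3, 4, 5]
/-- pattern of `z0` -/
abbrev gls_rZ : Fin 7 → Fin 7 → Bool := gls_pp [1, 2] [3, 4]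
/-- pattern of `t - 1` -/
abbrev gls_r34 : Fin 7 → Fin 7 → Bool := gls_pp [3, 4] [3, 4]
/-- block triangular, before to after -/
abbrev gls_rTri : Fin 7 → Fin 7 → Bool := fun i j => !(gls_pp [1, 2, 5] [0, 1, 3] i j)
/-- block triangular, after to before -/
abbrev gls_rTri' : Fin 7 → Fin 7 → Bool := fun i j => !(gls_pp [4, 2, 5] [0, 3, 4] i j)

section compl
variable {M : Type*} [Ring M] (π : Fin 7 → M)

/-- the part in the pattern `gls_rAA` -/
def gls_AA (X : M) : M := gls_blk π 0 0 X + gls_blk π 0 1 X + gls_blk π 0 2 X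
  + gls_blk π 1 0 X + gls_blk π 1 1 X + gls_blk π 1 2 X
  + gls_blk π 2 0 X + gls_blk π 2 1 X + gls_blk π 2 2 X
/-- the part in the pattern `gls_rBB` -/
def gls_BB (X : M) : M := gls_blk π 3 3 X + gls_blk π 3 4 X + gls_blk π 3 5 X
  + gls_blk π 4 3 X + gls_blk π 4 4 X + gls_blk π 4 5 X
  + gls_blk π 5 3 X + gls_blk π 5 4 X + gls_blk π 5 5 X
/-- the part in the pattern `gls_rBA` -/
def gls_BAs (X : M) : M := gls_blk π 3 0 X + gls_blk π 3 1 X + gls_blk π 3 2 X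
  + gls_blk π 4 0 X + gls_blk π 4 1 X + gls_blk π 4 2 X
  + gls_blk π 5 0 X + gls_blk π 5 1 X + gls_blk π 5 2 X
/-- the part in the pattern `gls_rZ` -/
def gls_Zs (X : M) : M := gls_blk π 1 3 X + gls_blk π 1 4 X + gls_blk π 2 3 X + gls_blk π 2 4 X
/-- the part in the pattern `gls_r34` -/
def gls_T34 (X : M) : M := gls_blk π 3 3 X + gls_blk π 3 4 X + gls_blk π 4 3 X + gls_blk π 4 4 X

variable {π}

theorem gls_AA_eq (X : M) (hπ : gls_Idem π) (h : gls_Pat π gls_rAA X) : gls_AA π X = X := by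
  have h' : ∀ i j, gls_rAA i j = false → gls_blk π i j X = 0 := h
  conv_rhs => rw [gls_decomp hπ X]
  simp (disch := decide) only [Fin.sum_univ_seven, h', gls_AA, add_zero, zero_add]
  abel

theorem gls_BB_eq (X : M) (hπ : gls_Idem π) (h : gls_Pat π gls_rBB X) : gls_BB π X = X := by
  have h' : ∀ i j, gls_rBB i j = false → gls_blk π i j X = 0 := h
  conv_rhs => rw [gls_decomp hπ X]
  simp (disch := decide) only [Fin.sum_univ_seven, h', gls_BB, add_zero, zero_add]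
  abel

theorem gls_BAs_eq (X : M) (hπ : gls_Idem π) (h : gls_Pat π gls_rBA X) : gls_BAs π X = X := by
  have h' : ∀ i j, gls_rBA i j = false → gls_blk π i j X = 0 := h
  conv_rhs => rw [gls_decomp hπ X]
  simp (disch := decide) only [Fin.sum_univ_seven, h', gls_BAs, add_zero, zero_add]
  abel

theorem gls_Zs_eq (X : M) (hπ : gls_Idem π) (h : gls_Pat π gls_rZ X) : gls_Zs π X = X := by
  have h' : ∀ i j, gls_rZ i j = false → gls_blk π i j X = 0 := h
  conv_rhs => rw [gls_decomp hπ X]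
  simp (disch := decide) only [Fin.sum_univ_seven, h', gls_Zs, add_zero, zero_add]
  abel

theorem gls_T34_eq (X : M) (hπ : gls_Idem π) (h : gls_Pat π gls_r34 X) : gls_T34 π X = X := by
  have h' : ∀ i j, gls_r34 i j = false → gls_blk π i j X = 0 := h
  conv_rhs => rw [gls_decomp hπ X]
  simp (disch := decide) only [Fin.sum_univ_seven, h', gls_T34, add_zero, zero_add]
  abel

variable (π) (κA kA κB kB z0 cc tt T vv' : M)

/-- the matrix `r` of the recipe -/
def gls_rr : M := 1 - π 1 - π 2 + z0 * (tt * (π 4 * gls_blk π 4 1 T)) + (π 1 + π 2) * kA * π 2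
/-- the matrix `v` of the recipe -/
def gls_vv : M := 1 - π 4 - π 5 + (π 4 + π 5) * (κB * tt) * (π 4 + π 5)
/-- the matrix `wB1` of the recipe -/
def gls_wB : M := 1 + π 3 * (κB * tt) * (π 4 + π 5)
/-- the matrix `s` of the recipe -/
def gls_ss : M := 1 - π 0 - π 1 + (π 0 + π 1) * (κA * gls_rr π kA z0 tt T) * (π 0 + π 1)
/-- the matrix `wA0` of the recipe -/
def gls_wA : M := 1 + (π 0 + π 1) * (κA * gls_rr π kA z0 tt T) * π 2
/-- almost a left inverse of `r` -/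
def gls_LL : M := 1 - π 1 - π 2
  + gls_blk π 1 4 T * (vv' * ((π 4 + π 5) * (cc * (κA * (π 1 + π 2))))) + π 2 * κA * (π 1 + π 2)
/-- the defect of `gls_LL` -/
def gls_N12 : M :=
  gls_blk π 1 4 T * (vv' * ((π 4 + π 5) * (cc * (κA * ((π 1 + π 2) * (kA * π 2))))))

/-- the hypotheses of the completeness recipe -/
structure gls_CH : Prop where
  idem : gls_Idem π
  J1 : gls_blk π 1 4 T * gls_blk π 4 1 T = π 1
  J4 : gls_blk π 4 1 T * gls_blk π 1 4 T = π 4
  pκA : gls_Pat π gls_rAA (κA - 1)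
  pkA : gls_Pat π gls_rAA (kA - 1)
  pκB : gls_Pat π gls_rBB (κB - 1)
  pkB : gls_Pat π gls_rBB (kB - 1)
  pz : gls_Pat π gls_rZ z0
  pc : gls_Pat π gls_rBA cc
  pt : gls_Pat π gls_r34 (tt - 1)
  hA : κA * kA = 1
  hB : κB * kB = 1
  htk : tt * π 3 = kB * π 3
  tri : gls_Pat π gls_rTri ((1 - z0) * (kA * kB) * (1 + cc))
  tri' : gls_Pat π gls_rTri' ((1 - cc) * (κA * κB) * (1 + z0))

variable {π κA kA κB kB z0 cc tt T}

theorem gls_C1 (H : gls_CH π κA kA κB kB z0 cc tt T) :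
    κB * tt = gls_vv π κB tt * gls_wB π κB tt := by
  have hπ := H.idem
  obtain ⟨β, rfl⟩ : ∃ β, κB = 1 + gls_BB π β :=
    ⟨κB - 1, by rw [gls_BB_eq _ hπ H.pκB]; abel⟩
  obtain ⟨β', rfl⟩ : ∃ β', kB = 1 + gls_BB π β' :=
    ⟨kB - 1, by rw [gls_BB_eq _ hπ H.pkB]; abel⟩
  obtain ⟨t, rfl⟩ : ∃ t, tt = 1 + gls_T34 π t :=
    ⟨tt - 1, by rw [gls_T34_eq _ hπ H.pt]; abel⟩
  have htk := H.htk
  have hB := H.hB
  linear_combination (norm := skip) (1 + gls_BB π β) * htk + hB * π 3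
  simp (disch := decide) only [gls_vv, gls_wB, gls_AA, gls_BB, gls_BAs, gls_Zs, gls_T34,
    mul_add, add_mul, mul_sub, sub_mul, mul_one, one_mul, mul_assoc, mul_neg, neg_mul, neg_neg,
    sub_neg_eq_add, neg_add_rev, neg_sub, gls_rules hπ,
    add_zero, zero_add, sub_zero, zero_sub, mul_zero, zero_mul, neg_zero]
  abel

theorem gls_C3 (H : gls_CH π κA kA κB kB z0 cc tt T) :
    z0 * tt = gls_rr π kA z0 tt T * gls_blk π 1 4 T := by
  have hπ := H.idem
  have hJ := H.J1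
  have hJ' := H.J4
  have hJa : ∀ Z, gls_blk π 1 4 T * (gls_blk π 4 1 T * Z) = π 1 * Z := fun Z => by
    rw [← mul_assoc, hJ]
  have hJa' : ∀ Z, gls_blk π 4 1 T * (gls_blk π 1 4 T * Z) = π 4 * Z := fun Z => by
    rw [← mul_assoc, hJ']
  obtain ⟨a, rfl⟩ : ∃ a, κA = 1 + gls_AA π a :=
    ⟨κA - 1, by rw [gls_AA_eq _ hπ H.pκA]; abel⟩
  obtain ⟨a', rfl⟩ : ∃ a', kA = 1 + gls_AA π a' :=
    ⟨kA - 1, by rw [gls_AA_eq _ hπ H.pkA]; abel⟩
  obtain ⟨β, rfl⟩ : ∃ β, κB = 1 + gls_BB π β :=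
    ⟨κB - 1, by rw [gls_BB_eq _ hπ H.pκB]; abel⟩
  obtain ⟨β', rfl⟩ : ∃ β', kB = 1 + gls_BB π β' :=
    ⟨kB - 1, by rw [gls_BB_eq _ hπ H.pkB]; abel⟩
  obtain ⟨t, rfl⟩ : ∃ t, tt = 1 + gls_T34 π t :=
    ⟨tt - 1, by rw [gls_T34_eq _ hπ H.pt]; abel⟩
  obtain ⟨z, rfl⟩ : ∃ z, z0 = gls_Zs π z := ⟨z0, (gls_Zs_eq _ hπ H.pz).symm⟩
  obtain ⟨c, rfl⟩ : ∃ c, cc = gls_BAs π c := ⟨cc, (gls_BAs_eq _ hπ H.pc).symm⟩
  have htk := H.htk
  have hA := H.hA
  have hB := H.hB
  have h13 : π 1 * ((1 - gls_Zs π z) * ((1 + gls_AA π a') * (1 + gls_BB π β')) * (1 + gls_BAs π c))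
      * π 3 = 0 := H.tri 1 3 (by decide)
  have h23 : π 2 * ((1 - gls_Zs π z) * ((1 + gls_AA π a') * (1 + gls_BB π β')) * (1 + gls_BAs π c))
      * π 3 = 0 := H.tri 2 3 (by decide)
  linear_combination (norm := skip) gls_Zs π z * htk - h13 - h23
  simp (disch := decide) only [gls_rr, gls_AA, gls_BB, gls_BAs, gls_Zs, gls_T34,
    mul_add, add_mul, mul_sub, sub_mul, mul_one, one_mul, mul_assoc, mul_neg, neg_mul, neg_neg,
    sub_neg_eq_add, neg_add_rev, neg_sub, gls_rules hπ, hJ, hJ', hJa, hJa',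
    add_zero, zero_add, sub_zero, zero_sub, mul_zero, zero_mul, neg_zero]
  abel

theorem gls_C2 (H : gls_CH π κA kA κB kB z0 cc tt T) :
    κA * gls_rr π kA z0 tt T = gls_wA π κA kA z0 tt T * gls_ss π κA kA z0 tt T := by
  have hπ := H.idem
  have hJ := H.J1
  have hJ' := H.J4
  have hJa : ∀ Z, gls_blk π 1 4 T * (gls_blk π 4 1 T * Z) = π 1 * Z := fun Z => by
    rw [← mul_assoc, hJ]
  have hJa' : ∀ Z, gls_blk π 4 1 T * (gls_blk π 1 4 T * Z) = π 4 * Z := fun Z => by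
    rw [← mul_assoc, hJ']
  obtain ⟨a, rfl⟩ : ∃ a, κA = 1 + gls_AA π a :=
    ⟨κA - 1, by rw [gls_AA_eq _ hπ H.pκA]; abel⟩
  obtain ⟨a', rfl⟩ : ∃ a', kA = 1 + gls_AA π a' :=
    ⟨kA - 1, by rw [gls_AA_eq _ hπ H.pkA]; abel⟩
  obtain ⟨β, rfl⟩ : ∃ β, κB = 1 + gls_BB π β :=
    ⟨κB - 1, by rw [gls_BB_eq _ hπ H.pκB]; abel⟩
  obtain ⟨β', rfl⟩ : ∃ β', kB = 1 + gls_BB π β' :=
    ⟨kB - 1, by rw [gls_BB_eq _ hπ H.pkB]; abel⟩
  obtain ⟨t, rfl⟩ : ∃ t, tt = 1 + gls_T34 π t :=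
    ⟨tt - 1, by rw [gls_T34_eq _ hπ H.pt]; abel⟩
  obtain ⟨z, rfl⟩ : ∃ z, z0 = gls_Zs π z := ⟨z0, (gls_Zs_eq _ hπ H.pz).symm⟩
  obtain ⟨c, rfl⟩ : ∃ c, cc = gls_BAs π c := ⟨cc, (gls_BAs_eq _ hπ H.pc).symm⟩
  have htk := H.htk
  have hA := H.hA
  have hB := H.hB
  have h20 : π 2 * ((1 - gls_BAs π c) * ((1 + gls_AA π a) * (1 + gls_BB π β)) * (1 + gls_Zs π z))
      * π 0 = 0 := H.tri' 2 0 (by decide)
  have h23 : π 2 * ((1 - gls_BAs π c) * ((1 + gls_AA π a) * (1 + gls_BB π β)) * (1 + gls_Zs π z))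
      * π 3 = 0 := H.tri' 2 3 (by decide)
  have h24 : π 2 * ((1 - gls_BAs π c) * ((1 + gls_AA π a) * (1 + gls_BB π β)) * (1 + gls_Zs π z))
      * π 4 = 0 := H.tri' 2 4 (by decide)
  linear_combination (norm := skip) h20 + (h23 + h24) * ((1 + gls_T34 π t) * (π 4 * gls_blk π 4 1 T))
    + π 2 * hA * π 2 - h20 * (1 + gls_AA π a') * π 2
  simp (disch := decide) only [gls_wA, gls_ss, gls_rr, gls_AA, gls_BB, gls_BAs, gls_Zs, gls_T34,
    mul_add, add_mul, mul_sub, sub_mul, mul_one, one_mul, mul_assoc, mul_neg, neg_mul, neg_neg,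
    sub_neg_eq_add, neg_add_rev, neg_sub, gls_rules hπ, hJ, hJ', hJa, hJa',
    add_zero, zero_add, sub_zero, zero_sub, mul_zero, zero_mul, neg_zero]
  abel

theorem gls_C4a (H : gls_CH π κA kA κB kB z0 cc tt T) (hv : vv' * gls_vv π κB tt = 1) :
    gls_LL π κA cc T vv' * gls_rr π kA z0 tt T = 1 + gls_N12 π κA kA cc T vv' := by
  have hπ := H.idem
  have hJ := H.J1
  have hJ' := H.J4
  have hJa : ∀ Z, gls_blk π 1 4 T * (gls_blk π 4 1 T * Z) = π 1 * Z := fun Z => by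
    rw [← mul_assoc, hJ]
  have hJa' : ∀ Z, gls_blk π 4 1 T * (gls_blk π 1 4 T * Z) = π 4 * Z := fun Z => by
    rw [← mul_assoc, hJ']
  obtain ⟨a, rfl⟩ : ∃ a, κA = 1 + gls_AA π a :=
    ⟨κA - 1, by rw [gls_AA_eq _ hπ H.pκA]; abel⟩
  obtain ⟨a', rfl⟩ : ∃ a', kA = 1 + gls_AA π a' :=
    ⟨kA - 1, by rw [gls_AA_eq _ hπ H.pkA]; abel⟩
  obtain ⟨β, rfl⟩ : ∃ β, κB = 1 + gls_BB π β :=
    ⟨κB - 1, by rw [gls_BB_eq _ hπ H.pκB]; abel⟩
  obtain ⟨β', rfl⟩ : ∃ β', kB = 1 + gls_BB π β' :=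
    ⟨kB - 1, by rw [gls_BB_eq _ hπ H.pkB]; abel⟩
  obtain ⟨t, rfl⟩ : ∃ t, tt = 1 + gls_T34 π t :=
    ⟨tt - 1, by rw [gls_T34_eq _ hπ H.pt]; abel⟩
  obtain ⟨z, rfl⟩ : ∃ z, z0 = gls_Zs π z := ⟨z0, (gls_Zs_eq _ hπ H.pz).symm⟩
  obtain ⟨c, rfl⟩ : ∃ c, cc = gls_BAs π c := ⟨cc, (gls_BAs_eq _ hπ H.pc).symm⟩
  have htk := H.htk
  have hA := H.hA
  have hB := H.hB
  have h20 : π 2 * ((1 - gls_BAs π c) * ((1 + gls_AA π a) * (1 + gls_BB π β)) * (1 + gls_Zs π z))
      * π 0 = 0 := H.tri' 2 0 (by decide)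
  have h23 : π 2 * ((1 - gls_BAs π c) * ((1 + gls_AA π a) * (1 + gls_BB π β)) * (1 + gls_Zs π z))
      * π 3 = 0 := H.tri' 2 3 (by decide)
  have h24 : π 2 * ((1 - gls_BAs π c) * ((1 + gls_AA π a) * (1 + gls_BB π β)) * (1 + gls_Zs π z))
      * π 4 = 0 := H.tri' 2 4 (by decide)
  have h43 : π 4 * ((1 - gls_BAs π c) * ((1 + gls_AA π a) * (1 + gls_BB π β)) * (1 + gls_Zs π z))
      * π 3 = 0 := H.tri' 4 3 (by decide)
  have h44 : π 4 * ((1 - gls_BAs π c) * ((1 + gls_AA π a) * (1 + gls_BB π β)) * (1 + gls_Zs π z))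
      * π 4 = 0 := H.tri' 4 4 (by decide)
  have h53 : π 5 * ((1 - gls_BAs π c) * ((1 + gls_AA π a) * (1 + gls_BB π β)) * (1 + gls_Zs π z))
      * π 3 = 0 := H.tri' 5 3 (by decide)
  have h54 : π 5 * ((1 - gls_BAs π c) * ((1 + gls_AA π a) * (1 + gls_BB π β)) * (1 + gls_Zs π z))
      * π 4 = 0 := H.tri' 5 4 (by decide)
  linear_combination (norm := skip)
    (h23 + h24) * ((1 + gls_T34 π t) * (π 4 * gls_blk π 4 1 T))
      + π 2 * hA * π 2 - h20 * (1 + gls_AA π a') * π 2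
      + gls_blk π 1 4 T * hv * (π 4 * gls_blk π 4 1 T)
      - gls_blk π 1 4 T * vv' * (h43 + h44 + h53 + h54) *
          ((1 + gls_T34 π t) * (π 4 * gls_blk π 4 1 T))
  simp (disch := decide) only [gls_N12, gls_LL, gls_vv, gls_rr, gls_AA, gls_BB, gls_BAs, gls_Zs,
    gls_T34,
    mul_add, add_mul, mul_sub, sub_mul, mul_one, one_mul, mul_assoc, mul_neg, neg_mul, neg_neg,
    sub_neg_eq_add, neg_add_rev, neg_sub, gls_rules hπ, hJ, hJ', hJa, hJa',
    add_zero, zero_add, sub_zero, zero_sub, mul_zero, zero_mul, neg_zero]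
  abel

theorem gls_C4 (H : gls_CH π κA kA κB kB z0 cc tt T) (hv : vv' * gls_vv π κB tt = 1) :
    (1 - gls_N12 π κA kA cc T vv') * gls_LL π κA cc T vv' * gls_rr π kA z0 tt T = 1 := by
  have hπ := H.idem
  rw [mul_assoc, gls_C4a vv' H hv]
  simp (disch := decide) only [gls_N12,
      List.map_cons, List.map_nil, List.sum_cons, List.sum_nil,
      mul_add, add_mul, mul_sub, sub_mul, mul_one, one_mul, mul_assoc, mul_neg, neg_mul, neg_neg,
      sub_neg_eq_add, neg_add_rev, neg_sub, gls_rules hπ,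
      add_zero, zero_add, sub_zero, zero_sub, mul_zero, zero_mul, neg_zero]
  abel

theorem gls_rr_pat (hπ : gls_Idem π) (hz : gls_Pat π gls_rZ z0) :
    gls_Pat π (gls_pp [1, 2] [1, 2]) (gls_rr π kA z0 tt T - 1) := by
  obtain ⟨z, rfl⟩ : ∃ z, z0 = gls_Zs π z := ⟨z0, (gls_Zs_eq _ hπ hz).symm⟩
  refine gls_pat_prod hπ _ _ ?_ ?_
  · simp (disch := decide) only [gls_rr, gls_Zs,
      List.map_cons, List.map_nil, List.sum_cons, List.sum_nil,
      mul_add, add_mul, mul_sub, sub_mul, mul_one, one_mul, mul_assoc, mul_neg, neg_mul, neg_neg,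
      sub_neg_eq_add, neg_add_rev, neg_sub, gls_rules hπ,
      add_zero, zero_add, sub_zero, zero_sub, mul_zero, zero_mul, neg_zero]
    abel
  · simp (disch := decide) only [gls_rr, gls_Zs,
      List.map_cons, List.map_nil, List.sum_cons, List.sum_nil,
      mul_add, add_mul, mul_sub, sub_mul, mul_one, one_mul, mul_assoc, mul_neg, neg_mul, neg_neg,
      sub_neg_eq_add, neg_add_rev, neg_sub, gls_rules hπ,
      add_zero, zero_add, sub_zero, zero_sub, mul_zero, zero_mul, neg_zero]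
    abel

theorem gls_vv_pat (hπ : gls_Idem π) :
    gls_Pat π (gls_pp [4, 5] [4, 5]) (gls_vv π κB tt - 1) := by
  refine gls_pat_prod hπ _ _ ?_ ?_
  · simp (disch := decide) only [gls_vv,
      List.map_cons, List.map_nil, List.sum_cons, List.sum_nil,
      mul_add, add_mul, mul_sub, sub_mul, mul_one, one_mul, mul_assoc, mul_neg, neg_mul, neg_neg,
      sub_neg_eq_add, neg_add_rev, neg_sub, gls_rules hπ,
      add_zero, zero_add, sub_zero, zero_sub, mul_zero, zero_mul, neg_zero]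
    abel
  · simp (disch := decide) only [gls_vv,
      List.map_cons, List.map_nil, List.sum_cons, List.sum_nil,
      mul_add, add_mul, mul_sub, sub_mul, mul_one, one_mul, mul_assoc, mul_neg, neg_mul, neg_neg,
      sub_neg_eq_add, neg_add_rev, neg_sub, gls_rules hπ,
      add_zero, zero_add, sub_zero, zero_sub, mul_zero, zero_mul, neg_zero]
    abel

theorem gls_wB_pat (hπ : gls_Idem π) :
    gls_Pat π (gls_pp [3] [4, 5]) (gls_wB π κB tt - 1) := by
  refine gls_pat_prod hπ _ _ ?_ ?_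
  · simp (disch := decide) only [gls_wB,
      List.map_cons, List.map_nil, List.sum_cons, List.sum_nil,
      mul_add, add_mul, mul_sub, sub_mul, mul_one, one_mul, mul_assoc, mul_neg, neg_mul, neg_neg,
      sub_neg_eq_add, neg_add_rev, neg_sub, gls_rules hπ,
      add_zero, zero_add, sub_zero, zero_sub, mul_zero, zero_mul, neg_zero]
    abel
  · simp (disch := decide) only [gls_wB,
      List.map_cons, List.map_nil, List.sum_cons, List.sum_nil,
      mul_add, add_mul, mul_sub, sub_mul, mul_one, one_mul, mul_assoc, mul_neg, neg_mul, neg_neg,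
      sub_neg_eq_add, neg_add_rev, neg_sub, gls_rules hπ,
      add_zero, zero_add, sub_zero, zero_sub, mul_zero, zero_mul, neg_zero]
    abel

theorem gls_ss_pat (hπ : gls_Idem π) :
    gls_Pat π (gls_pp [0, 1] [0, 1]) (gls_ss π κA kA z0 tt T - 1) := by
  generalize gls_rr π kA z0 tt T = r
  refine gls_pat_prod hπ _ _ ?_ ?_
  · simp (disch := decide) only [gls_ss,
      List.map_cons, List.map_nil, List.sum_cons, List.sum_nil,
      mul_add, add_mul, mul_sub, sub_mul, mul_one, one_mul, mul_assoc, mul_neg, neg_mul, neg_neg,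
      sub_neg_eq_add, neg_add_rev, neg_sub, gls_rules hπ,
      add_zero, zero_add, sub_zero, zero_sub, mul_zero, zero_mul, neg_zero]
    abel
  · simp (disch := decide) only [gls_ss,
      List.map_cons, List.map_nil, List.sum_cons, List.sum_nil,
      mul_add, add_mul, mul_sub, sub_mul, mul_one, one_mul, mul_assoc, mul_neg, neg_mul, neg_neg,
      sub_neg_eq_add, neg_add_rev, neg_sub, gls_rules hπ,
      add_zero, zero_add, sub_zero, zero_sub, mul_zero, zero_mul, neg_zero]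
    abel

theorem gls_wA_pat (hπ : gls_Idem π) :
    gls_Pat π (gls_pp [0, 1] [2]) (gls_wA π κA kA z0 tt T - 1) := by
  refine gls_pat_prod hπ _ _ ?_ ?_
  · simp (disch := decide) only [gls_wA,
      List.map_cons, List.map_nil, List.sum_cons, List.sum_nil,
      mul_add, add_mul, mul_sub, sub_mul, mul_one, one_mul, mul_assoc, mul_neg, neg_mul, neg_neg,
      sub_neg_eq_add, neg_add_rev, neg_sub, gls_rules hπ,
      add_zero, zero_add, sub_zero, zero_sub, mul_zero, zero_mul, neg_zero]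
    abel
  · simp (disch := decide) only [gls_wA,
      List.map_cons, List.map_nil, List.sum_cons, List.sum_nil,
      mul_add, add_mul, mul_sub, sub_mul, mul_one, one_mul, mul_assoc, mul_neg, neg_mul, neg_neg,
      sub_neg_eq_add, neg_add_rev, neg_sub, gls_rules hπ,
      add_zero, zero_add, sub_zero, zero_sub, mul_zero, zero_mul, neg_zero]
    abel

/-- the final computation of the left correction -/
theorem gls_C5 (hπ : gls_Idem π) {rr rr' tt' : M} (hz : gls_Pat π gls_rZ z0)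
    (pt : gls_Pat π gls_r34 (tt - 1)) (pr' : gls_Pat π (gls_pp [1, 2] [1, 2]) (rr' - 1))
    (h3 : z0 * tt = rr * gls_blk π 1 4 T) (ht : tt * tt' = 1) (hr : rr * rr' = 1) :
    rr * tt * (1 + gls_blk π 1 4 T) * (tt' * rr') = 1 + z0 := by
  have e1 : tt * gls_blk π 1 4 T = gls_blk π 1 4 T := by
    have := gls_Pat.mul_eq_zero hπ pt (gls_Pat.blk hπ 1 4 T) (by decide)
    rw [sub_mul, one_mul, sub_eq_zero] at this
    exact this
  have e2 : z0 * rr' = z0 := by
    have := gls_Pat.mul_eq_zero hπ hz pr' (by decide)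
    rw [mul_sub, mul_one, sub_eq_zero] at this
    exact this
  calc rr * tt * (1 + gls_blk π 1 4 T) * (tt' * rr')
      = rr * (tt * tt') * rr' + rr * (tt * gls_blk π 1 4 T) * tt' * rr' := by noncomm_ring
    _ = rr * rr' + (rr * gls_blk π 1 4 T) * tt' * rr' := by rw [ht, e1, mul_one]
    _ = 1 + z0 * (tt * tt') * rr' := by rw [hr, ← h3]; noncomm_ring
    _ = 1 + z0 := by rw [ht, mul_one, e2]

end compl

end Claimed.Agent.R236
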