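import Mathlib
import Claimed.Agent.R236.GColorC
import Claimed.Agent.R236.GMatBD

/-!
# Row 236, G-MAT: conjugation of moved matrices by a swap (owner helper227, request of helper139)

* `gm_swap_conj_apply`      : entries of `swap o a b * A * swap o b a`.
* `gm_swap_conj_emb_first`  : `swap o a b * emb o Y * swap o b a = emb (o + a) Y` (`Y` a `b`-corner).
* `gm_swap_conj_emb_second` : `swap o a b * emb (o + b) X * swap o b a = emb o X` (`X` an `a`-corner).
* `gm_emb_inj`, `gm_emb_mid_self`.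
-/

set_option autoImplicit false

namespace Claimed.Agent.R236

variable {N : ℕ}

theorem gm_swap_conj_apply {o a b : ℕ} (h : o + a + b ≤ N) (A : gs_Mat N) (r c : Fin N) :
    ((gs_swapMat o a b : gs_Mat N) * A * (gs_swapMat o b a : gs_Mat N)) r c =
      A ⟨gs_swapFn o a b r, gm_swapFn_lt h r.2⟩ ⟨gs_swapFn o a b c, gm_swapFn_lt h c.2⟩ := by
  rw [gm_mul_swap_apply (by omega), gm_swap_mul_apply h]

theorem gm_swap_conj_emb_first {o a b : ℕ} {Y : gs_Mat N} (hY : gs_IsCorner b Y)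
    (h : o + a + b ≤ N) :
    (gs_swapMat o a b : gs_Mat N) * gs_emb o Y * gs_swapMat o b a = gs_emb (o + a) Y := by
  ext r c
  have hr := r.2
  have hc := c.2
  have hfr : gs_swapFn o a b r < N := gm_swapFn_lt h r.2
  have hfc : gs_swapFn o a b c < N := gm_swapFn_lt h c.2
  rw [gm_swap_conj_apply h, ← gc_at_lt (gs_emb o Y) hfr hfc, ← gc_at_fin (gs_emb (o + a) Y) r c]
  by_cases hw : (o + a ≤ (r : ℕ) ∧ (r : ℕ) < o + a + b) ∧ (o + a ≤ (c : ℕ) ∧ (c : ℕ) < o + a + b)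
  · rw [gm_swapFn_second hw.1.1 hw.1.2, gm_swapFn_second hw.2.1 hw.2.2] at *
    rw [gc_at_emb o Y hfr hfc, gc_at_emb (o + a) Y hr hc, if_pos (by omega), if_pos (by omega)]
    congr 1 <;> omega
  · rw [gc_at_emb_out hY hr hc hw, gc_at_emb_out hY hfr hfc]
    · apply gc_dl_congr
      unfold gs_swapFn
      split_ifs <;> omega
    · revert hw
      unfold gs_swapFn
      split_ifs <;> omega

theorem gm_swap_conj_emb_second {o a b : ℕ} {X : gs_Mat N} (hX : gs_IsCorner a X)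
    (h : o + a + b ≤ N) :
    (gs_swapMat o a b : gs_Mat N) * gs_emb (o + b) X * gs_swapMat o b a = gs_emb o X := by
  ext r c
  have hr := r.2
  have hc := c.2
  have hfr : gs_swapFn o a b r < N := gm_swapFn_lt h r.2
  have hfc : gs_swapFn o a b c < N := gm_swapFn_lt h c.2
  rw [gm_swap_conj_apply h, ← gc_at_lt (gs_emb (o + b) X) hfr hfc, ← gc_at_fin (gs_emb o X) r c]
  by_cases hw : (o ≤ (r : ℕ) ∧ (r : ℕ) < o + a) ∧ (o ≤ (c : ℕ) ∧ (c : ℕ) < o + a)
  · rw [gm_swapFn_first hw.1.1 hw.1.2, gm_swapFn_first hw.2.1 hw.2.2] at *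
    rw [gc_at_emb (o + b) X hfr hfc, gc_at_emb o X hr hc, if_pos (by omega), if_pos (by omega)]
    congr 1 <;> omega
  · rw [gc_at_emb_out hX hr hc hw, gc_at_emb_out hX hfr hfc]
    · apply gc_dl_congr
      unfold gs_swapFn
      split_ifs <;> omega
    · revert hw
      unfold gs_swapFn
      split_ifs <;> omega

theorem gm_emb_inj {m o : ℕ} {X Y : gs_Mat N} (hX : gs_IsCorner m X) (hY : gs_IsCorner m Y)
    (h : o + m ≤ N) (e : gs_emb o X = gs_emb o Y) : X = Y := by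
  rw [← gm_mid_emb hX h, e, gm_mid_emb hY h]

theorem gm_emb_mid_self {o m : ℕ} (h : o + m ≤ N) {A : gs_Mat N}
    (hA : ∀ i j : Fin N, ¬ ((o ≤ (i : ℕ) ∧ (i : ℕ) < o + m) ∧ (o ≤ (j : ℕ) ∧ (j : ℕ) < o + m)) →
      A i j = (1 : gs_Mat N) i j) : gs_emb o (gr_midBlock o m A) = A := by
  ext i j
  by_cases hw : (o ≤ (i : ℕ) ∧ (i : ℕ) < o + m) ∧ (o ≤ (j : ℕ) ∧ (j : ℕ) < o + m)
  · exact gm_emb_mid_apply h A hw.1 hw.2
  · rw [gm_emb_mid_apply_out o m A hw, hA i j hw]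

end Claimed.Agent.R236
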