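import Mathlib
import Claimed.Agent.R236.GMatSwapB

/-!
# Row 236: matrix library for Model G2, part 6: swaps and windows (librarian helper252)

* `gm_emb_apply_out` : entries of `gs_emb o A` outside of the window;
* `gm_emb_injective`, `gm_emb_mid_of_window`;
* `gm_swapFn_inj`, `gm_one_apply_swapFn`;
* the conjugation lemmas `gm_swap_conj_apply`, `gm_swap_conj_emb_first/second` are in `GMatSwapB.lean`
  (helper227), imported here.
-/

set_option autoImplicit false

namespace Claimed.Agent.R236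

open Matrix

variable {N : ℕ}

/-- entries of `gs_emb o A` outside of the window `[o,o+m)²` -/
theorem gm_emb_apply_out {m o : ℕ} {A : gs_Mat N} (hA : gs_IsCorner m A) {i j : Fin N}
    (h : ¬ ((o ≤ (i : ℕ) ∧ (i : ℕ) < o + m) ∧ (o ≤ (j : ℕ) ∧ (j : ℕ) < o + m))) :
    gs_emb o A i j = (1 : gs_Mat N) i j := by
  by_cases hi : o ≤ (i : ℕ)
  · by_cases hj : o ≤ (j : ℕ)
    · exact gm_emb_corner o hA i j (by omega)
    · exact gm_emb_apply_lt_col o _ i (by omega)
  · exact gm_emb_apply_lt_row o _ (by omega) j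

theorem gm_emb_injective {m o : ℕ} {X Y : gs_Mat N} (hX : gs_IsCorner m X) (hY : gs_IsCorner m Y)
    (h : o + m ≤ N) (e : gs_emb o X = gs_emb o Y) : X = Y := by
  rw [← gm_mid_emb hX h, e, gm_mid_emb hY h]

/-- a matrix which is the identity outside of the window is `emb` of its mid block -/
theorem gm_emb_mid_of_window {o m : ℕ} (h : o + m ≤ N) {A : gs_Mat N}
    (hA : ∀ i j : Fin N, ¬ ((o ≤ (i : ℕ) ∧ (i : ℕ) < o + m) ∧ (o ≤ (j : ℕ) ∧ (j : ℕ) < o + m)) →
      A i j = (1 : gs_Mat N) i j) : gs_emb o (gr_midBlock o m A) = A := by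
  ext i j
  by_cases hw : ((o ≤ (i : ℕ) ∧ (i : ℕ) < o + m) ∧ (o ≤ (j : ℕ) ∧ (j : ℕ) < o + m))
  · exact gm_emb_mid_apply h A hw.1 hw.2
  · rw [gm_emb_mid_apply_out o m A hw, hA i j hw]

theorem gm_swapFn_inj {o a b r s : ℕ} (h : gs_swapFn o a b r = gs_swapFn o a b s) : r = s := by
  rw [← gm_swapFn_swapFn o b a r, ← gm_swapFn_swapFn o b a s, h]

theorem gm_one_apply_swapFn {o a b : ℕ} (h : o + a + b ≤ N) (r c : Fin N) :
    (1 : gs_Mat N) ⟨gs_swapFn o a b r, gm_swapFn_lt h r.2⟩ ⟨gs_swapFn o a b c, gm_swapFn_lt h c.2⟩ =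
      (1 : gs_Mat N) r c := by
  rw [Matrix.one_apply, Matrix.one_apply]
  by_cases e : r = c
  · subst e; simp
  · rw [if_neg e, if_neg]
    intro e'
    exact e (Fin.ext (gm_swapFn_inj (congrArg Fin.val e')))

end Claimed.Agent.R236
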