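import Mathlib
import Claimed.Agent.R236.GLoc
import Claimed.Agent.R236.GMatConj
import Claimed.Agent.R236.GLocSAbsC

/-!
# Row 236, G-LOCS: the concrete objects (owner helper139; prefix `gls_`)

"Flat" coordinates = refined coordinates before the swap, seven labels
`0 = a`, `1 = h₁`, `2 = x`, `3 = b`, `4 = h₂`, `5 = y`, `6 = rest`.

* `gls_lab`, `gls_labm`, `gls_labp` : label of a position in flat / standard-before /
  standard-after coordinates; `gls_pi ν l` : the diagonal idempotent of the label `l` (flat).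
* `gls_fm` : flat `→` standard-before, `gls_fp` : flat `→` standard-after, `gls_th` : exchange of
  `h₁` and `h₂`; `gls_Sm`, `gls_Sp`, `gls_Th` their permutation matrices (`gm_pm`), inverse =
  transpose.  `gls_Sm = gr_sh ν.cb ν.m ν.km`, `gls_Sp = gls_Sg * gr_sh ν.ca ν.m ν.km`.
* `gls_Cm`, `gls_Cp` : the unipotent data in flat coordinates; `gls_Hm`, `gls_Hp` : fine bases.
* `gls_EL`, `gls_ER` : the corrections.
-/

set_option autoImplicit false

namespace Claimed.Agent.R236

open Matrix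

variable {N : ℕ} (ν : gr_SNum)

/-! ## labels -/

/-- label of a position, flat coordinates: `a | h | x | b | h | y | rest` -/
def gls_lab (r : ℕ) : Fin 7 :=
  if r < ν.a then 0 else if r < ν.a + ν.h then 1 else if r < ν.a + ν.h + ν.x then 2
  else if r < ν.a + ν.h + ν.x + ν.b then 3 else if r < ν.a + ν.h + ν.x + ν.b + ν.h then 4
  else if r < ν.a + ν.h + ν.x + ν.b + ν.h + ν.y then 5 else 6

/-- label of a position, standard coordinates before the swap: `a | b | h₂ | h₁ | x | y | rest` -/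
def gls_labm (r : ℕ) : Fin 7 :=
  if r < ν.a then 0 else if r < ν.a + ν.b then 3 else if r < ν.a + ν.b + ν.h then 4
  else if r < ν.a + ν.b + ν.h + ν.h then 1 else if r < ν.a + ν.b + ν.h + ν.h + ν.x then 2
  else if r < ν.a + ν.b + ν.h + ν.h + ν.x + ν.y then 5 else 6

/-- label of a position, standard coordinates after the swap: `b | a | h₁ | h₂ | y | x | rest` -/
def gls_labp (r : ℕ) : Fin 7 :=
  if r < ν.b then 3 else if r < ν.b + ν.a then 0 else if r < ν.b + ν.a + ν.h then 1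
  else if r < ν.b + ν.a + ν.h + ν.h then 4 else if r < ν.b + ν.a + ν.h + ν.h + ν.y then 5
  else if r < ν.b + ν.a + ν.h + ν.h + ν.y + ν.x then 2 else 6

/-- the diagonal idempotent of a label (flat coordinates) -/
def gls_pi (l : Fin 7) : gs_Mat N :=
  Matrix.diagonal fun i : Fin N => if gls_lab ν i = l then 1 else 0

/-! ## permutations -/

/-- flat `→` standard before -/
def gls_fm (r : ℕ) : ℕ := gs_swapFn ν.a (ν.h + ν.x) (ν.b + ν.h) r
/-- flat `→` standard after -/
def gls_fp (r : ℕ) : ℕ := gs_swapFn ν.b (ν.h + ν.y) (ν.a + ν.h) (gs_swapFn 0 ν.A ν.B r)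
/-- exchange of `h₁` and `h₂` (flat) -/
def gls_th (r : ℕ) : ℕ :=
  if ν.a ≤ r ∧ r < ν.a + ν.h then r + (ν.h + ν.x + ν.b)
  else if ν.a + ν.h + ν.x + ν.b ≤ r ∧ r < ν.a + ν.h + ν.x + ν.b + ν.h then r - (ν.h + ν.x + ν.b)
  else r

/-- rows flat, columns standard before; `= gr_sh ν.cb ν.m ν.km` -/
def gls_Sm : gs_Mat N := gm_pm (gls_fm ν)
/-- rows flat, columns standard after; `= gls_Sg * gr_sh ν.ca ν.m ν.km` -/
def gls_Sp : gs_Mat N := gm_pm (gls_fp ν)
/-- the exchange of `h₁` and `h₂` -/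
def gls_Th : gs_Mat N := gm_pm (gls_th ν)
/-- the letter -/
def gls_Sg : gs_Mat N := gs_swapMat 0 ν.A ν.B
/-- the sign matrix of the gadget `eQ` -/
def gls_Lam : gs_Mat N := Matrix.diagonal (fun j : Fin N => if (j : ℕ) < ν.h then (-1 : ℂ) else 1)
/-- the sign matrix in flat coordinates -/
def gls_LamF : gs_Mat N := 1 - gls_pi ν 1 - gls_pi ν 1

/-! ## the data in flat coordinates -/

variable (z : gr_SIdx → gs_Mat N)

/-- left unipotent data, flat coordinates -/
noncomputable def gls_Cm : gs_Mat N :=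
  gls_Sm ν * (z .c0 * gs_emb ν.km (z .e0 * gls_Lam ν * z .e1)) * (gls_Sm ν)ᵀ
/-- right unipotent data, flat coordinates -/
noncomputable def gls_Cp : gs_Mat N :=
  gls_Sp ν * (z .c1 * gs_emb ν.km (z .e2)) * (gls_Sp ν)ᵀ

/-- fine basis of the first block, before -/
noncomputable def gls_HAm : gs_Mat N := z .hAm * gs_emb ν.a (z .r)
/-- its inverse -/
noncomputable def gls_HAm' : gs_Mat N := gs_emb ν.a (z .r)⁻¹ * (z .hAm)⁻¹
/-- fine basis of the first block, after -/
noncomputable def gls_HAp : gs_Mat N := z .hAp * z .s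
/-- its inverse -/
noncomputable def gls_HAp' : gs_Mat N := (z .s)⁻¹ * (z .hAp)⁻¹
/-- fine basis of the second block, before -/
noncomputable def gls_HBm : gs_Mat N := z .hBm * z .t
/-- its inverse -/
noncomputable def gls_HBm' : gs_Mat N := (z .t)⁻¹ * (z .hBm)⁻¹
/-- fine basis of the second block, after -/
noncomputable def gls_HBp : gs_Mat N := z .hBp * gs_emb ν.b (z .v)
/-- its inverse -/
noncomputable def gls_HBp' : gs_Mat N := gs_emb ν.b (z .v)⁻¹ * (z .hBp)⁻¹

/-- fine basis before (flat) -/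
noncomputable def gls_Hm : gs_Mat N := gls_HAm ν z * gs_emb ν.A (gls_HBm z)
/-- its inverse -/
noncomputable def gls_Hm' : gs_Mat N := gls_HAm' ν z * gs_emb ν.A (gls_HBm' z)
/-- fine basis after (flat) -/
noncomputable def gls_Hp : gs_Mat N := gls_HAp z * gs_emb ν.A (gls_HBp ν z)
/-- its inverse -/
noncomputable def gls_Hp' : gs_Mat N := gls_HAp' z * gs_emb ν.A (gls_HBp' ν z)

/-- `R = W_A⁻¹ - 1` -/
noncomputable def gls_R : gs_Mat N := gls_HAm' ν z * gls_HAp z - 1
/-- `W = W_B - 1` (flat) -/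
noncomputable def gls_W : gs_Mat N := gs_emb ν.A (gls_HBp' ν z * gls_HBm z) - 1

/-- base change standard before: `Dm * gls_tm = Hm * Sm` -/
noncomputable def gls_tm : gs_Mat N := gs_emb ν.a (z .t) * gs_emb ν.km (z .r)
/-- base change standard after: `Sg * Dp * gls_tp = Hp * Sp` -/
noncomputable def gls_tp : gs_Mat N := gs_emb ν.b (z .s) * gs_emb ν.km (z .v)
/-- inverse of `gls_tp` -/
noncomputable def gls_tp' : gs_Mat N := gs_emb ν.b (z .s)⁻¹ * gs_emb ν.km (z .v)⁻¹

/-! ## the corrections -/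

variable (p : Fin 2 → gs_Mat N)

/-- the nilpotent part of the left correction, fine flat coordinates -/
noncomputable def gls_Ez : gs_Mat N :=
  gls_E (gls_pi ν) (gls_Cm ν z - gls_LamF ν) (gls_Cp ν z - 1) (gls_R ν z) (gls_W ν z) (gls_Th ν) (p 0)
/-- the nilpotent part of the right correction, fine flat coordinates -/
noncomputable def gls_Gz : gs_Mat N :=
  gls_G (gls_pi ν) (gls_Cm ν z - gls_LamF ν) (gls_Cp ν z - 1) (gls_R ν z) (gls_W ν z) (gls_Th ν) (p 1)
/-- the free part -/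
noncomputable def gls_bz : gs_Mat N :=
  gls_bb (gls_pi ν) (gls_Cm ν z - gls_LamF ν) (gls_Cp ν z - 1) (gls_R ν z) (gls_W ν z) (gls_Th ν)
    (p 0) (p 1)

/-- **the left correction** -/
noncomputable def gls_EL (w : (gr_SIdx → gs_Mat N) × (Fin 2 → gs_Mat N)) : gs_Mat N :=
  gls_Hm ν w.1 * (1 + gls_Ez ν w.1 w.2) * gls_Hm' ν w.1
/-- **the right correction** -/
noncomputable def gls_ER (w : (gr_SIdx → gs_Mat N) × (Fin 2 → gs_Mat N)) : gs_Mat N :=
  (gls_Sg ν)ᵀ * (gls_Hp ν w.1 * (1 + gls_Gz ν w.1 w.2) * gls_Hp' ν w.1) * gls_Sg ν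
/-- inverse of the left correction -/
noncomputable def gls_EL' (w : (gr_SIdx → gs_Mat N) × (Fin 2 → gs_Mat N)) : gs_Mat N :=
  gls_Hm ν w.1 * (1 - gls_Ez ν w.1 w.2) * gls_Hm' ν w.1
/-- inverse of the right correction -/
noncomputable def gls_ER' (w : (gr_SIdx → gs_Mat N) × (Fin 2 → gs_Mat N)) : gs_Mat N :=
  (gls_Sg ν)ᵀ * (gls_Hp ν w.1 * (1 - gls_Gz ν w.1 w.2) * gls_Hp' ν w.1) * gls_Sg ν

end Claimed.Agent.R236
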