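import Mathlib
import Claimed.Agent.R236.GLocSDef
import Claimed.Agent.R236.GWordMat

/-!
# Row 236, G-LOCS-A9: regularity of `gls_EL`, `gls_ER`
(closure lemmas `rg_MatOn.*` of Reg.lean, `gw_emb_reg`; all constant matrices have entries `0, ±1`)
-/

set_option autoImplicit false

namespace Claimed.Agent.R236

open Matrix

variable {N : ℕ} (ν : gr_SNum)

/-! ### coordinates -/

section coords
variable {S : Set ((gr_SIdx → gs_Mat N) × (Fin 2 → gs_Mat N))} (R : Subring ℂ)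

theorem gls9_z (i : gr_SIdx) :
    rg_MatOn R (gr_coord gr_SIdx (Fin 2) N) S (fun w => w.1 i) :=
  fun a b => rg_RegOn.coord (c := gr_coord gr_SIdx (Fin 2) N) (Sum.inl (i, false, a, b))

theorem gls9_zi (i : gr_SIdx) :
    rg_MatOn R (gr_coord gr_SIdx (Fin 2) N) S (fun w => (w.1 i)⁻¹) :=
  fun a b => rg_RegOn.coord (c := gr_coord gr_SIdx (Fin 2) N) (Sum.inl (i, true, a, b))

theorem gls9_p (k : Fin 2) :
    rg_MatOn R (gr_coord gr_SIdx (Fin 2) N) S (fun w => w.2 k) :=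
  fun a b => rg_RegOn.coord (c := gr_coord gr_SIdx (Fin 2) N) (Sum.inr (k, a, b))

end coords

/-! ### constants and the abstract block calculus -/

section gen
universe u v
variable {P : Type u} {κ : Type v} {R : Subring ℂ} {c : κ → P → ℂ} {S : Set P}

theorem gls9_pm (f : ℕ → ℕ) : rg_MatOn R c S (fun _ => (gm_pm f : gs_Mat N)) :=
  .const fun a b => by
    simp only [gm_pm]
    split_ifs
    · exact R.one_mem
    · exact R.zero_mem

theorem gls9_pi (l : Fin 7) : rg_MatOn R c S (fun _ => (gls_pi ν l : gs_Mat N)) :=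
  .const fun a b => by
    simp only [gls_pi, Matrix.diagonal_apply]
    split_ifs
    · exact R.one_mem
    · exact R.zero_mem
    · exact R.zero_mem

theorem gls9_Sg : rg_MatOn R c S (fun _ => (gls_Sg ν : gs_Mat N)) :=
  .const fun a b => gw_swapMat_mem R _ _ _ a b

theorem gls9_Lam : rg_MatOn R c S (fun _ => (gls_Lam ν : gs_Mat N)) :=
  .const fun a b => by
    simp only [gls_Lam, Matrix.diagonal_apply]
    split_ifs
    · exact R.neg_mem R.one_mem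
    · exact R.one_mem
    · exact R.zero_mem

theorem gls9_LamF : rg_MatOn R c S (fun _ => (gls_LamF ν : gs_Mat N)) :=
  (rg_MatOn.one.sub (gls9_pi ν 1)).sub (gls9_pi ν 1)

variable {ν}

theorem gls9_blk (i j : Fin 7) {X : P → gs_Mat N} (hX : rg_MatOn R c S X) :
    rg_MatOn R c S (fun w => gls_blk (gls_pi ν) i j (X w)) :=
  ((gls9_pi ν i).mul hX).mul (gls9_pi ν j)

variable {C D Rr W T p : P → gs_Mat N}

theorem gls9_Ws (hW : rg_MatOn R c S W) :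
    rg_MatOn R c S (fun w => gls_Ws (gls_pi ν) (W w)) :=
  ((gls9_blk 3 4 hW).add (gls9_blk 3 5 hW)).add (gls9_blk 4 5 hW)

theorem gls9_b04 (hC : rg_MatOn R c S C) (hD : rg_MatOn R c S D) (hR : rg_MatOn R c S Rr)
    (hW : rg_MatOn R c S W) (hT : rg_MatOn R c S T) :
    rg_MatOn R c S (fun w => gls_b04 (gls_pi ν) (C w) (D w) (Rr w) (W w) (T w)) :=
  (((((gls9_blk 0 1 hD).sub (gls9_blk 0 1 hR)).mul (gls9_blk 1 4 hT)).add (gls9_blk 0 4 hC)).sub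
    ((gls9_blk 0 3 hC).mul (gls9_blk 3 4 hC))).sub ((gls9_blk 0 3 hC).mul (gls9_blk 3 4 hW))

theorem gls9_b42 (hC : rg_MatOn R c S C) (hD : rg_MatOn R c S D) (hR : rg_MatOn R c S Rr)
    (hW : rg_MatOn R c S W) (hT : rg_MatOn R c S T) :
    rg_MatOn R c S (fun w => gls_b42 (gls_pi ν) (C w) (D w) (Rr w) (W w) (T w)) :=
  ((((((gls9_blk 4 1 hT).mul (gls9_blk 1 2 hR)).add (gls9_blk 4 2 hD)).sub
    ((gls9_blk 4 1 hT).mul (gls9_blk 1 2 hC))).sub ((gls9_blk 4 5 hD).mul (gls9_blk 5 2 hD))).sub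
    ((gls9_blk 4 5 hW).mul (gls9_blk 5 2 hD)))

theorem gls9_AB (hC : rg_MatOn R c S C) (hD : rg_MatOn R c S D) (hR : rg_MatOn R c S Rr)
    (hW : rg_MatOn R c S W) (hT : rg_MatOn R c S T) (hp : rg_MatOn R c S p) :
    rg_MatOn R c S (fun w => gls_AB (gls_pi ν) (C w) (D w) (Rr w) (W w) (T w) (p w)) :=
  ((((((gls9_blk 0 3 hC).add (gls9_b04 hC hD hR hW hT)).add (gls9_blk 0 5 hp)).sub
    (gls9_blk 1 4 hT)).add ((gls9_blk 1 5 hC).sub ((gls9_blk 1 4 hT).mul (gls9_blk 4 5 hD)))).add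
    (gls9_blk 2 5 hC))

theorem gls9_BA (hC : rg_MatOn R c S C) (hD : rg_MatOn R c S D) (hR : rg_MatOn R c S Rr)
    (hW : rg_MatOn R c S W) (hT : rg_MatOn R c S T) (hp : rg_MatOn R c S p) :
    rg_MatOn R c S (fun w => gls_BA (gls_pi ν) (C w) (D w) (Rr w) (W w) (T w) (p w)) :=
  ((((((gls9_blk 3 0 hD).add ((gls9_blk 3 1 hD).add ((gls9_blk 3 4 hC).mul (gls9_blk 4 1 hT)))).add
    (gls9_blk 3 2 hp)).add (gls9_blk 4 1 hT)).add (gls9_b42 hC hD hR hW hT)).add (gls9_blk 5 2 hD))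

theorem gls9_E (hC : rg_MatOn R c S C) (hD : rg_MatOn R c S D) (hR : rg_MatOn R c S Rr)
    (hW : rg_MatOn R c S W) (hT : rg_MatOn R c S T) (hp : rg_MatOn R c S p) :
    rg_MatOn R c S (fun w => gls_E (gls_pi ν) (C w) (D w) (Rr w) (W w) (T w) (p w)) :=
  ((gls9_AB hC hD hR hW hT hp).mul (rg_MatOn.one.add (gls9_Ws hW))).neg

theorem gls9_G (hC : rg_MatOn R c S C) (hD : rg_MatOn R c S D) (hR : rg_MatOn R c S Rr)
    (hW : rg_MatOn R c S W) (hT : rg_MatOn R c S T) (hp : rg_MatOn R c S p) :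
    rg_MatOn R c S (fun w => gls_G (gls_pi ν) (C w) (D w) (Rr w) (W w) (T w) (p w)) :=
  ((rg_MatOn.one.add (gls9_Ws hW)).mul (gls9_BA hC hD hR hW hT hp)).neg

end gen

/-! ### the concrete data -/

section data
variable {S : Set ((gr_SIdx → gs_Mat N) × (Fin 2 → gs_Mat N))} (R : Subring ℂ)

theorem gls9_Cm : rg_MatOn R (gr_coord gr_SIdx (Fin 2) N) S (fun w => gls_Cm ν w.1) :=
  ((gls9_pm _).mul ((gls9_z R .c0).mul
    (gw_emb_reg _ (((gls9_z R .e0).mul (gls9_Lam ν)).mul (gls9_z R .e1))))).mul (gls9_pm _).transpose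

theorem gls9_Cp : rg_MatOn R (gr_coord gr_SIdx (Fin 2) N) S (fun w => gls_Cp ν w.1) :=
  ((gls9_pm _).mul ((gls9_z R .c1).mul (gw_emb_reg _ (gls9_z R .e2)))).mul (gls9_pm _).transpose

theorem gls9_HAm : rg_MatOn R (gr_coord gr_SIdx (Fin 2) N) S (fun w => gls_HAm ν w.1) :=
  (gls9_z R .hAm).mul (gw_emb_reg _ (gls9_z R .r))

theorem gls9_HAm' : rg_MatOn R (gr_coord gr_SIdx (Fin 2) N) S (fun w => gls_HAm' ν w.1) :=
  (gw_emb_reg _ (gls9_zi R .r)).mul (gls9_zi R .hAm)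

theorem gls9_HAp : rg_MatOn R (gr_coord gr_SIdx (Fin 2) N) S (fun w => gls_HAp w.1) :=
  (gls9_z R .hAp).mul (gls9_z R .s)

theorem gls9_HAp' : rg_MatOn R (gr_coord gr_SIdx (Fin 2) N) S (fun w => gls_HAp' w.1) :=
  (gls9_zi R .s).mul (gls9_zi R .hAp)

theorem gls9_HBm : rg_MatOn R (gr_coord gr_SIdx (Fin 2) N) S (fun w => gls_HBm w.1) :=
  (gls9_z R .hBm).mul (gls9_z R .t)

theorem gls9_HBm' : rg_MatOn R (gr_coord gr_SIdx (Fin 2) N) S (fun w => gls_HBm' w.1) :=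
  (gls9_zi R .t).mul (gls9_zi R .hBm)

theorem gls9_HBp : rg_MatOn R (gr_coord gr_SIdx (Fin 2) N) S (fun w => gls_HBp ν w.1) :=
  (gls9_z R .hBp).mul (gw_emb_reg _ (gls9_z R .v))

theorem gls9_HBp' : rg_MatOn R (gr_coord gr_SIdx (Fin 2) N) S (fun w => gls_HBp' ν w.1) :=
  (gw_emb_reg _ (gls9_zi R .v)).mul (gls9_zi R .hBp)

theorem gls9_Hm : rg_MatOn R (gr_coord gr_SIdx (Fin 2) N) S (fun w => gls_Hm ν w.1) :=
  (gls9_HAm ν R).mul (gw_emb_reg _ (gls9_HBm R))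

theorem gls9_Hm' : rg_MatOn R (gr_coord gr_SIdx (Fin 2) N) S (fun w => gls_Hm' ν w.1) :=
  (gls9_HAm' ν R).mul (gw_emb_reg _ (gls9_HBm' R))

theorem gls9_Hp : rg_MatOn R (gr_coord gr_SIdx (Fin 2) N) S (fun w => gls_Hp ν w.1) :=
  (gls9_HAp R).mul (gw_emb_reg _ (gls9_HBp ν R))

theorem gls9_Hp' : rg_MatOn R (gr_coord gr_SIdx (Fin 2) N) S (fun w => gls_Hp' ν w.1) :=
  (gls9_HAp' R).mul (gw_emb_reg _ (gls9_HBp' ν R))

theorem gls9_R : rg_MatOn R (gr_coord gr_SIdx (Fin 2) N) S (fun w => gls_R ν w.1) :=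
  ((gls9_HAm' ν R).mul (gls9_HAp R)).sub rg_MatOn.one

theorem gls9_W : rg_MatOn R (gr_coord gr_SIdx (Fin 2) N) S (fun w => gls_W ν w.1) :=
  (gw_emb_reg _ ((gls9_HBp' ν R).mul (gls9_HBm R))).sub rg_MatOn.one

theorem gls9_Ez : rg_MatOn R (gr_coord gr_SIdx (Fin 2) N) S (fun w => gls_Ez ν w.1 w.2) :=
  gls9_E ((gls9_Cm ν R).sub (gls9_LamF ν)) ((gls9_Cp ν R).sub rg_MatOn.one) (gls9_R ν R)
    (gls9_W ν R) (gls9_pm _) (gls9_p R 0)

theorem gls9_Gz : rg_MatOn R (gr_coord gr_SIdx (Fin 2) N) S (fun w => gls_Gz ν w.1 w.2) :=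
  gls9_G ((gls9_Cm ν R).sub (gls9_LamF ν)) ((gls9_Cp ν R).sub rg_MatOn.one) (gls9_R ν R)
    (gls9_W ν R) (gls9_pm _) (gls9_p R 1)

end data

theorem gls_EL_reg (R : Subring ℂ) :
    rg_MatOn R (gr_coord gr_SIdx (Fin 2) N) (gr_SSet N ν) (gls_EL ν) :=
  ((gls9_Hm ν R).mul (rg_MatOn.one.add (gls9_Ez ν R))).mul (gls9_Hm' ν R)

theorem gls_ER_reg (R : Subring ℂ) :
    rg_MatOn R (gr_coord gr_SIdx (Fin 2) N) (gr_SSet N ν) (gls_ER ν) :=
  ((gls9_Sg ν).transpose.mul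
    (((gls9_Hp ν R).mul (rg_MatOn.one.add (gls9_Gz ν R))).mul (gls9_Hp' ν R))).mul (gls9_Sg ν)

end Claimed.Agent.R236
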