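import Mathlib
import Claimed.Agent.R236.GLocSAbs
import Claimed.Agent.R236.GLoc
import Claimed.Agent.R236.GMatConj

/-!
# Row 236, G-LOCS: the dictionary between labelled supports and the abstract block calculus
(owner helper162; prefix `gld_`)

* `gld_pi lam l` : the diagonal idempotent of the indices with label `l` for a labelling
  `lam : ℕ → Fin 7`; `gld_idem`, `gld_blk_apply`, `gld_pat_iff`.
* `gld_seg` : the labelling by six thresholds; `gld_seg_cases`.
* the four labellings of a swap: `gld_lab` (refined before = flat), `gld_labs` (refined after),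
  `gld_labm` (standard before), `gld_labp` (standard after), and their compatibility with the
  block permutations.
* generic transport lemmas: unipotent / corner / window supports to patterns and back.
-/

set_option autoImplicit false

namespace Claimed.Agent.R236

variable {N : ℕ}

/-! ## idempotents of a labelling -/

/-- the diagonal idempotent of the label `l` -/
def gld_pi (lam : ℕ → Fin 7) (l : Fin 7) : gs_Mat N :=
  Matrix.diagonal fun i : Fin N => if lam i = l then 1 else 0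

theorem gld_pi_apply (lam : ℕ → Fin 7) (l : Fin 7) (r s : Fin N) :
    (gld_pi lam l : gs_Mat N) r s = if r = s ∧ lam r = l then 1 else 0 := by
  unfold gld_pi
  by_cases h : r = s
  · subst h; simp
  · simp [h]

theorem gld_pi_mul_apply (lam : ℕ → Fin 7) (l : Fin 7) (X : gs_Mat N) (r s : Fin N) :
    ((gld_pi lam l : gs_Mat N) * X) r s = if lam r = l then X r s else 0 := by
  unfold gld_pi
  rw [Matrix.diagonal_mul]
  split_ifs <;> simp

theorem gld_mul_pi_apply (lam : ℕ → Fin 7) (l : Fin 7) (X : gs_Mat N) (r s : Fin N) :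
    (X * (gld_pi lam l : gs_Mat N)) r s = if lam s = l then X r s else 0 := by
  unfold gld_pi
  rw [Matrix.mul_diagonal]
  split_ifs <;> simp

theorem gld_blk_apply (lam : ℕ → Fin 7) (k l : Fin 7) (X : gs_Mat N) (r s : Fin N) :
    gls_blk (gld_pi lam : Fin 7 → gs_Mat N) k l X r s
      = if lam r = k ∧ lam s = l then X r s else 0 := by
  unfold gls_blk
  rw [gld_mul_pi_apply, gld_pi_mul_apply]
  by_cases h1 : lam r = k <;> by_cases h2 : lam s = l <;> simp [h1, h2]

theorem gld_idem (lam : ℕ → Fin 7) : gls_Idem (gld_pi lam : Fin 7 → gs_Mat N) where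
  mul_self i := by
    ext r s
    rw [gld_pi_mul_apply, gld_pi_apply]
    by_cases h1 : lam r = i <;> simp [h1]
  mul_ne i j hij := by
    ext r s
    rw [gld_pi_mul_apply, gld_pi_apply]
    split_ifs with h1 h2
    · exact absurd (h1.symm.trans h2.2) hij
    · rfl
    · rfl
  sum := by
    ext r s
    rw [Matrix.sum_apply]
    simp only [gld_pi_apply]
    by_cases h : r = s
    · subst h
      simp [Matrix.one_apply_eq]
    · simp [h, Matrix.one_apply_ne h]

/-- **the dictionary**: patterns are supports -/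
theorem gld_pat_iff (lam : ℕ → Fin 7) (ρ : Fin 7 → Fin 7 → Bool) (X : gs_Mat N) :
    gls_Pat (gld_pi lam : Fin 7 → gs_Mat N) ρ X ↔
      ∀ r s : Fin N, X r s ≠ 0 → ρ (lam r) (lam s) = true := by
  constructor
  · intro h r s hrs
    by_contra hρ
    have h0 := h (lam r) (lam s) (by simpa using hρ)
    have := congrFun (congrFun h0 r) s
    rw [gld_blk_apply, if_pos ⟨rfl, rfl⟩] at this
    exact hrs this
  · intro h i j hij
    ext r s
    rw [gld_blk_apply]
    split_ifs with hc
    · by_contra hne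
      have := h r s hne
      rw [hc.1, hc.2, hij] at this
      exact absurd this (by decide)
    · rfl

/-- patterns of `X - 1` -/
theorem gld_pat_sub_one_iff (lam : ℕ → Fin 7) (ρ : Fin 7 → Fin 7 → Bool) (X : gs_Mat N) :
    gls_Pat (gld_pi lam : Fin 7 → gs_Mat N) ρ (X - 1) ↔
      ∀ r s : Fin N, X r s ≠ (1 : gs_Mat N) r s → ρ (lam r) (lam s) = true := by
  rw [gld_pat_iff]
  refine forall_congr' fun r => forall_congr' fun s => ?_
  rw [Matrix.sub_apply, sub_ne_zero]

/-! ## generic transports -/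

/-- a unipotent matrix has the pattern of its positions -/
theorem gld_pat_of_uni {lam : ℕ → Fin 7} {ρ : Fin 7 → Fin 7 → Bool} {n : ℕ} {K : Finset ℕ}
    {u : gs_Mat N} (hu : gs_IsUni n K u)
    (h : ∀ i j c : ℕ, j < n → c ∈ K → i < c → c ≤ j → ρ (lam i) (lam j) = true) :
    gls_Pat (gld_pi lam : Fin 7 → gs_Mat N) ρ (u - 1) := by
  rw [gld_pat_sub_one_iff]
  intro r s hrs
  obtain ⟨h1, c, hc, h2, h3⟩ := hu r s hrs
  exact h r s c h1 hc h2 h3

/-- and conversely -/
theorem gld_uni_of_pat {lam : ℕ → Fin 7} {ρ : Fin 7 → Fin 7 → Bool} {n : ℕ} {K : Finset ℕ}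
    {u : gs_Mat N} (hu : gls_Pat (gld_pi lam : Fin 7 → gs_Mat N) ρ (u - 1))
    (h : ∀ i j : ℕ, ρ (lam i) (lam j) = true → j < n ∧ ∃ c ∈ K, i < c ∧ c ≤ j) :
    gs_IsUni n K u := by
  rw [gld_pat_sub_one_iff] at hu
  intro r s hrs
  exact h r s (hu r s hrs)

/-- a matrix in a window -/
theorem gld_pat_of_emb {lam : ℕ → Fin 7} {ρ : Fin 7 → Fin 7 → Bool} {m : ℕ} (o : ℕ)
    {A : gs_Mat N} (hA : gs_IsCorner m A)
    (h : ∀ i j : ℕ, o ≤ i → i < o + m → o ≤ j → j < o + m → ρ (lam i) (lam j) = true) :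
    gls_Pat (gld_pi lam : Fin 7 → gs_Mat N) ρ (gs_emb o A - 1) := by
  rw [gld_pat_sub_one_iff]
  intro r s hrs
  by_contra hρ
  refine hrs (gm_emb_apply_out hA ?_)
  rintro ⟨⟨h1, h2⟩, h3, h4⟩
  exact hρ (h r s h1 h2 h3 h4)

/-- a unipotent matrix moved to the offset `o` -/
theorem gld_pat_of_emb_uni {lam : ℕ → Fin 7} {ρ : Fin 7 → Fin 7 → Bool} {n : ℕ} {K : Finset ℕ}
    (o : ℕ) {u : gs_Mat N} (hu : gs_IsUni n K u)
    (h : ∀ i j c : ℕ, j < n → c ∈ K → i < c → c ≤ j → ρ (lam (o + i)) (lam (o + j)) = true) :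
    gls_Pat (gld_pi lam : Fin 7 → gs_Mat N) ρ (gs_emb o u - 1) := by
  rw [gld_pat_sub_one_iff]
  intro r s hrs
  by_cases hi : o ≤ (r : ℕ)
  · by_cases hj : o ≤ (s : ℕ)
    · rw [gm_emb_apply_ge o u hi hj, ← gm_one_apply_sub o hi hj] at hrs
      obtain ⟨h1, c, hc, h2, h3⟩ := hu _ _ hrs
      simp only at h1 h2 h3
      have := h _ _ c h1 hc h2 h3
      rwa [Nat.add_sub_cancel' hi, Nat.add_sub_cancel' hj] at this
    · exact absurd (gm_emb_apply_lt_col o u r (by omega)) hrs
  · exact absurd (gm_emb_apply_lt_row o u (by omega) s) hrs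

/-- a matrix in a corner -/
theorem gld_pat_of_corner {lam : ℕ → Fin 7} {ρ : Fin 7 → Fin 7 → Bool} {m : ℕ}
    {A : gs_Mat N} (hA : gs_IsCorner m A)
    (h : ∀ i j : ℕ, i < m → j < m → ρ (lam i) (lam j) = true) :
    gls_Pat (gld_pi lam : Fin 7 → gs_Mat N) ρ (A - 1) := by
  rw [gld_pat_sub_one_iff]
  intro r s hrs
  by_contra hρ
  refine hrs (hA r s ?_)
  by_contra hc
  rw [not_or, not_le, not_le] at hc
  exact hρ (h r s hc.1 hc.2)

/-- back from a window pattern -/
theorem gld_emb_mid_of_pat {lam : ℕ → Fin 7} {ρ : Fin 7 → Fin 7 → Bool} {o m : ℕ}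
    (hN : o + m ≤ N) {A : gs_Mat N} (hA : gls_Pat (gld_pi lam : Fin 7 → gs_Mat N) ρ (A - 1))
    (h : ∀ i j : ℕ, ρ (lam i) (lam j) = true → (o ≤ i ∧ i < o + m) ∧ (o ≤ j ∧ j < o + m)) :
    gs_emb o (gr_midBlock o m A) = A := by
  rw [gld_pat_sub_one_iff] at hA
  refine gm_emb_mid_self hN fun i j hij => ?_
  by_contra hne
  exact hij (h i j (hA i j hne))

/-- conjugation by a permutation matrix transports patterns -/
theorem gld_pat_conj {lam lam' : ℕ → Fin 7} {ρ : Fin 7 → Fin 7 → Bool} {f : ℕ → ℕ}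
    (hf : ∀ r, r < N → f r < N) (hl : ∀ r, lam' (f r) = lam r) {X : gs_Mat N}
    (hX : gls_Pat (gld_pi lam' : Fin 7 → gs_Mat N) ρ X) :
    gls_Pat (gld_pi lam : Fin 7 → gs_Mat N) ρ
      ((gm_pm f : gs_Mat N) * X * (gm_pm f : gs_Mat N).transpose) := by
  rw [gld_pat_iff] at hX ⊢
  intro r s hrs
  rw [gm_pm_conj_apply hf] at hrs
  have := hX _ _ hrs
  simpa only [hl] using this

/-- the idempotents are transported by permutation matrices -/
theorem gld_pi_conj {lam lam' : ℕ → Fin 7} {f : ℕ → ℕ} (hf : gm_IsPerm N f)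
    (hl : ∀ r, lam' (f r) = lam r) (l : Fin 7) :
    (gm_pm f : gs_Mat N) * gld_pi lam' l * (gm_pm f : gs_Mat N).transpose = gld_pi lam l := by
  ext r s
  rw [gm_pm_conj_apply hf.1, gld_pi_apply, gld_pi_apply]
  simp only [hl, Fin.mk.injEq]
  by_cases h : r = s
  · subst h; simp
  · have : f r ≠ f s := fun e => h (Fin.ext (hf.2 r s r.2 s.2 e))
    simp [h, this]

end Claimed.Agent.R236
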