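import Mathlib
import Claimed.Agent.R236.GLocSDef
import Claimed.Agent.R236.GLocSDict

/-!
# Row 236, G-LOCS-A1: the idempotents, dictionary pattern <-> support (flat coordinates)
(statements helper139, proofs helper162; the generic part is in `GLocSDict.lean`)
-/

set_option autoImplicit false

namespace Claimed.Agent.R236

open Matrix

variable {N : ℕ} (ν : gr_SNum)

theorem gls_pi_eq : (gls_pi ν : Fin 7 → gs_Mat N) = gld_pi (gls_lab ν) := rfl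

theorem gls_idem : gls_Idem (gls_pi ν : Fin 7 → gs_Mat N) := gld_idem (gls_lab ν)

theorem gls_blk_apply (i j : Fin 7) (X : gs_Mat N) (r s : Fin N) :
    gls_blk (gls_pi ν) i j X r s = if gls_lab ν r = i ∧ gls_lab ν s = j then X r s else 0 :=
  gld_blk_apply (gls_lab ν) i j X r s

theorem gls_pat_iff (ρ : Fin 7 → Fin 7 → Bool) (X : gs_Mat N) :
    gls_Pat (gls_pi ν) ρ X ↔ ∀ r s : Fin N, X r s ≠ 0 → ρ (gls_lab ν r) (gls_lab ν s) = true :=
  gld_pat_iff (gls_lab ν) ρ X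

/-- from a support relation on positions to a pattern -/
theorem gls_pat_of_sup {rel : ℕ → ℕ → Prop} {ρ : Fin 7 → Fin 7 → Bool} {X : gs_Mat N}
    (h : gm_Sup rel X)
    (hρ : ∀ i j, i < N → j < N → rel i j → ρ (gls_lab ν i) (gls_lab ν j) = true) :
    gls_Pat (gls_pi ν) ρ X := by
  rw [gls_pat_iff]
  intro r s hrs
  exact hρ r s r.2 s.2 (h r s hrs)

/-- unitriangular matrices -/
theorem gls_pat_of_uni {n : ℕ} {K : Finset ℕ} {ρ : Fin 7 → Fin 7 → Bool} {u : gs_Mat N}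
    (h : gs_IsUni n K u)
    (hρ : ∀ i j, gm_uniPos n K i j → ρ (gls_lab ν i) (gls_lab ν j) = true) :
    gls_Pat (gls_pi ν) ρ (u - 1) :=
  gld_pat_of_uni h fun i j c h1 hc h2 h3 => hρ i j ⟨h1, c, hc, h2, h3⟩

/-- matrices living in a window `[o, o+m)²` -/
theorem gls_pat_of_emb {o m : ℕ} {ρ : Fin 7 → Fin 7 → Bool} {A : gs_Mat N} (hA : gs_IsCorner m A)
    (hρ : ∀ i j, o ≤ i → i < o + m → o ≤ j → j < o + m →
      ρ (gls_lab ν i) (gls_lab ν j) = true) :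
    gls_Pat (gls_pi ν) ρ (gs_emb o A - 1) :=
  gld_pat_of_emb o hA hρ

/-- the seven cases of a label -/
theorem gls_lab_cases (r : ℕ) :
    ((0 ≤ r ∧ r < ν.a) ∧ gls_lab ν r = 0) ∨
    ((ν.a ≤ r ∧ r < ν.a + ν.h) ∧ gls_lab ν r = 1) ∨
    ((ν.a + ν.h ≤ r ∧ r < ν.a + ν.h + ν.x) ∧ gls_lab ν r = 2) ∨
    ((ν.a + ν.h + ν.x ≤ r ∧ r < ν.a + ν.h + ν.x + ν.b) ∧ gls_lab ν r = 3) ∨
    ((ν.a + ν.h + ν.x + ν.b ≤ r ∧ r < ν.a + ν.h + ν.x + ν.b + ν.h) ∧ gls_lab ν r = 4) ∨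
    ((ν.a + ν.h + ν.x + ν.b + ν.h ≤ r ∧ r < ν.a + ν.h + ν.x + ν.b + ν.h + ν.y) ∧
      gls_lab ν r = 5) ∨
    ((ν.a + ν.h + ν.x + ν.b + ν.h + ν.y ≤ r ∧ 0 ≤ r) ∧ gls_lab ν r = 6) := by
  unfold gls_lab
  split_ifs <;> simp <;> omega

/-- first block -/
theorem gls_pat_cornerA {X : gs_Mat N} (h : gs_IsCorner ν.A X) :
    gls_Pat (gls_pi ν) gls_rAA (X - 1) := by
  refine gld_pat_of_corner h ?_
  intro i j hi hj
  unfold gr_SNum.A at hi hj
  rcases gls_lab_cases ν i with h | h | h | h | h | h | h <;> obtain ⟨⟨ha, hb⟩, e⟩ := h <;>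
  rcases gls_lab_cases ν j with h | h | h | h | h | h | h <;> obtain ⟨⟨ha', hb'⟩, e'⟩ := h <;>
  rw [e, e'] <;> first | decide | (exfalso; omega)

/-- second block -/
theorem gls_pat_embB {X : gs_Mat N} (h : gs_IsCorner ν.B X) :
    gls_Pat (gls_pi ν) gls_rBB (gs_emb ν.A X - 1) := by
  refine gls_pat_of_emb ν h ?_
  intro i j h1 h2 h3 h4
  unfold gr_SNum.A gr_SNum.B at *
  rcases gls_lab_cases ν i with h | h | h | h | h | h | h <;> obtain ⟨⟨ha, hb⟩, e⟩ := h <;>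
  rcases gls_lab_cases ν j with h | h | h | h | h | h | h <;> obtain ⟨⟨ha', hb'⟩, e'⟩ := h <;>
  rw [e, e'] <;> first | decide | (exfalso; omega)

/-- `s` -/
theorem gls_pat_corner01 {X : gs_Mat N} (h : gs_IsCorner (ν.a + ν.h) X) :
    gls_Pat (gls_pi ν) (gls_pp [0, 1] [0, 1]) (X - 1) := by
  refine gld_pat_of_corner h ?_
  intro i j hi hj
  rcases gls_lab_cases ν i with h | h | h | h | h | h | h <;> obtain ⟨⟨ha, hb⟩, e⟩ := h <;>
  rcases gls_lab_cases ν j with h | h | h | h | h | h | h <;> obtain ⟨⟨ha', hb'⟩, e'⟩ := h <;>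
  rw [e, e'] <;> first | decide | (exfalso; omega)

/-- `r` -/
theorem gls_pat_emb12 {X : gs_Mat N} (h : gs_IsCorner (ν.h + ν.x) X) :
    gls_Pat (gls_pi ν) (gls_pp [1, 2] [1, 2]) (gs_emb ν.a X - 1) := by
  refine gls_pat_of_emb ν h ?_
  intro i j h1 h2 h3 h4
  rcases gls_lab_cases ν i with h | h | h | h | h | h | h <;> obtain ⟨⟨ha, hb⟩, e⟩ := h <;>
  rcases gls_lab_cases ν j with h | h | h | h | h | h | h <;> obtain ⟨⟨ha', hb'⟩, e'⟩ := h <;>
  rw [e, e'] <;> first | decide | (exfalso; omega)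

/-- `t` -/
theorem gls_pat_emb34 {X : gs_Mat N} (h : gs_IsCorner (ν.b + ν.h) X) :
    gls_Pat (gls_pi ν) gls_r34 (gs_emb ν.A X - 1) := by
  refine gls_pat_of_emb ν h ?_
  intro i j h1 h2 h3 h4
  unfold gr_SNum.A at *
  rcases gls_lab_cases ν i with h | h | h | h | h | h | h <;> obtain ⟨⟨ha, hb⟩, e⟩ := h <;>
  rcases gls_lab_cases ν j with h | h | h | h | h | h | h <;> obtain ⟨⟨ha', hb'⟩, e'⟩ := h <;>
  rw [e, e'] <;> first | decide | (exfalso; omega)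

/-- `v` -/
theorem gls_pat_emb45 {X : gs_Mat N} (h : gs_IsCorner (ν.h + ν.y) X) :
    gls_Pat (gls_pi ν) (gls_pp [4, 5] [4, 5]) (gs_emb ν.A (gs_emb ν.b X) - 1) := by
  rw [gm_emb_emb]
  refine gls_pat_of_emb ν h ?_
  intro i j h1 h2 h3 h4
  unfold gr_SNum.A at *
  rcases gls_lab_cases ν i with h | h | h | h | h | h | h <;> obtain ⟨⟨ha, hb⟩, e⟩ := h <;>
  rcases gls_lab_cases ν j with h | h | h | h | h | h | h <;> obtain ⟨⟨ha', hb'⟩, e'⟩ := h <;>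
  rw [e, e'] <;> first | decide | (exfalso; omega)

/-- the pattern of `R` -/
theorem gls_pat_uniR {u : gs_Mat N} (h : gs_IsUni ν.A {0, ν.a, ν.a + ν.h, ν.A} u) :
    gls_Pat (gls_pi ν) gls_rR (u - 1) := by
  refine gls_pat_of_uni ν h ?_
  rintro i j ⟨hj, c, hc, h1, h2⟩
  simp only [Finset.mem_insert, Finset.mem_singleton] at hc
  unfold gr_SNum.A at *
  rcases gls_lab_cases ν i with h | h | h | h | h | h | h <;> obtain ⟨⟨ha, hb⟩, e⟩ := h <;>
  rcases gls_lab_cases ν j with h | h | h | h | h | h | h <;> obtain ⟨⟨ha', hb'⟩, e'⟩ := h <;>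
  rw [e, e'] <;> first | decide | (exfalso; omega)

/-- the pattern of `wA0` -/
theorem gls_pat_uniA0 {u : gs_Mat N} (h : gs_IsUni ν.A {0, ν.a + ν.h, ν.A} u) :
    gls_Pat (gls_pi ν) (gls_pp [0, 1] [2]) (u - 1) := by
  refine gls_pat_of_uni ν h ?_
  rintro i j ⟨hj, c, hc, h1, h2⟩
  simp only [Finset.mem_insert, Finset.mem_singleton] at hc
  unfold gr_SNum.A at *
  rcases gls_lab_cases ν i with h | h | h | h | h | h | h <;> obtain ⟨⟨ha, hb⟩, e⟩ := h <;>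
  rcases gls_lab_cases ν j with h | h | h | h | h | h | h <;> obtain ⟨⟨ha', hb'⟩, e'⟩ := h <;>
  rw [e, e'] <;> first | decide | (exfalso; omega)

/-- the pattern of `W` -/
theorem gls_pat_uniW {u : gs_Mat N} (h : gs_IsUni ν.B {0, ν.b, ν.b + ν.h, ν.B} u) :
    gls_Pat (gls_pi ν) gls_rW (gs_emb ν.A u - 1) := by
  refine gld_pat_of_emb_uni ν.A h ?_
  intro i' j' c hj hc h1 h2
  simp only [Finset.mem_insert, Finset.mem_singleton] at hc
  generalize hi : ν.A + i' = i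
  generalize hj' : ν.A + j' = j
  unfold gr_SNum.A gr_SNum.B at *
  rcases gls_lab_cases ν i with h | h | h | h | h | h | h <;> obtain ⟨⟨ha, hb⟩, e⟩ := h <;>
  rcases gls_lab_cases ν j with h | h | h | h | h | h | h <;> obtain ⟨⟨ha', hb'⟩, e'⟩ := h <;>
  rw [e, e'] <;> first | decide | (exfalso; omega)

/-- the support of `z0` -/
theorem gls_pat_z0 {z0 : gs_Mat N} (h : ∀ i j : Fin N, z0 i j ≠ 0 →
      ν.a ≤ (i : ℕ) ∧ (i : ℕ) < ν.A ∧ ν.A ≤ (j : ℕ) ∧ (j : ℕ) < ν.A + ν.b + ν.h) :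
    gls_Pat (gls_pi ν) gls_rZ z0 := by
  rw [gls_pat_iff]
  intro r s hrs
  obtain ⟨h1, h2, h3, h4⟩ := h r s hrs
  generalize (r : ℕ) = i at *
  generalize (s : ℕ) = j at *
  unfold gr_SNum.A at *
  rcases gls_lab_cases ν i with h | h | h | h | h | h | h <;> obtain ⟨⟨ha, hb⟩, e⟩ := h <;>
  rcases gls_lab_cases ν j with h | h | h | h | h | h | h <;> obtain ⟨⟨ha', hb'⟩, e'⟩ := h <;>
  rw [e, e'] <;> first | decide | (exfalso; omega)

end Claimed.Agent.R236
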