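import Mathlib
import Claimed.Agent.R236.GLocSA1
import Claimed.Agent.R236.GLocG0

/-!
# Row 236, G-LOCS-A2: the permutations `gls_fm`, `gls_fp`, `gls_th`
-/

set_option autoImplicit false
set_option linter.unusedVariables false

namespace Claimed.Agent.R236

open Matrix

variable {N : ℕ} (ν : gr_SNum)

/-! ### the labels on their intervals -/

theorem gls2_lab_cases (r : ℕ) :
    (r < ν.a ∧ gls_lab ν r = 0) ∨
    (ν.a ≤ r ∧ r < ν.a + ν.h ∧ gls_lab ν r = 1) ∨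
    (ν.a + ν.h ≤ r ∧ r < ν.a + ν.h + ν.x ∧ gls_lab ν r = 2) ∨
    (ν.a + ν.h + ν.x ≤ r ∧ r < ν.a + ν.h + ν.x + ν.b ∧ gls_lab ν r = 3) ∨
    (ν.a + ν.h + ν.x + ν.b ≤ r ∧ r < ν.a + ν.h + ν.x + ν.b + ν.h ∧ gls_lab ν r = 4) ∨
    (ν.a + ν.h + ν.x + ν.b + ν.h ≤ r ∧ r < ν.a + ν.h + ν.x + ν.b + ν.h + ν.y ∧ gls_lab ν r = 5) ∨
    (ν.a + ν.h + ν.x + ν.b + ν.h + ν.y ≤ r ∧ gls_lab ν r = 6) := by
  unfold gls_lab
  split_ifs with h0 h1 h2 h3 h4 h5
  · exact Or.inl ⟨h0, rfl⟩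
  · exact Or.inr (Or.inl ⟨by omega, h1, rfl⟩)
  · exact Or.inr (Or.inr (Or.inl ⟨by omega, h2, rfl⟩))
  · exact Or.inr (Or.inr (Or.inr (Or.inl ⟨by omega, h3, rfl⟩)))
  · exact Or.inr (Or.inr (Or.inr (Or.inr (Or.inl ⟨by omega, h4, rfl⟩))))
  · exact Or.inr (Or.inr (Or.inr (Or.inr (Or.inr (Or.inl ⟨by omega, h5, rfl⟩)))))
  · exact Or.inr (Or.inr (Or.inr (Or.inr (Or.inr (Or.inr ⟨by omega, rfl⟩)))))

theorem gls2_lab_0 {r : ℕ} (h : r < ν.a) : gls_lab ν r = 0 := by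
  unfold gls_lab; rw [if_pos h]
theorem gls2_lab_1 {r : ℕ} (h1 : ν.a ≤ r) (h2 : r < ν.a + ν.h) : gls_lab ν r = 1 := by
  unfold gls_lab; rw [if_neg (by omega), if_pos h2]
theorem gls2_lab_2 {r : ℕ} (h1 : ν.a + ν.h ≤ r) (h2 : r < ν.a + ν.h + ν.x) : gls_lab ν r = 2 := by
  unfold gls_lab; rw [if_neg (by omega), if_neg (by omega), if_pos h2]
theorem gls2_lab_3 {r : ℕ} (h1 : ν.a + ν.h + ν.x ≤ r) (h2 : r < ν.a + ν.h + ν.x + ν.b) :
    gls_lab ν r = 3 := by
  unfold gls_lab; rw [if_neg (by omega), if_neg (by omega), if_neg (by omega), if_pos h2]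
theorem gls2_lab_4 {r : ℕ} (h1 : ν.a + ν.h + ν.x + ν.b ≤ r) (h2 : r < ν.a + ν.h + ν.x + ν.b + ν.h) :
    gls_lab ν r = 4 := by
  unfold gls_lab
  rw [if_neg (by omega), if_neg (by omega), if_neg (by omega), if_neg (by omega), if_pos h2]
theorem gls2_lab_5 {r : ℕ} (h1 : ν.a + ν.h + ν.x + ν.b + ν.h ≤ r)
    (h2 : r < ν.a + ν.h + ν.x + ν.b + ν.h + ν.y) : gls_lab ν r = 5 := by
  unfold gls_lab
  rw [if_neg (by omega), if_neg (by omega), if_neg (by omega), if_neg (by omega),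
    if_neg (by omega), if_pos h2]
theorem gls2_lab_6 {r : ℕ} (h1 : ν.a + ν.h + ν.x + ν.b + ν.h + ν.y ≤ r) : gls_lab ν r = 6 := by
  unfold gls_lab
  rw [if_neg (by omega), if_neg (by omega), if_neg (by omega), if_neg (by omega),
    if_neg (by omega), if_neg (by omega)]

theorem gls2_labm_0 {r : ℕ} (h : r < ν.a) : gls_labm ν r = 0 := by
  unfold gls_labm; rw [if_pos h]
theorem gls2_labm_3 {r : ℕ} (h1 : ν.a ≤ r) (h2 : r < ν.a + ν.b) : gls_labm ν r = 3 := by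
  unfold gls_labm; rw [if_neg (by omega), if_pos h2]
theorem gls2_labm_4 {r : ℕ} (h1 : ν.a + ν.b ≤ r) (h2 : r < ν.a + ν.b + ν.h) : gls_labm ν r = 4 := by
  unfold gls_labm; rw [if_neg (by omega), if_neg (by omega), if_pos h2]
theorem gls2_labm_1 {r : ℕ} (h1 : ν.a + ν.b + ν.h ≤ r) (h2 : r < ν.a + ν.b + ν.h + ν.h) :
    gls_labm ν r = 1 := by
  unfold gls_labm; rw [if_neg (by omega), if_neg (by omega), if_neg (by omega), if_pos h2]
theorem gls2_labm_2 {r : ℕ} (h1 : ν.a + ν.b + ν.h + ν.h ≤ r) (h2 : r < ν.a + ν.b + ν.h + ν.h + ν.x) :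
    gls_labm ν r = 2 := by
  unfold gls_labm
  rw [if_neg (by omega), if_neg (by omega), if_neg (by omega), if_neg (by omega), if_pos h2]
theorem gls2_labm_5 {r : ℕ} (h1 : ν.a + ν.b + ν.h + ν.h + ν.x ≤ r)
    (h2 : r < ν.a + ν.b + ν.h + ν.h + ν.x + ν.y) : gls_labm ν r = 5 := by
  unfold gls_labm
  rw [if_neg (by omega), if_neg (by omega), if_neg (by omega), if_neg (by omega),
    if_neg (by omega), if_pos h2]
theorem gls2_labm_6 {r : ℕ} (h1 : ν.a + ν.b + ν.h + ν.h + ν.x + ν.y ≤ r) : gls_labm ν r = 6 := by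
  unfold gls_labm
  rw [if_neg (by omega), if_neg (by omega), if_neg (by omega), if_neg (by omega),
    if_neg (by omega), if_neg (by omega)]

theorem gls2_labp_3 {r : ℕ} (h : r < ν.b) : gls_labp ν r = 3 := by
  unfold gls_labp; rw [if_pos h]
theorem gls2_labp_0 {r : ℕ} (h1 : ν.b ≤ r) (h2 : r < ν.b + ν.a) : gls_labp ν r = 0 := by
  unfold gls_labp; rw [if_neg (by omega), if_pos h2]
theorem gls2_labp_1 {r : ℕ} (h1 : ν.b + ν.a ≤ r) (h2 : r < ν.b + ν.a + ν.h) : gls_labp ν r = 1 := by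
  unfold gls_labp; rw [if_neg (by omega), if_neg (by omega), if_pos h2]
theorem gls2_labp_4 {r : ℕ} (h1 : ν.b + ν.a + ν.h ≤ r) (h2 : r < ν.b + ν.a + ν.h + ν.h) :
    gls_labp ν r = 4 := by
  unfold gls_labp; rw [if_neg (by omega), if_neg (by omega), if_neg (by omega), if_pos h2]
theorem gls2_labp_5 {r : ℕ} (h1 : ν.b + ν.a + ν.h + ν.h ≤ r) (h2 : r < ν.b + ν.a + ν.h + ν.h + ν.y) :
    gls_labp ν r = 5 := by
  unfold gls_labp
  rw [if_neg (by omega), if_neg (by omega), if_neg (by omega), if_neg (by omega), if_pos h2]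
theorem gls2_labp_2 {r : ℕ} (h1 : ν.b + ν.a + ν.h + ν.h + ν.y ≤ r)
    (h2 : r < ν.b + ν.a + ν.h + ν.h + ν.y + ν.x) : gls_labp ν r = 2 := by
  unfold gls_labp
  rw [if_neg (by omega), if_neg (by omega), if_neg (by omega), if_neg (by omega),
    if_neg (by omega), if_pos h2]
theorem gls2_labp_6 {r : ℕ} (h1 : ν.b + ν.a + ν.h + ν.h + ν.y + ν.x ≤ r) : gls_labp ν r = 6 := by
  unfold gls_labp
  rw [if_neg (by omega), if_neg (by omega), if_neg (by omega), if_neg (by omega),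
    if_neg (by omega), if_neg (by omega)]

theorem gls_labm_fm (r : ℕ) : gls_labm ν (gls_fm ν r) = gls_lab ν r := by
  unfold gls_fm
  rcases gls2_lab_cases ν r with ⟨h1, e⟩ | ⟨h1, h2, e⟩ | ⟨h1, h2, e⟩ | ⟨h1, h2, e⟩ | ⟨h1, h2, e⟩ |
    ⟨h1, h2, e⟩ | ⟨h1, e⟩
  · rw [e, gm_swapFn_of_lt h1]; exact gls2_labm_0 ν h1
  · rw [e, gm_swapFn_first h1 (by omega)]; exact gls2_labm_1 ν (by omega) (by omega)
  · rw [e, gm_swapFn_first (by omega) (by omega)]; exact gls2_labm_2 ν (by omega) (by omega)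
  · rw [e, gm_swapFn_second (by omega) (by omega)]; exact gls2_labm_3 ν (by omega) (by omega)
  · rw [e, gm_swapFn_second (by omega) (by omega)]; exact gls2_labm_4 ν (by omega) (by omega)
  · rw [e, gm_swapFn_of_ge (by omega)]; exact gls2_labm_5 ν (by omega) (by omega)
  · rw [e, gm_swapFn_of_ge (by omega)]; exact gls2_labm_6 ν (by omega)

theorem gls_labp_fp (r : ℕ) : gls_labp ν (gls_fp ν r) = gls_lab ν r := by
  unfold gls_fp gr_SNum.A gr_SNum.B
  rcases gls2_lab_cases ν r with ⟨h1, e⟩ | ⟨h1, h2, e⟩ | ⟨h1, h2, e⟩ | ⟨h1, h2, e⟩ | ⟨h1, h2, e⟩ |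
    ⟨h1, h2, e⟩ | ⟨h1, e⟩
  · rw [e, gm_swapFn_first (r := r) (by omega) (by omega), gm_swapFn_second (by omega) (by omega)]
    exact gls2_labp_0 ν (by omega) (by omega)
  · rw [e, gm_swapFn_first (r := r) (by omega) (by omega), gm_swapFn_second (by omega) (by omega)]
    exact gls2_labp_1 ν (by omega) (by omega)
  · rw [e, gm_swapFn_first (r := r) (by omega) (by omega), gm_swapFn_of_ge (by omega)]
    exact gls2_labp_2 ν (by omega) (by omega)
  · rw [e, gm_swapFn_second (r := r) (by omega) (by omega), gm_swapFn_of_lt (by omega)]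
    exact gls2_labp_3 ν (by omega)
  · rw [e, gm_swapFn_second (r := r) (by omega) (by omega), gm_swapFn_first (by omega) (by omega)]
    exact gls2_labp_4 ν (by omega) (by omega)
  · rw [e, gm_swapFn_second (r := r) (by omega) (by omega), gm_swapFn_first (by omega) (by omega)]
    exact gls2_labp_5 ν (by omega) (by omega)
  · rw [e, gm_swapFn_of_ge (r := r) (by omega), gm_swapFn_of_ge (by omega)]
    exact gls2_labp_6 ν (by omega)

theorem gls_fm_perm (hN : ν.m ≤ N) : gm_IsPerm N (gls_fm ν) := by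
  unfold gr_SNum.m gr_SNum.A gr_SNum.B at hN
  exact gm_swapFn_isPerm (by omega)

theorem gls_fp_perm (hN : ν.m ≤ N) : gm_IsPerm N (gls_fp ν) := by
  unfold gr_SNum.m at hN
  have hA : ν.A = ν.a + ν.h + ν.x := rfl
  have hB : ν.B = ν.b + ν.h + ν.y := rfl
  exact ⟨fun r hr => gm_swapFn_lt (by omega) (gm_swapFn_lt (by omega) hr),
    fun r s _ _ h => gm_swapFn_inj (gm_swapFn_inj h)⟩

theorem gls_Sm_mul (hN : ν.m ≤ N) : gls_Sm ν * (gls_Sm ν)ᵀ = (1 : gs_Mat N) :=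
  gm_pm_mul_transpose (gls_fm_perm ν hN)

theorem gls_Sm_mul' (hN : ν.m ≤ N) : (gls_Sm ν)ᵀ * gls_Sm ν = (1 : gs_Mat N) :=
  gm_pm_transpose_mul (gls_fm_perm ν hN)

theorem gls_Sp_mul (hN : ν.m ≤ N) : gls_Sp ν * (gls_Sp ν)ᵀ = (1 : gs_Mat N) :=
  gm_pm_mul_transpose (gls_fp_perm ν hN)

theorem gls_Sp_mul' (hN : ν.m ≤ N) : (gls_Sp ν)ᵀ * gls_Sp ν = (1 : gs_Mat N) :=
  gm_pm_transpose_mul (gls_fp_perm ν hN)

theorem gls_Sg_mul (hN : ν.m ≤ N) : gls_Sg ν * (gls_Sg ν)ᵀ = (1 : gs_Mat N) := by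
  unfold gr_SNum.m at hN
  exact gm_pm_mul_transpose (gm_swapFn_isPerm (by omega))

theorem gls_Sg_mul' (hN : ν.m ≤ N) : (gls_Sg ν)ᵀ * gls_Sg ν = (1 : gs_Mat N) := by
  unfold gr_SNum.m at hN
  exact gm_pm_transpose_mul (gm_swapFn_isPerm (by omega))

/-- the shuffle before is `gls_Sm` (use `glg_sh`) -/
theorem gls_sh_cb : (gr_sh ν.cb ν.m ν.km : gs_Mat N) = gls_Sm ν := by
  have hc : ν.cb = glg_col ν.a (ν.h + ν.x) (ν.b + ν.h) := by
    funext j
    unfold gr_SNum.cb glg_col gr_SNum.A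
    apply decide_eq_decide.2
    constructor <;> intro h <;> omega
  have hm : ν.m = ν.a + (ν.h + ν.x) + (ν.b + ν.h) + ν.y := by
    unfold gr_SNum.m gr_SNum.A gr_SNum.B; omega
  have hk : ν.km = ν.a + (ν.b + ν.h) := by unfold gr_SNum.km; omega
  rw [hc, hm, hk]
  exact glg_sh _ _ _ _

/-- the shuffle after -/
theorem gls_sh_ca' : (gr_sh ν.ca ν.m ν.km : gs_Mat N) = gs_swapMat ν.b (ν.h + ν.y) (ν.a + ν.h) := by
  have hc : ν.ca = glg_col ν.b (ν.h + ν.y) (ν.a + ν.h) := by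
    funext j
    unfold gr_SNum.ca glg_col gr_SNum.B
    apply decide_eq_decide.2
    constructor <;> intro h <;> omega
  have hm : ν.m = ν.b + (ν.h + ν.y) + (ν.a + ν.h) + ν.x := by
    unfold gr_SNum.m gr_SNum.A gr_SNum.B; omega
  have hk : ν.km = ν.b + (ν.a + ν.h) := by unfold gr_SNum.km; omega
  rw [hc, hm, hk]
  exact glg_sh _ _ _ _

theorem gls_sh_ca (hN : ν.m ≤ N) :
    gls_Sg ν * (gr_sh ν.ca ν.m ν.km : gs_Mat N) = gls_Sp ν := by
  unfold gr_SNum.m at hN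
  rw [gls_sh_ca']
  unfold gls_Sg gls_Sp
  rw [gm_swapMat_eq, gm_swapMat_eq, gm_pm_mul_pm (fun _ hr => gm_swapFn_lt (by omega) hr)]
  rfl

theorem gls2_th_lt (hN : ν.m ≤ N) (r : ℕ) (hr : r < N) : gls_th ν r < N := by
  unfold gr_SNum.m gr_SNum.A gr_SNum.B at hN
  unfold gls_th
  split_ifs <;> omega

theorem gls2_th_th (r : ℕ) : gls_th ν (gls_th ν r) = r := by
  unfold gls_th
  split_ifs <;> omega

theorem gls2_th_1 {r : ℕ} (h1 : ν.a ≤ r) (h2 : r < ν.a + ν.h) :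
    gls_th ν r = r + (ν.h + ν.x + ν.b) := by
  unfold gls_th; rw [if_pos ⟨h1, h2⟩]

theorem gls2_th_4 {r : ℕ} (h1 : ν.a + ν.h + ν.x + ν.b ≤ r) (h2 : r < ν.a + ν.h + ν.x + ν.b + ν.h) :
    gls_th ν r = r - (ν.h + ν.x + ν.b) := by
  unfold gls_th; rw [if_neg (by omega), if_pos ⟨h1, h2⟩]

theorem gls2_th_else {r : ℕ} (h1 : ¬ (ν.a ≤ r ∧ r < ν.a + ν.h))
    (h2 : ¬ (ν.a + ν.h + ν.x + ν.b ≤ r ∧ r < ν.a + ν.h + ν.x + ν.b + ν.h)) : gls_th ν r = r := by
  unfold gls_th; rw [if_neg h1, if_neg h2]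

theorem gls_Th_sq (hN : ν.m ≤ N) : gls_Th ν * gls_Th ν = (1 : gs_Mat N) := by
  unfold gls_Th
  rw [gm_pm_mul_pm (gls2_th_lt ν hN)]
  exact gm_pm_eq_one fun r _ => gls2_th_th ν r

theorem gls_Th_pat (hN : ν.m ≤ N) :
    gls_Pat (gls_pi ν) gls_rT (gls_Th ν - 1 + gls_pi ν 1 + gls_pi ν 4 : gs_Mat N) := by
  rw [gls_pat_iff]
  intro r s hrs
  have key : (gls_Th ν - 1 + gls_pi ν 1 + gls_pi ν 4 : gs_Mat N) r s =
      (if gls_th ν r = (s : ℕ) then 1 else 0) - (if r = s then 1 else 0)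
        + (if r = s then (if gls_lab ν r = 1 then 1 else 0) else 0)
        + (if r = s then (if gls_lab ν r = 4 then 1 else 0) else 0) := by
    simp only [Matrix.add_apply, Matrix.sub_apply, gls_Th, gm_pm_apply, gls_pi,
      Matrix.diagonal_apply, Matrix.one_apply]
  rw [key] at hrs
  have hne : ∀ {k l : Fin 7}, gls_lab ν r = k → k ≠ l → ¬ gls_lab ν r = l := by
    intro k l h1 h2 h3; exact h2 (h1.symm.trans h3)
  by_cases hrs' : r = s
  · exfalso
    subst hrs'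
    simp only [if_true] at hrs
    apply hrs
    rcases gls2_lab_cases ν r with ⟨h1, e⟩ | ⟨h1, h2, e⟩ | ⟨h1, h2, e⟩ | ⟨h1, h2, e⟩ | ⟨h1, h2, e⟩ |
      ⟨h1, h2, e⟩ | ⟨h1, e⟩
    · rw [gls2_th_else ν (by omega) (by omega), if_pos rfl, if_neg (hne e (by decide)),
        if_neg (hne e (by decide))]; ring
    · rw [gls2_th_1 ν h1 h2, if_neg (by omega), if_pos e, if_neg (hne e (by decide))]; ring
    · rw [gls2_th_else ν (by omega) (by omega), if_pos rfl, if_neg (hne e (by decide)),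
        if_neg (hne e (by decide))]; ring
    · rw [gls2_th_else ν (by omega) (by omega), if_pos rfl, if_neg (hne e (by decide)),
        if_neg (hne e (by decide))]; ring
    · rw [gls2_th_4 ν h1 h2, if_neg (by omega), if_neg (hne e (by decide)), if_pos e]; ring
    · rw [gls2_th_else ν (by omega) (by omega), if_pos rfl, if_neg (hne e (by decide)),
        if_neg (hne e (by decide))]; ring
    · rw [gls2_th_else ν (by omega) (by omega), if_pos rfl, if_neg (hne e (by decide)),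
        if_neg (hne e (by decide))]; ring
  · rw [if_neg hrs', if_neg hrs', if_neg hrs'] at hrs
    have hth : gls_th ν r = (s : ℕ) := by
      by_contra hc
      rw [if_neg hc] at hrs
      exact hrs (by ring)
    have hrs2 : (r : ℕ) ≠ (s : ℕ) := fun h => hrs' (Fin.ext h)
    by_cases c1 : ν.a ≤ (r : ℕ) ∧ (r : ℕ) < ν.a + ν.h
    · rw [gls2_th_1 ν c1.1 c1.2] at hth
      rw [gls2_lab_1 ν c1.1 c1.2, gls2_lab_4 ν (r := (s : ℕ)) (by omega) (by omega)]
      decide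
    · by_cases c2 : ν.a + ν.h + ν.x + ν.b ≤ (r : ℕ) ∧ (r : ℕ) < ν.a + ν.h + ν.x + ν.b + ν.h
      · rw [gls2_th_4 ν c2.1 c2.2] at hth
        rw [gls2_lab_4 ν c2.1 c2.2, gls2_lab_1 ν (r := (s : ℕ)) (by omega) (by omega)]
        decide
      · rw [gls2_th_else ν c1 c2] at hth
        exact absurd hth hrs2

/-- the permutation part of the gadgets, in flat coordinates, is the exchange -/
theorem gls_Th_eq (hN : ν.m ≤ N) :
    gls_Sm ν * (gs_swapMat 0 ν.a ν.b * gs_swapMat (ν.km + ν.h) ν.x ν.y) =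
      (gls_Th ν * gls_Sp ν : gs_Mat N) := by
  have hN' := hN
  unfold gr_SNum.m gr_SNum.A gr_SNum.B at hN'
  have hkm : ν.km = ν.a + ν.b + ν.h := rfl
  unfold gls_Sm gls_Th gls_Sp
  rw [gm_swapMat_eq, gm_swapMat_eq, gm_pm_mul_pm (fun _ hr => gm_swapFn_lt (by omega) hr),
    gm_pm_mul_pm (gls_fm_perm ν hN).1, gm_pm_mul_pm (gls2_th_lt ν hN)]
  refine gm_pm_congr fun r _ => ?_
  show gs_swapFn (ν.km + ν.h) ν.x ν.y (gs_swapFn 0 ν.a ν.b (gls_fm ν r)) = gls_fp ν (gls_th ν r)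
  unfold gls_fm gls_fp gr_SNum.A gr_SNum.B
  rw [hkm]
  rcases gls2_lab_cases ν r with ⟨h1, e⟩ | ⟨h1, h2, e⟩ | ⟨h1, h2, e⟩ | ⟨h1, h2, e⟩ | ⟨h1, h2, e⟩ |
    ⟨h1, h2, e⟩ | ⟨h1, e⟩
  · rw [gls2_th_else ν (by omega) (by omega), gm_swapFn_of_lt (r := r) h1,
      gm_swapFn_first (r := r) (by omega) (by omega), gm_swapFn_of_lt (by omega),
      gm_swapFn_first (r := r) (by omega) (by omega), gm_swapFn_second (by omega) (by omega)]
    omega
  · rw [gls2_th_1 ν h1 h2, gm_swapFn_first (r := r) (by omega) (by omega),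
      gm_swapFn_of_ge (o := 0) (by omega), gm_swapFn_of_lt (by omega),
      gm_swapFn_second (o := 0) (by omega) (by omega), gm_swapFn_first (by omega) (by omega)]
    omega
  · rw [gls2_th_else ν (by omega) (by omega), gm_swapFn_first (r := r) (by omega) (by omega),
      gm_swapFn_of_ge (o := 0) (by omega), gm_swapFn_first (by omega) (by omega),
      gm_swapFn_first (o := 0) (by omega) (by omega), gm_swapFn_of_ge (by omega)]
    omega
  · rw [gls2_th_else ν (by omega) (by omega), gm_swapFn_second (r := r) (by omega) (by omega),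
      gm_swapFn_second (o := 0) (by omega) (by omega), gm_swapFn_of_lt (by omega),
      gm_swapFn_second (o := 0) (by omega) (by omega), gm_swapFn_of_lt (by omega)]
    omega
  · rw [gls2_th_4 ν h1 h2, gm_swapFn_second (r := r) (by omega) (by omega),
      gm_swapFn_of_ge (o := 0) (by omega), gm_swapFn_of_lt (by omega),
      gm_swapFn_first (o := 0) (by omega) (by omega), gm_swapFn_second (by omega) (by omega)]
    omega
  · rw [gls2_th_else ν (by omega) (by omega), gm_swapFn_of_ge (r := r) (by omega),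
      gm_swapFn_of_ge (o := 0) (by omega), gm_swapFn_second (by omega) (by omega),
      gm_swapFn_second (o := 0) (by omega) (by omega), gm_swapFn_first (by omega) (by omega)]
    omega
  · rw [gls2_th_else ν (by omega) (by omega), gm_swapFn_of_ge (r := r) (by omega),
      gm_swapFn_of_ge (o := 0) (by omega), gm_swapFn_of_ge (by omega),
      gm_swapFn_of_ge (o := 0) (by omega), gm_swapFn_of_ge (by omega)]

/-- transport of a support relation from standard-before to flat coordinates -/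
theorem gls_pat_conj_m (hN : ν.m ≤ N) {rel : ℕ → ℕ → Prop} {ρ : Fin 7 → Fin 7 → Bool}
    {X : gs_Mat N} (h : gm_Sup rel X)
    (hρ : ∀ i j, rel i j → ρ (gls_labm ν i) (gls_labm ν j) = true) :
    gls_Pat (gls_pi ν) ρ (gls_Sm ν * X * (gls_Sm ν)ᵀ) := by
  rw [gls_pat_iff]
  intro r s hrs
  unfold gls_Sm at hrs
  rw [gm_pm_mul_mul_transpose_apply (gls_fm_perm ν hN).1 (gls_fm_perm ν hN).1] at hrs
  have := hρ _ _ (h _ _ hrs)
  simpa only [gls_labm_fm] using this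

/-- transport of a support relation from standard-after to flat coordinates -/
theorem gls_pat_conj_p (hN : ν.m ≤ N) {rel : ℕ → ℕ → Prop} {ρ : Fin 7 → Fin 7 → Bool}
    {X : gs_Mat N} (h : gm_Sup rel X)
    (hρ : ∀ i j, rel i j → ρ (gls_labp ν i) (gls_labp ν j) = true) :
    gls_Pat (gls_pi ν) ρ (gls_Sp ν * X * (gls_Sp ν)ᵀ) := by
  rw [gls_pat_iff]
  intro r s hrs
  unfold gls_Sp at hrs
  rw [gm_pm_mul_mul_transpose_apply (gls_fp_perm ν hN).1 (gls_fp_perm ν hN).1] at hrs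
  have := hρ _ _ (h _ _ hrs)
  simpa only [gls_labp_fp] using this

/-- mixed transport, rows standard-before, columns standard-after -/
theorem gls_pat_conj_mp (hN : ν.m ≤ N) {rel : ℕ → ℕ → Prop} {ρ : Fin 7 → Fin 7 → Bool}
    {X : gs_Mat N} (h : gm_Sup rel X)
    (hρ : ∀ i j, rel i j → ρ (gls_labm ν i) (gls_labp ν j) = true) :
    gls_Pat (gls_pi ν) ρ (gls_Sm ν * X * (gls_Sp ν)ᵀ) := by
  rw [gls_pat_iff]
  intro r s hrs
  unfold gls_Sm gls_Sp at hrs
  rw [gm_pm_mul_mul_transpose_apply (gls_fm_perm ν hN).1 (gls_fp_perm ν hN).1] at hrs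
  have := hρ _ _ (h _ _ hrs)
  simpa only [gls_labm_fm, gls_labp_fp] using this

/-- mixed transport, rows standard-after, columns standard-before -/
theorem gls_pat_conj_pm (hN : ν.m ≤ N) {rel : ℕ → ℕ → Prop} {ρ : Fin 7 → Fin 7 → Bool}
    {X : gs_Mat N} (h : gm_Sup rel X)
    (hρ : ∀ i j, rel i j → ρ (gls_labp ν i) (gls_labm ν j) = true) :
    gls_Pat (gls_pi ν) ρ (gls_Sp ν * X * (gls_Sm ν)ᵀ) := by
  rw [gls_pat_iff]
  intro r s hrs
  unfold gls_Sm gls_Sp at hrs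
  rw [gm_pm_mul_mul_transpose_apply (gls_fp_perm ν hN).1 (gls_fm_perm ν hN).1] at hrs
  have := hρ _ _ (h _ _ hrs)
  simpa only [gls_labm_fm, gls_labp_fp] using this

/-- standard before `→` flat -/
def gls2_fmi (r : ℕ) : ℕ := gs_swapFn ν.a (ν.b + ν.h) (ν.h + ν.x) r
/-- standard after `→` flat -/
def gls2_fpi (r : ℕ) : ℕ := gs_swapFn 0 ν.B ν.A (gs_swapFn ν.b (ν.a + ν.h) (ν.h + ν.y) r)

theorem gls2_fm_fmi (r : ℕ) : gls_fm ν (gls2_fmi ν r) = r := gm_swapFn_swapFn _ _ _ r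

theorem gls2_fp_fpi (r : ℕ) : gls_fp ν (gls2_fpi ν r) = r := by
  unfold gls_fp gls2_fpi
  rw [gm_swapFn_swapFn, gm_swapFn_swapFn]

/-- back from flat coordinates: rows standard-before, columns standard-after -/
theorem gls_sup_of_pat_mp (hN : ν.m ≤ N) {ρ : Fin 7 → Fin 7 → Bool} {X : gs_Mat N}
    (h : gls_Pat (gls_pi ν) ρ X) :
    gm_Sup (fun i j => ρ (gls_labm ν i) (gls_labp ν j) = true) ((gls_Sm ν)ᵀ * X * gls_Sp ν) := by
  have hN' := hN
  unfold gr_SNum.m at hN'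
  have hA : ν.A = ν.a + ν.h + ν.x := rfl
  have hB : ν.B = ν.b + ν.h + ν.y := rfl
  have hfm : ∀ r, r < N → gls2_fmi ν r < N := fun r hr => gm_swapFn_lt (by omega) hr
  have hfp : ∀ r, r < N → gls2_fpi ν r < N :=
    fun r hr => gm_swapFn_lt (by omega) (gm_swapFn_lt (by omega) hr)
  have hm : ((gls_Sm ν : gs_Mat N))ᵀ = gm_pm (gls2_fmi ν) :=
    gm_pm_transpose (gls_fm_perm ν hN).1 (fun r _ => gm_swapFn_swapFn _ _ _ r)
  have hp : (gls_Sp ν : gs_Mat N) = (gm_pm (gls2_fpi ν) : gs_Mat N)ᵀ :=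
    (gm_pm_transpose hfp (fun r _ => gls2_fp_fpi ν r)).symm
  intro i j hij
  rw [hm, hp, gm_pm_mul_mul_transpose_apply hfm hfp] at hij
  have := (gls_pat_iff ν ρ X).1 h _ _ hij
  rw [← gls_labm_fm, ← gls_labp_fp] at this
  simpa only [gls2_fm_fmi, gls2_fp_fpi] using this

end Claimed.Agent.R236
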