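import Mathlib
import Claimed.Agent.R236.GLocSA2

/-!
# Row 236, G-LOCS, completeness: the objects in flat coordinates (owner helper139)
-/

set_option linter.unusedSimpArgs false
set_option autoImplicit false

namespace Claimed.Agent.R236

open Matrix

variable {N : ℕ}

/-- `κ_A` -/
noncomputable def gls_kapA (hAm hAp : gs_Mat N) : gs_Mat N := hAp⁻¹ * hAm
/-- `κ_A⁻¹` -/
noncomputable def gls_kA (hAm hAp : gs_Mat N) : gs_Mat N := hAm⁻¹ * hAp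
/-- `κ_B` (flat) -/
noncomputable def gls_kapB (ν : gr_SNum) (hBm hBp : gs_Mat N) : gs_Mat N :=
  gs_emb ν.A (hBp⁻¹ * hBm)
/-- `κ_B⁻¹` (flat) -/
noncomputable def gls_kB (ν : gr_SNum) (hBm hBp : gs_Mat N) : gs_Mat N :=
  gs_emb ν.A (hBm⁻¹ * hBp)
/-- the right correction in the basis after (flat), minus one -/
noncomputable def gls_cc (ν : gr_SNum) (hAp hBp g : gs_Mat N) : gs_Mat N :=
  (hAp⁻¹ * gs_emb ν.A hBp⁻¹) * (gls_Sg ν * g * (gls_Sg ν)ᵀ) * (hAp * gs_emb ν.A hBp) - 1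

/-- abstract: the block `(5,3)` of `kB` vanishes -/
theorem gls_T1 {M : Type*} [Ring M] {π : Fin 7 → M} {kA kB z0 cc : M} (hπ : gls_Idem π)
    (pkA : gls_Pat π gls_rAA (kA - 1)) (pkB : gls_Pat π gls_rBB (kB - 1))
    (pz : gls_Pat π gls_rZ z0) (pc : gls_Pat π gls_rBA cc)
    (tri : gls_Pat π gls_rTri ((1 - z0) * (kA * kB) * (1 + cc))) : gls_blk π 5 3 kB = 0 := by
  obtain ⟨a', rfl⟩ : ∃ a', kA = 1 + gls_AA π a' :=
    ⟨kA - 1, by rw [gls_AA_eq _ hπ pkA]; abel⟩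
  obtain ⟨β', rfl⟩ : ∃ β', kB = 1 + gls_BB π β' :=
    ⟨kB - 1, by rw [gls_BB_eq _ hπ pkB]; abel⟩
  obtain ⟨z, rfl⟩ : ∃ z, z0 = gls_Zs π z := ⟨z0, (gls_Zs_eq _ hπ pz).symm⟩
  obtain ⟨c, rfl⟩ : ∃ c, cc = gls_BAs π c := ⟨cc, (gls_BAs_eq _ hπ pc).symm⟩
  have h53 : π 5 * ((1 - gls_Zs π z) * ((1 + gls_AA π a') * (1 + gls_BB π β')) * (1 + gls_BAs π c))
      * π 3 = 0 := tri 5 3 (by decide)
  change π 5 * (1 + gls_BB π β') * π 3 = 0
  linear_combination (norm := skip) h53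
  simp (disch := decide) only [gls_AA, gls_BB, gls_BAs, gls_Zs,
    mul_add, add_mul, mul_sub, sub_mul, mul_one, one_mul, mul_assoc, mul_neg, neg_mul, neg_neg,
    sub_neg_eq_add, neg_add_rev, neg_sub, gls_rules hπ,
    add_zero, zero_add, sub_zero, zero_sub, mul_zero, zero_mul, neg_zero]
  abel

end Claimed.Agent.R236
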