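import Mathlib
import Claimed.Agent.R236.GLocG6
import Claimed.Agent.R236.GPresChi

/-!
# Row 236, G-LOCS: concrete linear algebra inputs of the completeness recipe (owner helper299)

* `glq_inv_sup` : the inverse of a matrix living in a window lives in the same window.
* `glq_tri_inv` : the inverse of an invertible block triangular matrix is block triangular.
* `glq_complete` : basis completion: the first `p` columns of an invertible matrix, if they live in the
  first `q` rows, are the first `p` columns of an invertible matrix of rank `q`.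
-/

set_option autoImplicit false

namespace Claimed.Agent.R236

open Matrix Module

variable {N : ℕ}

theorem glq_inv_sup {P Q : ℕ → Prop} {B : gs_Mat N} (hu : IsUnit B.det)
    (h : glg_U (fun i j => P i ∧ Q j) B) : glg_U (fun i j => P i ∧ Q j) B⁻¹ := by
  have e1 : B⁻¹ - 1 = -((B - 1) * B⁻¹) := by
    rw [sub_mul, Matrix.mul_nonsing_inv B hu, one_mul]; abel
  have e2 : B⁻¹ - 1 = -(B⁻¹ * (B - 1)) := by
    rw [mul_sub, Matrix.nonsing_inv_mul B hu, mul_one]; abel
  have s1 : glg_Sup (fun i _ => P i) (B⁻¹ - 1) := by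
    rw [e1]
    exact (glg_Sup.mul (s := fun _ _ => True) h (fun _ _ _ => trivial)
      fun _ _ _ _ _ _ h1 _ => h1.1).neg
  have s2 : glg_Sup (fun _ j => Q j) (B⁻¹ - 1) := by
    rw [e2]
    exact (glg_Sup.mul (r := fun _ _ => True) (fun _ _ _ => trivial) h
      fun _ _ _ _ _ _ _ h1 => h1.2).neg
  exact fun i j hij => ⟨s1 i j hij, s2 i j hij⟩

theorem glq_tl_U {n k : ℕ} {T : gs_Mat N} (hT : gs_IsCorner n T) :
    glg_U (fun i j => (k ≤ i ∧ i < n) ∧ (k ≤ j ∧ j < n)) (glg_tl k T) := by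
  intro i j hij
  by_cases h : k ≤ (i : ℕ) ∧ k ≤ (j : ℕ)
  · by_contra hc
    apply hij
    rw [Matrix.sub_apply]
    simp only [glg_tl, if_pos h]
    rw [hT i j (by omega), sub_self]
  · exfalso
    apply hij
    rw [Matrix.sub_apply]
    simp only [glg_tl, if_neg h, sub_self]

/-- the inverse of an invertible block triangular matrix is block triangular -/
theorem glq_tri_inv {n k : ℕ} {T : gs_Mat N} (hT : gr_IsTri n k T) (hu : IsUnit T.det) :
    gr_IsTri n k T⁻¹ := by
  refine ⟨gm_corner_inv hT.1 hu, ?_⟩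
  obtain ⟨utl, ucor⟩ := glg_tri_units hT hu
  have h1 : glg_Sup (glg_tri k n) (glg_cor k T)⁻¹ :=
    glg_tri_of_cor (glg_corner_U (gm_corner_inv (glg_cor_corner k T) ucor))
  have h2 : glg_Sup (glg_tri k n) (1 + glg_ur k T)⁻¹ :=
    glg_tri_of_rad (glg_rad_inv (glg_U.of_add (glg_ur_Sup k hT.1)))
  have h3 : glg_Sup (glg_tri k n) (glg_tl k T)⁻¹ :=
    glg_tri_of_tl ((glq_inv_sup utl (glq_tl_U hT.1)).mono (by intros; omega))
  have e : T⁻¹ = (glg_cor k T)⁻¹ * ((1 + glg_ur k T)⁻¹ * (glg_tl k T)⁻¹) := by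
    conv_lhs => rw [glg_tri_decomp hT]
    rw [Matrix.mul_inv_rev, Matrix.mul_inv_rev]
  have h4 : glg_Sup (glg_tri k n) T⁻¹ := by
    rw [e]
    exact glg_tri_mul h1 (glg_tri_mul h2 h3)
  intro i j hi hj
  by_contra hij
  have := h4 i j hij
  unfold glg_tri at this
  omega

/-- basis completion -/
theorem glq_complete {p q : ℕ} (hpq : p ≤ q) (hq : q ≤ N) {X : gs_Mat N} (hu : IsUnit X.det)
    (h0 : ∀ i j : Fin N, q ≤ (i : ℕ) → (j : ℕ) < p → X i j = 0) :
    ∃ t : gs_Mat N, gr_GL q t ∧ ∀ i j : Fin N, (j : ℕ) < p → t i j = X i j := by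
  have hW : gpr_U p X ≤ gpr_F N q := by
    rintro x ⟨v, hv, rfl⟩ i hi
    rw [Matrix.mulVecLin_apply, Matrix.mulVec, dotProduct]
    refine Finset.sum_eq_zero fun j _ => ?_
    by_cases hj : (j : ℕ) < p
    · rw [h0 i j hi hj, zero_mul]
    · rw [hv j (not_lt.1 hj), mul_zero]
  obtain ⟨χ, hχ, hmap⟩ := gpr_exists_chi hq hW
  rw [gpr_finrank_U (hpq.trans hq) hu] at hmap
  -- `Y = χ⁻¹ X` is block triangular for the cut `p`
  have hY : gr_IsTri N p (χ⁻¹ * X) := by
    refine ⟨gm_corner_of_le le_rfl _, ?_⟩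
    intro i j hi hj
    have hmem : X *ᵥ (Pi.single j (1 : ℂ)) ∈ gpr_U p X := by
      refine ⟨Pi.single j 1, ?_, rfl⟩
      intro k hk
      rw [Pi.single_apply, if_neg]
      rintro rfl
      omega
    rw [← hmap] at hmem
    obtain ⟨v, hv, hv2⟩ := hmem
    rw [Matrix.mulVecLin_apply] at hv2
    have e : (χ⁻¹ * X) *ᵥ (Pi.single j (1 : ℂ)) = v := by
      rw [← Matrix.mulVec_mulVec, ← hv2, Matrix.mulVec_mulVec, Matrix.nonsing_inv_mul _ hχ.1,
        Matrix.one_mulVec]
    have e2 := congrFun e i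
    rw [Matrix.mulVec_single_one] at e2
    rw [← hv i hi, ← e2]
    rfl
  have uY : IsUnit (χ⁻¹ * X).det := by
    rw [Matrix.det_mul]
    exact (Matrix.isUnit_nonsing_inv_det _ hχ.1).mul hu
  obtain ⟨-, ucor⟩ := glg_tri_units hY uY
  refine ⟨χ * glg_cor p (χ⁻¹ * X), ⟨?_, ?_⟩, ?_⟩
  · rw [Matrix.det_mul]
    exact hχ.1.mul ucor
  · exact gm_corner_mul hχ.2 (gm_corner_mono hpq (glg_cor_corner _ _))
  · intro i j hj
    have e : X = χ * (χ⁻¹ * X) := by
      rw [← Matrix.mul_assoc, Matrix.mul_nonsing_inv _ hχ.1, Matrix.one_mul]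
    conv_rhs => rw [e]
    rw [Matrix.mul_apply, Matrix.mul_apply]
    refine Finset.sum_congr rfl fun k _ => ?_
    congr 1
    by_cases hk : (k : ℕ) < p
    · simp only [glg_cor, if_pos (And.intro hk hj)]
    · have a : ¬ ((k : ℕ) < p ∧ (j : ℕ) < p) := fun h => hk h.1
      simp only [glg_cor, if_neg a]
      rw [hY.2 k j (not_lt.1 hk) hj, Matrix.one_apply_ne]
      rintro rfl
      exact hk hj

end Claimed.Agent.R236
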