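import Mathlib
import Claimed.Agent.R236.GLocSB0
import Claimed.Agent.R236.GLocSLin

/-!
# Row 236, G-LOCS-B1: the triangularity hypothesis of the completeness clause in flat coordinates

`T := (dm (1+z0) sh_cb)⁻¹ Σ g (dp sh_ca)`.  Then
`Sm T Spᵀ = (1 - z0) (kA kB) (1 + cc)`, `Sp T⁻¹ Smᵀ = (1 - cc) (κA κB) (1 + z0)` (numerically checked),
and `gr_IsTri T`, `gr_IsTri T⁻¹` (`glq_tri_inv`) give the patterns (`gls_pat_conj_mp`, `gls_pat_conj_pm`).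
(proofs: helper116; helper lemmas prefix `glsb1_`)
-/

set_option autoImplicit false

namespace Claimed.Agent.R236

open Matrix

variable {N : ℕ}

variable {ν : gr_SNum} {hAm hBm hAp hBp z0 g : gs_Mat N}

/-- the matrix of the hypothesis -/
noncomputable def gls_T (ν : gr_SNum) (hAm hBm hAp hBp z0 g : gs_Mat N) : gs_Mat N :=
  (hAm * gs_emb ν.A hBm * (1 + z0) * gr_sh ν.cb ν.m ν.km)⁻¹ * gs_swapMat 0 ν.A ν.B * g *
    (hBp * gs_emb ν.B hAp * gr_sh ν.ca ν.m ν.km)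

theorem glsb1_sizes (hN : ν.m ≤ N) : ν.A + ν.B ≤ N ∧ ν.A = ν.a + ν.h + ν.x ∧ ν.B = ν.b + ν.h + ν.y ∧
    ν.km = ν.a + ν.b + ν.h ∧ ν.m = ν.A + ν.B := by
  have h1 : ν.m = ν.A + ν.B := rfl
  have h2 : ν.A = ν.a + ν.h + ν.x := rfl
  have h3 : ν.B = ν.b + ν.h + ν.y := rfl
  have h4 : ν.km = ν.a + ν.b + ν.h := rfl
  omega

/-- abstract word computation -/
theorem glsb1_alg {M : Type*} [Ring M] {a' b' p p' q q' : M} (Z' G : M)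
    (h1 : p * b' = b' * p) (h2 : q * p' = p' * q) (h3 : p * p' = 1) (h4 : q * q' = 1)
    (h5 : a' * b' = b' * a') (h6 : q * p = p * q) :
    Z' * (b' * a') * G * (q * p) = Z' * (a' * p * (b' * q)) * (1 + ((p' * q') * G * (p * q) - 1)) := by
  have key : a' * p * (b' * q) * (p' * q') = b' * a' := by
    calc a' * p * (b' * q) * (p' * q') = a' * (p * b') * (q * p') * q' := by simp only [mul_assoc]
      _ = a' * (b' * p) * (p' * q) * q' := by rw [h1, h2]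
      _ = a' * b' * (p * p') * (q * q') := by simp only [mul_assoc]
      _ = b' * a' := by rw [h3, h4, mul_one, mul_one, h5]
  rw [add_sub_cancel, h6, ← key]
  simp only [mul_assoc]

theorem glsb1_z0sq (pz : gls_Pat (gls_pi ν) gls_rZ z0) : z0 * z0 = 0 :=
  gls_Pat.mul_eq_zero (gls_idem ν) pz pz (by decide)

theorem glsb1_Z (pz : gls_Pat (gls_pi ν) gls_rZ z0) : (1 + z0) * (1 - z0) = 1 := by
  have := glsb1_z0sq pz
  rw [add_mul, mul_sub, mul_sub, this]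
  simp

theorem glsb1_Z' (pz : gls_Pat (gls_pi ν) gls_rZ z0) : (1 - z0) * (1 + z0) = 1 := by
  have := glsb1_z0sq pz
  rw [sub_mul, mul_add, mul_add, this]
  simp

theorem glsb1_SgT (hN : ν.m ≤ N) : ((gls_Sg ν : gs_Mat N))ᵀ = gs_swapMat 0 ν.B ν.A := by
  obtain ⟨s1, -⟩ := glsb1_sizes hN
  exact gm_swap_transpose (by omega)

/-- `Σ dp Σᵀ` -/
theorem glsb1_dp (hN : ν.m ≤ N) (GAp : gr_GL ν.A hAp) (GBp : gr_GL ν.B hBp) :
    gls_Sg ν * (hBp * gs_emb ν.B hAp) * (gls_Sg ν)ᵀ = gs_emb ν.A hBp * hAp := by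
  obtain ⟨s1, -⟩ := glsb1_sizes hN
  have e1 : gls_Sg ν * hBp * (gls_Sg ν)ᵀ = gs_emb ν.A hBp := by
    have := gm_swap_conj_emb_first (o := 0) (a := ν.A) (b := ν.B) GBp.2 (by omega)
    rw [gm_emb_zero, Nat.zero_add] at this
    rw [glsb1_SgT hN]
    exact this
  have e2 : gls_Sg ν * gs_emb ν.B hAp * (gls_Sg ν)ᵀ = hAp := by
    have := gm_swap_conj_emb_second (o := 0) (a := ν.A) (b := ν.B) GAp.2 (by omega)
    rw [gm_emb_zero, Nat.zero_add] at this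
    rw [glsb1_SgT hN]
    exact this
  calc gls_Sg ν * (hBp * gs_emb ν.B hAp) * (gls_Sg ν)ᵀ
      = gls_Sg ν * hBp * ((gls_Sg ν)ᵀ * gls_Sg ν) * gs_emb ν.B hAp * (gls_Sg ν)ᵀ := by
        rw [gls_Sg_mul' ν hN, mul_one]; simp only [mul_assoc]
    _ = (gls_Sg ν * hBp * (gls_Sg ν)ᵀ) * (gls_Sg ν * gs_emb ν.B hAp * (gls_Sg ν)ᵀ) := by
        simp only [mul_assoc]
    _ = _ := by rw [e1, e2]

/-- the inverse of the basis before -/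
theorem glsb1_inv (hN : ν.m ≤ N) (GAm : gr_GL ν.A hAm) (GBm : gr_GL ν.B hBm)
    (pz : gls_Pat (gls_pi ν) gls_rZ z0) :
    (hAm * gs_emb ν.A hBm * (1 + z0) * gr_sh ν.cb ν.m ν.km)⁻¹ =
      (gls_Sm ν)ᵀ * (1 - z0) * (gs_emb ν.A hBm⁻¹ * hAm⁻¹) := by
  obtain ⟨s1, -⟩ := glsb1_sizes hN
  apply Matrix.inv_eq_right_inv
  rw [gls_sh_cb, gm_emb_inv GBm.2 GBm.1 s1]
  calc hAm * gs_emb ν.A hBm * (1 + z0) * gls_Sm ν * ((gls_Sm ν)ᵀ * (1 - z0) * ((gs_emb ν.A hBm)⁻¹ * hAm⁻¹))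
      = hAm * (gs_emb ν.A hBm * ((1 + z0) * (gls_Sm ν * (gls_Sm ν)ᵀ) * (1 - z0)) * (gs_emb ν.A hBm)⁻¹) * hAm⁻¹ := by
        simp only [mul_assoc]
    _ = 1 := by
        rw [gls_Sm_mul ν hN, mul_one, glsb1_Z pz, mul_one,
          Matrix.mul_nonsing_inv _ (gm_emb_isUnit GBm.2 GBm.1 s1), mul_one, Matrix.mul_nonsing_inv _ GAm.1]

theorem glsb1_sh_ca (hN : ν.m ≤ N) : (gr_sh ν.ca ν.m ν.km : gs_Mat N) = (gls_Sg ν)ᵀ * gls_Sp ν := by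
  rw [← gls_sh_ca ν hN, ← mul_assoc, gls_Sg_mul' ν hN, one_mul]

theorem gls_T_flat (hN : ν.m ≤ N) (GAm : gr_GL ν.A hAm) (GBm : gr_GL ν.B hBm) (GAp : gr_GL ν.A hAp)
    (GBp : gr_GL ν.B hBp)
    (pz : gls_Pat (gls_pi ν) gls_rZ z0) :
    gls_Sm ν * gls_T ν hAm hBm hAp hBp z0 g * (gls_Sp ν)ᵀ =
      (1 - z0) * (gls_kA hAm hAp * gls_kB ν hBm hBp) * (1 + gls_cc ν hAp hBp g) := by
  obtain ⟨s1, -⟩ := glsb1_sizes hN
  have cA' : gs_IsCorner ν.A hAm⁻¹ := gm_corner_inv GAm.2 GAm.1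
  have cAp' : gs_IsCorner ν.A hAp⁻¹ := gm_corner_inv GAp.2 GAp.1
  have cB' : gs_IsCorner ν.B hBm⁻¹ := gm_corner_inv GBm.2 GBm.1
  have hL : gls_Sm ν * gls_T ν hAm hBm hAp hBp z0 g * (gls_Sp ν)ᵀ =
      (1 - z0) * (gs_emb ν.A hBm⁻¹ * hAm⁻¹) * (gls_Sg ν * g * (gls_Sg ν)ᵀ) * (gs_emb ν.A hBp * hAp) := by
    unfold gls_T
    rw [glsb1_inv hN GAm GBm pz, glsb1_sh_ca hN, ← glsb1_dp hN GAp GBp]
    change gls_Sm ν * ((gls_Sm ν)ᵀ * (1 - z0) * (gs_emb ν.A hBm⁻¹ * hAm⁻¹) * gls_Sg ν * g *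
      (hBp * gs_emb ν.B hAp * ((gls_Sg ν)ᵀ * gls_Sp ν))) * (gls_Sp ν)ᵀ = _
    calc _ = (gls_Sm ν * (gls_Sm ν)ᵀ) * (1 - z0) * (gs_emb ν.A hBm⁻¹ * hAm⁻¹) * gls_Sg ν * g *
        (hBp * gs_emb ν.B hAp) * (gls_Sg ν)ᵀ * (gls_Sp ν * (gls_Sp ν)ᵀ) := by simp only [mul_assoc]
      _ = (1 - z0) * (gs_emb ν.A hBm⁻¹ * hAm⁻¹) * gls_Sg ν * g * ((gls_Sg ν)ᵀ * gls_Sg ν) *
        (hBp * gs_emb ν.B hAp) * (gls_Sg ν)ᵀ := by
          rw [gls_Sm_mul ν hN, gls_Sp_mul ν hN, gls_Sg_mul' ν hN, one_mul, mul_one, mul_one]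
      _ = _ := by simp only [mul_assoc]
  rw [hL]
  unfold gls_kA gls_kB gls_cc
  rw [gm_emb_mul cB' GBp.2 s1]
  refine glsb1_alg (1 - z0) (gls_Sg ν * g * (gls_Sg ν)ᵀ) ?_ ?_ ?_ ?_ ?_ ?_
  · exact gm_emb_commute GAp.2 le_rfl _
  · exact (gm_emb_commute cAp' le_rfl _).symm
  · exact Matrix.mul_nonsing_inv _ GAp.1
  · rw [gm_emb_inv GBp.2 GBp.1 s1]
    exact Matrix.mul_nonsing_inv _ (gm_emb_isUnit GBp.2 GBp.1 s1)
  · exact gm_emb_commute cA' le_rfl _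
  · exact (gm_emb_commute GAp.2 le_rfl _).symm

theorem gls_T_unit (hN : ν.m ≤ N) (GAm : gr_GL ν.A hAm) (GBm : gr_GL ν.B hBm) (GAp : gr_GL ν.A hAp)
    (GBp : gr_GL ν.B hBp)
    (pz : gls_Pat (gls_pi ν) gls_rZ z0) (hg : gs_IsUni ν.m {0, ν.B, ν.m} g) :
    IsUnit (gls_T ν hAm hBm hAp hBp z0 g).det := by
  obtain ⟨s1, s2, s3, s4, s5⟩ := glsb1_sizes hN
  unfold gls_T
  have u1 : IsUnit (hAm * gs_emb ν.A hBm * (1 + z0) * gr_sh ν.cb ν.m ν.km : gs_Mat N).det := by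
    rw [Matrix.det_mul, Matrix.det_mul, Matrix.det_mul, gls_sh_cb]
    exact ((GAm.1.mul (gm_emb_isUnit GBm.2 GBm.1 s1)).mul
      (Matrix.isUnit_det_of_right_inverse (glsb1_Z pz))).mul (gm_pm_isUnit (gls_fm_perm ν hN))
  rw [Matrix.det_mul, Matrix.det_mul, Matrix.det_mul, Matrix.det_mul, Matrix.det_mul, gls_sh_ca']
  exact (((Matrix.isUnit_nonsing_inv_det _ u1).mul (gm_swap_isUnit (by omega))).mul (gm_uni_isUnit hg)).mul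
    ((GBp.1.mul (gm_emb_isUnit GAp.2 GAp.1 (by omega))).mul (gm_swap_isUnit (by omega)))

theorem gls_T_inv_flat (hN : ν.m ≤ N) (GAm : gr_GL ν.A hAm) (GBm : gr_GL ν.B hBm) (GAp : gr_GL ν.A hAp)
    (GBp : gr_GL ν.B hBp)
    (pz : gls_Pat (gls_pi ν) gls_rZ z0) (hg : gs_IsUni ν.m {0, ν.B, ν.m} g)
    (pc : gls_Pat (gls_pi ν) gls_rBA (gls_cc ν hAp hBp g)) :
    gls_Sp ν * (gls_T ν hAm hBm hAp hBp z0 g)⁻¹ * (gls_Sm ν)ᵀ =
      (1 - gls_cc ν hAp hBp g) * (gls_kapA hAm hAp * gls_kapB ν hBm hBp) * (1 + z0) := by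
  obtain ⟨s1, -⟩ := glsb1_sizes hN
  have hF := gls_T_flat (g := g) hN GAm GBm GAp GBp pz
  set cc := gls_cc ν hAp hBp g with hcc
  set T := gls_T ν hAm hBm hAp hBp z0 g with hT
  have ccsq : cc * cc = 0 := gls_Pat.mul_eq_zero (gls_idem ν) pc pc (by decide)
  have hC : (1 + cc) * (1 - cc) = 1 := by
    rw [add_mul, mul_sub, mul_sub, ccsq]; simp
  have cAm' : gs_IsCorner ν.A hAm⁻¹ := gm_corner_inv GAm.2 GAm.1
  have cAp' : gs_IsCorner ν.A hAp⁻¹ := gm_corner_inv GAp.2 GAp.1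
  have cBm' : gs_IsCorner ν.B hBm⁻¹ := gm_corner_inv GBm.2 GBm.1
  have cBp' : gs_IsCorner ν.B hBp⁻¹ := gm_corner_inv GBp.2 GBp.1
  have hk : (gls_kA hAm hAp * gls_kB ν hBm hBp) * (gls_kapA hAm hAp * gls_kapB ν hBm hBp) = 1 := by
    unfold gls_kA gls_kB gls_kapA gls_kapB
    have e1 : gs_emb ν.A (hBm⁻¹ * hBp) * (hAp⁻¹ * hAm) = (hAp⁻¹ * hAm) * gs_emb ν.A (hBm⁻¹ * hBp) :=
      (gm_emb_commute (gm_corner_mul cAp' GAm.2) le_rfl _).symm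
    calc hAm⁻¹ * hAp * gs_emb ν.A (hBm⁻¹ * hBp) * (hAp⁻¹ * hAm * gs_emb ν.A (hBp⁻¹ * hBm))
        = hAm⁻¹ * hAp * (gs_emb ν.A (hBm⁻¹ * hBp) * (hAp⁻¹ * hAm)) * gs_emb ν.A (hBp⁻¹ * hBm) := by
          simp only [mul_assoc]
      _ = hAm⁻¹ * (hAp * hAp⁻¹) * hAm * (gs_emb ν.A (hBm⁻¹ * hBp) * gs_emb ν.A (hBp⁻¹ * hBm)) := by
          rw [e1]; simp only [mul_assoc]
      _ = 1 := by
          rw [← gm_emb_mul (gm_corner_mul cBm' GBp.2) (gm_corner_mul cBp' GBm.2) s1,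
            Matrix.mul_nonsing_inv _ GAp.1, mul_one, Matrix.nonsing_inv_mul _ GAm.1, one_mul]
          have : hBm⁻¹ * hBp * (hBp⁻¹ * hBm) = 1 := by
            calc hBm⁻¹ * hBp * (hBp⁻¹ * hBm) = hBm⁻¹ * (hBp * hBp⁻¹) * hBm := by simp only [mul_assoc]
              _ = 1 := by rw [Matrix.mul_nonsing_inv _ GBp.1, mul_one, Matrix.nonsing_inv_mul _ GBm.1]
          rw [this, gm_emb_one]
  set kk := gls_kA hAm hAp * gls_kB ν hBm hBp with hkk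
  set κκ := gls_kapA hAm hAp * gls_kapB ν hBm hBp with hκκ
  have hTeq : T = (gls_Sm ν)ᵀ * ((1 - z0) * kk * (1 + cc)) * gls_Sp ν := by
    rw [← hF]
    calc T = ((gls_Sm ν)ᵀ * gls_Sm ν) * T * ((gls_Sp ν)ᵀ * gls_Sp ν) := by
          rw [gls_Sm_mul' ν hN, gls_Sp_mul' ν hN, one_mul, mul_one]
      _ = _ := by simp only [mul_assoc]
  have hinv : T⁻¹ = (gls_Sp ν)ᵀ * ((1 - cc) * κκ * (1 + z0)) * gls_Sm ν := by
    apply Matrix.inv_eq_right_inv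
    rw [hTeq]
    calc (gls_Sm ν)ᵀ * ((1 - z0) * kk * (1 + cc)) * gls_Sp ν * ((gls_Sp ν)ᵀ * ((1 - cc) * κκ * (1 + z0)) * gls_Sm ν)
        = (gls_Sm ν)ᵀ * ((1 - z0) * (kk * ((1 + cc) * (gls_Sp ν * (gls_Sp ν)ᵀ) * (1 - cc)) * κκ) * (1 + z0)) * gls_Sm ν := by
          simp only [mul_assoc]
      _ = 1 := by
          rw [gls_Sp_mul ν hN, mul_one, hC, mul_one, hk, mul_one, glsb1_Z' pz, mul_one, gls_Sm_mul' ν hN]
  rw [hinv]
  calc gls_Sp ν * ((gls_Sp ν)ᵀ * ((1 - cc) * κκ * (1 + z0)) * gls_Sm ν) * (gls_Sm ν)ᵀ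
      = (gls_Sp ν * (gls_Sp ν)ᵀ) * ((1 - cc) * κκ * (1 + z0)) * (gls_Sm ν * (gls_Sm ν)ᵀ) := by
        simp only [mul_assoc]
    _ = _ := by rw [gls_Sp_mul ν hN, gls_Sm_mul ν hN, one_mul, mul_one]

theorem glsb1_labm_Q {i : ℕ} (h : gls_labm ν i = 1 ∨ gls_labm ν i = 2 ∨ gls_labm ν i = 5) : ν.km ≤ i := by
  have h4 : ν.km = ν.a + ν.b + ν.h := rfl
  unfold gls_labm at h
  split_ifs at h <;> omega

theorem glsb1_labm_U {i : ℕ} (h : gls_labm ν i = 0 ∨ gls_labm ν i = 3 ∨ gls_labm ν i = 4) : i < ν.km := by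
  have h4 : ν.km = ν.a + ν.b + ν.h := rfl
  unfold gls_labm at h
  split_ifs at h <;> omega

theorem glsb1_labp_Q {i : ℕ} (h : gls_labp ν i = 4 ∨ gls_labp ν i = 2 ∨ gls_labp ν i = 5) : ν.km ≤ i := by
  have h4 : ν.km = ν.a + ν.b + ν.h := rfl
  unfold gls_labp at h
  split_ifs at h <;> omega

theorem glsb1_labp_U {i : ℕ} (h : gls_labp ν i = 0 ∨ gls_labp ν i = 1 ∨ gls_labp ν i = 3) : i < ν.km := by
  have h4 : ν.km = ν.a + ν.b + ν.h := rfl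
  unfold gls_labp at h
  split_ifs at h <;> omega

/-- block triangular in standard coordinates `→` pattern in flat coordinates -/
theorem gls_tri_pat (hN : ν.m ≤ N) {T : gs_Mat N} (hT : gr_IsTri ν.m ν.km T) :
    gls_Pat (gls_pi ν) gls_rTri (gls_Sm ν * T * (gls_Sp ν)ᵀ) := by
  refine gls_pat_conj_mp ν hN (rel := fun i j => ¬ (ν.km ≤ i ∧ j < ν.km)) ?_ ?_
  · intro i j h hij
    exact h (hT.2 i j hij.1 hij.2)
  · intro i j h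
    by_contra hc
    apply h
    have hc' : gls_pp [1, 2, 5] [0, 1, 3] (gls_labm ν i) (gls_labp ν j) = true := by
      simpa [gls_rTri] using hc
    simp only [gls_pp, Bool.and_eq_true, decide_eq_true_eq, List.mem_cons, List.not_mem_nil, or_false] at hc'
    exact ⟨glsb1_labm_Q hc'.1, glsb1_labp_U hc'.2⟩

theorem gls_tri_pat' (hN : ν.m ≤ N) {T : gs_Mat N} (hT : gr_IsTri ν.m ν.km T) :
    gls_Pat (gls_pi ν) gls_rTri' (gls_Sp ν * T * (gls_Sm ν)ᵀ) := by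
  refine gls_pat_conj_pm ν hN (rel := fun i j => ¬ (ν.km ≤ i ∧ j < ν.km)) ?_ ?_
  · intro i j h hij
    exact h (hT.2 i j hij.1 hij.2)
  · intro i j h
    by_contra hc
    apply h
    have hc' : gls_pp [4, 2, 5] [0, 3, 4] (gls_labp ν i) (gls_labm ν j) = true := by
      simpa [gls_rTri'] using hc
    simp only [gls_pp, Bool.and_eq_true, decide_eq_true_eq, List.mem_cons, List.not_mem_nil, or_false] at hc'
    exact ⟨glsb1_labp_Q hc'.1, glsb1_labm_U hc'.2⟩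

theorem gls_tri_flat (hN : ν.m ≤ N) (GAm : gr_GL ν.A hAm) (GBm : gr_GL ν.B hBm) (GAp : gr_GL ν.A hAp)
    (GBp : gr_GL ν.B hBp)
    (pz : gls_Pat (gls_pi ν) gls_rZ z0) (hg : gs_IsUni ν.m {0, ν.B, ν.m} g)
    (pc : gls_Pat (gls_pi ν) gls_rBA (gls_cc ν hAp hBp g))
    (hT : gr_IsTri ν.m ν.km (gls_T ν hAm hBm hAp hBp z0 g)) :
    gls_Pat (gls_pi ν) gls_rTri
        ((1 - z0) * (gls_kA hAm hAp * gls_kB ν hBm hBp) * (1 + gls_cc ν hAp hBp g)) ∧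
      gls_Pat (gls_pi ν) gls_rTri'
        ((1 - gls_cc ν hAp hBp g) * (gls_kapA hAm hAp * gls_kapB ν hBm hBp) * (1 + z0)) := by
  constructor
  · rw [← gls_T_flat hN GAm GBm GAp GBp pz]
    exact gls_tri_pat hN hT
  · rw [← gls_T_inv_flat hN GAm GBm GAp GBp pz hg pc]
    exact gls_tri_pat' hN (glq_tri_inv hT (gls_T_unit hN GAm GBm GAp GBp pz hg))

end Claimed.Agent.R236
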