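import Mathlib
import Claimed.Agent.R236.GLocSB0

/-!
# Row 236, G-LOCS-B2: patterns and inverse relations of `κA, kA, κB, kB, cc`
-/

set_option autoImplicit false

namespace Claimed.Agent.R236

open Matrix

variable {N : ℕ}

variable {ν : gr_SNum} {hAm hBm hAp hBp g : gs_Mat N}

theorem gls_kapA_pat (GAm : gr_GL ν.A hAm) (GAp : gr_GL ν.A hAp) :
    gls_Pat (gls_pi ν) gls_rAA (gls_kapA hAm hAp - 1) :=
  gls_pat_cornerA ν (gm_corner_mul (gm_corner_inv GAp.2 GAp.1) GAm.2)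

theorem gls_kA_pat (GAm : gr_GL ν.A hAm) (GAp : gr_GL ν.A hAp) :
    gls_Pat (gls_pi ν) gls_rAA (gls_kA hAm hAp - 1) :=
  gls_pat_cornerA ν (gm_corner_mul (gm_corner_inv GAm.2 GAm.1) GAp.2)

theorem gls_kapB_pat (GBm : gr_GL ν.B hBm) (GBp : gr_GL ν.B hBp) :
    gls_Pat (gls_pi ν) gls_rBB (gls_kapB ν hBm hBp - 1) :=
  gls_pat_embB ν (gm_corner_mul (gm_corner_inv GBp.2 GBp.1) GBm.2)

theorem gls_kB_pat (GBm : gr_GL ν.B hBm) (GBp : gr_GL ν.B hBp) :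
    gls_Pat (gls_pi ν) gls_rBB (gls_kB ν hBm hBp - 1) :=
  gls_pat_embB ν (gm_corner_mul (gm_corner_inv GBm.2 GBm.1) GBp.2)

theorem gls_kapA_mul (GAm : gr_GL ν.A hAm) (GAp : gr_GL ν.A hAp) :
    gls_kapA hAm hAp * gls_kA hAm hAp = 1 := by
  unfold gls_kapA gls_kA
  calc hAp⁻¹ * hAm * (hAm⁻¹ * hAp) = hAp⁻¹ * (hAm * hAm⁻¹) * hAp := by
        simp only [Matrix.mul_assoc]
    _ = 1 := by
        rw [Matrix.mul_nonsing_inv _ GAm.1, Matrix.mul_one, Matrix.nonsing_inv_mul _ GAp.1]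

theorem gls_kapB_mul (hN : ν.m ≤ N) (GBm : gr_GL ν.B hBm) (GBp : gr_GL ν.B hBp) :
    gls_kapB ν hBm hBp * gls_kB ν hBm hBp = 1 := by
  have hm : ν.m = ν.A + ν.B := rfl
  unfold gls_kapB gls_kB
  rw [← gm_emb_mul (gm_corner_mul (gm_corner_inv GBp.2 GBp.1) GBm.2)
    (gm_corner_mul (gm_corner_inv GBm.2 GBm.1) GBp.2) (by omega)]
  have : hBp⁻¹ * hBm * (hBm⁻¹ * hBp) = 1 := by
    calc hBp⁻¹ * hBm * (hBm⁻¹ * hBp) = hBp⁻¹ * (hBm * hBm⁻¹) * hBp := by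
          simp only [Matrix.mul_assoc]
      _ = 1 := by
          rw [Matrix.mul_nonsing_inv _ GBm.1, Matrix.mul_one, Matrix.nonsing_inv_mul _ GBp.1]
  rw [this, gm_emb_one]

/-- `Σ g Σᵀ - 1` has the pattern (second block) × (first block) -/
theorem gls_g_pat (hN : ν.m ≤ N) (hg : gs_IsUni ν.m {0, ν.B, ν.m} g) :
    gls_Pat (gls_pi ν) gls_rBA (gls_Sg ν * g * (gls_Sg ν)ᵀ - 1) := by
  have hm : ν.m = ν.A + ν.B := rfl
  have hAB : 0 + ν.A + ν.B ≤ N := by omega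
  rw [gls_pat_iff]
  intro r s hrs
  have hT : ((gls_Sg ν : gs_Mat N))ᵀ = gs_swapMat 0 ν.B ν.A := gm_swap_transpose hAB
  have hS : (gls_Sg ν : gs_Mat N) = gs_swapMat 0 ν.A ν.B := rfl
  rw [hT, hS, Matrix.sub_apply, gm_swap_conj_apply hAB] at hrs
  have hone : (1 : gs_Mat N) r s = (1 : gs_Mat N) ⟨gs_swapFn 0 ν.A ν.B r, gm_swapFn_lt hAB r.2⟩
      ⟨gs_swapFn 0 ν.A ν.B s, gm_swapFn_lt hAB s.2⟩ := by
    rw [Matrix.one_apply, Matrix.one_apply]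
    have : (r = s) ↔ ((⟨gs_swapFn 0 ν.A ν.B r, gm_swapFn_lt hAB r.2⟩ : Fin N) =
        ⟨gs_swapFn 0 ν.A ν.B s, gm_swapFn_lt hAB s.2⟩) := by
      constructor
      · rintro rfl; rfl
      · intro h
        have h' : gs_swapFn 0 ν.A ν.B r = gs_swapFn 0 ν.A ν.B s := congrArg Fin.val h
        exact Fin.ext ((gm_swapFn_isPerm hAB).2 r s r.2 s.2 h')
    simp only [this]
  rw [hone] at hrs
  obtain ⟨h1, c, hc, h2, h3⟩ := hg _ _ (sub_ne_zero.mp hrs)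
  simp only [Finset.mem_insert, Finset.mem_singleton] at hc
  simp only at h1 h2 h3
  have hr : ν.A ≤ (r : ℕ) ∧ (r : ℕ) < ν.A + ν.B := by
    revert h1 h2 h3
    unfold gs_swapFn
    split_ifs <;> intro h1 h2 h3 <;> omega
  have hs : (s : ℕ) < ν.A := by
    revert h1 h2 h3
    unfold gs_swapFn
    split_ifs <;> intro h1 h2 h3 <;> omega
  unfold gr_SNum.A gr_SNum.B at hr
  unfold gr_SNum.A at hs
  rcases gls_lab_cases ν r with h | h | h | h | h | h | h <;> obtain ⟨⟨ha, hb⟩, e⟩ := h <;>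
  rcases gls_lab_cases ν s with h | h | h | h | h | h | h <;> obtain ⟨⟨ha', hb'⟩, e'⟩ := h <;>
  rw [e, e'] <;> first | decide | (exfalso; omega)

theorem gls_cc_pat (hN : ν.m ≤ N) (GAp : gr_GL ν.A hAp) (GBp : gr_GL ν.B hBp)
    (hg : gs_IsUni ν.m {0, ν.B, ν.m} g) :
    gls_Pat (gls_pi ν) gls_rBA (gls_cc ν hAp hBp g) := by
  have hm : ν.m = ν.A + ν.B := rfl
  have hπ := gls_idem (N := N) ν
  obtain ⟨Γ, hΓ⟩ : ∃ Γ : gs_Mat N, Γ = gls_Sg ν * g * (gls_Sg ν)ᵀ - 1 := ⟨_, rfl⟩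
  have pΓ : gls_Pat (gls_pi ν) gls_rBA Γ := hΓ ▸ gls_g_pat hN hg
  have eG : gls_Sg ν * g * (gls_Sg ν)ᵀ = 1 + Γ := by rw [hΓ]; abel
  have p1 : gls_Pat (gls_pi ν) (gls_pd gls_rAA) hAp⁻¹ :=
    (gls_pat_cornerA ν (gm_corner_inv GAp.2 GAp.1)).of_sub_one hπ
  have p2 : gls_Pat (gls_pi ν) (gls_pd gls_rBB) (gs_emb ν.A hBp⁻¹) :=
    (gls_pat_embB ν (gm_corner_inv GBp.2 GBp.1)).of_sub_one hπ
  have p3 : gls_Pat (gls_pi ν) (gls_pd gls_rAA) hAp := (gls_pat_cornerA ν GAp.2).of_sub_one hπ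
  have p4 : gls_Pat (gls_pi ν) (gls_pd gls_rBB) (gs_emb ν.A hBp) :=
    (gls_pat_embB ν GBp.2).of_sub_one hπ
  have e1 : (hAp⁻¹ * gs_emb ν.A hBp⁻¹) * (hAp * gs_emb ν.A hBp) = 1 := by
    calc (hAp⁻¹ * gs_emb ν.A hBp⁻¹) * (hAp * gs_emb ν.A hBp)
        = hAp⁻¹ * (gs_emb ν.A hBp⁻¹ * hAp) * gs_emb ν.A hBp := by simp only [Matrix.mul_assoc]
      _ = (hAp⁻¹ * hAp) * (gs_emb ν.A hBp⁻¹ * gs_emb ν.A hBp) := by
          rw [← gm_emb_commute GAp.2 le_rfl]; simp only [Matrix.mul_assoc]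
      _ = 1 := by
          rw [Matrix.nonsing_inv_mul _ GAp.1, Matrix.one_mul,
            ← gm_emb_mul (gm_corner_inv GBp.2 GBp.1) GBp.2 (by omega),
            Matrix.nonsing_inv_mul _ GBp.1, gm_emb_one]
  have e2 : gls_cc ν hAp hBp g = hAp⁻¹ * (gs_emb ν.A hBp⁻¹ * (Γ * (hAp * gs_emb ν.A hBp))) := by
    unfold gls_cc
    rw [eG, Matrix.mul_add, Matrix.mul_one, Matrix.add_mul, e1]
    simp only [Matrix.mul_assoc]
    abel
  rw [e2]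
  have q1 : gls_Pat (gls_pi ν) gls_rBA (Γ * (hAp * gs_emb ν.A hBp)) := by
    rw [← Matrix.mul_assoc]
    exact gls_Pat.mul hπ (gls_Pat.mul (τ := gls_rBA) hπ pΓ p3 (by decide)) p4 (by decide)
  exact gls_Pat.mul hπ p1 (gls_Pat.mul (τ := gls_rBA) hπ p2 q1 (by decide)) (by decide)

end Claimed.Agent.R236
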