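import Mathlib
import Claimed.Agent.R236.GLocSB0
import Claimed.Agent.R236.GLocSLin

/-!
# Row 236, G-LOCS-B3: the matrix `t` (basis completion `glq_complete` with `p = b`, `q = b + h`,
`X = hBm⁻¹ * hBp`; rows `≥ B` by the corner property, rows in `[b+h, B)` by the block `(5,3)`)
-/

set_option autoImplicit false

namespace Claimed.Agent.R236

open Matrix

variable {N : ℕ}

variable {ν : gr_SNum} {hBm hBp : gs_Mat N}

theorem gls_t_exists (hN : ν.m ≤ N) (GBm : gr_GL ν.B hBm) (GBp : gr_GL ν.B hBp)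
    (h53 : gls_blk (gls_pi ν) 5 3 (gls_kB ν hBm hBp) = 0) :
    ∃ t : gs_Mat N, gr_GL (ν.b + ν.h) t ∧
      gs_emb ν.A t * gls_pi ν 3 = gls_kB ν hBm hBp * gls_pi ν 3 := by
  have hm : ν.a + ν.h + ν.x + (ν.b + ν.h + ν.y) ≤ N := hN
  have hA : ν.A = ν.a + ν.h + ν.x := rfl
  have hB : ν.B = ν.b + ν.h + ν.y := rfl
  have hu : IsUnit (hBm⁻¹ * hBp).det := by
    rw [Matrix.det_mul]
    exact (Matrix.isUnit_nonsing_inv_det _ GBm.1).mul GBp.1
  have hc : gs_IsCorner ν.B (hBm⁻¹ * hBp) := gm_corner_mul (gm_corner_inv GBm.2 GBm.1) GBp.2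
  have h0 : ∀ i j : Fin N, ν.b + ν.h ≤ (i : ℕ) → (j : ℕ) < ν.b → (hBm⁻¹ * hBp) i j = 0 := by
    intro i j hi hj
    by_cases hiB : ν.B ≤ (i : ℕ)
    · rw [hc i j (Or.inl hiB), Matrix.one_apply_ne]
      intro h
      rw [h] at hi
      omega
    · rw [hB] at hiB
      have hr : ν.A + (i : ℕ) < N := by rw [hA]; omega
      have hs : ν.A + (j : ℕ) < N := by rw [hA]; omega
      have h1 := congrFun (congrFun h53 ⟨ν.A + i, hr⟩) ⟨ν.A + j, hs⟩
      rw [gls_blk_apply] at h1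
      have l1 : gls_lab ν ((⟨ν.A + i, hr⟩ : Fin N) : ℕ) = 5 := by
        show gls_lab ν (ν.A + i) = 5
        rw [hA]
        unfold gls_lab
        split_ifs <;> first | rfl | (exfalso; omega)
      have l2 : gls_lab ν ((⟨ν.A + j, hs⟩ : Fin N) : ℕ) = 3 := by
        show gls_lab ν (ν.A + j) = 3
        rw [hA]
        unfold gls_lab
        split_ifs <;> first | rfl | (exfalso; omega)
      rw [if_pos ⟨l1, l2⟩, gls_kB, gm_emb_apply_ge ν.A _ (Nat.le_add_right _ _)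
        (Nat.le_add_right _ _)] at h1
      have e1 : (⟨((⟨ν.A + i, hr⟩ : Fin N) : ℕ) - ν.A, by simp⟩ : Fin N) = i :=
        Fin.ext (by simp)
      have e2 : (⟨((⟨ν.A + j, hs⟩ : Fin N) : ℕ) - ν.A, by simp⟩ : Fin N) = j :=
        Fin.ext (by simp)
      simpa using h1
  obtain ⟨t, ht, htX⟩ := glq_complete (Nat.le_add_right ν.b ν.h) (by omega) hu h0
  refine ⟨t, ht, ?_⟩
  ext r s
  rw [gls_pi, Matrix.mul_diagonal, Matrix.mul_diagonal]
  by_cases hl : gls_lab ν s = 3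
  · rw [if_pos hl, mul_one, mul_one, gls_kB]
    have hs : ν.A ≤ (s : ℕ) ∧ (s : ℕ) < ν.A + ν.b := by
      rw [hA]
      rcases gls_lab_cases ν s with h | h | h | h | h | h | h <;> obtain ⟨⟨ha, hb⟩, e⟩ := h <;>
        rw [e] at hl <;> first | exact ⟨ha, hb⟩ | exact absurd hl (by decide)
    by_cases hr : ν.A ≤ (r : ℕ)
    · rw [gm_emb_apply_ge _ _ hr hs.1, gm_emb_apply_ge _ _ hr hs.1]
      exact htX _ _ (by show (s : ℕ) - ν.A < ν.b; omega)
    · rw [gm_emb_apply_lt_row _ _ (not_le.1 hr), gm_emb_apply_lt_row _ _ (not_le.1 hr)]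
  · rw [if_neg hl, mul_zero, mul_zero]

end Claimed.Agent.R236
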