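import Mathlib
import Claimed.Agent.R236.GLocSA1

/-!
# Row 236, G-LOCS-B4: from patterns back to corner matrices / unitriangular matrices
(`gls_pat_iff`, `gm_emb_mid_self`, `gm_mid_corner`, `gm_emb_emb`; label arithmetic by omega)
-/

set_option autoImplicit false

namespace Claimed.Agent.R236

open Matrix

variable {N : ℕ}

variable {ν : gr_SNum} {X : gs_Mat N}

/-- outside of the pattern the matrix is the identity -/
theorem gls_back_aux {ρ : Fin 7 → Fin 7 → Bool} (h : gls_Pat (gls_pi ν) ρ (X - 1)) (r s : Fin N)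
    (hρ : ρ (gls_lab ν r) (gls_lab ν s) = false) : X r s = (1 : gs_Mat N) r s := by
  by_contra hne
  have h1 := (gls_pat_iff ν ρ (X - 1)).1 h r s (by rw [Matrix.sub_apply]; exact sub_ne_zero.2 hne)
  rw [hρ] at h1
  cases h1

theorem gls_back12 (hN : ν.m ≤ N) (h : gls_Pat (gls_pi ν) (gls_pp [1, 2] [1, 2]) (X - 1)) :
    ∃ r : gs_Mat N, gs_IsCorner (ν.h + ν.x) r ∧ gs_emb ν.a r = X := by
  refine ⟨gr_midBlock ν.a (ν.h + ν.x) X, gm_mid_corner _ _ _, gm_emb_mid_self ?_ ?_⟩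
  · unfold gr_SNum.m gr_SNum.A gr_SNum.B at hN; omega
  intro r s hw
  refine gls_back_aux h r s ?_
  generalize (r : ℕ) = i at *
  generalize (s : ℕ) = j at *
  rcases gls_lab_cases ν i with h | h | h | h | h | h | h <;> obtain ⟨⟨ha, hb⟩, e⟩ := h <;>
  rcases gls_lab_cases ν j with h | h | h | h | h | h | h <;> obtain ⟨⟨ha', hb'⟩, e'⟩ := h <;>
  rw [e, e'] <;> first | decide | (exfalso; omega)

theorem gls_back45 (hN : ν.m ≤ N) (h : gls_Pat (gls_pi ν) (gls_pp [4, 5] [4, 5]) (X - 1)) :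
    ∃ v : gs_Mat N, gs_IsCorner (ν.h + ν.y) v ∧ gs_emb ν.A (gs_emb ν.b v) = X := by
  refine ⟨gr_midBlock (ν.A + ν.b) (ν.h + ν.y) X, gm_mid_corner _ _ _, ?_⟩
  rw [gm_emb_emb]
  refine gm_emb_mid_self ?_ ?_
  · unfold gr_SNum.m gr_SNum.A gr_SNum.B at hN; unfold gr_SNum.A; omega
  intro r s hw
  refine gls_back_aux h r s ?_
  generalize (r : ℕ) = i at *
  generalize (s : ℕ) = j at *
  unfold gr_SNum.A at *
  rcases gls_lab_cases ν i with h | h | h | h | h | h | h <;> obtain ⟨⟨ha, hb⟩, e⟩ := h <;>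
  rcases gls_lab_cases ν j with h | h | h | h | h | h | h <;> obtain ⟨⟨ha', hb'⟩, e'⟩ := h <;>
  rw [e, e'] <;> first | decide | (exfalso; omega)

theorem gls_back01 (h : gls_Pat (gls_pi ν) (gls_pp [0, 1] [0, 1]) (X - 1)) :
    gs_IsCorner (ν.a + ν.h) X := by
  intro r s hw
  refine gls_back_aux h r s ?_
  generalize (r : ℕ) = i at *
  generalize (s : ℕ) = j at *
  rcases gls_lab_cases ν i with h | h | h | h | h | h | h <;> obtain ⟨⟨ha, hb⟩, e⟩ := h <;>
  rcases gls_lab_cases ν j with h | h | h | h | h | h | h <;> obtain ⟨⟨ha', hb'⟩, e'⟩ := h <;>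
  rw [e, e'] <;> first | decide | (exfalso; omega)

theorem gls_backA0 (h : gls_Pat (gls_pi ν) (gls_pp [0, 1] [2]) (X - 1)) :
    gs_IsUni ν.A {0, ν.a + ν.h, ν.A} X := by
  intro r s hne
  have h1 := (gls_pat_iff ν _ (X - 1)).1 h r s (by rw [Matrix.sub_apply]; exact sub_ne_zero.2 hne)
  clear hne
  generalize (r : ℕ) = i at *
  generalize (s : ℕ) = j at *
  suffices hs : i < ν.a + ν.h ∧ ν.a + ν.h ≤ j ∧ j < ν.A from
    ⟨hs.2.2, ν.a + ν.h, by simp, hs.1, hs.2.1⟩
  unfold gr_SNum.A at *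
  revert h1
  rcases gls_lab_cases ν i with h | h | h | h | h | h | h <;> obtain ⟨⟨ha, hb⟩, e⟩ := h <;>
  rcases gls_lab_cases ν j with h | h | h | h | h | h | h <;> obtain ⟨⟨ha', hb'⟩, e'⟩ := h <;>
  rw [e, e'] <;> first | (intro _; omega) | (intro h1; exact absurd h1 (by decide))

theorem gls_backB1 (hN : ν.m ≤ N) (h : gls_Pat (gls_pi ν) (gls_pp [3] [4, 5]) (X - 1)) :
    ∃ w : gs_Mat N, gs_IsUni ν.B {0, ν.b, ν.b + ν.h, ν.B} w ∧ gs_emb ν.A w = X := by
  have hAB : ν.A + ν.B ≤ N := hN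
  refine ⟨gr_midBlock ν.A ν.B X, ?_, gm_emb_mid_self hAB ?_⟩
  · intro r s hne
    have hr : (r : ℕ) < ν.B := by
      by_contra hc
      exact hne (gm_mid_corner ν.A ν.B X r s (Or.inl (by omega)))
    have hs : (s : ℕ) < ν.B := by
      by_contra hc
      exact hne (gm_mid_corner ν.A ν.B X r s (Or.inr (by omega)))
    rw [gm_mid_apply hAB X hr hs] at hne
    have hne' : X ⟨ν.A + r, by omega⟩ ⟨ν.A + s, by omega⟩ ≠
        (1 : gs_Mat N) ⟨ν.A + r, by omega⟩ ⟨ν.A + s, by omega⟩ := by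
      intro e
      apply hne
      rw [e, Matrix.one_apply, Matrix.one_apply]
      simp only [Fin.ext_iff, Nat.add_left_cancel_iff]
    have h1 := (gls_pat_iff ν _ (X - 1)).1 h _ _
      (by rw [Matrix.sub_apply]; exact sub_ne_zero.2 hne')
    clear hne hne'
    simp only at h1
    generalize (r : ℕ) = i' at *
    generalize (s : ℕ) = j' at *
    suffices hs' : i' < ν.b ∧ ν.b ≤ j' from ⟨hs, ν.b, by simp, hs'.1, hs'.2⟩
    generalize hi : ν.A + i' = i at *
    generalize hj : ν.A + j' = j at *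
    unfold gr_SNum.A gr_SNum.B at *
    revert h1
    rcases gls_lab_cases ν i with h | h | h | h | h | h | h <;> obtain ⟨⟨ha, hb⟩, e⟩ := h <;>
    rcases gls_lab_cases ν j with h | h | h | h | h | h | h <;> obtain ⟨⟨ha', hb'⟩, e'⟩ := h <;>
    rw [e, e'] <;> first | (intro _; omega) | (intro h1; exact absurd h1 (by decide))
  · intro r s hw
    refine gls_back_aux h r s ?_
    generalize (r : ℕ) = i at *
    generalize (s : ℕ) = j at *
    unfold gr_SNum.A gr_SNum.B at *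
    rcases gls_lab_cases ν i with h | h | h | h | h | h | h <;> obtain ⟨⟨ha, hb⟩, e⟩ := h <;>
    rcases gls_lab_cases ν j with h | h | h | h | h | h | h <;> obtain ⟨⟨ha', hb'⟩, e'⟩ := h <;>
    rw [e, e'] <;> first | decide | (exfalso; omega)

end Claimed.Agent.R236
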