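import Mathlib
import Claimed.Agent.R236.GLocSA2

/-!
# Row 236, G-LOCS-A3: the patterns of `gls_Cm`, `gls_Cp`

Proofs: helper250 (helpers with prefix `gls3_`).
-/

set_option autoImplicit false

namespace Claimed.Agent.R236

open Matrix

variable {N : ℕ} (ν : gr_SNum)

/-! ## helpers -/

/-- support of an embedded unitriangular matrix (rows and columns beyond the offset) -/
theorem gls3_emb_uni_sup {n o : ℕ} {K : Finset ℕ} {u : gs_Mat N} (hu : gs_IsUni n K u) :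
    gm_Sup (fun i j => o ≤ i ∧ o ≤ j ∧ gm_uniPos n K (i - o) (j - o)) (gs_emb o u - 1) := by
  intro i j hij
  rw [Matrix.sub_apply, sub_ne_zero] at hij
  by_cases hi : o ≤ (i : ℕ)
  · by_cases hj : o ≤ (j : ℕ)
    · rw [gm_emb_apply_ge o u hi hj, ← gm_one_apply_sub o hi hj] at hij
      exact ⟨hi, hj, hu _ _ hij⟩
    · exact absurd (gm_emb_apply_lt_col o u i (by omega)) hij
  · exact absurd (gm_emb_apply_lt_row o u (by omega) j) hij

theorem gls3_Lam_corner {n : ℕ} (hn : ν.h ≤ n) : gs_IsCorner n (gls_Lam ν : gs_Mat N) := by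
  intro i j hij
  unfold gls_Lam
  by_cases h : i = j
  · subst h
    rw [Matrix.diagonal_apply_eq, Matrix.one_apply_eq, if_neg (by omega)]
  · rw [Matrix.diagonal_apply_ne _ h, Matrix.one_apply_ne h]

theorem gls3_emb_Lam :
    gs_emb ν.km (gls_Lam ν) =
      (Matrix.diagonal fun j : Fin N => if gls_labm ν j = 1 then (-1 : ℂ) else 1) := by
  ext i j
  by_cases h : i = j
  · subst h
    rw [Matrix.diagonal_apply_eq]
    by_cases hi : ν.km ≤ (i : ℕ)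
    · rw [gm_emb_apply_ge _ _ hi hi]
      unfold gls_Lam
      rw [Matrix.diagonal_apply_eq]
      unfold gr_SNum.km at hi
      unfold gls_labm gr_SNum.km
      simp only
      split_ifs <;> first | rfl | (exfalso; omega)
    · rw [gm_emb_apply_lt_row _ _ (by omega), Matrix.one_apply_eq]
      unfold gr_SNum.km at hi
      unfold gls_labm
      split_ifs <;> first | rfl | (exfalso; omega)
  · rw [Matrix.diagonal_apply_ne _ h]
    by_cases hi : ν.km ≤ (i : ℕ) ∧ ν.km ≤ (j : ℕ)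
    · rw [gm_emb_apply_ge _ _ hi.1 hi.2]
      unfold gls_Lam
      rw [Matrix.diagonal_apply_ne]
      intro e
      apply h
      rw [Fin.mk.injEq] at e
      exact Fin.ext (by omega)
    · rw [gs_emb, dif_neg hi, Matrix.one_apply_ne h]

theorem gls3_labm0 {i : ℕ} (h : i < ν.a) : gls_labm ν i = 0 := by
  unfold gls_labm; rw [if_pos h]
theorem gls3_labm3 {i : ℕ} (h : ν.a ≤ i) (h' : i < ν.a + ν.b) : gls_labm ν i = 3 := by
  unfold gls_labm; split_ifs <;> first | rfl | (exfalso; omega)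
theorem gls3_labm4 {i : ℕ} (h : ν.a + ν.b ≤ i) (h' : i < ν.a + ν.b + ν.h) : gls_labm ν i = 4 := by
  unfold gls_labm; split_ifs <;> first | rfl | (exfalso; omega)
theorem gls3_labm1 {i : ℕ} (h : ν.a + ν.b + ν.h ≤ i) (h' : i < ν.a + ν.b + ν.h + ν.h) :
    gls_labm ν i = 1 := by
  unfold gls_labm; split_ifs <;> first | rfl | (exfalso; omega)
theorem gls3_labm2 {i : ℕ} (h : ν.a + ν.b + ν.h + ν.h ≤ i) (h' : i < ν.a + ν.b + ν.h + ν.h + ν.x) :
    gls_labm ν i = 2 := by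
  unfold gls_labm; split_ifs <;> first | rfl | (exfalso; omega)
theorem gls3_labm5 {i : ℕ} (h : ν.a + ν.b + ν.h + ν.h + ν.x ≤ i)
    (h' : i < ν.a + ν.b + ν.h + ν.h + ν.x + ν.y) : gls_labm ν i = 5 := by
  unfold gls_labm; split_ifs <;> first | rfl | (exfalso; omega)
theorem gls3_labp3 {i : ℕ} (h : i < ν.b) : gls_labp ν i = 3 := by
  unfold gls_labp; rw [if_pos h]
theorem gls3_labp0 {i : ℕ} (h : ν.b ≤ i) (h' : i < ν.b + ν.a) : gls_labp ν i = 0 := by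
  unfold gls_labp; split_ifs <;> first | rfl | (exfalso; omega)
theorem gls3_labp1 {i : ℕ} (h : ν.b + ν.a ≤ i) (h' : i < ν.b + ν.a + ν.h) : gls_labp ν i = 1 := by
  unfold gls_labp; split_ifs <;> first | rfl | (exfalso; omega)
theorem gls3_labp4 {i : ℕ} (h : ν.b + ν.a + ν.h ≤ i) (h' : i < ν.b + ν.a + ν.h + ν.h) :
    gls_labp ν i = 4 := by
  unfold gls_labp; split_ifs <;> first | rfl | (exfalso; omega)
theorem gls3_labp5 {i : ℕ} (h : ν.b + ν.a + ν.h + ν.h ≤ i) (h' : i < ν.b + ν.a + ν.h + ν.h + ν.y) :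
    gls_labp ν i = 5 := by
  unfold gls_labp; split_ifs <;> first | rfl | (exfalso; omega)
theorem gls3_labp2 {i : ℕ} (h : ν.b + ν.a + ν.h + ν.h + ν.y ≤ i)
    (h' : i < ν.b + ν.a + ν.h + ν.h + ν.y + ν.x) : gls_labp ν i = 2 := by
  unfold gls_labp; split_ifs <;> first | rfl | (exfalso; omega)

theorem gls3_lab_c0 (i j : ℕ) (h : gm_uniPos ν.km {0, ν.a, ν.a + ν.b, ν.km} i j) :
    gls_pl [(0, 3), (0, 4), (3, 4)] (gls_labm ν i) (gls_labm ν j) = true := by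
  obtain ⟨hj, c, hc, h1, h2⟩ := h
  simp only [Finset.mem_insert, Finset.mem_singleton] at hc
  unfold gr_SNum.km at *
  rcases hc with rfl | rfl | rfl | rfl
  · omega
  · rw [gls3_labm0 ν h1]
    rcases lt_or_ge j (ν.a + ν.b) with hj' | hj'
    · rw [gls3_labm3 ν h2 hj']; decide
    · rw [gls3_labm4 ν hj' hj]; decide
  · rw [gls3_labm4 ν h2 hj]
    rcases lt_or_ge i ν.a with hi' | hi'
    · rw [gls3_labm0 ν hi']; decide
    · rw [gls3_labm3 ν hi' h1]; decide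
  · omega

theorem gls3_lab_e (i j : ℕ) (h : ν.km ≤ i ∧ ν.km ≤ j ∧
      gm_uniPos (ν.m - ν.km) {0, ν.h, ν.h + ν.x, ν.m - ν.km} (i - ν.km) (j - ν.km)) :
    gls_pl [(1, 2), (1, 5), (2, 5)] (gls_labm ν i) (gls_labm ν j) = true := by
  obtain ⟨hi, hj', hj, c, hc, h1, h2⟩ := h
  simp only [Finset.mem_insert, Finset.mem_singleton] at hc
  unfold gr_SNum.m gr_SNum.A gr_SNum.B gr_SNum.km at *
  rcases hc with rfl | rfl | rfl | rfl
  · omega
  · rw [gls3_labm1 ν hi (by omega)]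
    rcases lt_or_ge j (ν.a + ν.b + ν.h + ν.h + ν.x) with hj'' | hj''
    · rw [gls3_labm2 ν (by omega) hj'']; decide
    · rw [gls3_labm5 ν hj'' (by omega)]; decide
  · rw [gls3_labm5 ν (i := j) (by omega) (by omega)]
    rcases lt_or_ge i (ν.a + ν.b + ν.h + ν.h) with hi' | hi'
    · rw [gls3_labm1 ν hi hi']; decide
    · rw [gls3_labm2 ν hi' (by omega)]; decide
  · omega

theorem gls3_lab_c1 (i j : ℕ) (h : gm_uniPos ν.km {0, ν.b, ν.a + ν.b, ν.km} i j) :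
    gls_pl [(3, 0), (3, 1), (0, 1)] (gls_labp ν i) (gls_labp ν j) = true := by
  obtain ⟨hj, c, hc, h1, h2⟩ := h
  simp only [Finset.mem_insert, Finset.mem_singleton] at hc
  unfold gr_SNum.km at *
  rcases hc with rfl | rfl | rfl | rfl
  · omega
  · rw [gls3_labp3 ν h1]
    rcases lt_or_ge j (ν.b + ν.a) with hj' | hj'
    · rw [gls3_labp0 ν h2 hj']; decide
    · rw [gls3_labp1 ν hj' (by omega)]; decide
  · rw [gls3_labp1 ν (i := j) (by omega) (by omega)]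
    rcases lt_or_ge i ν.b with hi' | hi'
    · rw [gls3_labp3 ν hi']; decide
    · rw [gls3_labp0 ν hi' (by omega)]; decide
  · omega

theorem gls3_lab_e2 (i j : ℕ) (h : ν.km ≤ i ∧ ν.km ≤ j ∧
      gm_uniPos (ν.m - ν.km) {0, ν.h, ν.h + ν.y, ν.m - ν.km} (i - ν.km) (j - ν.km)) :
    gls_pl [(4, 5), (4, 2), (5, 2)] (gls_labp ν i) (gls_labp ν j) = true := by
  obtain ⟨hi, hj', hj, c, hc, h1, h2⟩ := h
  simp only [Finset.mem_insert, Finset.mem_singleton] at hc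
  unfold gr_SNum.m gr_SNum.A gr_SNum.B gr_SNum.km at *
  rcases hc with rfl | rfl | rfl | rfl
  · omega
  · rw [gls3_labp4 ν (i := i) (by omega) (by omega)]
    rcases lt_or_ge j (ν.b + ν.a + ν.h + ν.h + ν.y) with hj'' | hj''
    · rw [gls3_labp5 ν (by omega) hj'']; decide
    · rw [gls3_labp2 ν hj'' (by omega)]; decide
  · rw [gls3_labp2 ν (i := j) (by omega) (by omega)]
    rcases lt_or_ge i (ν.b + ν.a + ν.h + ν.h) with hi' | hi'
    · rw [gls3_labp4 ν (by omega) hi']; decide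
    · rw [gls3_labp5 ν hi' (by omega)]; decide
  · omega

theorem gls3_conj_m_mul (hN : ν.m ≤ N) (X Y : gs_Mat N) :
    gls_Sm ν * (X * Y) * (gls_Sm ν)ᵀ =
      (gls_Sm ν * X * (gls_Sm ν)ᵀ) * (gls_Sm ν * Y * (gls_Sm ν)ᵀ) := by
  have h := gls_Sm_mul' ν hN
  calc gls_Sm ν * (X * Y) * (gls_Sm ν)ᵀ
      = gls_Sm ν * X * (1 : gs_Mat N) * (Y * (gls_Sm ν)ᵀ) := by
        simp only [Matrix.mul_assoc, Matrix.one_mul]
    _ = _ := by
        rw [← h]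
        simp only [Matrix.mul_assoc]

theorem gls3_conj_p_mul (hN : ν.m ≤ N) (X Y : gs_Mat N) :
    gls_Sp ν * (X * Y) * (gls_Sp ν)ᵀ =
      (gls_Sp ν * X * (gls_Sp ν)ᵀ) * (gls_Sp ν * Y * (gls_Sp ν)ᵀ) := by
  have h := gls_Sp_mul' ν hN
  calc gls_Sp ν * (X * Y) * (gls_Sp ν)ᵀ
      = gls_Sp ν * X * (1 : gs_Mat N) * (Y * (gls_Sp ν)ᵀ) := by
        simp only [Matrix.mul_assoc, Matrix.one_mul]
    _ = _ := by
        rw [← h]
        simp only [Matrix.mul_assoc]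

theorem gls3_conj_m_one_add (hN : ν.m ≤ N) (X : gs_Mat N) :
    gls_Sm ν * X * (gls_Sm ν)ᵀ = 1 + gls_Sm ν * (X - 1) * (gls_Sm ν)ᵀ := by
  rw [Matrix.mul_sub, Matrix.sub_mul, Matrix.mul_one, gls_Sm_mul ν hN]
  abel

theorem gls3_conj_p_one_add (hN : ν.m ≤ N) (X : gs_Mat N) :
    gls_Sp ν * X * (gls_Sp ν)ᵀ = 1 + gls_Sp ν * (X - 1) * (gls_Sp ν)ᵀ := by
  rw [Matrix.mul_sub, Matrix.sub_mul, Matrix.mul_one, gls_Sp_mul ν hN]
  abel

variable {ν} {z : gr_SIdx → gs_Mat N}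

/-- the sign matrix in flat coordinates -/
theorem gls_Lam_flat (hN : ν.m ≤ N) :
    gls_Sm ν * gs_emb ν.km (gls_Lam ν) * (gls_Sm ν)ᵀ = (gls_LamF ν : gs_Mat N) := by
  have hP := gls_fm_perm ν hN
  ext r s
  unfold gls_Sm
  rw [gm_pm_conj_apply hP.1, gls3_emb_Lam]
  unfold gls_LamF gls_pi
  rw [Matrix.sub_apply, Matrix.sub_apply]
  by_cases h : r = s
  · subst h
    rw [Matrix.diagonal_apply_eq, Matrix.diagonal_apply_eq, Matrix.one_apply_eq]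
    simp only [gls_labm_fm]
    split_ifs <;> norm_num
  · have h' : (⟨gls_fm ν r, hP.1 r r.2⟩ : Fin N) ≠ ⟨gls_fm ν s, hP.1 s s.2⟩ := by
      intro e
      rw [Fin.mk.injEq] at e
      exact h (Fin.ext (hP.2 r s r.2 s.2 e))
    rw [Matrix.diagonal_apply_ne _ h', Matrix.diagonal_apply_ne _ h, Matrix.one_apply_ne h]
    norm_num

theorem gls_Cm_pat (hN : ν.m ≤ N) (hz : gr_SOk ν z) :
    gls_Pat (gls_pi ν) gls_rC (gls_Cm ν z - gls_LamF ν) := by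
  have hπ : gls_Idem (gls_pi ν : Fin 7 → gs_Mat N) := gls_idem ν
  have hkm : ν.km + (ν.m - ν.km) ≤ N := by
    unfold gr_SNum.m gr_SNum.A gr_SNum.B gr_SNum.km at *
    omega
  have hh : ν.h ≤ ν.m - ν.km := by
    unfold gr_SNum.m gr_SNum.A gr_SNum.B gr_SNum.km
    omega
  have p0 := gls_pat_conj_m ν hN (gm_uni_sub_one hz.c0) (gls3_lab_c0 ν)
  have p1 := gls_pat_conj_m ν hN (gls3_emb_uni_sup (o := ν.km) hz.e0) (gls3_lab_e ν)
  have p2 := gls_pat_conj_m ν hN (gls3_emb_uni_sup (o := ν.km) hz.e1) (gls3_lab_e ν)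
  obtain ⟨γ, hγ⟩ : ∃ γ : gs_Mat N, γ = gls_Sm ν * (z .c0 - 1) * (gls_Sm ν)ᵀ := ⟨_, rfl⟩
  obtain ⟨E0, hE0⟩ : ∃ E : gs_Mat N, E = gls_Sm ν * (gs_emb ν.km (z .e0) - 1) * (gls_Sm ν)ᵀ :=
    ⟨_, rfl⟩
  obtain ⟨E1, hE1⟩ : ∃ E : gs_Mat N, E = gls_Sm ν * (gs_emb ν.km (z .e1) - 1) * (gls_Sm ν)ᵀ :=
    ⟨_, rfl⟩
  rw [← hγ] at p0
  rw [← hE0] at p1
  rw [← hE1] at p2
  obtain ⟨Λ, hΛ⟩ : ∃ Λ : gs_Mat N, Λ = gls_LamF ν := ⟨_, rfl⟩
  have pΛ : gls_Pat (gls_pi ν) (fun i j => decide (i = j)) Λ := by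
    rw [hΛ]
    unfold gls_LamF
    have h1 : gls_Pat (gls_pi ν) (fun i j => decide (i = j)) (gls_pi ν 1 : gs_Mat N) :=
      (gls_Pat.pi hπ 1).mono (by decide)
    exact ((gls_Pat.one hπ).sub h1).sub h1
  have e : gls_Cm ν z = (1 + γ) * ((1 + E0) * Λ * (1 + E1)) := by
    unfold gls_Cm
    rw [gm_emb_mul (gm_corner_mul (gm_uni_corner hz.e0) (gls3_Lam_corner ν hh))
        (gm_uni_corner hz.e1) hkm,
      gm_emb_mul (gm_uni_corner hz.e0) (gls3_Lam_corner ν hh) hkm,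
      gls3_conj_m_mul ν hN, gls3_conj_m_mul ν hN, gls3_conj_m_mul ν hN, gls_Lam_flat hN,
      gls3_conj_m_one_add ν hN (z .c0), gls3_conj_m_one_add ν hN (gs_emb ν.km (z .e0)),
      gls3_conj_m_one_add ν hN (gs_emb ν.km (z .e1)), ← hγ, ← hE0, ← hE1, ← hΛ]
  rw [e, ← hΛ]
  have e2 : (1 + γ) * ((1 + E0) * Λ * (1 + E1)) - Λ
      = (γ + E0 + γ * E0) * Λ + (γ + E0 + γ * E0) * Λ * E1 + Λ * E1 := by
    noncomm_ring
  rw [e2]
  have pT : gls_Pat (gls_pi ν) gls_rC (γ + E0 + γ * E0) :=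
    ((p0.mono (by decide)).add (p1.mono (by decide))).add (gls_Pat.mul hπ p0 p1 (by decide))
  have pTΛ : gls_Pat (gls_pi ν) gls_rC ((γ + E0 + γ * E0) * Λ) := gls_Pat.mul hπ pT pΛ (by decide)
  exact (pTΛ.add (gls_Pat.mul hπ pTΛ p2 (by decide))).add (gls_Pat.mul hπ pΛ p2 (by decide))

theorem gls_Cp_pat (hN : ν.m ≤ N) (hz : gr_SOk ν z) :
    gls_Pat (gls_pi ν) gls_rD (gls_Cp ν z - 1) := by
  have hπ : gls_Idem (gls_pi ν : Fin 7 → gs_Mat N) := gls_idem ν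
  have p0 := gls_pat_conj_p ν hN (gm_uni_sub_one hz.c1) (gls3_lab_c1 ν)
  have p1 := gls_pat_conj_p ν hN (gls3_emb_uni_sup (o := ν.km) hz.e2) (gls3_lab_e2 ν)
  obtain ⟨γ, hγ⟩ : ∃ γ : gs_Mat N, γ = gls_Sp ν * (z .c1 - 1) * (gls_Sp ν)ᵀ := ⟨_, rfl⟩
  obtain ⟨E, hE⟩ : ∃ E : gs_Mat N, E = gls_Sp ν * (gs_emb ν.km (z .e2) - 1) * (gls_Sp ν)ᵀ :=
    ⟨_, rfl⟩
  rw [← hγ] at p0
  rw [← hE] at p1
  have e : gls_Cp ν z = (1 + γ) * (1 + E) := by
    unfold gls_Cp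
    rw [gls3_conj_p_mul ν hN, gls3_conj_p_one_add ν hN (z .c1),
      gls3_conj_p_one_add ν hN (gs_emb ν.km (z .e2)), ← hγ, ← hE]
  rw [e]
  have e2 : (1 + γ) * (1 + E) - 1 = γ + E + γ * E := by noncomm_ring
  rw [e2]
  exact ((p0.mono (by decide)).add (p1.mono (by decide))).add (gls_Pat.mul hπ p0 p1 (by decide))

theorem gls_Cm_triv (hN : ν.m ≤ N) (h0 : z .c0 = 1) (h1 : z .e0 = 1) (h2 : z .e1 = 1) :
    gls_Cm ν z = gls_LamF ν := by
  unfold gls_Cm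
  rw [h0, h1, h2, Matrix.one_mul, Matrix.one_mul, Matrix.mul_one, gls_Lam_flat hN]

theorem gls_Cp_triv (hN : ν.m ≤ N) (h0 : z .c1 = 1) (h1 : z .e2 = 1) : gls_Cp ν z = 1 := by
  unfold gls_Cp
  rw [h0, h1, gm_emb_one, Matrix.one_mul, Matrix.mul_one, gls_Sp_mul ν hN]

end Claimed.Agent.R236
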