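import Mathlib
import Claimed.Agent.R236.GLocSA1
import Claimed.Agent.R236.GMatBD

/-!
# Row 236, G-LOCS-A4: the links: `gls_R`, `gls_W` are unitriangular
(proofs: helper116; helper lemmas prefix `gls4_`)
-/

set_option autoImplicit false

namespace Claimed.Agent.R236

open Matrix

variable {N : ℕ} (ν : gr_SNum)

variable {ν} {z : gr_SIdx → gs_Mat N}

/-- lift an invertible matrix to a unit -/
theorem gls4_lift {A : gs_Mat N} (h : IsUnit A.det) :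
    ∃ U : (gs_Mat N)ˣ, A = (U : gs_Mat N) ∧ A⁻¹ = ((U⁻¹ : (gs_Mat N)ˣ) : gs_Mat N) := by
  obtain ⟨U, hU⟩ := (Matrix.isUnit_iff_isUnit_det A).2 h
  exact ⟨U, hU.symm, by rw [← hU, Matrix.coe_units_inv]⟩

/-- group computation behind the two links -/
theorem gls4_link {hp w0 s w1 r w2 hm : gs_Mat N} (h1 : IsUnit hp.det) (h2 : IsUnit w0.det) (h3 : IsUnit s.det)
    (h4 : IsUnit w1.det) (h5 : IsUnit r.det) (h6 : IsUnit w2.det) (h7 : IsUnit hm.det)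
    (link : hp * w0 * s * w1 * r⁻¹ * w2 * hm⁻¹ = 1) :
    r⁻¹ * hm⁻¹ * (hp * s) = (r⁻¹ * w2⁻¹ * r) * w1⁻¹ * (s⁻¹ * w0⁻¹ * s) ∧
    s⁻¹ * hp⁻¹ * (hm * r) = (s⁻¹ * w0 * s) * w1 * (r⁻¹ * w2 * r) := by
  obtain ⟨hp, rfl, e1⟩ := gls4_lift h1
  obtain ⟨w0, rfl, e2⟩ := gls4_lift h2
  obtain ⟨s, rfl, e3⟩ := gls4_lift h3
  obtain ⟨w1, rfl, e4⟩ := gls4_lift h4
  obtain ⟨r, rfl, e5⟩ := gls4_lift h5
  obtain ⟨w2, rfl, e6⟩ := gls4_lift h6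
  obtain ⟨hm, rfl, e7⟩ := gls4_lift h7
  simp only [e1, e2, e3, e4, e5, e6, e7, ← Units.val_mul] at link ⊢
  have link' : hp * w0 * s * w1 * r⁻¹ * w2 * hm⁻¹ = 1 := Units.ext link
  have hhm : hm = hp * w0 * s * w1 * r⁻¹ * w2 := by
    have := congrArg (· * hm) link'
    simpa using this.symm
  constructor
  · congr 1
    rw [hhm]
    group
  · congr 1
    rw [hhm]
    group


theorem gls4_sizes (hN : ν.m ≤ N) : ν.a + (ν.h + ν.x) ≤ N ∧ ν.b + (ν.h + ν.y) ≤ N ∧ ν.A + ν.B ≤ N ∧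
    ν.A = ν.a + ν.h + ν.x ∧ ν.B = ν.b + ν.h + ν.y := by
  have h1 : ν.m = ν.A + ν.B := rfl
  have h2 : ν.A = ν.a + ν.h + ν.x := rfl
  have h3 : ν.B = ν.b + ν.h + ν.y := rfl
  omega

theorem gls4_linkA (hN : ν.m ≤ N) (hz : gr_SOk ν z) :
    (gs_emb ν.a (z .r))⁻¹ * (z .hAm)⁻¹ * (z .hAp * z .s) =
      ((gs_emb ν.a (z .r))⁻¹ * (z .wA2)⁻¹ * gs_emb ν.a (z .r)) * (z .wA1)⁻¹ * ((z .s)⁻¹ * (z .wA0)⁻¹ * z .s) := by
  obtain ⟨s1, s2, s3, s4, s5⟩ := gls4_sizes hN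
  have hl := hz.linkA
  rw [gm_uni_pair_eq_one hz.wA3, mul_one, gm_emb_inv hz.r.2 hz.r.1 s1] at hl
  exact (gls4_link hz.hAp.1 (gm_uni_isUnit hz.wA0) hz.s.1 (gm_uni_isUnit hz.wA1)
    (gm_emb_isUnit hz.r.2 hz.r.1 s1) (gm_uni_isUnit hz.wA2) hz.hAm.1 hl).1

theorem gls4_linkB (hN : ν.m ≤ N) (hz : gr_SOk ν z) :
    (gs_emb ν.b (z .v))⁻¹ * (z .hBp)⁻¹ * (z .hBm * z .t) =
      ((gs_emb ν.b (z .v))⁻¹ * z .wB0 * gs_emb ν.b (z .v)) * z .wB1 * ((z .t)⁻¹ * z .wB2 * z .t) := by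
  obtain ⟨s1, s2, s3, s4, s5⟩ := gls4_sizes hN
  have hl := hz.linkB
  rw [gm_uni_pair_eq_one hz.wB3, mul_one] at hl
  exact (gls4_link hz.hBp.1 (gm_uni_isUnit hz.wB0) (gm_emb_isUnit hz.v.2 hz.v.1 s2) (gm_uni_isUnit hz.wB1)
    hz.t.1 (gm_uni_isUnit hz.wB2) hz.hBm.1 hl).2

theorem gls_R_eq (hN : ν.m ≤ N) (hz : gr_SOk ν z) :
    1 + gls_R ν z = (gs_emb ν.a (z .r)⁻¹ * (z .wA2)⁻¹ * gs_emb ν.a (z .r)) * (z .wA1)⁻¹ *
      ((z .s)⁻¹ * (z .wA0)⁻¹ * z .s) := by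
  obtain ⟨s1, s2, s3, s4, s5⟩ := gls4_sizes hN
  unfold gls_R gls_HAm' gls_HAp
  rw [add_sub_cancel, gm_emb_inv hz.r.2 hz.r.1 s1]
  exact gls4_linkA hN hz

theorem gls_W_eq (hN : ν.m ≤ N) (hz : gr_SOk ν z) :
    1 + gls_W ν z = gs_emb ν.A ((gs_emb ν.b (z .v)⁻¹ * z .wB0 * gs_emb ν.b (z .v)) * z .wB1 *
      ((z .t)⁻¹ * z .wB2 * z .t)) := by
  obtain ⟨s1, s2, s3, s4, s5⟩ := gls4_sizes hN
  unfold gls_W gls_HBp' gls_HBm
  rw [add_sub_cancel, gm_emb_inv hz.v.2 hz.v.1 s2, gls4_linkB hN hz]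

/-- the three factors of `1 + R` -/
theorem gls4_uniA2 (hN : ν.m ≤ N) (hz : gr_SOk ν z) :
    gs_IsUni ν.A {0, ν.a, ν.A} ((gs_emb ν.a (z .r))⁻¹ * (z .wA2)⁻¹ * gs_emb ν.a (z .r)) := by
  obtain ⟨s1, s2, s3, s4, s5⟩ := gls4_sizes hN
  refine gm_bd_conj' (gm_bd_emb hz.r.2 (by omega) ?_) (gm_emb_isUnit hz.r.2 hz.r.1 s1) (gm_uni_inv hz.wA2)
  intro c hc
  simp only [Finset.mem_insert, Finset.mem_singleton] at hc
  omega

theorem gls4_uniA0 (hN : ν.m ≤ N) (hz : gr_SOk ν z) :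
    gs_IsUni ν.A {0, ν.a + ν.h, ν.A} ((z .s)⁻¹ * (z .wA0)⁻¹ * z .s) := by
  obtain ⟨s1, s2, s3, s4, s5⟩ := gls4_sizes hN
  have hbd : gr_IsBD ν.A {0, ν.a + ν.h, ν.A} (gs_emb 0 (z .s)) := by
    refine gm_bd_emb hz.s.2 (by omega) ?_
    intro c hc
    simp only [Finset.mem_insert, Finset.mem_singleton] at hc
    omega
  rw [gm_emb_zero] at hbd
  exact gm_bd_conj' hbd hz.s.1 (gm_uni_inv hz.wA0)

theorem gls4_uniB0 (hN : ν.m ≤ N) (hz : gr_SOk ν z) :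
    gs_IsUni ν.B {0, ν.b, ν.B} ((gs_emb ν.b (z .v))⁻¹ * z .wB0 * gs_emb ν.b (z .v)) := by
  obtain ⟨s1, s2, s3, s4, s5⟩ := gls4_sizes hN
  refine gm_bd_conj' (gm_bd_emb hz.v.2 (by omega) ?_) (gm_emb_isUnit hz.v.2 hz.v.1 s2) hz.wB0
  intro c hc
  simp only [Finset.mem_insert, Finset.mem_singleton] at hc
  omega

theorem gls4_uniB2 (hN : ν.m ≤ N) (hz : gr_SOk ν z) :
    gs_IsUni ν.B {0, ν.b + ν.h, ν.B} ((z .t)⁻¹ * z .wB2 * z .t) := by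
  obtain ⟨s1, s2, s3, s4, s5⟩ := gls4_sizes hN
  have hbd : gr_IsBD ν.B {0, ν.b + ν.h, ν.B} (gs_emb 0 (z .t)) := by
    refine gm_bd_emb hz.t.2 (by omega) ?_
    intro c hc
    simp only [Finset.mem_insert, Finset.mem_singleton] at hc
    omega
  rw [gm_emb_zero] at hbd
  exact gm_bd_conj' hbd hz.t.1 hz.wB2

theorem gls_R_pat (hN : ν.m ≤ N) (hz : gr_SOk ν z) : gls_Pat (gls_pi ν) gls_rR (gls_R ν z) := by
  obtain ⟨s1, s2, s3, s4, s5⟩ := gls4_sizes hN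
  have h := gls_R_eq hN hz
  rw [gm_emb_inv hz.r.2 hz.r.1 s1] at h
  have hu : gs_IsUni ν.A {0, ν.a, ν.a + ν.h, ν.A} (1 + gls_R ν z) := by
    rw [h]
    refine gm_uni_mul (gm_uni_mul (gm_uni_mono le_rfl ?_ (gls4_uniA2 hN hz)) (gm_uni_inv hz.wA1))
      (gm_uni_mono le_rfl ?_ (gls4_uniA0 hN hz))
    · intro c hc
      simp only [Finset.mem_insert, Finset.mem_singleton] at hc ⊢
      tauto
    · intro c hc
      simp only [Finset.mem_insert, Finset.mem_singleton] at hc ⊢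
      tauto
  have := gls_pat_uniR ν hu
  rwa [add_sub_cancel_left] at this

theorem gls_W_pat (hN : ν.m ≤ N) (hz : gr_SOk ν z) : gls_Pat (gls_pi ν) gls_rW (gls_W ν z) := by
  obtain ⟨s1, s2, s3, s4, s5⟩ := gls4_sizes hN
  have h := gls_W_eq hN hz
  rw [gm_emb_inv hz.v.2 hz.v.1 s2] at h
  have hu : gs_IsUni ν.B {0, ν.b, ν.b + ν.h, ν.B} (((gs_emb ν.b (z .v))⁻¹ * z .wB0 * gs_emb ν.b (z .v)) * z .wB1 *
      ((z .t)⁻¹ * z .wB2 * z .t)) := by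
    refine gm_uni_mul (gm_uni_mul (gm_uni_mono le_rfl ?_ (gls4_uniB0 hN hz)) hz.wB1)
      (gm_uni_mono le_rfl ?_ (gls4_uniB2 hN hz))
    · intro c hc
      simp only [Finset.mem_insert, Finset.mem_singleton] at hc ⊢
      tauto
    · intro c hc
      simp only [Finset.mem_insert, Finset.mem_singleton] at hc ⊢
      tauto
  have := gls_pat_uniW ν hu
  rwa [← h, add_sub_cancel_left] at this

/-- special data of the completeness recipe -/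
theorem gls_R_pat' (hN : ν.m ≤ N) (hz : gr_SOk ν z) (h1 : z .wA1 = 1) (h2 : z .wA2 = 1) :
    gls_Pat (gls_pi ν) (gls_pp [0, 1] [2]) (gls_R ν z) := by
  obtain ⟨s1, s2, s3, s4, s5⟩ := gls4_sizes hN
  have h := gls_R_eq hN hz
  rw [gm_emb_inv hz.r.2 hz.r.1 s1, h1, h2, inv_one, mul_one, mul_one,
    Matrix.nonsing_inv_mul _ (gm_emb_isUnit hz.r.2 hz.r.1 s1), one_mul] at h
  have := gls_pat_uniA0 ν (gls4_uniA0 hN hz)
  rwa [← h, add_sub_cancel_left] at this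

/-- special data of the completeness recipe -/
theorem gls_W_eq' (hN : ν.m ≤ N) (hz : gr_SOk ν z) (h0 : z .wB0 = 1) (h2 : z .wB2 = 1) :
    gls_W ν z = gs_emb ν.A (z .wB1) - 1 := by
  obtain ⟨s1, s2, s3, s4, s5⟩ := gls4_sizes hN
  have h := gls_W_eq hN hz
  rw [gm_emb_inv hz.v.2 hz.v.1 s2, h0, h2, mul_one, mul_one,
    Matrix.nonsing_inv_mul _ (gm_emb_isUnit hz.v.2 hz.v.1 s2), one_mul,
    Matrix.nonsing_inv_mul _ hz.t.1, mul_one] at h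
  rw [← h, add_sub_cancel_left]

end Claimed.Agent.R236
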