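import Mathlib
import Claimed.Agent.R236.GLocSA4

/-!
# Row 236, G-LOCS-A5: the fine bases `gls_Hm`, `gls_Hp`
-/

/-- block diagonal for (first | second) -/
abbrev Claimed.Agent.R236.gls_rBD : Fin 7 → Fin 7 → Bool := fun i j =>
  Claimed.Agent.R236.gls_rAA i j || Claimed.Agent.R236.gls_rBB i j

set_option autoImplicit false

namespace Claimed.Agent.R236

open Matrix

variable {N : ℕ} (ν : gr_SNum)

variable {ν} {z : gr_SIdx → gs_Mat N}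

/-! ## generic block diagonal products -/

theorem gls5_bd_mul {A B : ℕ} {X X' Y Y' : gs_Mat N} (hX' : gs_IsCorner A X')
    (hY : gs_IsCorner B Y) (hY' : gs_IsCorner B Y') (h : A + B ≤ N) :
    (X * gs_emb A Y) * (X' * gs_emb A Y') = (X * X') * gs_emb A (Y * Y') := by
  rw [gm_emb_mul hY hY' h]
  calc (X * gs_emb A Y) * (X' * gs_emb A Y') = X * (gs_emb A Y * X') * gs_emb A Y' := by
        simp only [Matrix.mul_assoc]
    _ = X * (X' * gs_emb A Y) * gs_emb A Y' := by rw [gm_emb_commute hX' le_rfl Y]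
    _ = _ := by simp only [Matrix.mul_assoc]

theorem gls5_bd_one {A B : ℕ} {X X' Y Y' : gs_Mat N} (hX' : gs_IsCorner A X')
    (hY : gs_IsCorner B Y) (hY' : gs_IsCorner B Y') (h : A + B ≤ N) (h1 : X * X' = 1)
    (h2 : Y * Y' = 1) : (X * gs_emb A Y) * (X' * gs_emb A Y') = 1 := by
  rw [gls5_bd_mul hX' hY hY' h, h1, h2, gm_emb_one, Matrix.one_mul]

theorem gls5_two_mul {X Y : gs_Mat N} (hX : IsUnit X.det) (hY : IsUnit Y.det) :
    (X * Y) * (Y⁻¹ * X⁻¹) = 1 := by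
  rw [Matrix.mul_assoc, ← Matrix.mul_assoc Y, Matrix.mul_nonsing_inv _ hY, Matrix.one_mul,
    Matrix.mul_nonsing_inv _ hX]

theorem gls5_two_mul' {X Y : gs_Mat N} (hX : IsUnit X.det) (hY : IsUnit Y.det) :
    (Y⁻¹ * X⁻¹) * (X * Y) = 1 := by
  rw [Matrix.mul_assoc, ← Matrix.mul_assoc X⁻¹, Matrix.nonsing_inv_mul _ hX, Matrix.one_mul,
    Matrix.nonsing_inv_mul _ hY]

/-! ## sizes -/

theorem gls5_AB (hN : ν.m ≤ N) : ν.A + ν.B ≤ N := hN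

theorem gls5_ahx (hN : ν.m ≤ N) : ν.a + (ν.h + ν.x) ≤ N := by
  unfold gr_SNum.m gr_SNum.A gr_SNum.B at hN
  omega

theorem gls5_bhy (hN : ν.m ≤ N) : ν.b + (ν.h + ν.y) ≤ N := by
  unfold gr_SNum.m gr_SNum.A gr_SNum.B at hN
  omega

/-! ## the four small bases -/

theorem gls5_er_corner (hz : gr_SOk ν z) : gs_IsCorner ν.A (gs_emb ν.a (z .r)) := by
  have := gm_emb_corner ν.a hz.r.2
  rwa [← Nat.add_assoc] at this

theorem gls5_er_corner' (hz : gr_SOk ν z) : gs_IsCorner ν.A (gs_emb ν.a (z .r)⁻¹) := by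
  have := gm_emb_corner ν.a (gm_corner_inv hz.r.2 hz.r.1)
  rwa [← Nat.add_assoc] at this

theorem gls5_ev_corner (hz : gr_SOk ν z) : gs_IsCorner ν.B (gs_emb ν.b (z .v)) := by
  have := gm_emb_corner ν.b hz.v.2
  rwa [← Nat.add_assoc] at this

theorem gls5_ev_corner' (hz : gr_SOk ν z) : gs_IsCorner ν.B (gs_emb ν.b (z .v)⁻¹) := by
  have := gm_emb_corner ν.b (gm_corner_inv hz.v.2 hz.v.1)
  rwa [← Nat.add_assoc] at this

theorem gls5_s_corner (hz : gr_SOk ν z) : gs_IsCorner ν.A (z .s) :=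
  gm_corner_mono (by unfold gr_SNum.A; omega) hz.s.2

theorem gls5_t_corner (hz : gr_SOk ν z) : gs_IsCorner ν.B (z .t) :=
  gm_corner_mono (by unfold gr_SNum.B; omega) hz.t.2

theorem gls5_HAm_corner (hz : gr_SOk ν z) : gs_IsCorner ν.A (gls_HAm ν z) :=
  gm_corner_mul hz.hAm.2 (gls5_er_corner hz)

theorem gls5_HAm_corner' (hz : gr_SOk ν z) : gs_IsCorner ν.A (gls_HAm' ν z) :=
  gm_corner_mul (gls5_er_corner' hz) (gm_corner_inv hz.hAm.2 hz.hAm.1)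

theorem gls5_HAp_corner (hz : gr_SOk ν z) : gs_IsCorner ν.A (gls_HAp z) :=
  gm_corner_mul hz.hAp.2 (gls5_s_corner hz)

theorem gls5_HAp_corner' (hz : gr_SOk ν z) : gs_IsCorner ν.A (gls_HAp' z) :=
  gm_corner_mul (gm_corner_inv (gls5_s_corner hz) hz.s.1) (gm_corner_inv hz.hAp.2 hz.hAp.1)

theorem gls5_HBm_corner (hz : gr_SOk ν z) : gs_IsCorner ν.B (gls_HBm z) :=
  gm_corner_mul hz.hBm.2 (gls5_t_corner hz)

theorem gls5_HBm_corner' (hz : gr_SOk ν z) : gs_IsCorner ν.B (gls_HBm' z) :=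
  gm_corner_mul (gm_corner_inv (gls5_t_corner hz) hz.t.1) (gm_corner_inv hz.hBm.2 hz.hBm.1)

theorem gls5_HBp_corner (hz : gr_SOk ν z) : gs_IsCorner ν.B (gls_HBp ν z) :=
  gm_corner_mul hz.hBp.2 (gls5_ev_corner hz)

theorem gls5_HBp_corner' (hz : gr_SOk ν z) : gs_IsCorner ν.B (gls_HBp' ν z) :=
  gm_corner_mul (gls5_ev_corner' hz) (gm_corner_inv hz.hBp.2 hz.hBp.1)

theorem gls5_HAm_mul (hN : ν.m ≤ N) (hz : gr_SOk ν z) : gls_HAm ν z * gls_HAm' ν z = 1 := by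
  unfold gls_HAm gls_HAm'
  rw [gm_emb_inv hz.r.2 hz.r.1 (gls5_ahx hN)]
  exact gls5_two_mul hz.hAm.1 (gm_emb_isUnit hz.r.2 hz.r.1 (gls5_ahx hN))

theorem gls5_HAm_mul' (hN : ν.m ≤ N) (hz : gr_SOk ν z) : gls_HAm' ν z * gls_HAm ν z = 1 := by
  unfold gls_HAm gls_HAm'
  rw [gm_emb_inv hz.r.2 hz.r.1 (gls5_ahx hN)]
  exact gls5_two_mul' hz.hAm.1 (gm_emb_isUnit hz.r.2 hz.r.1 (gls5_ahx hN))

theorem gls5_HAp_mul (hz : gr_SOk ν z) : gls_HAp z * gls_HAp' z = 1 :=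
  gls5_two_mul hz.hAp.1 hz.s.1

theorem gls5_HAp_mul' (hz : gr_SOk ν z) : gls_HAp' z * gls_HAp z = 1 :=
  gls5_two_mul' hz.hAp.1 hz.s.1

theorem gls5_HBm_mul (hz : gr_SOk ν z) : gls_HBm z * gls_HBm' z = 1 :=
  gls5_two_mul hz.hBm.1 hz.t.1

theorem gls5_HBm_mul' (hz : gr_SOk ν z) : gls_HBm' z * gls_HBm z = 1 :=
  gls5_two_mul' hz.hBm.1 hz.t.1

theorem gls5_HBp_mul (hN : ν.m ≤ N) (hz : gr_SOk ν z) : gls_HBp ν z * gls_HBp' ν z = 1 := by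
  unfold gls_HBp gls_HBp'
  rw [gm_emb_inv hz.v.2 hz.v.1 (gls5_bhy hN)]
  exact gls5_two_mul hz.hBp.1 (gm_emb_isUnit hz.v.2 hz.v.1 (gls5_bhy hN))

theorem gls5_HBp_mul' (hN : ν.m ≤ N) (hz : gr_SOk ν z) : gls_HBp' ν z * gls_HBp ν z = 1 := by
  unfold gls_HBp gls_HBp'
  rw [gm_emb_inv hz.v.2 hz.v.1 (gls5_bhy hN)]
  exact gls5_two_mul' hz.hBp.1 (gm_emb_isUnit hz.v.2 hz.v.1 (gls5_bhy hN))

/-! ## the fine bases -/

theorem gls_Hm_mul (hN : ν.m ≤ N) (hz : gr_SOk ν z) : gls_Hm ν z * gls_Hm' ν z = 1 :=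
  gls5_bd_one (gls5_HAm_corner' hz) (gls5_HBm_corner hz) (gls5_HBm_corner' hz) (gls5_AB hN)
    (gls5_HAm_mul hN hz) (gls5_HBm_mul hz)

theorem gls_Hm_mul' (hN : ν.m ≤ N) (hz : gr_SOk ν z) : gls_Hm' ν z * gls_Hm ν z = 1 :=
  gls5_bd_one (gls5_HAm_corner hz) (gls5_HBm_corner' hz) (gls5_HBm_corner hz) (gls5_AB hN)
    (gls5_HAm_mul' hN hz) (gls5_HBm_mul' hz)

theorem gls_Hp_mul (hN : ν.m ≤ N) (hz : gr_SOk ν z) : gls_Hp ν z * gls_Hp' ν z = 1 :=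
  gls5_bd_one (gls5_HAp_corner' hz) (gls5_HBp_corner hz) (gls5_HBp_corner' hz) (gls5_AB hN)
    (gls5_HAp_mul hz) (gls5_HBp_mul hN hz)

theorem gls_Hp_mul' (hN : ν.m ≤ N) (hz : gr_SOk ν z) : gls_Hp' ν z * gls_Hp ν z = 1 :=
  gls5_bd_one (gls5_HAp_corner hz) (gls5_HBp_corner' hz) (gls5_HBp_corner hz) (gls5_AB hN)
    (gls5_HAp_mul' hz) (gls5_HBp_mul' hN hz)

/-- pattern of a block diagonal matrix -/
theorem gls5_bd_pat {X Y : gs_Mat N} (hX : gs_IsCorner ν.A X) (hY : gs_IsCorner ν.B Y) :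
    gls_Pat (gls_pi ν) gls_rBD (X * gs_emb ν.A Y - 1) := by
  have e : X * gs_emb ν.A Y - 1 = (X - 1) * (gs_emb ν.A Y - 1) + (X - 1) + (gs_emb ν.A Y - 1) := by
    noncomm_ring
  rw [e]
  have h1 := gls_pat_cornerA ν hX
  have h2 := gls_pat_embB ν hY
  exact ((gls_Pat.mul (τ := gls_rBD) (gls_idem ν) h1 h2 (by decide)).add
    (h1.mono (by decide))).add (h2.mono (by decide))

theorem gls_Hm_pat (hN : ν.m ≤ N) (hz : gr_SOk ν z) :
    gls_Pat (gls_pi ν) gls_rBD (gls_Hm ν z - 1) :=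
  gls5_bd_pat (gls5_HAm_corner hz) (gls5_HBm_corner hz)

theorem gls_Hm_pat' (hN : ν.m ≤ N) (hz : gr_SOk ν z) :
    gls_Pat (gls_pi ν) gls_rBD (gls_Hm' ν z - 1) :=
  gls5_bd_pat (gls5_HAm_corner' hz) (gls5_HBm_corner' hz)

theorem gls_Hp_pat (hN : ν.m ≤ N) (hz : gr_SOk ν z) :
    gls_Pat (gls_pi ν) gls_rBD (gls_Hp ν z - 1) :=
  gls5_bd_pat (gls5_HAp_corner hz) (gls5_HBp_corner hz)

theorem gls_Hp_pat' (hN : ν.m ≤ N) (hz : gr_SOk ν z) :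
    gls_Pat (gls_pi ν) gls_rBD (gls_Hp' ν z - 1) :=
  gls5_bd_pat (gls5_HAp_corner' hz) (gls5_HBp_corner' hz)

/-- the second factor of the transition matrix -/
theorem gls5_P_eq (hN : ν.m ≤ N) (hz : gr_SOk ν z) :
    gs_emb ν.A (gls_HBm' z * gls_HBp ν z) = gls_P (gls_pi ν) (gls_W ν z) := by
  have hπ : gls_Idem (gls_pi ν : Fin 7 → gs_Mat N) := gls_idem ν
  have h1 : gls_P (gls_pi ν) (gls_W ν z) * (1 + gls_W ν z) = 1 := by
    have := gls_P_left (gls_W ν z) hπ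
    rwa [gls_Ws_eq (gls_W ν z) hπ (gls_W_pat hN hz)] at this
  have h2 : (1 + gls_W ν z) * gs_emb ν.A (gls_HBm' z * gls_HBp ν z) = 1 := by
    have e : 1 + gls_W ν z = gs_emb ν.A (gls_HBp' ν z * gls_HBm z) := by
      unfold gls_W
      abel
    rw [e, ← gm_emb_mul (gm_corner_mul (gls5_HBp_corner' hz) (gls5_HBm_corner hz))
      (gm_corner_mul (gls5_HBm_corner' hz) (gls5_HBp_corner hz)) (gls5_AB hN)]
    have e2 : gls_HBp' ν z * gls_HBm z * (gls_HBm' z * gls_HBp ν z) = 1 := by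
      rw [Matrix.mul_assoc, ← Matrix.mul_assoc (gls_HBm z), gls5_HBm_mul hz, Matrix.one_mul,
        gls5_HBp_mul' hN hz]
    rw [e2, gm_emb_one]
  calc gs_emb ν.A (gls_HBm' z * gls_HBp ν z)
      = (gls_P (gls_pi ν) (gls_W ν z) * (1 + gls_W ν z)) *
          gs_emb ν.A (gls_HBm' z * gls_HBp ν z) := by rw [h1, Matrix.one_mul]
    _ = gls_P (gls_pi ν) (gls_W ν z) := by rw [Matrix.mul_assoc, h2, Matrix.mul_one]

/-- the transition matrix (use `gls_P_left`, `gls_Ws_eq`, `gls_W_pat`) -/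
theorem gls_HmHp (hN : ν.m ≤ N) (hz : gr_SOk ν z) :
    gls_Hm' ν z * gls_Hp ν z = (1 + gls_R ν z) * gls_P (gls_pi ν) (gls_W ν z) := by
  unfold gls_Hm' gls_Hp
  rw [gls5_bd_mul (gls5_HAp_corner hz) (gls5_HBm_corner' hz) (gls5_HBp_corner hz) (gls5_AB hN),
    gls5_P_eq hN hz]
  congr 1
  unfold gls_R
  abel

end Claimed.Agent.R236
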