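import Mathlib
import Claimed.Agent.R236.GLocSA2

/-!
# Row 236, G-LOCS-A6: the adapted bases `gr_S_Dm`, `gr_S_Dp` in terms of the fine bases
(use `gm_swap_conj_emb_first/second`, `gm_emb_commute`, `gm_emb_mul`, `gls_sh_cb`, `gls_sh_ca'`)
-/

set_option autoImplicit false

namespace Claimed.Agent.R236

open Matrix

variable {N : ℕ} (ν : gr_SNum)

variable {ν} {z : gr_SIdx → gs_Mat N}

/-- moving a swap matrix to the right of a matrix embedded at the offset -/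
theorem gls6_swap_first {o a b : ℕ} {Y : gs_Mat N} (hY : gs_IsCorner b Y) (h : o + a + b ≤ N) :
    (gs_swapMat o a b : gs_Mat N) * gs_emb o Y = gs_emb (o + a) Y * gs_swapMat o a b := by
  rw [← gm_swap_conj_emb_first hY h, Matrix.mul_assoc _ (gs_swapMat o b a),
    gm_swap_mul_swap (by omega), Matrix.mul_one]

theorem gls6_swap_second {o a b : ℕ} {X : gs_Mat N} (hX : gs_IsCorner a X) (h : o + a + b ≤ N) :
    (gs_swapMat o a b : gs_Mat N) * gs_emb (o + b) X = gs_emb o X * gs_swapMat o a b := by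
  rw [← gm_swap_conj_emb_second hX h, Matrix.mul_assoc _ (gs_swapMat o b a),
    gm_swap_mul_swap (by omega), Matrix.mul_one]

theorem gls_Dm_eq (hN : ν.m ≤ N) (hz : gr_SOk ν z) :
    gr_S_Dm ν z * gls_tm ν z = gls_Hm ν z * gls_Sm ν := by
  have hm : ν.m = ν.a + ν.h + ν.x + (ν.b + ν.h + ν.y) := rfl
  have hA : ν.A = ν.a + (ν.h + ν.x) := by unfold gr_SNum.A; omega
  have hB : ν.B = ν.b + ν.h + ν.y := rfl
  have hkm : ν.km = ν.a + (ν.b + ν.h) := by unfold gr_SNum.km; omega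
  have hS : (gls_Sm ν : gs_Mat N) = gs_swapMat ν.a (ν.h + ν.x) (ν.b + ν.h) := rfl
  have e1 : (gls_Sm ν : gs_Mat N) * gs_emb ν.a (z .t) = gs_emb ν.A (z .t) * gls_Sm ν := by
    rw [hS, hA]; exact gls6_swap_first hz.t.2 (by omega)
  have e2 : (gls_Sm ν : gs_Mat N) * gs_emb ν.km (z .r) = gs_emb ν.a (z .r) * gls_Sm ν := by
    rw [hS, hkm]; exact gls6_swap_second hz.r.2 (by omega)
  have cr : gs_IsCorner ν.A (gs_emb ν.a (z .r)) := by rw [hA]; exact gm_emb_corner _ hz.r.2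
  have e3 : gs_emb ν.A (z .hBm * z .t) = gs_emb ν.A (z .hBm) * gs_emb ν.A (z .t) :=
    gm_emb_mul hz.hBm.2 (gm_corner_mono (by omega) hz.t.2) (by omega)
  unfold gr_S_Dm gr_S_dm gls_tm gls_Hm gls_HAm gls_HBm
  rw [gls_sh_cb, e3]
  calc z .hAm * gs_emb ν.A (z .hBm) * gls_Sm ν * (gs_emb ν.a (z .t) * gs_emb ν.km (z .r))
      = z .hAm * gs_emb ν.A (z .hBm) * ((gls_Sm ν * gs_emb ν.a (z .t)) * gs_emb ν.km (z .r)) := by
        simp only [Matrix.mul_assoc]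
    _ = z .hAm * gs_emb ν.A (z .hBm) * (gs_emb ν.A (z .t) * (gls_Sm ν * gs_emb ν.km (z .r))) := by
        rw [e1]; simp only [Matrix.mul_assoc]
    _ = z .hAm * ((gs_emb ν.A (z .hBm) * gs_emb ν.A (z .t)) * gs_emb ν.a (z .r)) * gls_Sm ν := by
        rw [e2]; simp only [Matrix.mul_assoc]
    _ = z .hAm * (gs_emb ν.a (z .r) * (gs_emb ν.A (z .hBm) * gs_emb ν.A (z .t))) * gls_Sm ν := by
        rw [← e3, gm_emb_commute cr le_rfl]
    _ = _ := by simp only [Matrix.mul_assoc]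

theorem gls_Dp_eq (hN : ν.m ≤ N) (hz : gr_SOk ν z) :
    gls_Sg ν * gr_S_Dp ν z * gls_tp ν z = gls_Hp ν z * gls_Sp ν := by
  have hm : ν.m = ν.a + ν.h + ν.x + (ν.b + ν.h + ν.y) := rfl
  have hA : ν.A = ν.a + ν.h + ν.x := rfl
  have hB : ν.B = ν.b + (ν.h + ν.y) := by unfold gr_SNum.B; omega
  have hkm : ν.km = ν.b + (ν.a + ν.h) := by unfold gr_SNum.km; omega
  obtain ⟨T, hT⟩ : ∃ T : gs_Mat N, T = gs_swapMat ν.b (ν.h + ν.y) (ν.a + ν.h) := ⟨_, rfl⟩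
  have hSg : (gls_Sg ν : gs_Mat N) = gs_swapMat 0 ν.A ν.B := rfl
  -- the shuffle
  have e1 : T * gs_emb ν.b (z .s) = gs_emb ν.B (z .s) * T := by
    rw [hT, hB]; exact gls6_swap_first hz.s.2 (by omega)
  have e2 : T * gs_emb ν.km (z .v) = gs_emb ν.b (z .v) * T := by
    rw [hT, hkm]; exact gls6_swap_second hz.v.2 (by omega)
  -- the letter
  have f1 : ∀ Y : gs_Mat N, gs_IsCorner ν.B Y → gls_Sg ν * Y = gs_emb ν.A Y * gls_Sg ν := by
    intro Y hY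
    have := gls6_swap_first (o := 0) (a := ν.A) hY (by omega)
    rw [gm_emb_zero, Nat.zero_add] at this
    exact this
  have f2 : ∀ X : gs_Mat N, gs_IsCorner ν.A X → gls_Sg ν * gs_emb ν.B X = X * gls_Sg ν := by
    intro X hX
    have := gls6_swap_second (o := 0) (b := ν.B) hX (by omega)
    rw [gm_emb_zero, Nat.zero_add] at this
    exact this
  have cs : gs_IsCorner ν.A (z .s) := gm_corner_mono (by omega) hz.s.2
  have cv : gs_IsCorner ν.B (gs_emb ν.b (z .v)) := by rw [hB]; exact gm_emb_corner _ hz.v.2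
  have e3 : gs_emb ν.A (z .hBp * gs_emb ν.b (z .v)) =
      gs_emb ν.A (z .hBp) * gs_emb ν.A (gs_emb ν.b (z .v)) :=
    gm_emb_mul hz.hBp.2 cv (by omega)
  unfold gr_S_Dp gr_S_dp gls_tp gls_Hp gls_HAp gls_HBp
  rw [← gls_sh_ca ν hN, gls_sh_ca', ← hT, e3]
  calc gls_Sg ν * (z .hBp * gs_emb ν.B (z .hAp) * T) * (gs_emb ν.b (z .s) * gs_emb ν.km (z .v))
      = (gls_Sg ν * z .hBp) * gs_emb ν.B (z .hAp) * ((T * gs_emb ν.b (z .s)) * gs_emb ν.km (z .v)) := by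
        simp only [Matrix.mul_assoc]
    _ = gs_emb ν.A (z .hBp) * (gls_Sg ν * gs_emb ν.B (z .hAp)) *
          (gs_emb ν.B (z .s) * (T * gs_emb ν.km (z .v))) := by
        rw [f1 _ hz.hBp.2, e1]; simp only [Matrix.mul_assoc]
    _ = gs_emb ν.A (z .hBp) * z .hAp * ((gls_Sg ν * gs_emb ν.B (z .s)) * gs_emb ν.b (z .v)) * T := by
        rw [f2 _ hz.hAp.2, e2]; simp only [Matrix.mul_assoc]
    _ = gs_emb ν.A (z .hBp) * z .hAp * z .s * (gls_Sg ν * gs_emb ν.b (z .v)) * T := by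
        rw [f2 _ cs]; simp only [Matrix.mul_assoc]
    _ = (gs_emb ν.A (z .hBp) * (z .hAp * z .s)) * gs_emb ν.A (gs_emb ν.b (z .v)) * gls_Sg ν * T := by
        rw [f1 _ cv]; simp only [Matrix.mul_assoc]
    _ = ((z .hAp * z .s) * gs_emb ν.A (z .hBp)) * gs_emb ν.A (gs_emb ν.b (z .v)) * gls_Sg ν * T := by
        rw [gm_emb_commute (gm_corner_mul hz.hAp.2 cs) le_rfl]
    _ = _ := by simp only [Matrix.mul_assoc]

theorem gls_tp_mul (hN : ν.m ≤ N) (hz : gr_SOk ν z) : gls_tp ν z * gls_tp' ν z = 1 := by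
  have hm : ν.m = ν.a + ν.h + ν.x + (ν.b + ν.h + ν.y) := rfl
  have hkm : ν.km = ν.b + (ν.a + ν.h) := by unfold gr_SNum.km; omega
  have cs : gs_IsCorner ν.km (gs_emb ν.b (z .s)⁻¹) := by
    rw [hkm]; exact gm_emb_corner _ (gm_corner_inv hz.s.2 hz.s.1)
  have e1 : gs_emb ν.b (z .s) * gs_emb ν.b (z .s)⁻¹ = 1 := by
    rw [← gm_emb_mul hz.s.2 (gm_corner_inv hz.s.2 hz.s.1) (by omega),
      Matrix.mul_nonsing_inv _ hz.s.1, gm_emb_one]
  have e2 : gs_emb ν.km (z .v) * gs_emb ν.km (z .v)⁻¹ = 1 := by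
    rw [← gm_emb_mul hz.v.2 (gm_corner_inv hz.v.2 hz.v.1) (by omega),
      Matrix.mul_nonsing_inv _ hz.v.1, gm_emb_one]
  unfold gls_tp gls_tp'
  calc gs_emb ν.b (z .s) * gs_emb ν.km (z .v) * (gs_emb ν.b (z .s)⁻¹ * gs_emb ν.km (z .v)⁻¹)
      = gs_emb ν.b (z .s) * (gs_emb ν.km (z .v) * gs_emb ν.b (z .s)⁻¹) * gs_emb ν.km (z .v)⁻¹ := by
        simp only [Matrix.mul_assoc]
    _ = (gs_emb ν.b (z .s) * gs_emb ν.b (z .s)⁻¹) * (gs_emb ν.km (z .v) * gs_emb ν.km (z .v)⁻¹) := by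
        rw [← gm_emb_commute cs le_rfl]; simp only [Matrix.mul_assoc]
    _ = 1 := by rw [e1, e2, Matrix.mul_one]

/-- the block diagonal part before, in terms of the fine basis -/
theorem gls_Hm_eq (hN : ν.m ≤ N) (hz : gr_SOk ν z) :
    gls_Hm ν z = gr_S_dm ν z * (gs_emb ν.a (z .r) * gs_emb ν.A (z .t)) := by
  have hm : ν.m = ν.a + ν.h + ν.x + (ν.b + ν.h + ν.y) := rfl
  have hA : ν.A = ν.a + (ν.h + ν.x) := by unfold gr_SNum.A; omega
  have hB : ν.B = ν.b + ν.h + ν.y := rfl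
  have cr : gs_IsCorner ν.A (gs_emb ν.a (z .r)) := by rw [hA]; exact gm_emb_corner _ hz.r.2
  have e3 : gs_emb ν.A (z .hBm * z .t) = gs_emb ν.A (z .hBm) * gs_emb ν.A (z .t) :=
    gm_emb_mul hz.hBm.2 (gm_corner_mono (by omega) hz.t.2) (by omega)
  unfold gr_S_dm gls_Hm gls_HAm gls_HBm
  rw [e3]
  calc z .hAm * gs_emb ν.a (z .r) * (gs_emb ν.A (z .hBm) * gs_emb ν.A (z .t))
      = z .hAm * (gs_emb ν.a (z .r) * gs_emb ν.A (z .hBm)) * gs_emb ν.A (z .t) := by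
        simp only [Matrix.mul_assoc]
    _ = _ := by rw [gm_emb_commute cr le_rfl]; simp only [Matrix.mul_assoc]

theorem gls_Hm_eq' (hN : ν.m ≤ N) (hz : gr_SOk ν z) :
    gls_Hm' ν z = (gs_emb ν.A (z .t)⁻¹ * gs_emb ν.a (z .r)⁻¹) * (gr_S_dm ν z)⁻¹ := by
  have hm : ν.m = ν.a + ν.h + ν.x + (ν.b + ν.h + ν.y) := rfl
  have hA : ν.A = ν.a + (ν.h + ν.x) := by unfold gr_SNum.A; omega
  have hB : ν.B = ν.b + ν.h + ν.y := rfl
  have cr : gs_IsCorner ν.A (gs_emb ν.a (z .r)⁻¹) := by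
    rw [hA]; exact gm_emb_corner _ (gm_corner_inv hz.r.2 hz.r.1)
  have ch : gs_IsCorner ν.A (z .hAm)⁻¹ := gm_corner_inv hz.hAm.2 hz.hAm.1
  have e3 : gs_emb ν.A ((z .t)⁻¹ * (z .hBm)⁻¹) = gs_emb ν.A (z .t)⁻¹ * gs_emb ν.A (z .hBm)⁻¹ :=
    gm_emb_mul (gm_corner_mono (by omega) (gm_corner_inv hz.t.2 hz.t.1))
      (gm_corner_inv hz.hBm.2 hz.hBm.1) (by omega)
  unfold gr_S_dm gls_Hm' gls_HAm' gls_HBm'
  rw [e3, Matrix.mul_inv_rev, ← gm_emb_inv hz.hBm.2 hz.hBm.1 (by omega)]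
  calc gs_emb ν.a (z .r)⁻¹ * (z .hAm)⁻¹ * (gs_emb ν.A (z .t)⁻¹ * gs_emb ν.A (z .hBm)⁻¹)
      = ((gs_emb ν.a (z .r)⁻¹ * (z .hAm)⁻¹) * gs_emb ν.A (z .t)⁻¹) * gs_emb ν.A (z .hBm)⁻¹ := by
        simp only [Matrix.mul_assoc]
    _ = gs_emb ν.A (z .t)⁻¹ * gs_emb ν.a (z .r)⁻¹ * ((z .hAm)⁻¹ * gs_emb ν.A (z .hBm)⁻¹) := by
        rw [gm_emb_commute (gm_corner_mul cr ch) le_rfl]; simp only [Matrix.mul_assoc]
    _ = _ := by rw [gm_emb_commute ch le_rfl]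

end Claimed.Agent.R236
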