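import Mathlib
import Claimed.Agent.R236.GLocSDef
import Claimed.Agent.R236.GColorA

/-!
# Row 236, G-LOCS-A7: the gadget values (use `gc_diag_mul`, `gm_emb_mul`, `gm_emb_swap`, corners)
-/

set_option autoImplicit false

namespace Claimed.Agent.R236

open Matrix

variable {N : ℕ} (ν : gr_SNum)

variable {ν} {z : gr_SIdx → gs_Mat N}

theorem gls_X_eq (hN : ν.m ≤ N) (hz : gr_SOk ν z) :
    gls_tm ν z * ((z .c0 * gs_emb ν.km (z .e0 * gls_Lam ν * z .e1)) *
        (gs_swapMat 0 ν.a ν.b * gs_swapMat (ν.km + ν.h) ν.x ν.y) *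
        (z .c1 * gs_emb ν.km (z .e2))) * gls_tp' ν z =
      gr_S_XU ν z * gs_emb ν.km (gr_S_XQ ν z) := by
  have em : ν.m = ν.a + ν.h + ν.x + (ν.b + ν.h + ν.y) := rfl
  have ek : ν.km = ν.a + ν.b + ν.h := rfl
  have hkn : ν.km ≤ ν.m := by omega
  have hq : ν.m - ν.km = ν.h + ν.x + ν.y := by omega
  -- corners of size `km`
  have u2 : gs_IsCorner ν.km (z .c0) := gm_uni_corner hz.c0
  have u3 : gs_IsCorner ν.km (gs_swapMat 0 ν.a ν.b : gs_Mat N) :=
    gm_corner_mono (by omega) (gm_swap_corner 0 ν.a ν.b)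
  have u4 : gs_IsCorner ν.km (z .c1) := gm_uni_corner hz.c1
  have u5 : gs_IsCorner ν.km (gs_emb ν.b (z .s)⁻¹) :=
    gm_corner_mono (by omega) (gm_emb_corner ν.b (gm_corner_inv hz.s.2 hz.s.1))
  -- corners of size `m - km`
  have q1 : gs_IsCorner (ν.m - ν.km) (z .r) := gm_corner_mono (by omega) hz.r.2
  have qe0 : gs_IsCorner (ν.m - ν.km) (z .e0) := gm_uni_corner hz.e0
  have qL : gs_IsCorner (ν.m - ν.km) (gls_Lam ν : gs_Mat N) := by
    intro i j hij
    unfold gls_Lam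
    by_cases e : i = j
    · subst e
      rw [Matrix.diagonal_apply_eq, Matrix.one_apply_eq, if_neg (by omega)]
    · rw [Matrix.diagonal_apply_ne _ e, Matrix.one_apply_ne e]
  have qe1 : gs_IsCorner (ν.m - ν.km) (z .e1) := gm_uni_corner hz.e1
  have q2 : gs_IsCorner (ν.m - ν.km) (z .e0 * gls_Lam ν * z .e1) :=
    gm_corner_mul (gm_corner_mul qe0 qL) qe1
  have q3 : gs_IsCorner (ν.m - ν.km) (gs_swapMat ν.h ν.x ν.y : gs_Mat N) :=
    gm_corner_mono (by omega) (gm_swap_corner ν.h ν.x ν.y)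
  have q4 : gs_IsCorner (ν.m - ν.km) (z .e2) := gm_uni_corner hz.e2
  have q5 : gs_IsCorner (ν.m - ν.km) (z .v)⁻¹ :=
    gm_corner_mono (by omega) (gm_corner_inv hz.v.2 hz.v.1)
  have q23 := gm_corner_mul q2 q3
  have q234 := gm_corner_mul q23 q4
  have u23 := gm_corner_mul u2 u3
  have u234 := gm_corner_mul u23 u4
  have q1234 := gm_corner_mul q1 q234
  unfold gls_tm gls_tp'
  rw [← gm_emb_swap ν.km ν.h ν.x ν.y, gc_diag_mul hkn hN q2 u3 q3, gc_diag_mul hkn hN q23 u4 q4,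
    gc_diag_mul hkn hN q1 u234 q234, gc_diag_mul hkn hN q1234 u5 q5]
  unfold gr_S_XU gr_S_XQ gls_Lam
  simp only [Matrix.mul_assoc]

end Claimed.Agent.R236
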