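import Mathlib
import Claimed.Agent.R236.GLocSA2
import Claimed.Agent.R236.GColorA

/-!
# Row 236, G-LOCS-A8: from patterns back to `gs_IsUni`, `gr_IsUQ`
-/

set_option autoImplicit false

namespace Claimed.Agent.R236

open Matrix

variable {N : ℕ} (ν : gr_SNum)

/-! ## label arithmetic -/

theorem gls8_lab_A {r : ℕ} (h : gls_lab ν r ∈ ([0, 1, 2] : List (Fin 7))) : r < ν.A := by
  unfold gls_lab at h
  unfold gr_SNum.A
  split_ifs at h <;> first | omega | (exact absurd h (by decide))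

theorem gls8_lab_B {r : ℕ} (h : gls_lab ν r ∈ ([3, 4, 5] : List (Fin 7))) : ν.A ≤ r ∧ r < ν.m := by
  unfold gls_lab at h
  unfold gr_SNum.m gr_SNum.A gr_SNum.B
  split_ifs at h <;> first | omega | (exact absurd h (by decide))

theorem gls8_labm_U {r : ℕ} (h : gls_labm ν r ∈ ([0, 3, 4] : List (Fin 7))) : r < ν.km := by
  unfold gls_labm at h
  unfold gr_SNum.km
  split_ifs at h <;> first | omega | (exact absurd h (by decide))

theorem gls8_labp_Q {r : ℕ} (h : gls_labp ν r ∈ ([4, 2, 5] : List (Fin 7))) : ν.km ≤ r ∧ r < ν.m := by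
  unfold gls_labp at h
  unfold gr_SNum.m gr_SNum.A gr_SNum.B gr_SNum.km
  split_ifs at h <;> first | omega | (exact absurd h (by decide))

theorem gls8_pp {I J : List (Fin 7)} {i j : Fin 7} (h : gls_pp I J i j = true) : i ∈ I ∧ j ∈ J := by
  unfold gls_pp at h
  rw [Bool.and_eq_true, decide_eq_true_eq, decide_eq_true_eq] at h
  exact h

variable {ν}

theorem gls_uni_of_AB {X : gs_Mat N} (h : gls_Pat (gls_pi ν) gls_rAB X) :
    gs_IsUni ν.m {0, ν.A, ν.m} (1 + X) := by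
  refine gm_uni_one_add fun i j hij => ?_
  obtain ⟨h1, h2⟩ := gls8_pp ((gls_pat_iff ν _ X).1 h i j hij)
  have h3 := gls8_lab_A ν h1
  obtain ⟨h4, h5⟩ := gls8_lab_B ν h2
  exact ⟨h5, ν.A, by simp, h3, h4⟩

theorem gls_uni_of_BA (hN : ν.m ≤ N) {X : gs_Mat N} (h : gls_Pat (gls_pi ν) gls_rBA X) :
    gs_IsUni ν.m {0, ν.B, ν.m} ((gls_Sg ν)ᵀ * (1 + X) * gls_Sg ν) := by
  have e : (gls_Sg ν)ᵀ * (1 + X) * gls_Sg ν = 1 + (gls_Sg ν)ᵀ * X * gls_Sg ν := by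
    rw [Matrix.mul_add, Matrix.add_mul, Matrix.mul_one, gls_Sg_mul' ν hN]
  rw [e]
  refine gm_uni_one_add ?_
  have hS : gm_Sup (fun r c => gs_swapFn 0 ν.A ν.B r = c) (gls_Sg ν : gs_Mat N) := by
    intro r c hrc
    by_contra hne
    exact hrc (if_neg hne)
  have hX : gm_Sup (fun r s => (ν.A ≤ r ∧ r < ν.m) ∧ s < ν.A) X := by
    intro r s hrs
    obtain ⟨h1, h2⟩ := gls8_pp ((gls_pat_iff ν _ X).1 h r s hrs)
    exact ⟨gls8_lab_B ν h1, gls8_lab_A ν h2⟩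
  refine gm_sup_mul (r := fun i s => i < ν.B ∧ s < ν.A) ?_
    (gm_sup_mul (t := fun i s => i < ν.B ∧ s < ν.A) ?_ (gm_sup_transpose hS) hX) hS
  · intro i s j h1 h2
    unfold gs_swapFn at h2
    unfold gr_SNum.m
    refine ⟨?_, ν.B, by simp, h1.1, ?_⟩
    · split_ifs at h2 <;> omega
    · split_ifs at h2 <;> omega
  · intro i r s h1 h2
    unfold gs_swapFn at h1
    unfold gr_SNum.m at h2
    refine ⟨?_, h2.2⟩
    split_ifs at h1 <;> omega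

theorem gls_UQ_of_FB (hN : ν.m ≤ N) {b : gs_Mat N} (h : gls_Pat (gls_pi ν) gls_rFB b) :
    gr_IsUQ ν.m ν.km ((gls_Sm ν)ᵀ * b * gls_Sp ν) := by
  intro i j hij
  obtain ⟨h1, h2⟩ := gls8_pp (gls_sup_of_pat_mp ν hN h i j hij)
  have h3 := gls8_labm_U ν h1
  obtain ⟨h4, h5⟩ := gls8_labp_Q ν h2
  exact ⟨h3, h4, h5⟩

/-- (use `gc_diag_mul_UQ`, `gc_UQ_mul_diag`) -/
theorem gls_UQ_of_FB' (hN : ν.m ≤ N) {z : gr_SIdx → gs_Mat N} (hz : gr_SOk ν z) {b : gs_Mat N}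
    (h : gls_Pat (gls_pi ν) gls_rFB b) :
    gr_IsUQ ν.m ν.km (gls_tm ν z * ((gls_Sm ν)ᵀ * b * gls_Sp ν) * gls_tp' ν z) := by
  have hkm1 : ν.a + (ν.b + ν.h) = ν.km := by unfold gr_SNum.km; omega
  have hkm2 : ν.b + (ν.a + ν.h) = ν.km := by unfold gr_SNum.km; omega
  have hq1 : ν.h + ν.x ≤ ν.m - ν.km := by
    unfold gr_SNum.m gr_SNum.A gr_SNum.B gr_SNum.km; omega
  have hq2 : ν.h + ν.y ≤ ν.m - ν.km := by
    unfold gr_SNum.m gr_SNum.A gr_SNum.B gr_SNum.km; omega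
  have c1 : gs_IsCorner ν.km (gs_emb ν.a (z .t)) := hkm1 ▸ gm_emb_corner ν.a hz.t.2
  have c2 : gs_IsCorner (ν.m - ν.km) (z .r) := gm_corner_mono hq1 hz.r.2
  have c3 : gs_IsCorner ν.km (gs_emb ν.b (z .s)⁻¹) :=
    hkm2 ▸ gm_emb_corner ν.b (gm_corner_inv hz.s.2 hz.s.1)
  have c4 : gs_IsCorner (ν.m - ν.km) (z .v)⁻¹ := gm_corner_mono hq2 (gm_corner_inv hz.v.2 hz.v.1)
  unfold gls_tm gls_tp'
  exact gc_UQ_mul_diag c3 c4 (gc_diag_mul_UQ c1 c2 (gls_UQ_of_FB hN h))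

end Claimed.Agent.R236
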