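import Mathlib
import Claimed.Agent.R236.GLocSA3
import Claimed.Agent.R236.GLocSA5
import Claimed.Agent.R236.GLocSA6
import Claimed.Agent.R236.GLocSA7
import Claimed.Agent.R236.GLocSA8

/-!
# Row 236, G-LOCS: soundness of the corrections `gls_EL`, `gls_ER` (owner helper139)

Assembly of the abstract core `gls_core'` with the bridge lemmas A1 ... A8.
-/

set_option autoImplicit false

namespace Claimed.Agent.R236

open Matrix

/-! ## ring lemmas -/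

section ring
variable {M : Type*} [Ring M]

theorem gls_conj_inv {H H' E : M} (h1 : H * H' = 1) (h2 : H' * H = 1) (hE : E * E = 0) :
    (H * (1 + E) * H') * (H * (1 - E) * H') = 1 := by
  have c : ∀ X, H' * (H * X) = X := fun X => by rw [← mul_assoc, h2, one_mul]
  have e : (1 + E) * (1 - E) = 1 := by
    rw [add_mul, one_mul, mul_sub, mul_one, hE]; abel
  calc (H * (1 + E) * H') * (H * (1 - E) * H')
      = H * ((1 + E) * (1 - E)) * H' := by simp only [mul_assoc, c]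
    _ = 1 := by rw [e, mul_one, h1]

theorem gls_conj_one_add {H H' E : M} (h1 : H * H' = 1) : H * (1 + E) * H' = 1 + H * E * H' := by
  rw [mul_add, mul_one, add_mul, h1]

theorem gls_final {tm Sm' Hm Hm' E Sg Sg' Hp Hp' G Sp tp' Nb : M}
    (h1 : Hm' * Hm = 1) (h2 : Sg * Sg' = 1) (h3 : Hp' * Hp = 1)
    (core : (1 - E) * (Hm' * Hp) * (1 - G) = Nb) :
    (tm * Sm' * Hm') * (Hm * (1 - E) * Hm') * Sg * (Sg' * (Hp * (1 - G) * Hp') * Sg) *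
      (Sg' * (Hp * Sp) * tp') = tm * (Sm' * Nb * Sp) * tp' := by
  have c1 : ∀ X, Hm' * (Hm * X) = X := fun X => by rw [← mul_assoc, h1, one_mul]
  have c2 : ∀ X, Sg * (Sg' * X) = X := fun X => by rw [← mul_assoc, h2, one_mul]
  have c3 : ∀ X, Hp' * (Hp * X) = X := fun X => by rw [← mul_assoc, h3, one_mul]
  rw [← core]
  simp only [mul_assoc, c1, c2, c3]

theorem gls_final2 {Sm Sm' Sp Sp' X1 X2 Th SS : M} (h1 : Sm' * Sm = 1) (h2 : Sp' * Sp = 1)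
    (h3 : Sm * SS = Th * Sp) :
    Sm' * ((Sm * X1 * Sm') * Th * (Sp * X2 * Sp')) * Sp = X1 * SS * X2 := by
  have c1 : ∀ X, Sm' * (Sm * X) = X := fun X => by rw [← mul_assoc, h1, one_mul]
  have c3 : ∀ X, Th * (Sp * X) = Sm * (SS * X) := fun X => by rw [← mul_assoc, ← h3, mul_assoc]
  simp only [mul_assoc, c1, c3, h2, mul_one]

end ring

variable {N : ℕ} {ν : gr_SNum} {z : gr_SIdx → gs_Mat N}

/-- the abstract core, instantiated -/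
theorem gls_core_z (hN : ν.m ≤ N) (hz : gr_SOk ν z) (p : Fin 2 → gs_Mat N) :
    (1 - gls_Ez ν z p) * (gls_Hm' ν z * gls_Hp ν z) * (1 - gls_Gz ν z p) =
      gls_Cm ν z * gls_Th ν * gls_Cp ν z + gls_bz ν z p := by
  have h := gls_core' (π := gls_pi ν) (gls_Cm ν z - gls_LamF ν) (gls_Cp ν z - 1) (gls_R ν z)
    (gls_W ν z) (gls_Th ν) (p 0) (p 1) (gls_idem ν) (gls_Th_pat ν hN) (gls_Th_sq ν hN)
    (gls_Cm_pat hN hz) (gls_Cp_pat hN hz) (gls_R_pat hN hz)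
  have e1 : 1 - gls_pi ν 1 - gls_pi ν 1 + (gls_Cm ν z - gls_LamF ν) = gls_Cm ν z := by
    unfold gls_LamF; abel
  have e2 : 1 + (gls_Cp ν z - 1) = gls_Cp ν z := by abel
  rw [e1, e2] at h
  rw [gls_HmHp hN hz]
  exact h

theorem gls_Ez_pat (z : gr_SIdx → gs_Mat N) (p : Fin 2 → gs_Mat N) :
    gls_Pat (gls_pi ν) gls_rAB (gls_Ez ν z p) := gls_E_pat _ _ _ _ _ _ (gls_idem ν)

theorem gls_Gz_pat (z : gr_SIdx → gs_Mat N) (p : Fin 2 → gs_Mat N) :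
    gls_Pat (gls_pi ν) gls_rBA (gls_Gz ν z p) := gls_G_pat _ _ _ _ _ _ (gls_idem ν)

theorem gls_bz_pat (z : gr_SIdx → gs_Mat N) (p : Fin 2 → gs_Mat N) :
    gls_Pat (gls_pi ν) gls_rFB (gls_bz ν z p) := gls_bb_pat _ _ _ _ _ _ _ (gls_idem ν)

theorem gls_EL_mul (hN : ν.m ≤ N) (hz : gr_SOk ν z) (p : Fin 2 → gs_Mat N) :
    gls_EL ν (z, p) * gls_EL' ν (z, p) = 1 :=
  gls_conj_inv (gls_Hm_mul hN hz) (gls_Hm_mul' hN hz)
    (gls_Pat.mul_eq_zero (gls_idem ν) (gls_Ez_pat z p) (gls_Ez_pat z p) (by decide))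

theorem gls_ER_mul (hN : ν.m ≤ N) (hz : gr_SOk ν z) (p : Fin 2 → gs_Mat N) :
    gls_ER ν (z, p) * gls_ER' ν (z, p) = 1 := by
  have h := gls_conj_inv (gls_Hp_mul hN hz) (gls_Hp_mul' hN hz)
    (gls_Pat.mul_eq_zero (gls_idem ν) (gls_Gz_pat z p) (gls_Gz_pat z p) (by decide))
  have c : ∀ X : gs_Mat N, gls_Sg ν * ((gls_Sg ν)ᵀ * X) = X := fun X => by
    rw [← mul_assoc, gls_Sg_mul ν hN, one_mul]
  unfold gls_ER gls_ER'
  calc (gls_Sg ν)ᵀ * (gls_Hp ν z * (1 + gls_Gz ν z p) * gls_Hp' ν z) * gls_Sg ν *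
        ((gls_Sg ν)ᵀ * (gls_Hp ν z * (1 - gls_Gz ν z p) * gls_Hp' ν z) * gls_Sg ν)
      = (gls_Sg ν)ᵀ * ((gls_Hp ν z * (1 + gls_Gz ν z p) * gls_Hp' ν z) *
          (gls_Hp ν z * (1 - gls_Gz ν z p) * gls_Hp' ν z)) * gls_Sg ν := by
        simp only [mul_assoc, c]
    _ = 1 := by rw [h, mul_one, gls_Sg_mul' ν hN]

theorem gls_EL_uni (hN : ν.m ≤ N) (hz : gr_SOk ν z) (p : Fin 2 → gs_Mat N) :
    gs_IsUni ν.m {0, ν.A, ν.m} (gls_EL ν (z, p)) := by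
  unfold gls_EL
  rw [gls_conj_one_add (gls_Hm_mul hN hz)]
  refine gls_uni_of_AB ?_
  exact gls_Pat.mul (gls_idem ν)
    (gls_Pat.mul (τ := gls_rAB) (gls_idem ν) (gls_Pat.of_sub_one (gls_idem ν) (gls_Hm_pat hN hz))
      (gls_Ez_pat z p) (by decide))
    (gls_Pat.of_sub_one (gls_idem ν) (gls_Hm_pat' hN hz)) (by decide)

theorem gls_ER_uni (hN : ν.m ≤ N) (hz : gr_SOk ν z) (p : Fin 2 → gs_Mat N) :
    gs_IsUni ν.m {0, ν.B, ν.m} (gls_ER ν (z, p)) := by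
  unfold gls_ER
  rw [gls_conj_one_add (gls_Hp_mul hN hz)]
  refine gls_uni_of_BA hN ?_
  exact gls_Pat.mul (gls_idem ν)
    (gls_Pat.mul (τ := gls_rBA) (gls_idem ν) (gls_Pat.of_sub_one (gls_idem ν) (gls_Hp_pat hN hz))
      (gls_Gz_pat z p) (by decide))
    (gls_Pat.of_sub_one (gls_idem ν) (gls_Hp_pat' hN hz)) (by decide)

theorem gls_Dm_inv (hN : ν.m ≤ N) (hz : gr_SOk ν z) :
    (gr_S_Dm ν z)⁻¹ = gls_tm ν z * (gls_Sm ν)ᵀ * gls_Hm' ν z := by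
  refine Matrix.inv_eq_right_inv ?_
  calc gr_S_Dm ν z * (gls_tm ν z * (gls_Sm ν)ᵀ * gls_Hm' ν z)
      = (gr_S_Dm ν z * gls_tm ν z) * (gls_Sm ν)ᵀ * gls_Hm' ν z := by simp only [mul_assoc]
    _ = gls_Hm ν z * (gls_Sm ν * (gls_Sm ν)ᵀ) * gls_Hm' ν z := by
        rw [gls_Dm_eq hN hz]; simp only [mul_assoc]
    _ = 1 := by rw [gls_Sm_mul ν hN, mul_one, gls_Hm_mul hN hz]

theorem gls_Dp_eq' (hN : ν.m ≤ N) (hz : gr_SOk ν z) :
    gr_S_Dp ν z = (gls_Sg ν)ᵀ * (gls_Hp ν z * gls_Sp ν) * gls_tp' ν z := by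
  rw [← gls_Dp_eq hN hz]
  calc gr_S_Dp ν z = ((gls_Sg ν)ᵀ * gls_Sg ν) * gr_S_Dp ν z * (gls_tp ν z * gls_tp' ν z) := by
        rw [gls_Sg_mul' ν hN, gls_tp_mul hN hz, one_mul, mul_one]
    _ = _ := by simp only [mul_assoc]

/-- **soundness** -/
theorem gls_sound (hN : ν.m ≤ N) (hz : gr_SOk ν z) (p : Fin 2 → gs_Mat N) :
    gr_Tri ν.m ν.km (gr_S_XU ν z) (gr_S_XQ ν z)
      ((gr_S_Dm ν z)⁻¹ * (gls_EL ν (z, p))⁻¹ * gs_swapMat 0 ν.A ν.B * (gls_ER ν (z, p))⁻¹ *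
        gr_S_Dp ν z) := by
  refine ⟨gls_tm ν z * ((gls_Sm ν)ᵀ * gls_bz ν z p * gls_Sp ν) * gls_tp' ν z,
    gls_UQ_of_FB' hN hz (gls_bz_pat z p), ?_⟩
  rw [Matrix.inv_eq_right_inv (gls_EL_mul hN hz p), Matrix.inv_eq_right_inv (gls_ER_mul hN hz p),
    gls_Dm_inv hN hz, gls_Dp_eq' hN hz]
  have h := gls_final (tm := gls_tm ν z) (Sm' := (gls_Sm ν)ᵀ) (Sp := gls_Sp ν)
    (tp' := gls_tp' ν z) (gls_Hm_mul' hN hz) (gls_Sg_mul ν hN) (gls_Hp_mul' hN hz)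
    (gls_core_z hN hz p)
  unfold gls_EL' gls_ER'
  change _ * _ * gls_Sg ν * _ * _ = _
  rw [h, gr_asm, ← gls_X_eq hN hz, mul_add, add_mul, mul_add, add_mul]
  congr 3
  exact gls_final2 (gls_Sm_mul' ν hN) (gls_Sp_mul' ν hN) (gls_Th_eq ν hN)

end Claimed.Agent.R236
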