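import Mathlib
import Claimed.Agent.R236.GLocSSound
import Claimed.Agent.R236.GLocSB0

/-!
# Row 236, G-LOCS-B5: the special datum of the completeness recipe and the value of `gls_EL` on it
(owner helper139)
-/

set_option autoImplicit false

namespace Claimed.Agent.R236

open Matrix

variable {N : ℕ}

/-- the special datum -/
noncomputable def gls_zc (hAm hBm hAp hBp t s r v wA0 wB1 : gs_Mat N) : gr_SIdx → gs_Mat N
  | .hAm => hAm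
  | .hBm => hBm
  | .hAp => hAp
  | .hBp => hBp
  | .t => t
  | .s => s
  | .r => r
  | .v => v
  | .wA0 => wA0
  | .wB1 => wB1
  | _ => 1

variable {ν : gr_SNum} {hAm hBm hAp hBp t s r v wA0 wB1 z0 : gs_Mat N}

theorem gls_zc_ok (hN : ν.m ≤ N) (GAm : gr_GL ν.A hAm) (GBm : gr_GL ν.B hBm)
    (GAp : gr_GL ν.A hAp) (GBp : gr_GL ν.B hBp) (Gt : gr_GL (ν.b + ν.h) t)
    (Gs : gr_GL (ν.a + ν.h) s) (Gr : gr_GL (ν.h + ν.x) r) (Gv : gr_GL (ν.h + ν.y) v)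
    (UA : gs_IsUni ν.A {0, ν.a + ν.h, ν.A} wA0)
    (UB : gs_IsUni ν.B {0, ν.b, ν.b + ν.h, ν.B} wB1)
    (lA : hAp * wA0 * s = hAm * gs_emb ν.a r) (lB : hBp * gs_emb ν.b v * wB1 = hBm * t) :
    gr_SOk ν (gls_zc hAm hBm hAp hBp t s r v wA0 wB1) := by
  have hm : ν.m = ν.a + ν.h + ν.x + (ν.b + ν.h + ν.y) := rfl
  refine ⟨GAm, GBm, GAp, GBp, Gt, Gs, Gr, Gv, gm_uni_one _ _, gm_uni_one _ _, gm_uni_one _ _,
    gm_uni_one _ _, gm_uni_one _ _, UA, gm_uni_one _ _, gm_uni_one _ _, gm_uni_one _ _,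
    gm_uni_one _ _, UB, gm_uni_one _ _, gm_uni_one _ _, ?_, ?_⟩
  · change hAp * wA0 * s * 1 * gs_emb ν.a r⁻¹ * 1 * hAm⁻¹ * 1 = 1
    have e : gs_emb ν.a r * gs_emb ν.a r⁻¹ = 1 := by
      rw [← gm_emb_mul Gr.2 (gm_corner_inv Gr.2 Gr.1) (by omega), Matrix.mul_nonsing_inv _ Gr.1,
        gm_emb_one]
    rw [mul_one, mul_one, mul_one, lA, mul_assoc hAm, e, mul_one, Matrix.mul_nonsing_inv _ GAm.1]
  · change hBp * 1 * gs_emb ν.b v * wB1 * t⁻¹ * 1 * hBm⁻¹ * 1 = 1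
    rw [mul_one, mul_one, mul_one, lB, mul_assoc hBm, Matrix.mul_nonsing_inv _ Gt.1, mul_one,
      Matrix.mul_nonsing_inv _ GBm.1]

/-- **the value of the left correction on the special datum** -/
theorem gls_eval (hN : ν.m ≤ N) (GAm : gr_GL ν.A hAm) (GBm : gr_GL ν.B hBm)
    (GAp : gr_GL ν.A hAp) (GBp : gr_GL ν.B hBp) (Gt : gr_GL (ν.b + ν.h) t)
    (Gs : gr_GL (ν.a + ν.h) s) (Gr : gr_GL (ν.h + ν.x) r) (Gv : gr_GL (ν.h + ν.y) v)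
    (UA : gs_IsUni ν.A {0, ν.a + ν.h, ν.A} wA0)
    (UB : gs_IsUni ν.B {0, ν.b, ν.b + ν.h, ν.B} wB1)
    (UB' : gls_Pat (gls_pi ν) (gls_pp [3] [4, 5]) (gs_emb ν.A wB1 - 1))
    (lA : hAp * wA0 * s = hAm * gs_emb ν.a r) (lB : hBp * gs_emb ν.b v * wB1 = hBm * t)
    (pz : gls_Pat (gls_pi ν) gls_rZ z0)
    (h3 : z0 * gs_emb ν.A t = gs_emb ν.a r * gls_blk (gls_pi ν) 1 4 (gls_Th ν)) :
    gls_EL ν (gls_zc hAm hBm hAp hBp t s r v wA0 wB1, fun _ => 0) =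
      (hAm * gs_emb ν.A hBm) * (1 + z0) * (hAm * gs_emb ν.A hBm)⁻¹ := by
  have hm : ν.m = ν.a + ν.h + ν.x + (ν.b + ν.h + ν.y) := rfl
  have hA : ν.A = ν.a + ν.h + ν.x := rfl
  have hz := gls_zc_ok hN GAm GBm GAp GBp Gt Gs Gr Gv UA UB lA lB
  have hπ := gls_idem (N := N) ν
  have hR : gls_blk (gls_pi ν) 0 1 (gls_R ν (gls_zc hAm hBm hAp hBp t s r v wA0 wB1)) = 0 :=
    gls_R_pat' hN hz rfl rfl 0 1 (by decide)
  have hW : gls_blk (gls_pi ν) 4 5 (gls_W ν (gls_zc hAm hBm hAp hBp t s r v wA0 wB1)) = 0 := by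
    rw [gls_W_eq' hN hz rfl rfl]
    exact UB' 4 5 (by decide)
  have hE : gls_Ez ν (gls_zc hAm hBm hAp hBp t s r v wA0 wB1) (fun _ => 0) =
      gls_blk (gls_pi ν) 1 4 (gls_Th ν) := by
    unfold gls_Ez
    rw [gls_Cm_triv hN rfl rfl rfl, gls_Cp_triv hN rfl rfl, sub_self, sub_self]
    exact gls_E_triv _ _ _ hπ hR hW
  have ht : gs_emb ν.A t * gs_emb ν.A t⁻¹ = 1 := by
    rw [← gm_emb_mul Gt.2 (gm_corner_inv Gt.2 Gt.1) (by omega), Matrix.mul_nonsing_inv _ Gt.1,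
      gm_emb_one]
  have hr : gs_emb ν.a r * gs_emb ν.a r⁻¹ = 1 := by
    rw [← gm_emb_mul Gr.2 (gm_corner_inv Gr.2 Gr.1) (by omega), Matrix.mul_nonsing_inv _ Gr.1,
      gm_emb_one]
  have h5 := gls_C5 hπ pz (gls_pat_emb34 ν Gt.2) (gls_pat_emb12 ν (gm_corner_inv Gr.2 Gr.1)) h3 ht hr
  unfold gls_EL
  rw [hE, gls_Hm_eq hN hz, gls_Hm_eq' hN hz]
  change (hAm * gs_emb ν.A hBm) * (gs_emb ν.a r * gs_emb ν.A t) *
    (1 + gls_blk (gls_pi ν) 1 4 (gls_Th ν)) *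
    ((gs_emb ν.A t⁻¹ * gs_emb ν.a r⁻¹) * (hAm * gs_emb ν.A hBm)⁻¹) = _
  rw [← h5]
  simp only [mul_assoc]

end Claimed.Agent.R236
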