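import Mathlib
import Claimed.Agent.R236.GLocSB1
import Claimed.Agent.R236.GLocSB2
import Claimed.Agent.R236.GLocSB3
import Claimed.Agent.R236.GLocSB4
import Claimed.Agent.R236.GLocSB5

/-!
# Row 236, G-LOCS: completeness of the left correction `gls_EL` (owner helper139)

Assembly of the abstract recipe (`gls_C1 … gls_C5`) with the bridge lemmas B1 … B5.
-/

set_option autoImplicit false

namespace Claimed.Agent.R236

open Matrix

variable {N : ℕ} {ν : gr_SNum} {hAm hBm hAp hBp z0 g : gs_Mat N}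

/-- **completeness** -/
theorem gls_complete (hN : ν.m ≤ N) (GAm : gr_GL ν.A hAm) (GBm : gr_GL ν.B hBm)
    (GAp : gr_GL ν.A hAp) (GBp : gr_GL ν.B hBp)
    (hz0 : ∀ i j : Fin N, z0 i j ≠ 0 →
      ν.a ≤ (i : ℕ) ∧ (i : ℕ) < ν.A ∧ ν.A ≤ (j : ℕ) ∧ (j : ℕ) < ν.A + ν.b + ν.h)
    (hg : gs_IsUni ν.m {0, ν.B, ν.m} g)
    (hT : gr_IsTri ν.m ν.km
      ((hAm * gs_emb ν.A hBm * (1 + z0) * gr_sh ν.cb ν.m ν.km)⁻¹ * gs_swapMat 0 ν.A ν.B * g *
        (hBp * gs_emb ν.B hAp * gr_sh ν.ca ν.m ν.km))) :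
    ∃ z ∈ gr_SSet N ν, z.1 .hAm = hAm ∧ z.1 .hBm = hBm ∧ z.1 .hAp = hAp ∧ z.1 .hBp = hBp ∧
      gls_EL ν z = (hAm * gs_emb ν.A hBm) * (1 + z0) * (hAm * gs_emb ν.A hBm)⁻¹ := by
  have hm : ν.m = ν.a + ν.h + ν.x + (ν.b + ν.h + ν.y) := rfl
  have hA : ν.A = ν.a + ν.h + ν.x := rfl
  have hB : ν.B = ν.b + ν.h + ν.y := rfl
  have hπ := gls_idem (N := N) ν
  have pz := gls_pat_z0 ν hz0
  have pc := gls_cc_pat hN GAp GBp hg
  obtain ⟨tri, tri'⟩ := gls_tri_flat hN GAm GBm GAp GBp pz hg pc hT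
  have h53 := gls_T1 hπ (gls_kA_pat GAm GAp) (gls_kB_pat GBm GBp) pz pc tri
  obtain ⟨t, Gt, htk⟩ := gls_t_exists hN GBm GBp h53
  have hJ := gls_theta (gls_Th ν) hπ (by rw [gls_Ts_eq _ hπ (gls_Th_pat ν hN), gls_Th_sq ν hN])
  have H : gls_CH (gls_pi ν) (gls_kapA hAm hAp) (gls_kA hAm hAp) (gls_kapB ν hBm hBp)
      (gls_kB ν hBm hBp) z0 (gls_cc ν hAp hBp g) (gs_emb ν.A t) (gls_Th ν) :=
    ⟨hπ, hJ.1, hJ.2, gls_kapA_pat GAm GAp, gls_kA_pat GAm GAp, gls_kapB_pat GBm GBp,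
      gls_kB_pat GBm GBp, pz, pc, gls_pat_emb34 ν Gt.2, gls_kapA_mul GAm GAp,
      gls_kapB_mul hN GBm GBp, htk, tri, tri'⟩
  have C1 := gls_C1 H
  have C2 := gls_C2 H
  have C3 := gls_C3 H
  -- invertibility
  have cB : gs_IsCorner ν.B (hBp⁻¹ * hBm) := gm_corner_mul (gm_corner_inv GBp.2 GBp.1) GBm.2
  have uκB : IsUnit (gls_kapB ν hBm hBp).det := by
    unfold gls_kapB
    rw [gm_emb_det cB (by omega), Matrix.det_mul]
    exact ((Matrix.isUnit_nonsing_inv_det_iff).2 GBp.1).mul GBm.1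
  have utt : IsUnit (gs_emb ν.A t).det := by
    rw [gm_emb_det Gt.2 (by omega)]; exact Gt.1
  have uvv : IsUnit (gls_vv (gls_pi ν) (gls_kapB ν hBm hBp) (gs_emb ν.A t)).det := by
    have h : IsUnit (gls_kapB ν hBm hBp * gs_emb ν.A t).det := by
      rw [Matrix.det_mul]; exact uκB.mul utt
    rw [C1, Matrix.det_mul] at h
    exact isUnit_of_mul_isUnit_left h
  have C4 := gls_C4 _ H (Matrix.nonsing_inv_mul _ uvv)
  have urr : IsUnit (gls_rr (gls_pi ν) (gls_kA hAm hAp) z0 (gs_emb ν.A t) (gls_Th ν)).det :=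
    Matrix.isUnit_det_of_left_inverse C4
  have uκA : IsUnit (gls_kapA hAm hAp).det := by
    unfold gls_kapA
    rw [Matrix.det_mul]
    exact ((Matrix.isUnit_nonsing_inv_det_iff).2 GAp.1).mul GAm.1
  have uss : IsUnit (gls_ss (gls_pi ν) (gls_kapA hAm hAp) (gls_kA hAm hAp) z0 (gs_emb ν.A t)
      (gls_Th ν)).det := by
    have h : IsUnit (gls_kapA hAm hAp *
        gls_rr (gls_pi ν) (gls_kA hAm hAp) z0 (gs_emb ν.A t) (gls_Th ν)).det := by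
      rw [Matrix.det_mul]; exact uκA.mul urr
    rw [C2, Matrix.det_mul] at h
    exact isUnit_of_mul_isUnit_right h
  -- back to corner matrices
  obtain ⟨r, cr, er⟩ := gls_back12 hN (gls_rr_pat (kA := gls_kA hAm hAp) (tt := gs_emb ν.A t)
    (T := gls_Th ν) hπ pz)
  obtain ⟨v, cv, ev⟩ := gls_back45 hN (gls_vv_pat (κB := gls_kapB ν hBm hBp) (tt := gs_emb ν.A t) hπ)
  have cs := gls_back01 (gls_ss_pat (κA := gls_kapA hAm hAp) (kA := gls_kA hAm hAp) (z0 := z0)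
    (tt := gs_emb ν.A t) (T := gls_Th ν) hπ)
  have UA := gls_backA0 (gls_wA_pat (κA := gls_kapA hAm hAp) (kA := gls_kA hAm hAp) (z0 := z0)
    (tt := gs_emb ν.A t) (T := gls_Th ν) hπ)
  have pwB := gls_wB_pat (κB := gls_kapB ν hBm hBp) (tt := gs_emb ν.A t) hπ
  obtain ⟨wB1, UB, ew⟩ := gls_backB1 hN pwB
  have Gr : gr_GL (ν.h + ν.x) r := ⟨by rw [← gm_emb_det cr (o := ν.a) (by omega), er]; exact urr, cr⟩
  have Gv : gr_GL (ν.h + ν.y) v := by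
    refine ⟨?_, cv⟩
    rw [← gm_emb_det cv (o := ν.A + ν.b) (by omega), ← gm_emb_emb, ev]
    exact uvv
  have lA : hAp * gls_wA (gls_pi ν) (gls_kapA hAm hAp) (gls_kA hAm hAp) z0 (gs_emb ν.A t) (gls_Th ν) *
      gls_ss (gls_pi ν) (gls_kapA hAm hAp) (gls_kA hAm hAp) z0 (gs_emb ν.A t) (gls_Th ν) =
      hAm * gs_emb ν.a r := by
    rw [mul_assoc, ← C2, er]
    unfold gls_kapA
    rw [← mul_assoc, ← mul_assoc, Matrix.mul_nonsing_inv _ GAp.1, one_mul]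
  have lB : hBp * gs_emb ν.b v * wB1 = hBm * t := by
    have cv' : gs_IsCorner ν.B (gs_emb ν.b v) :=
      gm_corner_mono (by omega) (gm_emb_corner ν.b cv)
    have cw : gs_IsCorner ν.B wB1 := gm_uni_corner UB
    have ct : gs_IsCorner ν.B t := gm_corner_mono (by omega) Gt.2
    have e : gs_emb ν.A (hBp⁻¹ * hBm * t) = gs_emb ν.A (gs_emb ν.b v * wB1) := by
      rw [gm_emb_mul cB ct (by omega), gm_emb_mul cv' cw (by omega), ev, ew]
      exact C1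
    have e' := gm_emb_inj (gm_corner_mul cB ct) (gm_corner_mul cv' cw) (by omega) e
    rw [mul_assoc, ← e', ← mul_assoc, ← mul_assoc, Matrix.mul_nonsing_inv _ GBp.1, one_mul]
  have h3 : z0 * gs_emb ν.A t = gs_emb ν.a r * gls_blk (gls_pi ν) 1 4 (gls_Th ν) := by
    rw [er]; exact C3
  have UB' : gls_Pat (gls_pi ν) (gls_pp [3] [4, 5]) (gs_emb ν.A wB1 - 1) := by rw [ew]; exact pwB
  exact ⟨(gls_zc hAm hBm hAp hBp t _ r v _ wB1, fun _ => 0),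
    gls_zc_ok hN GAm GBm GAp GBp Gt ⟨uss, cs⟩ Gr Gv UA UB lA lB, rfl, rfl, rfl, rfl,
    gls_eval hN GAm GBm GAp GBp Gt ⟨uss, cs⟩ Gr Gv UA UB UB' lA lB pz h3⟩

end Claimed.Agent.R236
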