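import Mathlib
import Claimed.Agent.R236.GLocSA9
import Claimed.Agent.R236.GLocSCompl

/-!
# Row 236, G-LOCS: the local package of the swap (owner helper139)

`gls_locS : StLocS N R`, assembled from

* `GLocSAbs`, `GLocSAbsC` : abstract block calculus (seven orthogonal idempotents), soundness core
  and completeness recipe;
* `GLocSDef` : the concrete corrections `gls_EL`, `gls_ER`;
* `GLocSA1 … A9` : bridge lemmas (dictionary, permutations, patterns, links, bases, regularity);
* `GLocSSound` : soundness; `GLocSB0 … B5`, `GLocSCompl` : completeness.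
-/

set_option autoImplicit false

namespace Claimed.Agent.R236

/-- **Local package of the swap.** -/
theorem gls_locS (N : ℕ) (R : Subring ℂ) : StLocS N R := fun ν hN =>
  ⟨gls_EL ν, gls_ER ν, gls_EL_reg ν R, gls_ER_reg ν R,
    fun z hz => ⟨gls_EL_uni hN hz z.2, gls_ER_uni hN hz z.2, gls_sound hN hz z.2⟩,
    fun _ _ _ _ _ _ GAm GBm GAp GBp hz0 hg hT => gls_complete hN GAm GBm GAp GBp hz0 hg hT⟩

end Claimed.Agent.R236
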