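import Mathlib
import Claimed.Agent.R236.GFinal
import Claimed.Agent.R236.GLocS

/-!
# Row 236: the final theorem (owner helper95, prefix fin_)

The last statement (`StLocS`, proved in `GLocS.lean`) is plugged into `fin_ThmN`.
-/

set_option autoImplicit false

namespace Claimed.Agent.R236

/-- nothing is left -/
theorem fin_open (N : ℕ) (R : Subring ℂ) (_hR : fin_Ring N R) : fin_Open N R :=
  ⟨gls_locS N R⟩

/-- the single input of the top glue, unconditionally -/
theorem fin_ThmN_all (r g s : ℕ) (K : IntermediateField ℚ ℂ) (hK : FiniteDimensional ℚ K) :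
    top_ThmN r g s K :=
  fin_ThmN fin_open r g s K hK

end Claimed.Agent.R236
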