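/-
Row 236, package G-MAINSYS (owner helper162, prefix `mn_`).  File 6: consequences for the closed step:
`mn_cut` (density for the cut surface from `A(n)`, `n ≥ 2`), `mn_closed_one` (rank one) and
`mn_closedFromA : StClosedFromA N R` (no hypothesis left except for the arithmetic of `R`).
-/
import Claimed.Agent.R236.GMainFin
import Claimed.Agent.R236.ClRng
import Claimed.Agent.R236.RegBasic

set_option autoImplicit false

namespace Claimed.Agent.R236

open Matrix

/-- density for the cut surface (two full flags) from `A(n)` -/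
theorem mn_cut {N : ℕ} {R : Subring ℂ} {n : ℕ} (h2 : 2 ≤ n) (hnN : n ≤ N)
    (hA : ∀ (Y : Type) (S : gs_Sys Y), S.Good N R n → S.NoImp n → gs_Dense N R S) :
    StClCutN R n := by
  intro g c α hc0 hc hc' hα0 hαR hαR' _
  obtain ⟨Y, S, hG, hNI, hD⟩ := mn_main N R n hnN (g + 1) 2 (clt_blk n) (clt_lam α c)
    (fun j p q h => h) (fun j p => by
      have e : clt_lam α c j (clt_blk n j p) = if j = 0 then α p else c⁻¹ * (α p)⁻¹ := by
        show (if h : (p : ℕ) < n then (if j = 0 then α ⟨p, h⟩ else c⁻¹ * (α ⟨p, h⟩)⁻¹) else 1) = _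
        rw [dif_pos p.2]
      rw [e]
      split_ifs
      · exact ⟨hα0 p, hαR p, hαR' p⟩
      · refine ⟨mul_ne_zero (inv_ne_zero hc0) (inv_ne_zero (hα0 p)), R.mul_mem hc' (hαR' p), ?_⟩
        rw [mul_inv, inv_inv, inv_inv]
        exact R.mul_mem hc (hαR p))
  exact hD (hA Y S hG (hNI ⟨0, ⟨0, by omega⟩, ⟨1, by omega⟩, by simp [clt_blk]⟩))

/-- the closed step in rank one -/
theorem mn_closed_one {R : Subring ℂ} (hU : {z : ℂ | z ∈ R ∧ z⁻¹ ∈ R}.Infinite) :
    gi_ClosedOK R 1 := by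
  intro g c _ _ _
  have hcomm : ∀ A B : Matrix (Fin 1) (Fin 1) ℂ, A * B = B * A := by
    intro A B
    ext i j
    have hi : i = 0 := Subsingleton.elim _ _
    have hj : j = 0 := Subsingleton.elim _ _
    subst hi hj
    simp [Matrix.mul_apply, mul_comm]
  have hw : ∀ y : Fin g × Bool → Matrix (Fin 1) (Fin 1) ℂ, (∀ v, IsUnit (y v).det) →
      (List.ofFn fun i => y (i, true) * y (i, false) * (y (i, true))⁻¹ * (y (i, false))⁻¹).prod =
        1 := by
    intro y hy
    have : (fun i : Fin g => y (i, true) * y (i, false) * (y (i, true))⁻¹ * (y (i, false))⁻¹) =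
        fun _ => 1 := by
      funext i
      rw [hcomm (y (i, true)), Matrix.mul_assoc (y (i, false)), Matrix.mul_nonsing_inv _ (hy _),
        Matrix.mul_one, Matrix.mul_nonsing_inv _ (hy _)]
    rw [this]
    simp
  by_cases h1 : c = 1
  · subst h1
    have h := rg_dense_GL (R := R) (n := Fin 1) hU (Fin g × Bool)
    have hS : {y : Fin g × Bool → Matrix (Fin 1) (Fin 1) ℂ | (∀ v, IsUnit (y v).det) ∧
        (List.ofFn fun i => y (i, true) * y (i, false) * (y (i, true))⁻¹ * (y (i, false))⁻¹).prod =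
          (1 : ℂ) • (1 : Matrix (Fin 1) (Fin 1) ℂ)} = {x | ∀ i, IsUnit (x i).det} := by
      ext y
      constructor
      · exact fun hy => hy.1
      · exact fun hy => ⟨hy, by rw [hw y hy, one_smul]⟩
    rw [hS]
    exact h
  · intro F _ _ y hy
    exfalso
    apply h1
    have h2 := hy.2
    rw [hw y hy.1] at h2
    have h3 := congrFun (congrFun h2 0) 0
    simpa using h3.symm

/-- **Closed(n) from A(n)**; the arithmetic hypotheses are those of `top_arith`. -/
theorem mn_closedFromA {N : ℕ} {R : Subring ℂ} (hU : {z : ℂ | z ∈ R ∧ z⁻¹ ∈ R}.Infinite)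
    (hα : ∃ α : ℕ → ℂ, (∀ i, α i ≠ 0 ∧ α i ∈ R ∧ (α i)⁻¹ ∈ R) ∧
      ∀ i j, i < N → j < N → i ≠ j → α i - α j ≠ 0 ∧ α i - α j ∈ R ∧ (α i - α j)⁻¹ ∈ R) :
    StClosedFromA N R := by
  intro n hn hnN hA
  rcases Nat.lt_or_ge n 2 with h | h
  · have : n = 1 := by omega
    subst this
    exact mn_closed_one hU
  · obtain ⟨α, hα1, hα2⟩ := hα
    refine clr_closedOK hU n (fun i => α i.val) (fun i => (hα1 _).1) (fun i => (hα1 _).2.1)
      (fun i => (hα1 _).2.2) ?_ (mn_cut h hnN hA)
    intro i j hij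
    have h := hα2 i.val j.val (by omega) (by omega) (fun h => hij (Fin.ext h))
    exact ⟨fun h' => h.1 (sub_eq_zero.mpr h'), h.2.2⟩

end Claimed.Agent.R236
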