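import Mathlib

/-!
# Row 236, leaf `QuadWord` (owner helper180)

Pure group theory: classification of orientable quadratic words and systems of words
in a free group, in the form used for the closed facets (Sec. 6.2/7 of the paper):

* `qw_single` : a word in which every occurring letter occurs exactly once with each sign
  is carried by an automorphism of the free group to a product of commutators of distinct
  generators;
* `qw_system` : a system of equations `w_i = c_i` with central constants, every letter occurring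
  once with each sign in the whole system, is carried by an automorphism of the free group to
  `x_i = c_i` (eliminated letters) together with `∏ [a_j, b_j] = c_t` (one per component).
-/

namespace Claimed.Agent.R236

open scoped commutatorElement

universe u v w

variable {E : Type u}

/-! ## A. words and endomorphisms of the free group -/

theorem qw_mk_cons (p : E × Bool) (L : List (E × Bool)) :
    FreeGroup.mk (p :: L) = FreeGroup.mk [p] * FreeGroup.mk L := by
  rw [FreeGroup.mul_mk]; rfl

theorem qw_mk_append (L L' : List (E × Bool)) :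
    FreeGroup.mk (L ++ L') = FreeGroup.mk L * FreeGroup.mk L' := FreeGroup.mul_mk.symm

theorem qw_mk_nil : FreeGroup.mk ([] : List (E × Bool)) = 1 := FreeGroup.one_eq_mk.symm

theorem qw_mk_true (e : E) : FreeGroup.mk [(e, true)] = FreeGroup.of e := rfl

theorem qw_mk_false (e : E) : FreeGroup.mk [(e, false)] = (FreeGroup.of e)⁻¹ := by
  rw [← qw_mk_true, FreeGroup.inv_mk]; rfl

theorem qw_mk_not (e : E) (b : Bool) :
    FreeGroup.mk [(e, !b)] = (FreeGroup.mk [(e, b)])⁻¹ := by
  rw [FreeGroup.inv_mk]; rfl

/-- `P` does not involve the letters of `S`: every endomorphism fixing the generators outside `S`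
fixes `P`. -/
def qw_Fixed (S : Set E) (P : FreeGroup E) : Prop :=
  ∀ ψ : FreeGroup E →* FreeGroup E, (∀ e, e ∉ S → ψ (FreeGroup.of e) = FreeGroup.of e) → ψ P = P

theorem qw_Fixed.one (S : Set E) : qw_Fixed S 1 := fun ψ _ => map_one ψ

theorem qw_Fixed.mul {S : Set E} {P Q : FreeGroup E} (hP : qw_Fixed S P) (hQ : qw_Fixed S Q) :
    qw_Fixed S (P * Q) := fun ψ h => by rw [map_mul, hP ψ h, hQ ψ h]

theorem qw_Fixed.inv {S : Set E} {P : FreeGroup E} (hP : qw_Fixed S P) :
    qw_Fixed S P⁻¹ := fun ψ h => by rw [map_inv, hP ψ h]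

theorem qw_Fixed.of {S : Set E} {e : E} (he : e ∉ S) : qw_Fixed S (FreeGroup.of e) :=
  fun _ h => h e he

theorem qw_Fixed.letter {S : Set E} {p : E × Bool} (he : p.1 ∉ S) :
    qw_Fixed S (FreeGroup.mk [p]) := by
  obtain ⟨e, b⟩ := p
  cases b
  · rw [qw_mk_false]; exact (qw_Fixed.of he).inv
  · rw [qw_mk_true]; exact qw_Fixed.of he

theorem qw_Fixed.mk {S : Set E} {L : List (E × Bool)} (h : ∀ p ∈ L, p.1 ∉ S) :
    qw_Fixed S (FreeGroup.mk L) := by
  induction L with
  | nil => rw [qw_mk_nil]; exact qw_Fixed.one S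
  | cons p L ih =>
    rw [qw_mk_cons]
    exact (qw_Fixed.letter (h p (List.mem_cons_self ..))).mul
      (ih fun q hq => h q (List.mem_cons_of_mem _ hq))

/-- An endomorphism fixing the letters of a word fixes the word. -/
theorem qw_fix_mk (ψ : FreeGroup E →* FreeGroup E) (L : List (E × Bool))
    (h : ∀ p ∈ L, ψ (FreeGroup.of p.1) = FreeGroup.of p.1) :
    ψ (FreeGroup.mk L) = FreeGroup.mk L := by
  refine qw_Fixed.mk (S := {e | ψ (FreeGroup.of e) ≠ FreeGroup.of e}) (L := L) ?_ ψ ?_
  · intro p hp; simpa using h p hp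
  · intro e he; simpa using he

/-- The automorphism given by two mutually inverse substitutions. -/
def qw_aut (f g : E → FreeGroup E) (h₁ : ∀ e, FreeGroup.lift f (g e) = FreeGroup.of e)
    (h₂ : ∀ e, FreeGroup.lift g (f e) = FreeGroup.of e) : FreeGroup E ≃* FreeGroup E :=
  MonoidHom.toMulEquiv (FreeGroup.lift f) (FreeGroup.lift g)
    (by ext e; simp [h₂]) (by ext e; simp [h₁])

theorem qw_aut_of (f g : E → FreeGroup E) (h₁ h₂) (e : E) :
    qw_aut f g h₁ h₂ (FreeGroup.of e) = f e := by
  simp [qw_aut]

/-- `x ↦ P x Q` (for a signed letter `x`, the value being written with the positive generator). -/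
theorem qw_exists_letter (e : E) (b : Bool) (P Q : FreeGroup E)
    (hP : qw_Fixed {e} P) (hQ : qw_Fixed {e} Q) :
    ∃ ψ : FreeGroup E ≃* FreeGroup E,
      ψ (FreeGroup.mk [(e, b)]) = P * FreeGroup.of e * Q ∧
      ∀ e', e' ≠ e → ψ (FreeGroup.of e') = FreeGroup.of e' := by
  classical
  have key : ∀ (f : E → FreeGroup E), (∀ e', e' ≠ e → f e' = FreeGroup.of e') →
      FreeGroup.lift f P = P ∧ FreeGroup.lift f Q = Q := by
    intro f hf
    constructor
    · exact hP _ (fun e' he' => by simpa using hf e' (by simpa using he'))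
    · exact hQ _ (fun e' he' => by simpa using hf e' (by simpa using he'))
  cases b
  · -- `e⁻¹ ↦ P e Q`
    let f : E → FreeGroup E := fun e' =>
      if e' = e then Q⁻¹ * (FreeGroup.of e)⁻¹ * P⁻¹ else FreeGroup.of e'
    let g : E → FreeGroup E := fun e' =>
      if e' = e then P⁻¹ * (FreeGroup.of e)⁻¹ * Q⁻¹ else FreeGroup.of e'
    have hf : ∀ e', e' ≠ e → f e' = FreeGroup.of e' := fun e' h => by simp [f, h]
    have hg : ∀ e', e' ≠ e → g e' = FreeGroup.of e' := fun e' h => by simp [g, h]
    have hfe : f e = Q⁻¹ * (FreeGroup.of e)⁻¹ * P⁻¹ := by simp [f]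
    have hge : g e = P⁻¹ * (FreeGroup.of e)⁻¹ * Q⁻¹ := by simp [g]
    refine ⟨qw_aut f g ?_ ?_, ?_, ?_⟩
    · intro e'
      by_cases h : e' = e
      · subst h
        rw [hge]
        simp only [map_mul, map_inv, (key f hf).1, (key f hf).2, FreeGroup.lift_apply_of, hfe]
        group
      · rw [hg e' h, FreeGroup.lift_apply_of, hf e' h]
    · intro e'
      by_cases h : e' = e
      · subst h
        rw [hfe]
        simp only [map_mul, map_inv, (key g hg).1, (key g hg).2, FreeGroup.lift_apply_of, hge]
        group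
      · rw [hf e' h, FreeGroup.lift_apply_of, hg e' h]
    · rw [qw_mk_false, map_inv, qw_aut_of, hfe]; group
    · intro e' h; rw [qw_aut_of, hf e' h]
  · let f : E → FreeGroup E := fun e' =>
      if e' = e then P * FreeGroup.of e * Q else FreeGroup.of e'
    let g : E → FreeGroup E := fun e' =>
      if e' = e then P⁻¹ * FreeGroup.of e * Q⁻¹ else FreeGroup.of e'
    have hf : ∀ e', e' ≠ e → f e' = FreeGroup.of e' := fun e' h => by simp [f, h]
    have hg : ∀ e', e' ≠ e → g e' = FreeGroup.of e' := fun e' h => by simp [g, h]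
    have hfe : f e = P * FreeGroup.of e * Q := by simp [f]
    have hge : g e = P⁻¹ * FreeGroup.of e * Q⁻¹ := by simp [g]
    refine ⟨qw_aut f g ?_ ?_, ?_, ?_⟩
    · intro e'
      by_cases h : e' = e
      · subst h
        rw [hge]
        simp only [map_mul, map_inv, (key f hf).1, (key f hf).2, FreeGroup.lift_apply_of, hfe]
        group
      · rw [hg e' h, FreeGroup.lift_apply_of, hf e' h]
    · intro e'
      by_cases h : e' = e
      · subst h
        rw [hfe]
        simp only [map_mul, (key g hg).1, (key g hg).2, FreeGroup.lift_apply_of, hge]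
        group
      · rw [hf e' h, FreeGroup.lift_apply_of, hg e' h]
    · rw [qw_mk_true, qw_aut_of, hfe]
    · intro e' h; rw [qw_aut_of, hf e' h]

/-- Partial conjugation: the letters of `S` are conjugated by an element not involving `S`. -/
theorem qw_exists_pconj (S : Set E) (X : FreeGroup E) (hX : qw_Fixed S X) :
    ∃ ψ : FreeGroup E ≃* FreeGroup E,
      (∀ e, e ∈ S → ψ (FreeGroup.of e) = X⁻¹ * FreeGroup.of e * X) ∧
      ∀ e, e ∉ S → ψ (FreeGroup.of e) = FreeGroup.of e := by
  classical
  let f : E → FreeGroup E := fun e => if e ∈ S then X⁻¹ * FreeGroup.of e * X else FreeGroup.of e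
  let g : E → FreeGroup E := fun e => if e ∈ S then X * FreeGroup.of e * X⁻¹ else FreeGroup.of e
  have hf : ∀ e, e ∉ S → f e = FreeGroup.of e := fun e h => by simp [f, h]
  have hg : ∀ e, e ∉ S → g e = FreeGroup.of e := fun e h => by simp [g, h]
  have hf' : ∀ e, e ∈ S → f e = X⁻¹ * FreeGroup.of e * X := fun e h => by simp [f, h]
  have hg' : ∀ e, e ∈ S → g e = X * FreeGroup.of e * X⁻¹ := fun e h => by simp [g, h]
  have hfX : FreeGroup.lift f X = X := hX _ (fun e he => by simpa using hf e he)
  have hgX : FreeGroup.lift g X = X := hX _ (fun e he => by simpa using hg e he)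
  refine ⟨qw_aut f g ?_ ?_, ?_, ?_⟩
  · intro e
    by_cases h : e ∈ S
    · rw [hg' e h]
      simp only [map_mul, map_inv, hfX, FreeGroup.lift_apply_of, hf' e h]
      group
    · rw [hg e h, FreeGroup.lift_apply_of, hf e h]
  · intro e
    by_cases h : e ∈ S
    · rw [hf' e h]
      simp only [map_mul, map_inv, hgX, FreeGroup.lift_apply_of, hg' e h]
      group
    · rw [hf e h, FreeGroup.lift_apply_of, hg e h]
  · intro e h; rw [qw_aut_of, hf' e h]
  · intro e h; rw [qw_aut_of, hf e h]

/-- An endomorphism conjugating the letters of a word conjugates the word. -/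
theorem qw_conj_mk (ψ : FreeGroup E →* FreeGroup E) (X : FreeGroup E) (L : List (E × Bool))
    (h : ∀ p ∈ L, ψ (FreeGroup.of p.1) = X⁻¹ * FreeGroup.of p.1 * X) :
    ψ (FreeGroup.mk L) = X⁻¹ * FreeGroup.mk L * X := by
  induction L with
  | nil => rw [qw_mk_nil, map_one]; group
  | cons p L ih =>
    rw [qw_mk_cons, map_mul, ih fun q hq => h q (List.mem_cons_of_mem _ hq)]
    have hp := h p (List.mem_cons_self ..)
    obtain ⟨e, b⟩ := p
    cases b
    · rw [qw_mk_false, map_inv, hp]; group
    · rw [qw_mk_true, hp]; group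

/-! ## B. quadratic words -/

/-- Every letter of the word occurs exactly once, and so does its inverse. -/
def qw_Quad (w : List (E × Bool)) : Prop := w.Nodup ∧ ∀ p ∈ w, (p.1, !p.2) ∈ w

theorem qw_Quad.perm {w w' : List (E × Bool)} (h : qw_Quad w) (hp : w.Perm w') : qw_Quad w' :=
  ⟨hp.nodup_iff.1 h.1, fun p hpw => hp.subset (h.2 p (hp.symm.subset hpw))⟩

theorem qw_Quad.nil : qw_Quad ([] : List (E × Bool)) := ⟨List.nodup_nil, by simp⟩

/-- Removing a letter and its inverse. -/
theorem qw_Quad.tail2 {e : E} {b : Bool} {w : List (E × Bool)}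
    (h : qw_Quad ((e, b) :: (e, !b) :: w)) : qw_Quad w ∧ ∀ p ∈ w, p.1 ≠ e := by
  obtain ⟨hn, hc⟩ := h
  rw [List.nodup_cons, List.nodup_cons] at hn
  obtain ⟨h1, h2, h3⟩ := hn
  have h1' : (e, b) ∉ w := fun hh => h1 (List.mem_cons_of_mem _ hh)
  have hne : ∀ p ∈ w, p.1 ≠ e := by
    rintro ⟨e', b'⟩ hp rfl
    by_cases hb : b' = b
    · subst hb; exact h1' hp
    · have : b' = !b := by cases b <;> cases b' <;> simp_all
      subst this; exact h2 hp
  refine ⟨⟨h3, fun p hp => ?_⟩, hne⟩
  have := hc p (List.mem_cons_of_mem _ (List.mem_cons_of_mem _ hp))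
  rcases List.mem_cons.1 this with h' | h'
  · exact absurd (congrArg Prod.fst h') (hne p hp)
  · rcases List.mem_cons.1 h' with h'' | h''
    · exact absurd (congrArg Prod.fst h'') (hne p hp)
    · exact h''

/-- Two occurrences of the same underlying letter are equal or inverse to each other. -/
theorem qw_eq_or_eq_not {p q : E × Bool} (h : p.1 = q.1) : q = p ∨ q = (p.1, !p.2) := by
  obtain ⟨e, b⟩ := p
  obtain ⟨e', b'⟩ := q
  simp only at h
  subst h
  cases b <;> cases b' <;> simp

/-- The product of commutators `∏ [a_j, b_j]`. -/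
def qw_comm (l : List (E × E)) : FreeGroup E :=
  (l.map fun p => ⁅FreeGroup.of p.1, FreeGroup.of p.2⁆).prod

/-- The generators occurring in `qw_comm l`. -/
def qw_supp (l : List (E × E)) : List E := l.flatMap fun p => [p.1, p.2]

theorem qw_comm_nil : qw_comm ([] : List (E × E)) = 1 := rfl

theorem qw_comm_cons (p : E × E) (l : List (E × E)) :
    qw_comm (p :: l) = ⁅FreeGroup.of p.1, FreeGroup.of p.2⁆ * qw_comm l := by
  simp [qw_comm]

theorem qw_supp_nil : qw_supp ([] : List (E × E)) = [] := rfl

theorem qw_supp_cons (p : E × E) (l : List (E × E)) :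
    qw_supp (p :: l) = p.1 :: p.2 :: qw_supp l := by
  simp [qw_supp]

theorem qw_fix_comm (ψ : FreeGroup E →* FreeGroup E) (l : List (E × E))
    (h : ∀ e ∈ qw_supp l, ψ (FreeGroup.of e) = FreeGroup.of e) : ψ (qw_comm l) = qw_comm l := by
  induction l with
  | nil => rw [qw_comm_nil, map_one]
  | cons p l ih =>
    rw [qw_supp_cons] at h
    rw [qw_comm_cons, map_mul, ih fun e he =>
      h e (List.mem_cons_of_mem _ (List.mem_cons_of_mem _ he)), map_commutatorElement,
      h p.1 (List.mem_cons_self ..), h p.2 (List.mem_cons_of_mem _ (List.mem_cons_self ..))]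

/-- **Classification of orientable quadratic words.** -/
theorem qw_single_aux : ∀ (n : ℕ) (w : List (E × Bool)), w.length ≤ n → qw_Quad w →
    ∃ (φ : FreeGroup E ≃* FreeGroup E) (l : List (E × E)),
      (∀ e, (∀ p ∈ w, p.1 ≠ e) → φ (FreeGroup.of e) = FreeGroup.of e) ∧
      (∀ e ∈ qw_supp l, ∃ p ∈ w, p.1 = e) ∧ (qw_supp l).Nodup ∧
      φ (FreeGroup.mk w) = qw_comm l := by
  intro n
  induction n with
  | zero =>
    intro w hw _
    have : w = [] := List.length_eq_zero_iff.1 (Nat.le_zero.1 hw)
    subst this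
    exact ⟨MulEquiv.refl _, [], fun _ _ => rfl, by simp [qw_supp_nil], by simp [qw_supp_nil],
      by simp [qw_mk_nil, qw_comm_nil]⟩
  | succ n ih =>
    intro w hw hq
    rcases w with _ | ⟨⟨e, b⟩, rest⟩
    · exact ⟨MulEquiv.refl _, [], fun _ _ => rfl, by simp [qw_supp_nil], by simp [qw_supp_nil],
        by simp [qw_mk_nil, qw_comm_nil]⟩
    have hmem : (e, !b) ∈ rest := by
      have := hq.2 (e, b) (List.mem_cons_self ..)
      rcases List.mem_cons.1 this with h | h
      · exact absurd (congrArg Prod.snd h) (by cases b <;> simp)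
      · exact h
    obtain ⟨u, v, rfl⟩ := List.append_of_mem hmem
    by_cases hlink : ∃ q ∈ u, (q.1, !q.2) ∈ v
    · -- a linked pair
      obtain ⟨⟨e₂, b₂⟩, hqu, hqv⟩ := hlink
      obtain ⟨A, B, rfl⟩ := List.append_of_mem hqu
      obtain ⟨C, D, rfl⟩ := List.append_of_mem hqv
      simp only at *
      have hperm : ((e, b) :: ((A ++ (e₂, b₂) :: B) ++ (e, !b) :: (C ++ (e₂, !b₂) :: D))).Perm
          ((e, b) :: (e, !b) :: (e₂, b₂) :: (e₂, !b₂) :: (C ++ B ++ A ++ D)) := by
        classical
        rw [List.perm_iff_count]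
        intro a
        simp only [List.count_cons, List.count_append]
        omega
      have hq1 := (hq.perm hperm).tail2
      have hq2 := hq1.1.tail2
      have hne : e₂ ≠ e := hq1.2 (e₂, b₂) (List.mem_cons_self ..)
      have hlen : (C ++ B ++ A ++ D).length ≤ n := by
        simp only [List.length_cons, List.length_append] at hw ⊢
        omega
      obtain ⟨φ', l', hfix, hsupp, hnd, hφ⟩ := ih _ hlen hq2.1
      have hav1 : ∀ p ∈ C ++ B ++ A ++ D, p.1 ≠ e := fun p hp =>
        hq1.2 p (List.mem_cons_of_mem _ (List.mem_cons_of_mem _ hp))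
      have hav2 : ∀ p ∈ C ++ B ++ A ++ D, p.1 ≠ e₂ := hq2.2
      have hA : ∀ p ∈ A, p ∈ C ++ B ++ A ++ D := fun p hp => by simp [hp]
      have hB : ∀ p ∈ B, p ∈ C ++ B ++ A ++ D := fun p hp => by simp [hp]
      have hC : ∀ p ∈ C, p ∈ C ++ B ++ A ++ D := fun p hp => by simp [hp]
      have hD : ∀ p ∈ D, p ∈ C ++ B ++ A ++ D := fun p hp => by simp [hp]
      have fx : ∀ (x : E) (L : List (E × Bool)), (∀ p ∈ L, p.1 ≠ x) →
          qw_Fixed {x} (FreeGroup.mk L) := fun x L h =>
        qw_Fixed.mk (fun p hp => by simpa using h p hp)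
      obtain ⟨ψx, hψx, hψx'⟩ := qw_exists_letter e b 1 (FreeGroup.mk C * FreeGroup.mk B)
        (qw_Fixed.one _) ((fx e C fun p hp => hav1 p (hC p hp)).mul
          (fx e B fun p hp => hav1 p (hB p hp)))
      obtain ⟨ψy, hψy, hψy'⟩ := qw_exists_letter e₂ b₂
        (FreeGroup.mk C * FreeGroup.mk B * FreeGroup.mk A)⁻¹ (FreeGroup.mk C)
        (((fx e₂ C fun p hp => hav2 p (hC p hp)).mul
          (fx e₂ B fun p hp => hav2 p (hB p hp))).mul (fx e₂ A fun p hp => hav2 p (hA p hp))).inv
        (fx e₂ C fun p hp => hav2 p (hC p hp))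
      have fixx : ∀ L : List (E × Bool), (∀ p ∈ L, p ∈ C ++ B ++ A ++ D) →
          ψx (FreeGroup.mk L) = FreeGroup.mk L := fun L hL =>
        qw_fix_mk ψx.toMonoidHom L fun p hp => hψx' _ (hav1 p (hL p hp))
      have fixy : ∀ L : List (E × Bool), (∀ p ∈ L, p ∈ C ++ B ++ A ++ D) →
          ψy (FreeGroup.mk L) = FreeGroup.mk L := fun L hL =>
        qw_fix_mk ψy.toMonoidHom L fun p hp => hψy' _ (hav2 p (hL p hp))
      have hxy : ψx (FreeGroup.mk [(e₂, b₂)]) = FreeGroup.mk [(e₂, b₂)] :=
        qw_fix_mk ψx.toMonoidHom _ fun p hp => by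
          rw [List.mem_singleton.1 hp]; exact hψx' _ hne
      have hye : ψy (FreeGroup.of e) = FreeGroup.of e := hψy' _ (Ne.symm hne)
      have hφe : φ' (FreeGroup.of e) = FreeGroup.of e := hfix e hav1
      have hφe₂ : φ' (FreeGroup.of e₂) = FreeGroup.of e₂ := hfix e₂ hav2
      refine ⟨ψx.trans (ψy.trans φ'), (e, e₂) :: l', ?_, ?_, ?_, ?_⟩
      · intro x hx
        have h1 : x ≠ e := fun h => hx (e, b) (List.mem_cons_self ..) h.symm
        have h2 : x ≠ e₂ := fun h => hx (e₂, b₂) (by simp) h.symm
        have h3 : ∀ p ∈ C ++ B ++ A ++ D, p.1 ≠ x := fun p hp =>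
          hx p (hperm.symm.subset (by simp only [List.mem_cons]; right; right; right; right; exact hp))
        simp only [MulEquiv.trans_apply]
        rw [hψx' x h1, hψy' x h2, hfix x h3]
      · intro x hx
        rw [qw_supp_cons] at hx
        rcases List.mem_cons.1 hx with rfl | hx
        · exact ⟨(_, b), List.mem_cons_self .., rfl⟩
        rcases List.mem_cons.1 hx with rfl | hx
        · exact ⟨(_, b₂), by simp, rfl⟩
        obtain ⟨p, hp, rfl⟩ := hsupp x hx
        exact ⟨p, hperm.symm.subset
          (by simp only [List.mem_cons]; right; right; right; right; exact hp), rfl⟩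
      · rw [qw_supp_cons, List.nodup_cons, List.nodup_cons]
        refine ⟨?_, ?_, hnd⟩
        · intro h
          rcases List.mem_cons.1 h with h | h
          · exact hne h.symm
          · obtain ⟨p, hp, hpe⟩ := hsupp _ h
            exact hav1 p hp hpe
        · intro h
          obtain ⟨p, hp, hpe⟩ := hsupp _ h
          exact hav2 p hp hpe
      · have hw' : FreeGroup.mk ((e, b) :: ((A ++ (e₂, b₂) :: B) ++ (e, !b) ::
            (C ++ (e₂, !b₂) :: D))) =
            FreeGroup.mk [(e, b)] * FreeGroup.mk A * FreeGroup.mk [(e₂, b₂)] * FreeGroup.mk B *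
              (FreeGroup.mk [(e, b)])⁻¹ * FreeGroup.mk C * (FreeGroup.mk [(e₂, b₂)])⁻¹ *
              FreeGroup.mk D := by
          rw [qw_mk_cons, qw_mk_append, qw_mk_append, qw_mk_cons (e₂, b₂), qw_mk_cons (e, !b),
            qw_mk_append, qw_mk_cons (e₂, !b₂), qw_mk_not, qw_mk_not]
          simp only [mul_assoc]
        rw [hw']
        simp only [MulEquiv.trans_apply, map_mul, map_inv, hψx, fixx A hA, fixx B hB, fixx C hC,
          fixx D hD, hxy, hψy, fixy A hA, fixy B hB, fixy C hC, fixy D hD, hye, map_one]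
        rw [qw_comm_cons, ← hφ]
        simp only [qw_mk_append, map_mul, hφe, hφe₂, commutatorElement_def]
        group
    · -- `u` is closed under inversion: conjugate it by the first letter
      have hperm : ((e, b) :: (u ++ (e, !b) :: v)).Perm ((e, b) :: (e, !b) :: (u ++ v)) := by
        classical
        rw [List.perm_iff_count]
        intro a
        simp only [List.count_cons, List.count_append]
        omega
      have hq1 := (hq.perm hperm).tail2
      have hlen : (u ++ v).length ≤ n := by
        simp only [List.length_cons, List.length_append] at hw ⊢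
        omega
      obtain ⟨φ', l', hfix, hsupp, hnd, hφ⟩ := ih _ hlen hq1.1
      have hclosed : ∀ q ∈ u, (q.1, !q.2) ∈ u := by
        intro q hqu
        have := hq1.1.2 q (List.mem_append_left _ hqu)
        rcases List.mem_append.1 this with h | h
        · exact h
        · exact absurd ⟨q, hqu, h⟩ hlink
      have hdisj : ∀ p ∈ u, p ∉ v := fun p hpu hpv =>
        (List.nodup_append.1 hq1.1.1).2.2 p hpu p hpv rfl
      obtain ⟨ψ, hψ, hψ'⟩ := qw_exists_pconj {x | ∃ p ∈ u, p.1 = x} (FreeGroup.mk [(e, b)])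
        (qw_Fixed.letter (by
          rintro ⟨p, hp, hpe⟩
          exact hq1.2 p (List.mem_append_left _ hp) hpe))
      have hψu : ψ (FreeGroup.mk u) = (FreeGroup.mk [(e, b)])⁻¹ * FreeGroup.mk u *
          FreeGroup.mk [(e, b)] :=
        qw_conj_mk ψ.toMonoidHom _ u fun p hp => hψ _ ⟨p, hp, rfl⟩
      have hψv : ψ (FreeGroup.mk v) = FreeGroup.mk v :=
        qw_fix_mk ψ.toMonoidHom v fun p hp => hψ' _ (by
          rintro ⟨p₀, hp₀, hpe⟩
          rcases qw_eq_or_eq_not hpe with h | h
          · exact hdisj p₀ hp₀ (h ▸ hp)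
          · exact hdisj _ (hclosed p₀ hp₀) (h ▸ hp))
      have hψe : ψ (FreeGroup.mk [(e, b)]) = FreeGroup.mk [(e, b)] :=
        qw_fix_mk ψ.toMonoidHom _ fun p hp => hψ' _ (by
          rw [List.mem_singleton.1 hp]
          rintro ⟨p₀, hp₀, hpe⟩
          exact hq1.2 p₀ (List.mem_append_left _ hp₀) hpe)
      refine ⟨ψ.trans φ', l', ?_, ?_, hnd, ?_⟩
      · intro x hx
        have h3 : ∀ p ∈ u ++ v, p.1 ≠ x := fun p hp =>
          hx p (hperm.symm.subset (List.mem_cons_of_mem _ (List.mem_cons_of_mem _ hp)))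
        simp only [MulEquiv.trans_apply]
        rw [hψ' x (by
          rintro ⟨p, hp, hpe⟩
          exact h3 p (List.mem_append_left _ hp) hpe), hfix x h3]
      · intro x hx
        obtain ⟨p, hp, rfl⟩ := hsupp x hx
        exact ⟨p, hperm.symm.subset (List.mem_cons_of_mem _ (List.mem_cons_of_mem _ hp)), rfl⟩
      · rw [qw_mk_cons, qw_mk_append, qw_mk_cons (e, !b), qw_mk_not]
        simp only [MulEquiv.trans_apply, map_mul, map_inv, hψu, hψv, hψe]
        rw [← hφ, qw_mk_append, map_mul]
        simp only [← map_mul, ← map_inv]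
        congr 1
        group

theorem qw_single (w : List (E × Bool)) (hw : qw_Quad w) :
    ∃ (φ : FreeGroup E ≃* FreeGroup E) (l : List (E × E)),
      (∀ e, (∀ p ∈ w, p.1 ≠ e) → φ (FreeGroup.of e) = FreeGroup.of e) ∧
      (∀ e ∈ qw_supp l, ∃ p ∈ w, p.1 = e) ∧ (qw_supp l).Nodup ∧
      φ (FreeGroup.mk w) = qw_comm l :=
  qw_single_aux w.length w le_rfl hw

/-! ## C. systems of words with central constants -/

/-- All signed letters of a system of words (with constants in `Z`). -/
def qw_letters {Z : Type w} (sys : List (List (E × Bool) × Z)) : List (E × Bool) :=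
  sys.flatMap fun t => t.1

theorem qw_letters_nil {Z : Type w} : qw_letters ([] : List (List (E × Bool) × Z)) = [] := rfl

theorem qw_letters_cons {Z : Type w} (t : List (E × Bool) × Z) (sys : List (List (E × Bool) × Z)) :
    qw_letters (t :: sys) = t.1 ++ qw_letters sys := by
  simp [qw_letters]

theorem qw_letters_append {Z : Type w} (s₁ s₂ : List (List (E × Bool) × Z)) :
    qw_letters (s₁ ++ s₂) = qw_letters s₁ ++ qw_letters s₂ := by
  simp [qw_letters]

theorem qw_mem_letters {Z : Type w} {sys : List (List (E × Bool) × Z)} {t : List (E × Bool) × Z}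
    (ht : t ∈ sys) {p : E × Bool} (hp : p ∈ t.1) : p ∈ qw_letters sys :=
  List.mem_flatMap.2 ⟨t, ht, hp⟩

/-- The generators occurring in a normal form: eliminated letters and commutator letters. -/
def qw_nfsupp {Z : Type w} (el : List (E × Z)) (nf : List (List (E × E) × Z)) : List E :=
  el.map (fun t => t.1) ++ nf.flatMap fun t => qw_supp t.1

/-- **Normal form of an orientable quadratic system with central constants.**
After an automorphism `φ` of the free group the system `w_i = c_i` becomes: `x = c` for the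
eliminated generators, and `∏ [a_j, b_j] = c` on pairwise disjoint sets of generators. -/
theorem qw_system_aux {Z : Type w} [CommGroup Z] :
    ∀ (n : ℕ) (sys : List (List (E × Bool) × Z)), sys.length ≤ n → qw_Quad (qw_letters sys) →
    ∃ (φ : FreeGroup E ≃* FreeGroup E) (el : List (E × Z)) (nf : List (List (E × E) × Z)),
      (∀ e, (∀ p ∈ qw_letters sys, p.1 ≠ e) → φ (FreeGroup.of e) = FreeGroup.of e) ∧
      (∀ e ∈ qw_nfsupp el nf, ∃ p ∈ qw_letters sys, p.1 = e) ∧
      (qw_nfsupp el nf).Nodup ∧
      ∀ (G : Type v) [Group G] (ι : Z →* G), (∀ z g, ι z * g = g * ι z) →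
        ∀ f : FreeGroup E →* G,
          (∀ t ∈ sys, f (φ (FreeGroup.mk t.1)) = ι t.2) ↔
            ((∀ t ∈ el, f (FreeGroup.of t.1) = ι t.2) ∧ ∀ t ∈ nf, f (qw_comm t.1) = ι t.2) := by
  intro n
  induction n with
  | zero =>
    intro sys hs _
    have : sys = [] := List.length_eq_zero_iff.1 (Nat.le_zero.1 hs)
    subst this
    exact ⟨MulEquiv.refl _, [], [], fun _ _ => rfl, by simp [qw_nfsupp], by simp [qw_nfsupp],
      by simp⟩
  | succ n ih =>
    intro sys hs hq
    rcases sys with _ | ⟨⟨w, c⟩, rest⟩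
    · exact ⟨MulEquiv.refl _, [], [], fun _ _ => rfl, by simp [qw_nfsupp], by simp [qw_nfsupp],
        by simp⟩
    rw [qw_letters_cons] at hq
    simp only at hq
    have hlen : rest.length ≤ n := by simpa using hs
    by_cases hcl : ∀ p ∈ w, (p.1, !p.2) ∈ w
    · -- the first word is itself quadratic
      have hnd := List.nodup_append.1 hq.1
      have hdisj : ∀ p ∈ w, p ∉ qw_letters rest := fun p hp hp' => hnd.2.2 p hp p hp' rfl
      have hqw : qw_Quad w := ⟨hnd.1, hcl⟩
      have hqr : qw_Quad (qw_letters rest) := by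
        refine ⟨hnd.2.1, fun p hp => ?_⟩
        rcases List.mem_append.1 (hq.2 p (List.mem_append_right _ hp)) with h | h
        · exfalso
          have := hcl _ h
          simp only [Bool.not_not] at this
          exact hdisj _ this hp
        · exact h
      have hdl : ∀ p ∈ w, ∀ q ∈ qw_letters rest, p.1 ≠ q.1 := by
        intro p hp q hq' hpq
        rcases qw_eq_or_eq_not hpq with h | h
        · exact hdisj p hp (h ▸ hq')
        · exact hdisj _ (hcl p hp) (h ▸ hq')
      obtain ⟨φ₁, l, hfix₁, hsupp₁, hnd₁, hφ₁⟩ := qw_single w hqw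
      obtain ⟨φ₂, el, nf, hfix₂, hsupp₂, hnd₂, hφ₂⟩ := ih rest hlen hqr
      refine ⟨φ₁.trans φ₂, el, (l, c) :: nf, ?_, ?_, ?_, ?_⟩
      · intro x hx
        rw [qw_letters_cons] at hx
        simp only [MulEquiv.trans_apply]
        rw [hfix₁ x fun p hp => hx p (List.mem_append_left _ hp),
          hfix₂ x fun p hp => hx p (List.mem_append_right _ hp)]
      · intro x hx
        rw [qw_letters_cons]
        simp only [qw_nfsupp, List.flatMap_cons, List.mem_append] at hx
        rcases hx with hx | hx | hx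
        · obtain ⟨p, hp, rfl⟩ := hsupp₂ x (by simp only [qw_nfsupp, List.mem_append]; left; exact hx)
          exact ⟨p, List.mem_append_right _ hp, rfl⟩
        · obtain ⟨p, hp, rfl⟩ := hsupp₁ x hx
          exact ⟨p, List.mem_append_left _ hp, rfl⟩
        · obtain ⟨p, hp, rfl⟩ := hsupp₂ x (by simp only [qw_nfsupp, List.mem_append]; right; exact hx)
          exact ⟨p, List.mem_append_right _ hp, rfl⟩
      · have hperm : (qw_nfsupp el ((l, c) :: nf)).Perm (qw_supp l ++ qw_nfsupp el nf) := by
          classical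
          rw [List.perm_iff_count]
          intro a
          simp only [qw_nfsupp, List.flatMap_cons, List.count_append]
          omega
        rw [hperm.nodup_iff, List.nodup_append]
        refine ⟨hnd₁, hnd₂, ?_⟩
        intro a ha b hb hab
        subst hab
        obtain ⟨p, hp, hpa⟩ := hsupp₁ a ha
        obtain ⟨q, hq', hqa⟩ := hsupp₂ a hb
        exact hdl p hp q hq' (hpa.trans hqa.symm)
      · intro G _ ι hι f
        have h1 : φ₂ (qw_comm l) = qw_comm l :=
          qw_fix_comm φ₂.toMonoidHom l fun x hx => by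
            obtain ⟨p, hp, rfl⟩ := hsupp₁ x hx
            exact hfix₂ _ fun q hq' h => hdl p hp q hq' h.symm
        have h2 : ∀ t ∈ rest, φ₁ (FreeGroup.mk t.1) = FreeGroup.mk t.1 := fun t ht =>
          qw_fix_mk φ₁.toMonoidHom _ fun q hq' =>
            hfix₁ _ fun p hp h => hdl p hp q (qw_mem_letters ht hq') h
        rw [List.forall_mem_cons, List.forall_mem_cons]
        simp only [MulEquiv.trans_apply, hφ₁, h1]
        have h3 : (∀ t ∈ rest, f (φ₂ (φ₁ (FreeGroup.mk t.1))) = ι t.2) ↔
            ∀ t ∈ rest, f (φ₂ (FreeGroup.mk t.1)) = ι t.2 :=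
          forall₂_congr fun t ht => by rw [h2 t ht]
        rw [h3, hφ₂ G ι hι f]
        tauto
    · -- some letter of the first word has its inverse in another word: eliminate it
      push Not at hcl
      obtain ⟨⟨e, b⟩, hpw, hpn⟩ := hcl
      simp only at hpn
      have hpr : (e, !b) ∈ qw_letters rest := by
        rcases List.mem_append.1 (hq.2 (e, b) (List.mem_append_left _ hpw)) with h | h
        · exact absurd h hpn
        · exact h
      obtain ⟨⟨w₂, c₂⟩, ht, hpt⟩ := List.mem_flatMap.1 hpr
      simp only at hpt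
      obtain ⟨r₁, r₂, rfl⟩ := List.append_of_mem ht
      obtain ⟨a, a', rfl⟩ := List.append_of_mem hpw
      obtain ⟨d, d', rfl⟩ := List.append_of_mem hpt
      have hperm : ((a ++ (e, b) :: a') ++ qw_letters (r₁ ++ (d ++ (e, !b) :: d', c₂) :: r₂)).Perm
          ((e, b) :: (e, !b) :: qw_letters (r₁ ++ (d ++ a' ++ a ++ d', c * c₂) :: r₂)) := by
        classical
        rw [List.perm_iff_count]
        intro x
        simp only [qw_letters_append, qw_letters_cons, List.count_cons, List.count_append]
        omega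
      have hq1 := (hq.perm hperm).tail2
      have hlen' : (r₁ ++ (d ++ a' ++ a ++ d', c * c₂) :: r₂).length ≤ n := by
        simpa using hlen
      obtain ⟨φ', el, nf, hfix, hsupp, hnd, hφ⟩ := ih _ hlen' hq1.1
      have hsub : ∀ L : List (E × Bool), (∀ p ∈ L, p ∈ d ++ a' ++ a ++ d') → ∀ p ∈ L, p.1 ≠ e :=
        fun L hL p hp => hq1.2 p (by
          rw [qw_letters_append, qw_letters_cons]
          exact List.mem_append_right _ (List.mem_append_left _ (hL p hp)))
      have ha : ∀ p ∈ a, p.1 ≠ e := hsub a fun p hp => by simp [hp]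
      have ha' : ∀ p ∈ a', p.1 ≠ e := hsub a' fun p hp => by simp [hp]
      have hd : ∀ p ∈ d, p.1 ≠ e := hsub d fun p hp => by simp [hp]
      have hd' : ∀ p ∈ d', p.1 ≠ e := hsub d' fun p hp => by simp [hp]
      have fx : ∀ (L : List (E × Bool)), (∀ p ∈ L, p.1 ≠ e) →
          qw_Fixed {e} (FreeGroup.mk L) := fun L h =>
        qw_Fixed.mk (fun p hp => by simpa using h p hp)
      obtain ⟨ψ, hψ, hψ'⟩ := qw_exists_letter e b (FreeGroup.mk a)⁻¹ (FreeGroup.mk a')⁻¹
        (fx a ha).inv (fx a' ha').inv
      have fixψ : ∀ L : List (E × Bool), (∀ p ∈ L, p.1 ≠ e) →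
          ψ (FreeGroup.mk L) = FreeGroup.mk L := fun L hL =>
        qw_fix_mk ψ.toMonoidHom L fun p hp => hψ' _ (hL p hp)
      have hφe : φ' (FreeGroup.of e) = FreeGroup.of e := hfix e hq1.2
      refine ⟨ψ.trans φ', (e, c) :: el, nf, ?_, ?_, ?_, ?_⟩
      · intro x hx
        rw [qw_letters_cons] at hx
        have h1 : x ≠ e := fun h => hx (e, b) (List.mem_append_left _ hpw) h.symm
        simp only [MulEquiv.trans_apply]
        rw [hψ' x h1, hfix x fun p hp => hx p (hperm.symm.subset
          (List.mem_cons_of_mem _ (List.mem_cons_of_mem _ hp)))]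
      · intro x hx
        rw [qw_letters_cons]
        simp only [qw_nfsupp, List.map_cons, List.cons_append, List.mem_cons] at hx
        rcases hx with rfl | hx
        · exact ⟨(_, b), List.mem_append_left _ hpw, rfl⟩
        · obtain ⟨p, hp, rfl⟩ := hsupp x hx
          exact ⟨p, hperm.symm.subset (List.mem_cons_of_mem _ (List.mem_cons_of_mem _ hp)), rfl⟩
      · simp only [qw_nfsupp, List.map_cons, List.cons_append, List.nodup_cons]
        refine ⟨fun h => ?_, hnd⟩
        obtain ⟨p, hp, hpe⟩ := hsupp e h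
        exact hq1.2 p hp hpe
      · intro G _ ι hι f
        have hr : ∀ r : List (List (E × Bool) × Z), (∀ t ∈ r, ∀ p ∈ t.1, p.1 ≠ e) →
            ((∀ t ∈ r, f (φ' (ψ (FreeGroup.mk t.1))) = ι t.2) ↔
              ∀ t ∈ r, f (φ' (FreeGroup.mk t.1)) = ι t.2) := fun r hr =>
          forall₂_congr fun t ht => by rw [fixψ _ (hr t ht)]
        have hr₁ : ∀ t ∈ r₁, ∀ p ∈ t.1, p.1 ≠ e := fun t ht p hp => hq1.2 p (by
          rw [qw_letters_append]
          exact List.mem_append_left _ (qw_mem_letters ht hp))
        have hr₂ : ∀ t ∈ r₂, ∀ p ∈ t.1, p.1 ≠ e := fun t ht p hp => hq1.2 p (by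
          rw [qw_letters_append, qw_letters_cons]
          exact List.mem_append_right _ (List.mem_append_right _ (qw_mem_letters ht hp)))
        have hIH := hφ G ι hι f
        rw [List.forall_mem_append, List.forall_mem_cons] at hIH
        rw [List.forall_mem_cons, List.forall_mem_append, List.forall_mem_cons,
          List.forall_mem_cons]
        simp only [MulEquiv.trans_apply]
        rw [hr r₁ hr₁, hr r₂ hr₂]
        have e1 : ψ (FreeGroup.mk (a ++ (e, b) :: a')) = FreeGroup.of e := by
          rw [qw_mk_append, qw_mk_cons, map_mul, map_mul, hψ, fixψ a ha, fixψ a' ha']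
          group
        have e2 : ψ (FreeGroup.mk (d ++ (e, !b) :: d')) =
            (FreeGroup.mk d * FreeGroup.mk a') * (FreeGroup.of e)⁻¹ *
              (FreeGroup.mk a * FreeGroup.mk d') := by
          rw [qw_mk_append, qw_mk_cons, qw_mk_not, map_mul, map_mul, map_inv, hψ, fixψ d hd,
            fixψ d' hd']
          group
        have e3 : FreeGroup.mk (d ++ a' ++ a ++ d') =
            (FreeGroup.mk d * FreeGroup.mk a') * (FreeGroup.mk a * FreeGroup.mk d') := by
          simp only [qw_mk_append, mul_assoc]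
        rw [e3] at hIH
        rw [e1, e2, hφe]
        simp only [map_mul, map_inv, hφe] at hIH ⊢
        rw [and_assoc, ← hIH]
        have key : ∀ X Y : G, f (FreeGroup.of e) = ι c →
            (X * (f (FreeGroup.of e))⁻¹ * Y = ι c₂ ↔ X * Y = ι c * ι c₂) := by
          intro X Y hfe
          rw [hfe]
          have hc : X * (ι c)⁻¹ * Y = (ι c)⁻¹ * (X * Y) := by
            have := hι c X
            calc X * (ι c)⁻¹ * Y = (ι c)⁻¹ * (ι c * X) * (ι c)⁻¹ * Y := by group
              _ = (ι c)⁻¹ * (X * ι c) * (ι c)⁻¹ * Y := by rw [this]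
              _ = (ι c)⁻¹ * (X * Y) := by group
          rw [hc, inv_mul_eq_iff_eq_mul]
        constructor
        · rintro ⟨h0, h1, h2, h3⟩
          exact ⟨h0, h1, (key _ _ h0).1 h2, h3⟩
        · rintro ⟨h0, h1, h2, h3⟩
          exact ⟨h0, h1, (key _ _ h0).2 h2, h3⟩

theorem qw_system {Z : Type w} [CommGroup Z] (sys : List (List (E × Bool) × Z))
    (hq : qw_Quad (qw_letters sys)) :
    ∃ (φ : FreeGroup E ≃* FreeGroup E) (el : List (E × Z)) (nf : List (List (E × E) × Z)),
      (∀ e, (∀ p ∈ qw_letters sys, p.1 ≠ e) → φ (FreeGroup.of e) = FreeGroup.of e) ∧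
      (∀ e ∈ qw_nfsupp el nf, ∃ p ∈ qw_letters sys, p.1 = e) ∧
      (qw_nfsupp el nf).Nodup ∧
      ∀ (G : Type v) [Group G] (ι : Z →* G), (∀ z g, ι z * g = g * ι z) →
        ∀ f : FreeGroup E →* G,
          (∀ t ∈ sys, f (φ (FreeGroup.mk t.1)) = ι t.2) ↔
            ((∀ t ∈ el, f (FreeGroup.of t.1) = ι t.2) ∧ ∀ t ∈ nf, f (qw_comm t.1) = ι t.2) :=
  qw_system_aux sys.length sys le_rfl hq

/-! ## D. assignments in an arbitrary group -/

/-- The value of a word at an assignment of group elements to the letters. -/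
def qw_ev {G : Type v} [Group G] (x : E → G) (w : List (E × Bool)) : G :=
  (w.map fun p => cond p.2 (x p.1) (x p.1)⁻¹).prod

theorem qw_ev_eq_lift {G : Type v} [Group G] (x : E → G) (w : List (E × Bool)) :
    qw_ev x w = FreeGroup.lift x (FreeGroup.mk w) := FreeGroup.lift_mk.symm

/-- The value of `∏ [a_j, b_j]` at an assignment. -/
def qw_evComm {G : Type v} [Group G] (y : E → G) (l : List (E × E)) : G :=
  (l.map fun p => ⁅y p.1, y p.2⁆).prod

theorem qw_evComm_eq_lift {G : Type v} [Group G] (y : E → G) (l : List (E × E)) :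
    qw_evComm y l = FreeGroup.lift y (qw_comm l) := by
  induction l with
  | nil => simp [qw_evComm, qw_comm_nil]
  | cons p l ih =>
    rw [qw_comm_cons, map_mul, ← ih, map_commutatorElement, FreeGroup.lift_apply_of,
      FreeGroup.lift_apply_of]
    simp [qw_evComm]

/-- The change of variables on assignments induced by an automorphism of the free group:
the new variable `e` is the word `φ⁻¹ e` in the old variables. -/
def qw_subst (φ : FreeGroup E ≃* FreeGroup E) (G : Type v) [Group G] : (E → G) ≃ (E → G) where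
  toFun x := fun e => FreeGroup.lift x (φ.symm (FreeGroup.of e))
  invFun y := fun e => FreeGroup.lift y (φ (FreeGroup.of e))
  left_inv x := by
    funext e
    have h : (FreeGroup.lift fun e => FreeGroup.lift x (φ.symm (FreeGroup.of e))) =
        (FreeGroup.lift x).comp φ.symm.toMonoidHom := by
      ext e; simp
    simp only [h]
    simp
  right_inv y := by
    funext e
    have h : (FreeGroup.lift fun e => FreeGroup.lift y (φ (FreeGroup.of e))) =
        (FreeGroup.lift y).comp φ.toMonoidHom := by
      ext e; simp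
    simp only [h]
    simp

theorem qw_subst_apply (φ : FreeGroup E ≃* FreeGroup E) {G : Type v} [Group G] (x : E → G)
    (e : E) : qw_subst φ G x e = FreeGroup.lift x (φ.symm (FreeGroup.of e)) := rfl

theorem qw_subst_symm_apply (φ : FreeGroup E ≃* FreeGroup E) {G : Type v} [Group G] (y : E → G)
    (e : E) : (qw_subst φ G).symm y e = FreeGroup.lift y (φ (FreeGroup.of e)) := rfl

theorem qw_lift_subst (φ : FreeGroup E ≃* FreeGroup E) {G : Type v} [Group G] (x : E → G)
    (z : FreeGroup E) : FreeGroup.lift (qw_subst φ G x) z = FreeGroup.lift x (φ.symm z) := by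
  have h : FreeGroup.lift (qw_subst φ G x) = (FreeGroup.lift x).comp φ.symm.toMonoidHom := by
    ext e; simp [qw_subst_apply]
  rw [h]; rfl

/-- The change of variables is natural in the group. -/
theorem qw_subst_natural (φ : FreeGroup E ≃* FreeGroup E) {G : Type v} {H : Type w} [Group G]
    [Group H] (h : G →* H) (x : E → G) :
    qw_subst φ H (fun e => h (x e)) = fun e => h (qw_subst φ G x e) := by
  funext e
  have hh : FreeGroup.lift (fun e => h (x e)) = h.comp (FreeGroup.lift x) := by
    ext e; simp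
  rw [qw_subst_apply, qw_subst_apply, hh]; rfl

theorem qw_subst_symm_natural (φ : FreeGroup E ≃* FreeGroup E) {G : Type v} {H : Type w} [Group G]
    [Group H] (h : G →* H) (y : E → G) :
    (qw_subst φ H).symm (fun e => h (y e)) = fun e => h ((qw_subst φ G).symm y e) := by
  funext e
  have hh : FreeGroup.lift (fun e => h (y e)) = h.comp (FreeGroup.lift y) := by
    ext e; simp
  rw [qw_subst_symm_apply, qw_subst_symm_apply, hh]; rfl

/-- A generator fixed by `φ` is an unchanged variable. -/
theorem qw_subst_fixed (φ : FreeGroup E ≃* FreeGroup E) {G : Type v} [Group G] (x : E → G)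
    {e : E} (he : φ (FreeGroup.of e) = FreeGroup.of e) : qw_subst φ G x e = x e := by
  rw [qw_subst_apply, ← he, MulEquiv.symm_apply_apply, FreeGroup.lift_apply_of]

/-- **Consumer form.**  One automorphism `φ` works for all groups: in the new variables
`y = qw_subst φ G x` the system `w_i(x) = c_i` reads `y e = c` (eliminated letters) and
`∏ [y a_j, y b_j] = c` (one equation per component), on pairwise distinct variables. -/
theorem qw_system_sol {Z : Type w} [CommGroup Z] (sys : List (List (E × Bool) × Z))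
    (hq : qw_Quad (qw_letters sys)) :
    ∃ (φ : FreeGroup E ≃* FreeGroup E) (el : List (E × Z)) (nf : List (List (E × E) × Z)),
      (∀ e, (∀ p ∈ qw_letters sys, p.1 ≠ e) → φ (FreeGroup.of e) = FreeGroup.of e) ∧
      (∀ e ∈ qw_nfsupp el nf, ∃ p ∈ qw_letters sys, p.1 = e) ∧
      (qw_nfsupp el nf).Nodup ∧
      ∀ (G : Type v) [Group G] (ι : Z →* G), (∀ z g, ι z * g = g * ι z) →
        ∀ x : E → G,
          (∀ t ∈ sys, qw_ev x t.1 = ι t.2) ↔
            ((∀ t ∈ el, qw_subst φ G x t.1 = ι t.2) ∧
              ∀ t ∈ nf, qw_evComm (qw_subst φ G x) t.1 = ι t.2) := by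
  obtain ⟨φ, el, nf, h1, h2, h3, h4⟩ := qw_system.{u, v, w} sys hq
  refine ⟨φ, el, nf, h1, h2, h3, fun G _ ι hι x => ?_⟩
  have := h4 G ι hι (FreeGroup.lift (qw_subst φ G x))
  simp only [qw_lift_subst, MulEquiv.symm_apply_apply] at this
  simp only [qw_ev_eq_lift, qw_evComm_eq_lift, qw_lift_subst, qw_subst_apply]
  exact this

end Claimed.Agent.R236
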