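import Claimed.Agent.R236.RegGL
import Claimed.Agent.R236.QuadWord
import Claimed.Agent.R236.GInduct

/-!
# Row 236, `QuadDense` (owner helper180, prefix `qd_`)

Density of the solution set of an orientable quadratic system of words with central constants in
the group `GL_n(ℂ)`, from the closed step `gi_ClosedOK R n`.  Points are families `K → GL_n(ℂ)` with the
coordinates `rg_unitsCoord K (Fin n)` of `RegGL.lean`.
-/

set_option autoImplicit false

namespace Claimed.Agent.R236

open scoped commutatorElement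

/-- the group -/
abbrev qd_G (n : ℕ) : Type := Matrix.GeneralLinearGroup (Fin n) ℂ

/-- density of the `R`-points of a set of families of elements of the group -/
abbrev qd_Dense {n : ℕ} {K : Type} (R : Subring ℂ) (X : Set (K → qd_G n)) : Prop :=
  rg_Dense R (rg_unitsCoord K (Fin n)) X

/-! ### Generic tools -/

section tools

variable {n : ℕ} {R : Subring ℂ}

/-- regular group valued maps on a subset `X` of `K → G` -/
abbrev qd_On {K : Type} (R : Subring ℂ) (X : Set (K → qd_G n)) (f : (K → qd_G n) → qd_G n) : Prop :=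
  rg_GLOn R (rg_unitsCoord K (Fin n)) X f

theorem qd_On.coord {K : Type} {X : Set (K → qd_G n)} (k : K) : qd_On R X fun w => w k :=
  rg_unitsCoord_GLOn k

theorem qd_transfer₁ {K K' : Type} {X : Set (K → qd_G n)} {X' : Set (K' → qd_G n)}
    (Φ : (K' → qd_G n) → K → qd_G n) (hreg : ∀ k, qd_On R X' fun x => Φ x k)
    (hmaps : ∀ x ∈ X', Φ x ∈ X) (honto : ∀ x ∈ X, ∃ x' ∈ X', Φ x' = x)
    (hD : qd_Dense R X') : qd_Dense R X :=
  rg_Dense.transferGL (T := Unit) (fun _ => rg_unitsCoord K' (Fin n)) (fun _ => X') (fun _ => Φ)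
    (fun _ => hreg) (fun _ => hmaps) (fun x hx => ⟨(), honto x hx⟩) fun _ => hD

/-- a set all of whose points are `R`-points -/
theorem qd_dense_of_forall_isInt {K : Type} {X : Set (K → qd_G n)}
    (h : ∀ w ∈ X, ∀ k i j, (w k).val i j ∈ R ∧ (w k)⁻¹.val i j ∈ R) : qd_Dense R X :=
  rg_dense_of_forall_mem fun w hw => (rg_unitsCoord_mem_iff w).2 (h w hw)

theorem qd_one_isInt (i j : Fin n) :
    (1 : qd_G n).val i j ∈ R ∧ (1 : qd_G n)⁻¹.val i j ∈ R := by
  simp only [Units.val_one, inv_one, Matrix.one_apply]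
  split_ifs
  exacts [⟨R.one_mem, R.one_mem⟩, ⟨R.zero_mem, R.zero_mem⟩]

/-- An arbitrary family, pinned to `1` outside a finite set of indices. -/
theorem qd_dense_family_pinned {K : Type} (F : Set K) (hF : F.Finite) {S : K → Set (qd_G n)}
    (hS : ∀ k ∈ F, rg_Dense R (rg_unit1Coord (Fin n)) (S k)) (h1 : ∀ k, k ∉ F → S k = {1}) :
    qd_Dense R {x : K → qd_G n | ∀ k, x k ∈ S k} := by
  classical
  have : Finite F := hF
  refine qd_transfer₁ (K' := F) (X' := {x : F → qd_G n | ∀ k : F, x k ∈ S k.1})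
    (fun x k => if h : k ∈ F then x ⟨k, h⟩ else 1) ?_ ?_ ?_
    (rg_dense_familyGL (S := fun k : F => S k.1) fun k => hS k.1 k.2)
  · intro k
    by_cases h : k ∈ F
    · simpa [h] using (qd_On.coord (R := R) (⟨k, h⟩ : F))
    · simpa [h] using rg_GLOn.one
  · intro x hx k
    by_cases h : k ∈ F
    · simpa [h] using hx ⟨k, h⟩
    · simp [h, h1 k h]
  · intro x hx
    refine ⟨fun k => x k.1, fun k => hx k.1, ?_⟩
    funext k
    by_cases h : k ∈ F
    · simp [h]
    · have := hx k
      rw [h1 k h] at this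
      simp [h, Set.mem_singleton_iff.1 this]

open Classical in
/-- **Glueing** on one coordinate space: the coordinates satisfying `A` come from `X₁`, the others
from `X₂`. -/
theorem qd_dense_glue {K : Type} (A : K → Prop) {X X₁ X₂ : Set (K → qd_G n)}
    (hmaps : ∀ w₁ ∈ X₁, ∀ w₂ ∈ X₂, (fun k => if A k then w₁ k else w₂ k) ∈ X)
    (honto : ∀ w ∈ X, (fun k => if A k then w k else 1) ∈ X₁ ∧
      (fun k => if A k then 1 else w k) ∈ X₂)
    (h₁ : qd_Dense R X₁) (h₂ : qd_Dense R X₂) : qd_Dense R X := by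
  refine qd_transfer₁ (K' := K ⊕ K)
    (fun x k => if A k then x (Sum.inl k) else x (Sum.inr k)) ?_ ?_ ?_ (h₁.sumGL h₂)
  · intro k
    by_cases hk : A k
    · simpa only [hk, if_true] using qd_On.coord (R := R) (Sum.inl k : K ⊕ K)
    · simpa only [hk, if_false] using qd_On.coord (R := R) (Sum.inr k : K ⊕ K)
  · rintro x ⟨h1, h2⟩
    exact hmaps _ h1 _ h2
  · intro w hw
    refine ⟨Sum.elim (fun k => if A k then w k else 1) (fun k => if A k then 1 else w k),
      ⟨(honto w hw).1, (honto w hw).2⟩, ?_⟩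
    funext k
    by_cases hk : A k <;> simp [hk]

theorem rg_GLOn.freeLift {P κ E : Type} {c : κ → P → ℂ} {X : Set P} {f : P → E → qd_G n}
    (hf : ∀ e, rg_GLOn R c X fun x => f x e) (z : FreeGroup E) :
    rg_GLOn R c X fun x => FreeGroup.lift (f x) z := by
  induction z using FreeGroup.induction_on with
  | C1 => simpa using (rg_GLOn.one : rg_GLOn R c X _)
  | of e => simpa using hf e
  | inv_of e h => simpa using h.inv
  | mul a b ha hb => simpa using ha.mul hb

end tools

/-! ### Scalars -/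

section scalars

variable (n : ℕ)

/-- the scalar matrices -/
noncomputable def qd_sc : ℂˣ →* qd_G n := Units.map (Matrix.scalar (Fin n)).toMonoidHom

variable {n}

theorem qd_sc_val (c : ℂˣ) : (qd_sc n c).val = (c : ℂ) • (1 : Matrix (Fin n) (Fin n) ℂ) := by
  change Matrix.scalar (Fin n) (c : ℂ) = _
  rw [Matrix.scalar_apply, Matrix.smul_one_eq_diagonal]

theorem qd_sc_comm (c : ℂˣ) (g : qd_G n) : qd_sc n c * g = g * qd_sc n c := by
  apply Units.ext
  change (qd_sc n c).val * g.val = g.val * (qd_sc n c).val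
  rw [qd_sc_val, smul_mul_assoc, one_mul, mul_smul_comm, mul_one]

theorem qd_sc_isInt {R : Subring ℂ} {c : ℂˣ} (h1 : (c : ℂ) ∈ R) (h2 : ((c⁻¹ : ℂˣ) : ℂ) ∈ R)
    (i j : Fin n) : (qd_sc n c).val i j ∈ R ∧ (qd_sc n c)⁻¹.val i j ∈ R := by
  rw [← map_inv, qd_sc_val, qd_sc_val, Matrix.smul_apply, Matrix.smul_apply, Matrix.one_apply]
  constructor
  · split_ifs
    · simpa using h1
    · simp [R.zero_mem]
  · split_ifs
    · simpa using h2
    · simp [R.zero_mem]

/-- the units of `R` -/
def qd_Z (R : Subring ℂ) : Subgroup ℂˣ where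
  carrier := {c | (c : ℂ) ∈ R ∧ ((c⁻¹ : ℂˣ) : ℂ) ∈ R}
  one_mem' := by simp [R.one_mem]
  inv_mem' := by
    rintro c ⟨h1, h2⟩
    exact ⟨h2, by simpa using h1⟩
  mul_mem' := by
    rintro c d ⟨h1, h2⟩ ⟨h3, h4⟩
    refine ⟨by simpa using R.mul_mem h1 h3, ?_⟩
    rw [mul_inv]
    simpa using R.mul_mem h2 h4

/-- the scalars with constants in the units of `R` -/
noncomputable def qd_iota (n : ℕ) (R : Subring ℂ) : qd_Z R →* qd_G n :=
  (qd_sc n).comp (qd_Z R).subtype

theorem qd_iota_apply {R : Subring ℂ} (z : qd_Z R) : qd_iota n R z = qd_sc n z.1 := rfl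

end scalars

/-! ### The normal form is dense -/

section nf

variable {Y : Type}

theorem qd_evComm_congr {G : Type} [Group G] {x x' : Y → G} {l : List (Y × Y)}
    (h : ∀ y ∈ qw_supp l, x y = x' y) : qw_evComm x l = qw_evComm x' l := by
  unfold qw_evComm
  congr 1
  apply List.map_congr_left
  intro p hp
  have h1 : p.1 ∈ qw_supp l := List.mem_flatMap.2 ⟨p, hp, by simp⟩
  have h2 : p.2 ∈ qw_supp l := List.mem_flatMap.2 ⟨p, hp, by simp⟩
  rw [h _ h1, h _ h2]

theorem qd_ev_congr {G : Type} [Group G] {x x' : Y → G} {l : List (Y × Bool)}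
    (h : ∀ p ∈ l, x p.1 = x' p.1) : qw_ev x l = qw_ev x' l := by
  unfold qw_ev
  congr 1
  apply List.map_congr_left
  intro p hp
  rw [h _ hp]

/-- the variables of `∏ [a_i, b_i]`, indexed by `Fin g × Bool` -/
def qd_idx (l : List (Y × Y)) : Fin l.length × Bool → Y :=
  fun p => if p.2 then (l.get p.1).1 else (l.get p.1).2

theorem qd_supp_getElem (l : List (Y × Y)) : ∀ (i : ℕ) (hi : i < l.length),
    (qw_supp l)[2 * i]? = some (l[i]).1 ∧ (qw_supp l)[2 * i + 1]? = some (l[i]).2 := by
  induction l with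
  | nil => intro i hi; simp at hi
  | cons p l ih =>
    intro i hi
    rw [qw_supp_cons]
    cases i with
    | zero => simp
    | succ i =>
      have := ih i (by simpa using hi)
      have e1 : 2 * (i + 1) = 2 * i + 1 + 1 := by ring
      rw [e1]
      simpa using this

theorem qd_supp_length (l : List (Y × Y)) : (qw_supp l).length = 2 * l.length := by
  induction l with
  | nil => rfl
  | cons p l ih => rw [qw_supp_cons]; simp [ih]; ring

theorem qd_idx_eq (l : List (Y × Y)) (p : Fin l.length × Bool) :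
    (qw_supp l)[2 * p.1.val + (if p.2 then 0 else 1)]? = some (qd_idx l p) := by
  obtain ⟨i, b⟩ := p
  cases b
  · simpa [qd_idx] using (qd_supp_getElem l i.1 i.2).2
  · simpa [qd_idx] using (qd_supp_getElem l i.1 i.2).1

theorem qd_idx_injective {l : List (Y × Y)} (h : (qw_supp l).Nodup) :
    Function.Injective (qd_idx l) := by
  intro p q hpq
  have h1 := qd_idx_eq l p
  have h2 := qd_idx_eq l q
  rw [hpq, ← h2] at h1
  have hlt : 2 * p.1.val + (if p.2 then 0 else 1) < (qw_supp l).length := by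
    rw [qd_supp_length]
    have := p.1.2
    split_ifs <;> omega
  have h3 := (List.getElem?_inj hlt h).1 h1
  obtain ⟨i, b⟩ := p
  obtain ⟨j, c⟩ := q
  have : i.val = j.val ∧ b = c := by
    cases b <;> cases c <;> simp at h3 ⊢ <;> omega
  exact Prod.ext (Fin.ext this.1) this.2

theorem qd_idx_mem (l : List (Y × Y)) (p : Fin l.length × Bool) : qd_idx l p ∈ qw_supp l :=
  List.mem_of_getElem? (qd_idx_eq l p)

theorem qd_mem_supp {l : List (Y × Y)} {y : Y} (hy : y ∈ qw_supp l) : ∃ p, qd_idx l p = y := by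
  obtain ⟨q, hq, hy⟩ := List.mem_flatMap.1 hy
  obtain ⟨i, hi⟩ := List.get_of_mem hq
  simp only [List.mem_cons, List.not_mem_nil, or_false] at hy
  rcases hy with rfl | rfl
  · exact ⟨(i, true), by simp only [qd_idx, hi, if_true]⟩
  · exact ⟨(i, false), by simp only [qd_idx, hi]; rfl⟩

theorem qd_evComm_idx {G : Type} [Group G] (x : Y → G) (l : List (Y × Y)) :
    qw_evComm x l = ((List.finRange l.length).map fun i =>
      x (qd_idx l (i, true)) * x (qd_idx l (i, false)) * (x (qd_idx l (i, true)))⁻¹ *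
        (x (qd_idx l (i, false)))⁻¹).prod := by
  unfold qw_evComm
  conv_lhs => rw [← List.map_get_finRange l, List.map_map]
  rfl

variable {n : ℕ} {R : Subring ℂ}

/-- the closed step for group valued points -/
theorem qd_closed_GL (hcl : gi_ClosedOK R n) (g : ℕ) (c : qd_Z R) :
    qd_Dense R {w : Fin g × Bool → qd_G n | ((List.finRange g).map fun i =>
      w (i, true) * w (i, false) * (w (i, true))⁻¹ * (w (i, false))⁻¹).prod = qd_sc n c.1} := by
  classical
  have h := hcl g (c.1 : ℂ) c.2.1 (by simpa using c.2.2) c.1.ne_zero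
  let T : Matrix (Fin n) (Fin n) ℂ → qd_G n := fun x =>
    if hx : IsUnit x.det then Matrix.nonsingInvUnit x hx else 1
  have hT : ∀ x : Matrix (Fin n) (Fin n) ℂ, IsUnit x.det → (T x).val = x := fun x hx => by
    simp only [T, dif_pos hx]; rfl
  have hprod : ∀ w : Fin g × Bool → qd_G n,
      (((List.finRange g).map fun i =>
        w (i, true) * w (i, false) * (w (i, true))⁻¹ * (w (i, false))⁻¹).prod : qd_G n).val =
      (List.ofFn fun i => (w (i, true)).val * (w (i, false)).val * ((w (i, true)).val)⁻¹ *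
        ((w (i, false)).val)⁻¹).prod := by
    intro w
    rw [List.ofFn_eq_map]
    have := map_list_prod (Units.coeHom (Matrix (Fin n) (Fin n) ℂ)) ((List.finRange g).map fun i =>
        w (i, true) * w (i, false) * (w (i, true))⁻¹ * (w (i, false))⁻¹)
    rw [Units.coeHom_apply] at this
    rw [this, List.map_map]
    congr 1
    apply List.map_congr_left
    intro i _
    simp [Matrix.coe_units_inv]
  refine rg_Dense.transferGL (T := Unit) (fun _ => rg_matCoord (Fin g × Bool) (Fin n)) (fun _ => _)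
    (fun _ y k => T (y k)) (fun _ k => ⟨?_, ?_⟩) (fun _ y hy => ?_) (fun w hw => ⟨(), ?_⟩) fun _ => h
  · exact (rg_matCoord_mat k).congr fun y hy => hT _ (hy.1 k)
  · exact (rg_matCoord_inv k).congr fun y hy => by rw [Matrix.coe_units_inv, hT _ (hy.1 k)]
  · apply Units.ext
    rw [hprod fun k => T (y k), qd_sc_val]
    simp only [hT _ (hy.1 _)]
    exact hy.2
  · refine ⟨fun k => (w k).val, ⟨fun k => (Matrix.isUnit_iff_isUnit_det _).1 (w k).isUnit, ?_⟩, ?_⟩
    · rw [← hprod, hw, qd_sc_val]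
    · funext k
      exact Units.ext (hT _ ((Matrix.isUnit_iff_isUnit_det _).1 (w k).isUnit))

/-- the group itself (commuting pairs project onto it) -/
theorem qd_dense_univ (hcl : gi_ClosedOK R n) :
    rg_Dense R (rg_unit1Coord (Fin n)) (Set.univ : Set (qd_G n)) := by
  refine rg_Dense.transfer₁ (fun w : Fin 1 × Bool → qd_G n => w (0, true))
    (rg_unit1Coord_regOn (rg_unitsCoord_GLOn _)) (fun _ _ => Set.mem_univ _) (fun g _ => ?_)
    (qd_closed_GL hcl 1 1)
  refine ⟨fun k => if k.2 then g else 1, ?_, by simp⟩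
  simp [List.finRange_succ]

/-- one component -/
theorem qd_dense_comp (hcl : gi_ClosedOK R n) (l : List (Y × Y)) (hl : (qw_supp l).Nodup)
    (c : qd_Z R) :
    qd_Dense R {x : Y → qd_G n | (∀ y, y ∉ qw_supp l → x y = 1) ∧
      qw_evComm x l = qd_sc n c.1} := by
  have hinj := qd_idx_injective hl
  refine qd_transfer₁ (fun w => Function.extend (qd_idx l) w fun _ => 1) ?_ ?_ ?_
    (qd_closed_GL hcl l.length c)
  · intro y
    by_cases hy : ∃ p, qd_idx l p = y
    · obtain ⟨p, rfl⟩ := hy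
      simpa only [hinj.extend_apply] using qd_On.coord (R := R) p
    · simpa only [Function.extend_apply' _ _ _ hy] using rg_GLOn.one
  · intro w h2
    refine ⟨fun y hy => ?_, ?_⟩
    · exact Function.extend_apply' _ _ _ fun ⟨p, hp⟩ => hy (hp ▸ qd_idx_mem l p)
    · rw [qd_evComm_idx]
      simp only [hinj.extend_apply]
      exact h2
  · rintro x ⟨h1, h3⟩
    refine ⟨fun p => x (qd_idx l p), ?_, ?_⟩
    · rw [qd_evComm_idx] at h3
      exact h3
    · funext y
      by_cases hy : ∃ p, qd_idx l p = y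
      · obtain ⟨p, rfl⟩ := hy
        rw [hinj.extend_apply]
      · rw [Function.extend_apply' _ _ _ hy]
        exact (h1 y fun hy' => hy (qd_mem_supp hy')).symm

/-- all components -/
theorem qd_dense_nf (hcl : gi_ClosedOK R n) : ∀ nf : List (List (Y × Y) × qd_Z R),
    (nf.flatMap fun t => qw_supp t.1).Nodup →
    qd_Dense R {x : Y → qd_G n | (∀ y, y ∉ (nf.flatMap fun t => qw_supp t.1) → x y = 1) ∧
      ∀ t ∈ nf, qw_evComm x t.1 = qd_sc n t.2.1}
  | [], _ => by
    refine qd_dense_of_forall_isInt fun x hx k i j => ?_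
    rw [hx.1 k (by simp)]
    exact qd_one_isInt i j
  | t :: nf, h => by
    rw [List.flatMap_cons, List.nodup_append] at h
    obtain ⟨h1, h2, h3⟩ := h
    have hdis : ∀ t' ∈ nf, ∀ y ∈ qw_supp t'.1, y ∉ qw_supp t.1 := fun t' ht' y hy hy' =>
      h3 y hy' y (List.mem_flatMap.2 ⟨t', ht', hy⟩) rfl
    refine qd_dense_glue (fun y => y ∈ qw_supp t.1) ?_ ?_ (qd_dense_comp hcl t.1 h1 t.2)
      (qd_dense_nf hcl nf h2)
    · rintro w₁ ⟨a1, a3⟩ w₂ ⟨b1, b3⟩
      refine ⟨fun y hy => ?_, fun t' ht' => ?_⟩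
      · rw [List.flatMap_cons, List.mem_append, not_or] at hy
        simp only [if_neg hy.1]
        exact b1 y hy.2
      · rcases List.mem_cons.1 ht' with rfl | ht'
        · rw [← a3]
          exact qd_evComm_congr fun y hy => by simp only [if_pos hy]
        · rw [← b3 t' ht']
          exact qd_evComm_congr fun y hy => by
            simp only [if_neg (hdis t' ht' y hy)]
    · rintro w ⟨a1, a3⟩
      refine ⟨⟨fun y hy => ?_, ?_⟩, ⟨fun y hy => ?_, fun t' ht' => ?_⟩⟩
      · simp only [if_neg hy]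
      · rw [← a3 t (List.mem_cons_self ..)]
        exact qd_evComm_congr fun y hy => by simp only [if_pos hy]
      · by_cases hy' : y ∈ qw_supp t.1
        · simp only [if_pos hy']
        · simp only [if_neg hy']
          refine a1 y ?_
          rw [List.flatMap_cons, List.mem_append, not_or]
          exact ⟨hy', hy⟩
      · rw [← a3 t' (List.mem_cons_of_mem _ ht')]
        exact qd_evComm_congr fun y hy => by
          simp only [if_neg (hdis t' ht' y hy)]

/-- the normal form -/
theorem qd_dense_normal (hcl : gi_ClosedOK R n) (used : Y → Prop)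
    (hfin : {y | used y}.Finite) (el : List (Y × qd_Z R)) (nf : List (List (Y × Y) × qd_Z R))
    (hnd : (qw_nfsupp el nf).Nodup) (hus : ∀ y ∈ qw_nfsupp el nf, used y) :
    qd_Dense R {x : Y → qd_G n | (∀ y, ¬ used y → x y = 1) ∧
      (∀ t ∈ el, x t.1 = qd_sc n t.2.1) ∧ ∀ t ∈ nf, qw_evComm x t.1 = qd_sc n t.2.1} := by
  unfold qw_nfsupp at hnd hus
  rw [List.nodup_append] at hnd
  obtain ⟨-, h2, h3⟩ := hnd
  set Ael : List Y := el.map fun t => t.1 with hAel
  set Anf : List Y := nf.flatMap fun t => qw_supp t.1 with hAnf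
  have hel : ∀ t ∈ el, t.1 ∈ Ael := fun t ht => List.mem_map.2 ⟨t, ht, rfl⟩
  have hnf : ∀ t ∈ nf, ∀ y ∈ qw_supp t.1, y ∈ Anf := fun t ht y hy =>
    List.mem_flatMap.2 ⟨t, ht, hy⟩
  -- the free part
  have hfree : qd_Dense R {x : Y → qd_G n | ∀ y, x y ∈ {g : qd_G n |
      ¬ (used y ∧ y ∉ Anf ∧ y ∉ Ael) → g = 1}} := by
    refine qd_dense_family_pinned {y | used y ∧ y ∉ Anf ∧ y ∉ Ael}
      (hfin.subset fun y hy => hy.1) (fun y hy => ?_) fun y hy => ?_
    · convert qd_dense_univ hcl using 1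
      ext g
      exact ⟨fun _ => Set.mem_univ _, fun _ h' => absurd hy h'⟩
    · ext g
      exact ⟨fun h => h hy, fun h _ => h⟩
  -- the eliminated part
  have helim : qd_Dense R {x : Y → qd_G n | (∀ y, y ∉ Ael → x y = 1) ∧
      ∀ t ∈ el, x t.1 = qd_sc n t.2.1} := by
    refine qd_dense_of_forall_isInt fun x hx k i j => ?_
    by_cases hk : k ∈ Ael
    · obtain ⟨t, ht, rfl⟩ := List.mem_map.1 hk
      rw [hx.2 t ht]
      exact qd_sc_isInt t.2.2.1 t.2.2.2 i j
    · rw [hx.1 k hk]
      exact qd_one_isInt i j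
  -- eliminated and free
  have hrest : qd_Dense R {x : Y → qd_G n | (∀ y, (¬ used y ∨ y ∈ Anf) → x y = 1) ∧
      ∀ t ∈ el, x t.1 = qd_sc n t.2.1} := by
    refine qd_dense_glue (fun y => y ∈ Ael) ?_ ?_ helim hfree
    · rintro w₁ ⟨a1, a2⟩ w₂ b
      refine ⟨fun y hy => ?_, fun t ht => ?_⟩
      · by_cases hy' : y ∈ Ael
        · exfalso
          rcases hy with hy | hy
          · exact hy (hus y (List.mem_append_left _ hy'))
          · exact h3 y hy' y hy rfl
        · simp only [if_neg hy']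
          refine b y fun h => ?_
          rcases hy with hy | hy
          exacts [hy h.1, h.2.1 hy]
      · simpa only [if_pos (hel t ht)] using a2 t ht
    · rintro w ⟨a1, a3⟩
      refine ⟨⟨fun y hy => ?_, fun t ht => ?_⟩, fun y hy => ?_⟩
      · simp only [if_neg hy]
      · simpa only [if_pos (hel t ht)] using a3 t ht
      · by_cases hy' : y ∈ Ael
        · simp only [if_pos hy']
        · simp only [if_neg hy']
          refine a1 y ?_
          by_contra hc
          rw [not_or, not_not] at hc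
          exact hy ⟨hc.1, hc.2, hy'⟩
  refine qd_dense_glue (fun y => y ∈ Anf) ?_ ?_ (qd_dense_nf hcl nf h2) hrest
  · rintro w₁ ⟨a1, a3⟩ w₂ ⟨b1, b3⟩
    refine ⟨fun y hy => ?_, fun t ht => ?_, fun t ht => ?_⟩
    · by_cases hy' : y ∈ Anf
      · exact absurd (hus y (List.mem_append_right _ hy')) hy
      · simpa only [if_neg hy'] using b1 y (Or.inl hy)
    · have : t.1 ∉ Anf := fun h => h3 t.1 (hel t ht) t.1 h rfl
      simpa only [if_neg this] using b3 t ht
    · rw [← a3 t ht]
      exact qd_evComm_congr fun y hy => by simp only [if_pos (hnf t ht y hy)]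
  · rintro w ⟨a1, a3, a4⟩
    refine ⟨⟨fun y hy => ?_, fun t ht => ?_⟩, ⟨fun y hy => ?_, fun t ht => ?_⟩⟩
    · exact if_neg hy
    · rw [← a4 t ht]
      exact qd_evComm_congr fun y hy => by simp only [if_pos (hnf t ht y hy)]
    · by_cases hy' : y ∈ Anf
      · simp only [if_pos hy']
      · simp only [if_neg hy']
        rcases hy with hy | hy
        exacts [a1 y hy, absurd hy hy']
    · have : t.1 ∉ Anf := fun h => h3 t.1 (hel t ht) t.1 h rfl
      simpa only [if_neg this] using a3 t ht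

/-- **Quadratic systems are dense.** -/
theorem qd_quad_dense (hcl : gi_ClosedOK R n)
    (sys : List (List (Y × Bool) × qd_Z R)) (hq : qw_Quad (qw_letters sys)) :
    qd_Dense R {x : Y → qd_G n | (∀ y, (∀ p ∈ qw_letters sys, p.1 ≠ y) → x y = 1) ∧
      ∀ t ∈ sys, qw_ev x t.1 = qd_sc n t.2.1} := by
  obtain ⟨φ, el, nf, h1, h2, h3, h4⟩ := qw_system_sol.{0, 0, 0} sys hq
  have h4' := h4 (qd_G n) (qd_iota n R) fun z g => qd_sc_comm z.1 g
  have hfin : {y : Y | ∃ p ∈ qw_letters sys, p.1 = y}.Finite := by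
    refine ((qw_letters sys).map Prod.fst).finite_toSet.subset ?_
    rintro y ⟨p, hp, rfl⟩
    exact List.mem_map.2 ⟨p, hp, rfl⟩
  have hD := qd_dense_normal hcl (fun y => ∃ p ∈ qw_letters sys, p.1 = y) hfin el nf h3 h2
  have hun : ∀ y, (∀ p ∈ qw_letters sys, p.1 ≠ y) ↔ ¬ ∃ p ∈ qw_letters sys, p.1 = y := by
    intro y; push Not; rfl
  refine qd_transfer₁ (fun x => (qw_subst φ (qd_G n)).symm x) ?_ ?_ ?_ hD
  · intro y
    exact rg_GLOn.freeLift (fun e => qd_On.coord e) _
  · rintro x ⟨a1, a3, a4⟩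
    refine ⟨fun y hy => ?_, ?_⟩
    · rw [qw_subst_symm_apply, h1 y hy, FreeGroup.lift_apply_of]
      exact a1 y ((hun y).1 hy)
    · refine (h4' _).2 ?_
      rw [Equiv.apply_symm_apply]
      exact ⟨a3, a4⟩
  · rintro x ⟨a1, a3⟩
    have key := (h4' x).1 a3
    refine ⟨qw_subst φ (qd_G n) x, ⟨fun y hy => ?_, key.1, key.2⟩, Equiv.symm_apply_apply _ _⟩
    rw [qw_subst_fixed φ x (h1 y ((hun y).2 hy))]
    exact a1 y ((hun y).2 hy)

end nf

end Claimed.Agent.R236
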