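import Claimed.Agent.R236.RegBasic

/-!
# Row 236, `RegGL` (owner helper180): the `Reg` plumbing for points `K → GL n ℂ`

Every coordinate of a point is an element of the group `G = GL n ℂ = (Matrix n n ℂ)ˣ`; the coordinate
functions are the entries of `g` and of `g⁻¹`.

* `rg_unitsCoord K n` : the coordinates on `K → G`; `rg_unit1Coord n` : those on `G`;
* `rg_GLOn R c S f` : the `G`-valued map `f` is regular over `R` on `S` (closed under `1`, `*`, `⁻¹`,
  list products, constants that are `R`-points);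
* `rg_Dense.transferGL`, `rg_Dense.sumGL`, `rg_dense_familyGL`;
* shapes: `rg_dense_GLuniv`, `rg_dense_GLone`, `rg_dense_GLpinned`, `rg_dense_GLcorner`.
-/

namespace Claimed.Agent.R236

universe u v w

section

variable {n : Type v} [Fintype n] [DecidableEq n]

/-- Coordinates on `G = GL n ℂ`: entries of `g` (`false`) and of `g⁻¹` (`true`). -/
def rg_unit1Coord (n : Type v) [Fintype n] [DecidableEq n] :
    Bool × n × n → Matrix.GeneralLinearGroup n ℂ → ℂ
  | (false, a, b), g => g.val a b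
  | (true, a, b), g => g⁻¹.val a b

/-- Coordinates on `K → G`. -/
def rg_unitsCoord (K : Type u) (n : Type v) [Fintype n] [DecidableEq n] :
    K × Bool × n × n → (K → Matrix.GeneralLinearGroup n ℂ) → ℂ
  | (k, false, a, b), x => (x k).val a b
  | (k, true, a, b), x => (x k)⁻¹.val a b

/-- A `G`-valued map is regular over `R` on `S`: the entries of `f x` and of `(f x)⁻¹` are. -/
def rg_GLOn {P : Type u} {κ : Type*} (R : Subring ℂ) (c : κ → P → ℂ) (S : Set P)
    (f : P → Matrix.GeneralLinearGroup n ℂ) : Prop :=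
  rg_MatOn R c S (fun x => (f x).val) ∧ rg_MatOn R c S (fun x => (f x)⁻¹.val)

variable {P : Type u} {κ : Type*} {R : Subring ℂ} {c : κ → P → ℂ} {S : Set P}

theorem rg_GLOn.congr {f g : P → Matrix.GeneralLinearGroup n ℂ} (hf : rg_GLOn R c S f)
    (h : ∀ x ∈ S, g x = f x) : rg_GLOn R c S g :=
  ⟨hf.1.congr fun x hx => by rw [h x hx], hf.2.congr fun x hx => by rw [h x hx]⟩

theorem rg_GLOn.mono {R' : Subring ℂ} (h : R ≤ R') {f : P → Matrix.GeneralLinearGroup n ℂ}
    (hf : rg_GLOn R c S f) : rg_GLOn R' c S f := ⟨hf.1.mono h, hf.2.mono h⟩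

theorem rg_GLOn.subset {S' : Set P} (h : S' ⊆ S) {f : P → Matrix.GeneralLinearGroup n ℂ}
    (hf : rg_GLOn R c S f) : rg_GLOn R c S' f := ⟨hf.1.subset h, hf.2.subset h⟩

theorem rg_GLOn.one : rg_GLOn R c S (fun _ => (1 : Matrix.GeneralLinearGroup n ℂ)) :=
  ⟨by simpa using (rg_MatOn.one : rg_MatOn R c S _), by simpa using (rg_MatOn.one : rg_MatOn R c S _)⟩

theorem rg_GLOn.const {g : Matrix.GeneralLinearGroup n ℂ} (h₁ : ∀ a b, g.val a b ∈ R)
    (h₂ : ∀ a b, g⁻¹.val a b ∈ R) : rg_GLOn R c S (fun _ => g) :=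
  ⟨.const h₁, .const h₂⟩

theorem rg_GLOn.inv {f : P → Matrix.GeneralLinearGroup n ℂ} (hf : rg_GLOn R c S f) :
    rg_GLOn R c S (fun x => (f x)⁻¹) := ⟨hf.2, by simpa using hf.1⟩

theorem rg_GLOn.mul {f g : P → Matrix.GeneralLinearGroup n ℂ} (hf : rg_GLOn R c S f)
    (hg : rg_GLOn R c S g) : rg_GLOn R c S (fun x => f x * g x) :=
  ⟨by simpa using hf.1.mul hg.1, by simpa [mul_inv_rev] using hg.2.mul hf.2⟩

theorem rg_GLOn.listProd {L : List (P → Matrix.GeneralLinearGroup n ℂ)}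
    (hL : ∀ f ∈ L, rg_GLOn R c S f) : rg_GLOn R c S (fun x => (L.map fun f => f x).prod) := by
  induction L with
  | nil => simpa using (rg_GLOn.one : rg_GLOn R c S _)
  | cons f L ih =>
    simpa using (hL f (List.mem_cons_self ..)).mul (ih fun g hg => hL g (List.mem_cons_of_mem _ hg))

theorem rg_GLOn.pow {f : P → Matrix.GeneralLinearGroup n ℂ} (hf : rg_GLOn R c S f) (k : ℕ) :
    rg_GLOn R c S (fun x => f x ^ k) := by
  induction k with
  | zero => simpa using (rg_GLOn.one : rg_GLOn R c S _)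
  | succ k ih => simpa [pow_succ] using ih.mul hf

theorem rg_GLOn.comp {P' : Type w} {κ' : Type*} {c' : κ' → P' → ℂ} {S' : Set P'} {Φ : P' → P}
    (hΦ : ∀ k, rg_RegOn R c' S' (fun x => c k (Φ x))) (hmaps : ∀ x ∈ S', Φ x ∈ S)
    {f : P → Matrix.GeneralLinearGroup n ℂ} (hf : rg_GLOn R c S f) :
    rg_GLOn R c' S' (fun x => f (Φ x)) := ⟨hf.1.comp hΦ hmaps, hf.2.comp hΦ hmaps⟩

/-- A `G`-valued map whose matrix is regular and of determinant one is regular. -/
theorem rg_GLOn.of_det_eq_one {f : P → Matrix.GeneralLinearGroup n ℂ}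
    (hf : rg_MatOn R c S (fun x => (f x).val)) (hdet : ∀ x ∈ S, (f x).val.det = 1) :
    rg_GLOn R c S f :=
  ⟨hf, (hf.inv_of_det_eq_one hdet).congr fun x _ => Matrix.coe_units_inv (f x)⟩

/-- The coordinate maps are regular. -/
theorem rg_unitsCoord_GLOn {K : Type u} {S : Set (K → Matrix.GeneralLinearGroup n ℂ)} (k : K) :
    rg_GLOn R (rg_unitsCoord K n) S (fun x => x k) :=
  ⟨fun a b => rg_RegOn.coord (c := rg_unitsCoord K n) (k, false, a, b),
    fun a b => rg_RegOn.coord (c := rg_unitsCoord K n) (k, true, a, b)⟩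

theorem rg_unit1Coord_GLOn {S : Set (Matrix.GeneralLinearGroup n ℂ)} :
    rg_GLOn R (rg_unit1Coord n) S (fun g => g) :=
  ⟨fun a b => rg_RegOn.coord (c := rg_unit1Coord n) (false, a, b),
    fun a b => rg_RegOn.coord (c := rg_unit1Coord n) (true, a, b)⟩

theorem rg_unitsCoord_mem_iff {K : Type u} (x : K → Matrix.GeneralLinearGroup n ℂ) :
    (∀ k, rg_unitsCoord K n k x ∈ R) ↔ ∀ k a b, (x k).val a b ∈ R ∧ (x k)⁻¹.val a b ∈ R := by
  constructor
  · intro h k a b
    exact ⟨h (k, false, a, b), h (k, true, a, b)⟩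
  · rintro h ⟨k, _ | _, a, b⟩
    · exact (h k a b).1
    · exact (h k a b).2

theorem rg_unitsCoord_regOn {K : Type w} {Φ : P → K → Matrix.GeneralLinearGroup n ℂ}
    (h : ∀ k, rg_GLOn R c S (fun x => Φ x k)) (k : K × Bool × n × n) :
    rg_RegOn R c S (fun x => rg_unitsCoord K n k (Φ x)) := by
  obtain ⟨k, _ | _, a, b⟩ := k
  · exact (h k).1 a b
  · exact (h k).2 a b

theorem rg_unit1Coord_regOn {Φ : P → Matrix.GeneralLinearGroup n ℂ} (h : rg_GLOn R c S Φ)
    (k : Bool × n × n) : rg_RegOn R c S (fun x => rg_unit1Coord n k (Φ x)) := by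
  obtain ⟨_ | _, a, b⟩ := k
  · exact h.1 a b
  · exact h.2 a b

end

section transfer

variable {n : Type v} [Fintype n] [DecidableEq n] {R : Subring ℂ}

/-- **Transfer** for maps into `K → G`; the sources `P' τ` are arbitrary spaces. -/
theorem rg_Dense.transferGL {K : Type u} {X : Set (K → Matrix.GeneralLinearGroup n ℂ)} {T : Type*}
    {P' : T → Type w} {κ' : T → Type*} (c' : ∀ τ, κ' τ → P' τ → ℂ) (S' : ∀ τ, Set (P' τ))
    (Φ : ∀ τ, P' τ → K → Matrix.GeneralLinearGroup n ℂ)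
    (hreg : ∀ τ k, rg_GLOn R (c' τ) (S' τ) (fun x => Φ τ x k))
    (hmaps : ∀ τ, ∀ x ∈ S' τ, Φ τ x ∈ X)
    (honto : ∀ x ∈ X, ∃ τ, ∃ x' ∈ S' τ, Φ τ x' = x)
    (hD : ∀ τ, rg_Dense R (c' τ) (S' τ)) : rg_Dense R (rg_unitsCoord K n) X :=
  rg_Dense.transfer c' S' Φ (fun τ => rg_unitsCoord_regOn (hreg τ)) hmaps honto hD

/-- **Product** on `K ⊕ K'`. -/
theorem rg_Dense.sumGL {K : Type u} {K' : Type w} {X : Set (K → Matrix.GeneralLinearGroup n ℂ)}
    {X' : Set (K' → Matrix.GeneralLinearGroup n ℂ)} (h : rg_Dense R (rg_unitsCoord K n) X)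
    (h' : rg_Dense R (rg_unitsCoord K' n) X') :
    rg_Dense R (rg_unitsCoord (K ⊕ K') n)
      {x | (fun k => x (Sum.inl k)) ∈ X ∧ (fun k => x (Sum.inr k)) ∈ X'} := by
  refine rg_Dense.transfer₁ (c' := rg_prodCoord (rg_unitsCoord K n) (rg_unitsCoord K' n))
    (S' := X ×ˢ X') (fun x => Sum.elim x.1 x.2) (rg_unitsCoord_regOn ?_) ?_ ?_ (h.prod h')
  · rintro (k | k)
    · exact ⟨fun a b => rg_RegOn.coord
          (c := rg_prodCoord (rg_unitsCoord K n) (rg_unitsCoord K' n)) (Sum.inl (k, false, a, b)),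
        fun a b => rg_RegOn.coord
          (c := rg_prodCoord (rg_unitsCoord K n) (rg_unitsCoord K' n)) (Sum.inl (k, true, a, b))⟩
    · exact ⟨fun a b => rg_RegOn.coord
          (c := rg_prodCoord (rg_unitsCoord K n) (rg_unitsCoord K' n)) (Sum.inr (k, false, a, b)),
        fun a b => rg_RegOn.coord
          (c := rg_prodCoord (rg_unitsCoord K n) (rg_unitsCoord K' n)) (Sum.inr (k, true, a, b))⟩
  · rintro ⟨x₁, x₂⟩ ⟨h₁, h₂⟩
    exact ⟨h₁, h₂⟩
  · intro x hx
    refine ⟨(fun k => x (Sum.inl k), fun k => x (Sum.inr k)), ⟨hx.1, hx.2⟩, ?_⟩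
    funext k
    cases k <;> rfl

/-- A finite family, the `k`-th element ranging over a dense subset `S k` of `G`. -/
theorem rg_dense_familyGL {K : Type u} [Finite K] {S : K → Set (Matrix.GeneralLinearGroup n ℂ)}
    (hS : ∀ k, rg_Dense R (rg_unit1Coord n) (S k)) :
    rg_Dense R (rg_unitsCoord K n) {x | ∀ k, x k ∈ S k} := by
  have h := rg_Dense.pi (ι := K) (P := fun _ => Matrix.GeneralLinearGroup n ℂ)
    (κ := fun _ => Bool × n × n) (R := R) (c := fun _ => rg_unit1Coord n) (S := S) hS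
  have hS' : Set.pi Set.univ S = {x | ∀ k, x k ∈ S k} := by
    ext x; simp [Set.mem_pi]
  rw [hS'] at h
  refine h.coords ?_
  rintro ⟨i, _ | _, a, b⟩
  · exact rg_RegOn.coord (c := rg_piCoord fun _ : K => rg_unit1Coord n) ⟨i, (false, a, b)⟩
  · exact rg_RegOn.coord (c := rg_piCoord fun _ : K => rg_unit1Coord n) ⟨i, (true, a, b)⟩

/-- From sets of invertible matrices to subsets of `G`. -/
theorem rg_dense_units_of_matrix {S : Set (Matrix n n ℂ)} (hS : ∀ x ∈ S, IsUnit x.det)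
    (h : rg_Dense R (rg_glCoord n) S) : rg_Dense R (rg_unit1Coord n) {g | g.val ∈ S} := by
  classical
  let Φ : Matrix n n ℂ → Matrix.GeneralLinearGroup n ℂ := fun x =>
    if hx : IsUnit x.det then Matrix.nonsingInvUnit x hx else 1
  have hΦ : ∀ x ∈ S, (Φ x).val = x := fun x hx => by
    simp only [Φ, dif_pos (hS x hx)]; rfl
  refine rg_Dense.transfer₁ Φ (rg_unit1Coord_regOn ⟨?_, ?_⟩) ?_ ?_ h
  · exact rg_glCoord_mat.congr hΦ
  · exact rg_glCoord_inv.congr fun x hx => by rw [Matrix.coe_units_inv, hΦ x hx]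
  · intro x hx
    change (Φ x).val ∈ S
    rw [hΦ x hx]; exact hx
  · intro g hg
    exact ⟨g.val, hg, Units.ext (hΦ _ hg)⟩

theorem rg_dense_GLuniv (hU : {z : ℂ | z ∈ R ∧ z⁻¹ ∈ R}.Infinite) :
    rg_Dense R (rg_unit1Coord n) Set.univ := by
  have h := rg_dense_units_of_matrix (n := n) (S := {x : Matrix n n ℂ | IsUnit x.det})
    (fun _ hx => hx) (rg_dense_GL1 hU)
  have : {g : Matrix.GeneralLinearGroup n ℂ | g.val ∈ {x : Matrix n n ℂ | IsUnit x.det}} =
      Set.univ := by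
    ext g
    simp only [Set.mem_ofPred, Set.mem_univ, iff_true]
    exact (Matrix.isUnit_iff_isUnit_det _).1 g.isUnit
  rwa [this] at h

theorem rg_dense_GLone : rg_Dense R (rg_unit1Coord n) {(1 : Matrix.GeneralLinearGroup n ℂ)} := by
  have h := rg_dense_units_of_matrix (n := n) (R := R) (S := {1}) (by rintro x rfl; simp)
    rg_dense_one
  have : {g : Matrix.GeneralLinearGroup n ℂ | g.val ∈ ({1} : Set (Matrix n n ℂ))} = {1} := by
    ext g
    constructor
    · intro hg; exact Units.ext hg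
    · rintro rfl; rfl
  rwa [this] at h

/-- Unipotent shapes: `g` is the identity outside the `free` positions, `free a b → r a < r b`. -/
theorem rg_dense_GLpinned (r : n → ℕ) (free : n → n → Prop) (hfree : ∀ a b, free a b → r a < r b) :
    rg_Dense R (rg_unit1Coord n)
      {g | ∀ a b, ¬ free a b → g.val a b = (1 : Matrix n n ℂ) a b} :=
  rg_dense_units_of_matrix (fun x hx => by
    rw [rg_det_eq_one_of_pinned r fun a b h => hx a b fun hf => h (hfree a b hf)]
    exact isUnit_one) (rg_dense_pinned r free hfree)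

/-- Corner shapes: `g` is the identity outside the rows and columns satisfying `p`. -/
theorem rg_dense_GLcorner (hU : {z : ℂ | z ∈ R ∧ z⁻¹ ∈ R}.Infinite) (p : n → Prop) :
    rg_Dense R (rg_unit1Coord n)
      {g | ∀ a b, ¬ (p a ∧ p b) → g.val a b = (1 : Matrix n n ℂ) a b} := by
  have h := rg_dense_units_of_matrix (n := n) (S := {x : Matrix n n ℂ | IsUnit x.det ∧
      ∀ a b, ¬ (p a ∧ p b) → x a b = (1 : Matrix n n ℂ) a b}) (fun _ hx => hx.1)
    (rg_dense_corner hU p)
  have : {g : Matrix.GeneralLinearGroup n ℂ | g.val ∈ {x : Matrix n n ℂ | IsUnit x.det ∧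
      ∀ a b, ¬ (p a ∧ p b) → x a b = (1 : Matrix n n ℂ) a b}} =
      {g | ∀ a b, ¬ (p a ∧ p b) → g.val a b = (1 : Matrix n n ℂ) a b} := by
    ext g
    simp only [Set.mem_ofPred, and_iff_right_iff_imp]
    exact fun _ => (Matrix.isUnit_iff_isUnit_det _).1 g.isUnit
  rwa [this] at h

end transfer

end Claimed.Agent.R236
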